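import Mathlib.Algebra.Algebra.Basic
import Mathlib.Algebra.Algebra.Bilinear
import Mathlib.Algebra.Ring.GeomSum
import Mathlib.Data.Real.Basic
import Mathlib.Tactic
import Mathlib.Algebra.MonoidAlgebra.Basic
import Mathlib.Algebra.MonoidAlgebra.Module
import Mathlib.LinearAlgebra.Finsupp.LinearCombination
import Mathlib.Algebra.Order.Chebyshev
import Mathlib.RingTheory.Polynomial.Bernstein
import Mathlib.Analysis.SpecialFunctions.Pow.Real

section

/-!
Abstract l1 calculus: a real algebra with a submultiplicative norm and a positive cone on which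
the norm is additive, with pointwise minima of positive elements.
-/

namespace Vale.Agent.P321

/-- Abstract l1 structure on a real algebra. -/
structure L1Str (A : Type*) [Ring A] [Algebra ℝ A] where
  nrm : A → ℝ
  pos : A → Prop
  nrm_nonneg : ∀ x, 0 ≤ nrm x
  nrm_add : ∀ x y, nrm (x + y) ≤ nrm x + nrm y
  nrm_mul : ∀ x y, nrm (x * y) ≤ nrm x * nrm y
  nrm_smul : ∀ (c : ℝ) x, nrm (c • x) = |c| * nrm x
  nrm_one : nrm 1 = 1
  pos_add : ∀ {x y}, pos x → pos y → pos (x + y)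
  pos_mul : ∀ {x y}, pos x → pos y → pos (x * y)
  pos_smul : ∀ {c : ℝ} {x}, 0 ≤ c → pos x → pos (c • x)
  pos_one : pos 1
  nrm_add_pos : ∀ {x y}, pos x → pos y → nrm (x + y) = nrm x + nrm y
  nrm_mul_pos : ∀ {x y}, pos x → pos y → nrm (x * y) = nrm x * nrm y
  exists_min : ∀ {x y}, pos x → pos y →
    ∃ h, pos h ∧ pos (x - h) ∧ pos (y - h) ∧ nrm (x - y) = nrm x + nrm y - 2 * nrm h

namespace L1Str

variable {A : Type*} [Ring A] [Algebra ℝ A] (S : L1Str A)

theorem nrm_zero : S.nrm 0 = 0 := by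
  have := S.nrm_smul 0 0
  simpa using this

theorem nrm_neg (x : A) : S.nrm (-x) = S.nrm x := by
  have := S.nrm_smul (-1) x
  simpa using this

theorem nrm_sub (x y : A) : S.nrm (x - y) ≤ S.nrm x + S.nrm y := by
  rw [sub_eq_add_neg]
  have := S.nrm_add x (-y)
  rwa [S.nrm_neg] at this

theorem nrm_sub_comm (x y : A) : S.nrm (x - y) = S.nrm (y - x) := by
  rw [← S.nrm_neg, neg_sub]

theorem nrm_triangle (x y z : A) : S.nrm (x - z) ≤ S.nrm (x - y) + S.nrm (y - z) := by
  have := S.nrm_add (x - y) (y - z)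
  simpa using this

theorem pos_zero : S.pos 0 := by
  have := S.pos_smul (le_refl 0) S.pos_one
  simpa using this

theorem pos_pow {x : A} (h : S.pos x) (n : ℕ) : S.pos (x ^ n) := by
  induction n with
  | zero => simpa using S.pos_one
  | succ n ih => rw [pow_succ]; exact S.pos_mul ih h

theorem nrm_pow_pos {x : A} (h : S.pos x) (n : ℕ) : S.nrm (x ^ n) = S.nrm x ^ n := by
  induction n with
  | zero => simpa using S.nrm_one
  | succ n ih => rw [pow_succ, pow_succ, S.nrm_mul_pos (S.pos_pow h n) h, ih]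

theorem nrm_pow_le (x : A) (n : ℕ) : S.nrm (x ^ n) ≤ S.nrm x ^ n := by
  induction n with
  | zero => simp [S.nrm_one]
  | succ n ih =>
    rw [pow_succ, pow_succ]
    exact (S.nrm_mul _ _).trans (mul_le_mul_of_nonneg_right ih (S.nrm_nonneg _))

theorem nrm_sum_le {ι : Type*} (s : Finset ι) (f : ι → A) :
    S.nrm (∑ i ∈ s, f i) ≤ ∑ i ∈ s, S.nrm (f i) := by
  classical
  induction s using Finset.induction_on with
  | empty => simp [S.nrm_zero]
  | insert a s ha ih =>
    rw [Finset.sum_insert ha, Finset.sum_insert ha]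
    exact (S.nrm_add _ _).trans (by linarith)

/-- A probability element: positive of mass one. -/
def Prob (x : A) : Prop := S.pos x ∧ S.nrm x = 1

variable {S}

theorem Prob.pow {x : A} (h : S.Prob x) (n : ℕ) : S.Prob (x ^ n) :=
  ⟨S.pos_pow h.1 n, by rw [S.nrm_pow_pos h.1, h.2, one_pow]⟩

theorem Prob.mul {x y : A} (hx : S.Prob x) (hy : S.Prob y) : S.Prob (x * y) :=
  ⟨S.pos_mul hx.1 hy.1, by rw [S.nrm_mul_pos hx.1 hy.1, hx.2, hy.2, one_mul]⟩

variable (S)

theorem nrm_mul_prob_left {x y : A} (hx : S.nrm x ≤ 1) : S.nrm (x * y) ≤ S.nrm y := by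
  refine (S.nrm_mul x y).trans ?_
  have := mul_le_mul_of_nonneg_right hx (S.nrm_nonneg y)
  simpa using this

theorem nrm_mul_prob_right {x y : A} (hy : S.nrm y ≤ 1) : S.nrm (x * y) ≤ S.nrm x := by
  refine (S.nrm_mul x y).trans ?_
  have := mul_le_mul_of_nonneg_left hy (S.nrm_nonneg x)
  simpa using this

/-- `M^G` and `M^(G-1)` overlap substantially. -/
def Slip (M : A) (G : ℕ) : Prop := 1 ≤ G ∧ S.nrm (M ^ G - M ^ (G - 1)) ≤ 1

/-- Quantitative zero-two step: `M^G = (1/2)(1+M) h + U` with `nrm U ≤ 1/2`. -/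
theorem slip_decomp {M : A} {G : ℕ} (hM : S.Prob M) (h : S.Slip M G) :
    ∃ b U : A, S.pos b ∧ S.nrm b ≤ 1 ∧ S.pos U ∧ S.nrm U ≤ 1 / 2 ∧
      M ^ G = ((1 / 2 : ℝ) • (1 + M)) * b + U := by
  obtain ⟨h1, h2⟩ := h
  have hG := hM.pow G
  have hG' := hM.pow (G - 1)
  obtain ⟨b, hb, hb1, hb2, hb3⟩ := S.exists_min hG.1 hG'.1
  rw [hG.2, hG'.2] at hb3
  have hmass : 1 / 2 ≤ S.nrm b := by linarith only [hb3, h2]
  have hb_le : S.nrm b ≤ 1 := by
    have := S.nrm_add_pos hb hb1
    rw [add_sub_cancel, hG.2] at this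
    linarith only [S.nrm_nonneg (M ^ G - b), this]
  have hMM : M ^ G = M * M ^ (G - 1) := by
    rw [← pow_succ']
    congr 1
    omega
  -- M^G - M b = M (M^(G-1) - b) ≥ 0
  have hpos2 : S.pos (M ^ G - M * b) := by
    rw [hMM, ← mul_sub]
    exact S.pos_mul hM.1 hb2
  refine ⟨b, M ^ G - ((1 / 2 : ℝ) • (1 + M)) * b, hb, hb_le, ?_, ?_, by abel⟩
  · have e : M ^ G - ((1 / 2 : ℝ) • (1 + M)) * b
        = (1 / 2 : ℝ) • (M ^ G - b) + (1 / 2 : ℝ) • (M ^ G - M * b) := by
      rw [smul_mul_assoc, add_mul, one_mul, smul_sub, smul_sub, smul_add]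
      have : M ^ G = (1 / 2 : ℝ) • M ^ G + (1 / 2 : ℝ) • M ^ G := by
        rw [← add_smul]; norm_num
      nth_rewrite 1 [this]
      abel
    rw [e]
    exact S.pos_add (S.pos_smul (by norm_num) hb1) (S.pos_smul (by norm_num) hpos2)
  · have e : M ^ G - ((1 / 2 : ℝ) • (1 + M)) * b
        = (1 / 2 : ℝ) • (M ^ G - b) + (1 / 2 : ℝ) • (M ^ G - M * b) := by
      rw [smul_mul_assoc, add_mul, one_mul, smul_sub, smul_sub, smul_add]
      have : M ^ G = (1 / 2 : ℝ) • M ^ G + (1 / 2 : ℝ) • M ^ G := by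
        rw [← add_smul]; norm_num
      nth_rewrite 1 [this]
      abel
    have n1 : S.nrm (M ^ G - b) = 1 - S.nrm b := by
      have := S.nrm_add_pos hb hb1
      rw [add_sub_cancel, hG.2] at this
      linarith only [this]
    have n2 : S.nrm (M ^ G - M * b) = 1 - S.nrm b := by
      have := S.nrm_add_pos (S.pos_mul hM.1 hb) hpos2
      rw [add_sub_cancel, hG.2, S.nrm_mul_pos hM.1 hb, hM.2] at this
      linarith only [this]
    rw [e, S.nrm_add_pos (S.pos_smul (by norm_num) hb1) (S.pos_smul (by norm_num) hpos2),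
      S.nrm_smul, S.nrm_smul, n1, n2]
    rw [abs_of_nonneg (by norm_num : (0:ℝ) ≤ 1 / 2)]
    linarith only [h2, hb3]

/-- iterate: `M^(G m) = (1/2)(1+M) B + U^m`. -/
theorem slip_decomp_pow {M : A} {G : ℕ} (hM : S.Prob M) (h : S.Slip M G) (m : ℕ) :
    ∃ B V : A, S.nrm B ≤ 1 ∧ S.nrm V ≤ (1 / 2 : ℝ) ^ m ∧ S.nrm (M ^ (G * m) - V) ≤ 1 ∧
      M ^ (G * m) = ((1 / 2 : ℝ) • (1 + M)) * B + V := by
  obtain ⟨b, U, hb, hb1, hU, hU1, e⟩ := S.slip_decomp hM h
  -- stronger statement: B pos, V = U^m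
  have key : ∀ m : ℕ, ∃ B : A, S.pos B ∧ S.nrm B ≤ 1 ∧
      M ^ (G * m) = ((1 / 2 : ℝ) • (1 + M)) * B + U ^ m := by
    intro m
    induction m with
    | zero => exact ⟨0, S.pos_zero, by rw [S.nrm_zero]; norm_num, by simp⟩
    | succ m ih =>
      obtain ⟨B, hB, hB1, eB⟩ := ih
      have comm : M ^ G * ((1 / 2 : ℝ) • (1 + M)) = ((1 / 2 : ℝ) • (1 + M)) * M ^ G := by
        rw [mul_smul_comm, smul_mul_assoc, mul_add, add_mul, mul_one, one_mul, ← pow_succ,
          ← pow_succ']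
      have e2 : M ^ (G * (m + 1)) = ((1 / 2 : ℝ) • (1 + M)) * (M ^ G * B + b * U ^ m)
          + U ^ (m + 1) := by
        calc M ^ (G * (m + 1)) = M ^ G * M ^ (G * m) := by rw [← pow_add]; congr 1; ring
          _ = M ^ G * (((1 / 2 : ℝ) • (1 + M)) * B) + M ^ G * U ^ m := by rw [eB, mul_add]
          _ = ((1 / 2 : ℝ) • (1 + M)) * (M ^ G * B)
              + (((1 / 2 : ℝ) • (1 + M)) * b + U) * U ^ m := by
            rw [← mul_assoc, comm, mul_assoc]
            congr 1
            rw [← e]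
          _ = _ := by
            rw [add_mul, pow_succ' U m, mul_add]
            simp only [mul_assoc]
            abel
      have hpos : S.pos (M ^ G * B + b * U ^ m) :=
        S.pos_add (S.pos_mul (hM.pow G).1 hB) (S.pos_mul hb (S.pos_pow hU m))
      refine ⟨_, hpos, ?_, e2⟩
      -- mass: 1 = nrm((1/2)(1+M)) nrm B' + nrm U^(m+1)
      have hq : S.pos ((1 / 2 : ℝ) • (1 + M)) :=
        S.pos_smul (by norm_num) (S.pos_add S.pos_one hM.1)
      have hqn : S.nrm ((1 / 2 : ℝ) • (1 + M)) = 1 := by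
        rw [S.nrm_smul, S.nrm_add_pos S.pos_one hM.1, S.nrm_one, hM.2]
        rw [abs_of_nonneg (by norm_num : (0:ℝ) ≤ 1 / 2)]
        norm_num
      have := S.nrm_add_pos (S.pos_mul hq hpos) (S.pos_pow hU (m + 1))
      rw [← e2, (hM.pow _).2, S.nrm_mul_pos hq hpos, hqn, one_mul] at this
      linarith only [S.nrm_nonneg (U ^ (m + 1)), this]
  obtain ⟨B, hB, hB1, eB⟩ := key m
  refine ⟨B, U ^ m, hB1, ?_, ?_, eB⟩
  · exact (S.nrm_pow_le U m).trans (pow_le_pow_left₀ (S.nrm_nonneg _) hU1 m)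
  · have hq : S.pos ((1 / 2 : ℝ) • (1 + M)) :=
      S.pos_smul (by norm_num) (S.pos_add S.pos_one hM.1)
    have := S.nrm_add_pos (S.pos_mul hq hB) (S.pos_pow hU m)
    rw [← eB, (hM.pow _).2] at this
    rw [eB, add_sub_cancel_right]
    linarith only [S.nrm_nonneg (U ^ m), this]

/-- iterate again: `M^(G m N) = ((1+M)/2)^N B + E`, `nrm E ≤ N 2^(-m)`. -/
theorem slip_coins {M : A} {G : ℕ} (hM : S.Prob M) (h : S.Slip M G) (m N : ℕ) :
    ∃ B E : A, S.nrm B ≤ 1 ∧ S.nrm E ≤ N * (1 / 2 : ℝ) ^ m ∧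
      M ^ (G * m * N) = ((1 / 2 : ℝ) • (1 + M)) ^ N * B + E := by
  obtain ⟨B, V, hB, hV, hBV, e⟩ := S.slip_decomp_pow hM h m
  set Q : A := (1 / 2 : ℝ) • (1 + M) with hQ
  have hQ1 : S.nrm Q ≤ 1 := by
    rw [hQ, S.nrm_smul, abs_of_nonneg (by norm_num : (0:ℝ) ≤ 1 / 2)]
    have := S.nrm_add 1 M
    rw [S.nrm_one, hM.2] at this
    linarith only [this]
  have hcomm : Commute (M ^ (G * m)) Q := by
    have : Commute (M ^ (G * m)) (1 + M) :=
      (Commute.one_right _).add_right ((Commute.refl M).pow_left _)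
    exact this.smul_right _
  induction N with
  | zero => exact ⟨1, 0, S.nrm_one.le, by rw [S.nrm_zero]; simp, by simp⟩
  | succ N ih =>
    obtain ⟨B', E', hB', hE', e'⟩ := ih
    refine ⟨B * B', Q ^ N * (V * B') + M ^ (G * m) * E', ?_, ?_, ?_⟩
    · refine (S.nrm_mul_prob_left hB).trans hB'
    · refine (S.nrm_add _ _).trans ?_
      have h1 : S.nrm (Q ^ N * (V * B')) ≤ (1 / 2 : ℝ) ^ m := by
        have hQN : S.nrm (Q ^ N) ≤ 1 :=
          (S.nrm_pow_le Q N).trans (pow_le_one₀ (S.nrm_nonneg _) hQ1)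
        refine (S.nrm_mul_prob_left hQN).trans ?_
        exact (S.nrm_mul_prob_right hB').trans hV
      have h2 : S.nrm (M ^ (G * m) * E') ≤ N * (1 / 2 : ℝ) ^ m :=
        (S.nrm_mul_prob_left (hM.pow _).2.le).trans hE'
      push_cast
      linarith only [h2, h1]
    · calc M ^ (G * m * (N + 1)) = M ^ (G * m) * M ^ (G * m * N) := by
            rw [← pow_add]; congr 1; ring
        _ = Q ^ N * (M ^ (G * m) * B') + M ^ (G * m) * E' := by
            rw [e', mul_add, ← mul_assoc, (hcomm.pow_right N).eq, mul_assoc]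
        _ = Q ^ (N + 1) * (B * B') + (Q ^ N * (V * B') + M ^ (G * m) * E') := by
            rw [e, add_mul, mul_add, pow_succ]
            simp only [mul_assoc]
            abel

end L1Str

end Vale.Agent.P321
end

section

/-!
Finitely supported signed measures on a monoid `G`: total variation norm, positivity, mass,
integration of functions.
-/

namespace Vale.Agent.P321.MA

open Finset

variable {G : Type*}

section basic

/-- integral of `g` against `x`, as a linear map in `x`. -/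
noncomputable def evL (g : G → ℝ) : MonoidAlgebra ℝ G →ₗ[ℝ] ℝ :=
  (Finsupp.linearCombination ℝ g).comp (MonoidAlgebra.coeffLinearEquiv ℝ).toLinearMap

/-- integral of `g` against `x`. -/
noncomputable def ev (x : MonoidAlgebra ℝ G) (g : G → ℝ) : ℝ := evL g x

theorem ev_def (x : MonoidAlgebra ℝ G) (g : G → ℝ) :
    ev x g = x.coeff.sum fun w r => r * g w := by
  simp only [ev, evL, LinearMap.comp_apply]
  rw [Finsupp.linearCombination_apply]
  rfl

theorem ev_eq_sum (x : MonoidAlgebra ℝ G) (g : G → ℝ) (s : Finset G)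
    (hs : x.coeff.support ⊆ s) : ev x g = ∑ w ∈ s, x.coeff w * g w := by
  rw [ev_def, Finsupp.sum]
  refine Finset.sum_subset hs fun w _ hw => ?_
  rw [Finsupp.notMem_support_iff.mp hw, zero_mul]

theorem ev_add (x y : MonoidAlgebra ℝ G) (g : G → ℝ) : ev (x + y) g = ev x g + ev y g :=
  map_add _ _ _
theorem ev_sub (x y : MonoidAlgebra ℝ G) (g : G → ℝ) : ev (x - y) g = ev x g - ev y g :=
  map_sub _ _ _
theorem ev_neg (x : MonoidAlgebra ℝ G) (g : G → ℝ) : ev (-x) g = - ev x g :=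
  map_neg _ _
theorem ev_zero (g : G → ℝ) : ev (0 : MonoidAlgebra ℝ G) g = 0 := map_zero _
theorem ev_smul (c : ℝ) (x : MonoidAlgebra ℝ G) (g : G → ℝ) : ev (c • x) g = c * ev x g :=
  map_smul _ _ _
theorem ev_sum {ι : Type*} (s : Finset ι) (f : ι → MonoidAlgebra ℝ G) (g : G → ℝ) :
    ev (∑ i ∈ s, f i) g = ∑ i ∈ s, ev (f i) g := map_sum _ _ _

theorem ev_single (w : G) (r : ℝ) (g : G → ℝ) : ev (MonoidAlgebra.single w r) g = r * g w := by
  rw [ev_def, MonoidAlgebra.coeff_single, Finsupp.sum_single_index]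
  rw [zero_mul]

theorem ev_add_fun (x : MonoidAlgebra ℝ G) (g h : G → ℝ) :
    ev x (fun w => g w + h w) = ev x g + ev x h := by
  simp only [ev_def, Finsupp.sum, mul_add, Finset.sum_add_distrib]

theorem ev_sub_fun (x : MonoidAlgebra ℝ G) (g h : G → ℝ) :
    ev x (fun w => g w - h w) = ev x g - ev x h := by
  simp only [ev_def, Finsupp.sum, mul_sub, Finset.sum_sub_distrib]

theorem ev_mul_fun (x : MonoidAlgebra ℝ G) (c : ℝ) (g : G → ℝ) :
    ev x (fun w => c * g w) = c * ev x g := by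
  simp only [ev_def, Finsupp.sum, Finset.mul_sum]
  exact Finset.sum_congr rfl fun w _ => by ring

/-- nonnegative coefficients -/
def nonneg (x : MonoidAlgebra ℝ G) : Prop := ∀ w, 0 ≤ x.coeff w

theorem ev_mono_fun {x : MonoidAlgebra ℝ G} (hx : nonneg x) {g h : G → ℝ}
    (hgh : ∀ w, g w ≤ h w) : ev x g ≤ ev x h := by
  simp only [ev_def, Finsupp.sum]
  exact Finset.sum_le_sum fun w _ => mul_le_mul_of_nonneg_left (hgh w) (hx w)

theorem ev_nonneg {x : MonoidAlgebra ℝ G} (hx : nonneg x) {g : G → ℝ}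
    (hg : ∀ w, 0 ≤ g w) : 0 ≤ ev x g := by
  simp only [ev_def, Finsupp.sum]
  exact Finset.sum_nonneg fun w _ => mul_nonneg (hx w) (hg w)

theorem ev_mono {x y : MonoidAlgebra ℝ G} (hxy : nonneg (y - x)) {g : G → ℝ}
    (hg : ∀ w, 0 ≤ g w) : ev x g ≤ ev y g := by
  have := ev_nonneg hxy hg
  rw [ev_sub] at this
  linarith

/-- l1 mass. -/
noncomputable def l1 (x : MonoidAlgebra ℝ G) : ℝ := ∑ w ∈ x.coeff.support, |x.coeff w|

theorem l1_eq_sum (x : MonoidAlgebra ℝ G) (s : Finset G) (hs : x.coeff.support ⊆ s) :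
    l1 x = ∑ w ∈ s, |x.coeff w| := by
  refine Finset.sum_subset hs fun w _ hw => ?_
  rw [Finsupp.notMem_support_iff.mp hw, abs_zero]

theorem l1_nonneg (x : MonoidAlgebra ℝ G) : 0 ≤ l1 x := Finset.sum_nonneg fun _ _ => abs_nonneg _

theorem l1_add (x y : MonoidAlgebra ℝ G) : l1 (x + y) ≤ l1 x + l1 y := by
  classical
  have h1 : (x + y).coeff.support ⊆ x.coeff.support ∪ y.coeff.support := by
    rw [MonoidAlgebra.coeff_add]
    exact Finsupp.support_add
  rw [l1_eq_sum _ _ h1, l1_eq_sum x _ Finset.subset_union_left,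
    l1_eq_sum y _ Finset.subset_union_right, ← Finset.sum_add_distrib]
  refine Finset.sum_le_sum fun w _ => ?_
  rw [MonoidAlgebra.coeff_add, Finsupp.add_apply]
  exact abs_add_le _ _

theorem l1_zero : l1 (0 : MonoidAlgebra ℝ G) = 0 := by simp [l1]

theorem l1_sum_le {ι : Type*} (s : Finset ι) (f : ι → MonoidAlgebra ℝ G) :
    l1 (∑ i ∈ s, f i) ≤ ∑ i ∈ s, l1 (f i) := by
  classical
  induction s using Finset.induction_on with
  | empty => simp [l1_zero]
  | insert a s ha ih =>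
    rw [Finset.sum_insert ha, Finset.sum_insert ha]
    exact (l1_add _ _).trans (by linarith)

theorem l1_single (w : G) (r : ℝ) : l1 (MonoidAlgebra.single w r) = |r| := by
  classical
  rw [l1_eq_sum _ {w} (by rw [MonoidAlgebra.coeff_single]; exact Finsupp.support_single_subset)]
  rw [Finset.sum_singleton, MonoidAlgebra.coeff_single, Finsupp.single_eq_same]

theorem l1_smul (c : ℝ) (x : MonoidAlgebra ℝ G) : l1 (c • x) = |c| * l1 x := by
  have h1 : (c • x).coeff.support ⊆ x.coeff.support := by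
    rw [MonoidAlgebra.coeff_smul]
    exact Finsupp.support_smul
  rw [l1_eq_sum _ _ h1, l1, Finset.mul_sum]
  refine Finset.sum_congr rfl fun w _ => ?_
  rw [MonoidAlgebra.coeff_smul, Finsupp.smul_apply, smul_eq_mul, abs_mul]

theorem l1_neg (x : MonoidAlgebra ℝ G) : l1 (-x) = l1 x := by
  have := l1_smul (-1) x
  simpa using this

theorem l1_sub_comm (x y : MonoidAlgebra ℝ G) : l1 (x - y) = l1 (y - x) := by
  rw [← l1_neg, neg_sub]

/-- total mass. -/
noncomputable def aug (x : MonoidAlgebra ℝ G) : ℝ := ev x fun _ => 1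

theorem aug_add (x y : MonoidAlgebra ℝ G) : aug (x + y) = aug x + aug y := ev_add _ _ _
theorem aug_sub (x y : MonoidAlgebra ℝ G) : aug (x - y) = aug x - aug y := ev_sub _ _ _
theorem aug_smul (c : ℝ) (x : MonoidAlgebra ℝ G) : aug (c • x) = c * aug x := ev_smul _ _ _
theorem aug_sum {ι : Type*} (s : Finset ι) (f : ι → MonoidAlgebra ℝ G) :
    aug (∑ i ∈ s, f i) = ∑ i ∈ s, aug (f i) := ev_sum _ _ _
theorem ev_const (x : MonoidAlgebra ℝ G) (c : ℝ) : ev x (fun _ => c) = c * aug x := by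
  rw [aug, ← ev_mul_fun, mul_one]

theorem aug_eq (x : MonoidAlgebra ℝ G) : aug x = ∑ w ∈ x.coeff.support, x.coeff w := by
  rw [aug, ev_def, Finsupp.sum]
  simp

theorem l1_of_nonneg {x : MonoidAlgebra ℝ G} (hx : nonneg x) : l1 x = aug x := by
  rw [aug_eq, l1]
  exact Finset.sum_congr rfl fun w _ => abs_of_nonneg (hx w)

theorem aug_nonneg {x : MonoidAlgebra ℝ G} (hx : nonneg x) : 0 ≤ aug x :=
  ev_nonneg hx fun _ => zero_le_one

theorem nonneg_zero : nonneg (0 : MonoidAlgebra ℝ G) := fun _ => le_rfl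

theorem nonneg_add {x y : MonoidAlgebra ℝ G} (hx : nonneg x) (hy : nonneg y) :
    nonneg (x + y) := by
  intro w
  rw [MonoidAlgebra.coeff_add, Finsupp.add_apply]
  exact add_nonneg (hx w) (hy w)

theorem nonneg_smul {c : ℝ} {x : MonoidAlgebra ℝ G} (hc : 0 ≤ c) (hx : nonneg x) :
    nonneg (c • x) := by
  intro w
  rw [MonoidAlgebra.coeff_smul, Finsupp.smul_apply, smul_eq_mul]
  exact mul_nonneg hc (hx w)

theorem nonneg_sum {ι : Type*} (s : Finset ι) (f : ι → MonoidAlgebra ℝ G)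
    (h : ∀ i ∈ s, nonneg (f i)) : nonneg (∑ i ∈ s, f i) := by
  classical
  induction s using Finset.induction_on with
  | empty => simpa using nonneg_zero
  | insert a s ha ih =>
    rw [Finset.sum_insert ha]
    exact nonneg_add (h a (Finset.mem_insert_self a s))
      (ih fun i hi => h i (Finset.mem_insert_of_mem hi))

theorem nonneg_single (w : G) {r : ℝ} (hr : 0 ≤ r) : nonneg (MonoidAlgebra.single w r) := by
  classical
  intro v
  rw [MonoidAlgebra.coeff_single, Finsupp.single_apply]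
  by_cases h : w = v
  · rw [if_pos h]; exact hr
  · rw [if_neg h]

theorem abs_ev_le (x : MonoidAlgebra ℝ G) {g : G → ℝ} {c : ℝ} (hg : ∀ w, |g w| ≤ c) :
    |ev x g| ≤ c * l1 x := by
  rw [ev_def, Finsupp.sum, l1, Finset.mul_sum]
  refine (Finset.abs_sum_le_sum_abs _ _).trans (Finset.sum_le_sum fun w _ => ?_)
  rw [abs_mul, mul_comm]
  exact mul_le_mul_of_nonneg_right (hg w) (abs_nonneg _)

/-- duality: the l1 norm is attained on a sign function. -/
theorem l1_eq_ev_sign (x : MonoidAlgebra ℝ G) :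
    ∃ g : G → ℝ, (∀ w, |g w| ≤ 1) ∧ l1 x = ev x g := by
  refine ⟨fun w => SignType.sign (x.coeff w), fun w => ?_, ?_⟩
  · rcases lt_trichotomy (x.coeff w) 0 with h | h | h <;> simp [h]
  · rw [ev_def, Finsupp.sum, l1]
    refine Finset.sum_congr rfl fun w _ => ?_
    rcases lt_trichotomy (x.coeff w) 0 with h | h | h
    · simp [h, abs_of_neg h]
    · simp [h]
    · simp [h, abs_of_pos h]

/-- pointwise order -/
def le (x y : MonoidAlgebra ℝ G) : Prop := ∀ w, x.coeff w ≤ y.coeff w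

theorem le_iff {x y : MonoidAlgebra ℝ G} : le x y ↔ nonneg (y - x) := by
  unfold le nonneg
  refine forall_congr' fun w => ?_
  rw [MonoidAlgebra.coeff_sub, Finsupp.sub_apply, sub_nonneg]

theorem le_refl (x : MonoidAlgebra ℝ G) : le x x := fun _ => _root_.le_refl _
theorem le_trans {x y z : MonoidAlgebra ℝ G} (h : le x y) (h' : le y z) : le x z :=
  fun w => (h w).trans (h' w)
theorem le_add {x y x' y' : MonoidAlgebra ℝ G} (h : le x y) (h' : le x' y') :
    le (x + x') (y + y') := fun w => by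
  rw [MonoidAlgebra.coeff_add, MonoidAlgebra.coeff_add]
  exact add_le_add (h w) (h' w)
theorem le_smul {c : ℝ} (hc : 0 ≤ c) {x y : MonoidAlgebra ℝ G} (h : le x y) :
    le (c • x) (c • y) := fun w => by
  rw [MonoidAlgebra.coeff_smul, MonoidAlgebra.coeff_smul, Finsupp.smul_apply, Finsupp.smul_apply]
  exact mul_le_mul_of_nonneg_left (h w) hc
theorem nonneg_of_le {x y : MonoidAlgebra ℝ G} (hx : nonneg x) (h : le x y) : nonneg y :=
  fun w => (hx w).trans (h w)

theorem ev_mono' {x y : MonoidAlgebra ℝ G} (hxy : le x y) {g : G → ℝ}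
    (hg : ∀ w, 0 ≤ g w) : ev x g ≤ ev y g := ev_mono (le_iff.mp hxy) hg

/-- absolute value measure -/
noncomputable def absm (x : MonoidAlgebra ℝ G) : MonoidAlgebra ℝ G :=
  MonoidAlgebra.ofCoeff (x.coeff.mapRange (fun r : ℝ => |r|) (by simp))

theorem coeff_absm (x : MonoidAlgebra ℝ G) (w : G) : (absm x).coeff w = |x.coeff w| := by
  simp [absm]

theorem absm_nonneg (x : MonoidAlgebra ℝ G) : nonneg (absm x) := fun w => by
  rw [coeff_absm]; exact abs_nonneg _

theorem exists_min {x y : MonoidAlgebra ℝ G} (hx : nonneg x) (hy : nonneg y) :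
    ∃ h : MonoidAlgebra ℝ G, nonneg h ∧ nonneg (x - h) ∧ nonneg (y - h) ∧
      l1 (x - y) = l1 x + l1 y - 2 * l1 h := by
  classical
  let h : MonoidAlgebra ℝ G :=
    MonoidAlgebra.ofCoeff (Finsupp.zipWith min (min_self 0) x.coeff y.coeff)
  have hc : ∀ w, h.coeff w = min (x.coeff w) (y.coeff w) := fun w =>
    Finsupp.zipWith_apply (hf := min_self 0)
  have e1 : ∀ z z' : MonoidAlgebra ℝ G, ∀ w, (z - z').coeff w = z.coeff w - z'.coeff w := by
    intro z z' w
    rw [MonoidAlgebra.coeff_sub, Finsupp.sub_apply]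
  have hh : nonneg h := fun w => by rw [hc]; exact le_min (hx w) (hy w)
  refine ⟨h, hh, ?_, ?_, ?_⟩
  · intro w; rw [e1, hc]; linarith [min_le_left (x.coeff w) (y.coeff w)]
  · intro w; rw [e1, hc]; linarith [min_le_right (x.coeff w) (y.coeff w)]
  · let s := x.coeff.support ∪ y.coeff.support
    have hs1 : x.coeff.support ⊆ s := Finset.subset_union_left
    have hs2 : y.coeff.support ⊆ s := Finset.subset_union_right
    have hz : ∀ w, w ∉ s → x.coeff w = 0 ∧ y.coeff w = 0 := by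
      intro w hw
      rw [Finset.mem_union, not_or] at hw
      exact ⟨Finsupp.notMem_support_iff.mp hw.1, Finsupp.notMem_support_iff.mp hw.2⟩
    have hs3 : h.coeff.support ⊆ s := by
      intro w hw
      by_contra hn
      obtain ⟨a, b⟩ := hz w hn
      rw [Finsupp.mem_support_iff, hc, a, b, min_self] at hw
      exact hw rfl
    have hs4 : (x - y).coeff.support ⊆ s := by
      intro w hw
      by_contra hn
      obtain ⟨a, b⟩ := hz w hn
      rw [Finsupp.mem_support_iff, e1, a, b, sub_self] at hw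
      exact hw rfl
    rw [l1_eq_sum _ s hs1, l1_eq_sum _ s hs2, l1_eq_sum _ s hs3, l1_eq_sum _ s hs4,
      ← Finset.sum_add_distrib, Finset.mul_sum, ← Finset.sum_sub_distrib]
    refine Finset.sum_congr rfl fun w _ => ?_
    rw [e1, hc, abs_of_nonneg (hx w), abs_of_nonneg (hy w),
      abs_of_nonneg (le_min (hx w) (hy w))]
    rcases le_total (x.coeff w) (y.coeff w) with hle | hle
    · rw [min_eq_left hle, abs_of_nonpos (by linarith)]; ring
    · rw [min_eq_right hle, abs_of_nonneg (by linarith)]; ring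

end basic

section mon

variable [Monoid G]

theorem ev_one (g : G → ℝ) : ev (1 : MonoidAlgebra ℝ G) g = g 1 := by
  rw [MonoidAlgebra.one_def, ev_single, one_mul]

theorem ev_mul (x y : MonoidAlgebra ℝ G) (g : G → ℝ) :
    ev (x * y) g = ev x fun u => ev y fun v => g (u * v) := by
  rw [ev, MonoidAlgebra.mul_def, map_finsuppSum, ev_def]
  refine Finsupp.sum_congr fun u _ => ?_
  rw [map_finsuppSum, ev_def, Finsupp.sum, Finsupp.sum, Finset.mul_sum]
  refine Finset.sum_congr rfl fun v _ => ?_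
  have := ev_single (u * v) (x.coeff u * y.coeff v) g
  rw [ev] at this
  rw [this]
  ring

theorem l1_mul (x y : MonoidAlgebra ℝ G) : l1 (x * y) ≤ l1 x * l1 y := by
  rw [MonoidAlgebra.mul_def, Finsupp.sum]
  refine (l1_sum_le _ _).trans ?_
  unfold l1
  rw [Finset.sum_mul_sum]
  refine Finset.sum_le_sum fun a _ => ?_
  rw [Finsupp.sum]
  refine (l1_sum_le _ _).trans ?_
  refine Finset.sum_le_sum fun b _ => ?_
  have := l1_single (a * b) (x.coeff a * y.coeff b)
  unfold l1 at this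
  rw [l1, this, abs_mul]

theorem l1_one : l1 (1 : MonoidAlgebra ℝ G) = 1 := by
  rw [MonoidAlgebra.one_def, l1_single, abs_one]

theorem aug_one : aug (1 : MonoidAlgebra ℝ G) = 1 := ev_one _

theorem aug_mul (x y : MonoidAlgebra ℝ G) : aug (x * y) = aug x * aug y := by
  rw [aug, ev_mul]
  change ev x (fun _ => aug y) = _
  rw [ev_const, mul_comm]

theorem aug_pow (x : MonoidAlgebra ℝ G) (n : ℕ) : aug (x ^ n) = aug x ^ n := by
  induction n with
  | zero => rw [pow_zero, pow_zero, aug_one]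
  | succ n ih => rw [pow_succ, pow_succ, aug_mul, ih]

theorem nonneg_one : nonneg (1 : MonoidAlgebra ℝ G) := by
  rw [MonoidAlgebra.one_def]
  exact nonneg_single _ zero_le_one

theorem nonneg_mul {x y : MonoidAlgebra ℝ G} (hx : nonneg x) (hy : nonneg y) :
    nonneg (x * y) := by
  classical
  intro w
  rw [MonoidAlgebra.coeff_mul, Finsupp.sum]
  refine Finset.sum_nonneg fun a _ => ?_
  rw [Finsupp.sum]
  refine Finset.sum_nonneg fun b _ => ?_
  by_cases h : a * b = w
  · rw [if_pos h]; exact mul_nonneg (hx a) (hy b)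
  · rw [if_neg h]

theorem nonneg_pow {x : MonoidAlgebra ℝ G} (hx : nonneg x) (n : ℕ) : nonneg (x ^ n) := by
  induction n with
  | zero => rw [pow_zero]; exact nonneg_one
  | succ n ih => rw [pow_succ]; exact nonneg_mul ih hx

theorem le_mul {x y x' y' : MonoidAlgebra ℝ G} (hx : nonneg x) (hx' : nonneg x')
    (h : le x y) (h' : le x' y') : le (x * x') (y * y') := by
  have e : y * y' - x * x' = (y - x) * y' + x * (y' - x') := by
    rw [sub_mul, mul_sub]; abel
  rw [le_iff, e]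
  exact nonneg_add (nonneg_mul (le_iff.mp h) (nonneg_of_le hx' h')) (nonneg_mul hx (le_iff.mp h'))

/-- The l1 structure. -/
noncomputable def str : L1Str (MonoidAlgebra ℝ G) where
  nrm := l1
  pos := nonneg
  nrm_nonneg := l1_nonneg
  nrm_add := l1_add
  nrm_mul := l1_mul
  nrm_smul := l1_smul
  nrm_one := l1_one
  pos_add := nonneg_add
  pos_mul := nonneg_mul
  pos_smul := nonneg_smul
  pos_one := nonneg_one
  nrm_add_pos := fun hx hy => by
    rw [l1_of_nonneg hx, l1_of_nonneg hy, l1_of_nonneg (nonneg_add hx hy), aug_add]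
  nrm_mul_pos := fun hx hy => by
    rw [l1_of_nonneg hx, l1_of_nonneg hy, l1_of_nonneg (nonneg_mul hx hy), aug_mul]
  exists_min := exists_min

theorem str_nrm (x : MonoidAlgebra ℝ G) : (str (G := G)).nrm x = l1 x := rfl
/-- probability measures -/
abbrev Prob (x : MonoidAlgebra ℝ G) : Prop := (str (G := G)).Prob x

theorem Prob.nonneg {x : MonoidAlgebra ℝ G} (h : Prob x) : nonneg x := h.1
theorem Prob.l1 {x : MonoidAlgebra ℝ G} (h : Prob x) : l1 x = 1 := h.2
theorem Prob.aug {x : MonoidAlgebra ℝ G} (h : Prob x) : aug x = 1 := by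
  rw [← l1_of_nonneg h.1]; exact h.2
theorem prob_iff {x : MonoidAlgebra ℝ G} : Prob x ↔ MA.nonneg x ∧ MA.aug x = 1 :=
  ⟨fun h => ⟨h.1, h.aug⟩, fun h => ⟨h.1, by
    change MA.l1 x = 1
    rw [l1_of_nonneg h.1, h.2]⟩⟩
theorem prob_one : Prob (1 : MonoidAlgebra ℝ G) := ⟨nonneg_one, l1_one⟩

theorem l1_mul_prob_left {x y : MonoidAlgebra ℝ G} (hx : Prob x) : MA.l1 (x * y) ≤ MA.l1 y :=
  (str (G := G)).nrm_mul_prob_left hx.2.le
theorem l1_mul_prob_right {x y : MonoidAlgebra ℝ G} (hy : Prob y) : MA.l1 (x * y) ≤ MA.l1 x :=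
  (str (G := G)).nrm_mul_prob_right hy.2.le

end mon

end Vale.Agent.P321.MA
end

section

/-!
Quadratic domination of signed measures on a monoid: `Dom x p C` says that the density of `x`
with respect to `p` has squared `L2(p)` norm at most `C`.
-/

namespace Vale.Agent.P321.MA

open Finset

variable {G : Type*}

/-- quadratic domination -/
def Dom (x p : MonoidAlgebra ℝ G) (C : ℝ) : Prop :=
  ∀ g : G → ℝ, ev x g ^ 2 ≤ C * ev p (fun w => g w ^ 2)

section basic

theorem sq_nonneg_ev {p : MonoidAlgebra ℝ G} (hp : nonneg p) (g : G → ℝ) :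
    0 ≤ ev p (fun w => g w ^ 2) := ev_nonneg hp fun _ => sq_nonneg _

theorem ext_ev {x y : MonoidAlgebra ℝ G} (h : ∀ g : G → ℝ, ev x g = ev y g) : x = y := by
  classical
  refine MonoidAlgebra.coeff_injective (Finsupp.ext fun w => ?_)
  have key : ∀ z : MonoidAlgebra ℝ G, ev z (fun v => if v = w then 1 else 0) = z.coeff w := by
    intro z
    rw [ev_eq_sum z _ (insert w z.coeff.support) (Finset.subset_insert _ _),
      Finset.sum_eq_single w]
    · rw [if_pos rfl, mul_one]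
    · intro v _ hv
      rw [if_neg hv, mul_zero]
    · intro hw
      exact absurd (Finset.mem_insert_self _ _) hw
  rw [← key x, ← key y, h]

theorem Dom.zero {p : MonoidAlgebra ℝ G} (hp : nonneg p) {C : ℝ} (hC : 0 ≤ C) : Dom 0 p C := by
  intro g
  rw [ev_zero]
  have := mul_nonneg hC (sq_nonneg_ev hp g)
  simpa using this

theorem Dom.mono {x p : MonoidAlgebra ℝ G} {C C' : ℝ} (h : Dom x p C) (hp : nonneg p)
    (hC : C ≤ C') : Dom x p C' := fun g =>
  (h g).trans (mul_le_mul_of_nonneg_right hC (sq_nonneg_ev hp g))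

/-- change of base -/
theorem Dom.base {x p p' : MonoidAlgebra ℝ G} {C K : ℝ} (h : Dom x p C) (hC : 0 ≤ C)
    (hp : le p (K • p')) : Dom x p' (C * K) := fun g => by
  have h1 := ev_mono' hp (g := fun w => g w ^ 2) (fun _ => sq_nonneg _)
  rw [ev_smul] at h1
  calc ev x g ^ 2 ≤ C * ev p (fun w => g w ^ 2) := h g
    _ ≤ C * (K * ev p' (fun w => g w ^ 2)) := mul_le_mul_of_nonneg_left h1 hC
    _ = _ := by ring

theorem Dom.base_le {x p p' : MonoidAlgebra ℝ G} {C : ℝ} (h : Dom x p C) (hC : 0 ≤ C)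
    (hp : le p p') : Dom x p' C := by
  have := h.base (K := 1) (p' := p') hC (by rwa [one_smul])
  rwa [mul_one] at this

theorem Dom.base_smul {x p : MonoidAlgebra ℝ G} {C K : ℝ} (h : Dom x (K • p) C) :
    Dom x p (C * K) := fun g => by
  have := h g
  rw [ev_smul] at this
  linarith

theorem Dom.smul {x p : MonoidAlgebra ℝ G} {C : ℝ} (h : Dom x p C) (c : ℝ) :
    Dom (c • x) p (c ^ 2 * C) := fun g => by
  rw [ev_smul, mul_pow, mul_assoc]
  exact mul_le_mul_of_nonneg_left (h g) (sq_nonneg c)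

theorem Dom.neg {x p : MonoidAlgebra ℝ G} {C : ℝ} (h : Dom x p C) : Dom (-x) p C := fun g => by
  rw [ev_neg, neg_sq]
  exact h g

/-- weighted triangle inequality for squares -/
theorem sq_add_le {a b A B V : ℝ} (ha : 0 ≤ a) (hb : 0 ≤ b) (hV : 0 ≤ V)
    (hA : A ^ 2 ≤ a ^ 2 * V) (hB : B ^ 2 ≤ b ^ 2 * V) : (A + B) ^ 2 ≤ (a + b) ^ 2 * V := by
  have h1 : |A| ≤ a * Real.sqrt V := by
    rw [← Real.sqrt_sq ha, ← Real.sqrt_mul (sq_nonneg a)]
    exact Real.abs_le_sqrt hA
  have h2 : |B| ≤ b * Real.sqrt V := by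
    rw [← Real.sqrt_sq hb, ← Real.sqrt_mul (sq_nonneg b)]
    exact Real.abs_le_sqrt hB
  have h3 : |A + B| ≤ (a + b) * Real.sqrt V := by
    have := abs_add_le A B
    linarith
  calc (A + B) ^ 2 = |A + B| ^ 2 := (sq_abs _).symm
    _ ≤ ((a + b) * Real.sqrt V) ^ 2 := pow_le_pow_left₀ (abs_nonneg _) h3 2
    _ = _ := by rw [mul_pow, Real.sq_sqrt hV]

theorem Dom.add {x y p : MonoidAlgebra ℝ G} {a b : ℝ} (ha : 0 ≤ a) (hb : 0 ≤ b)
    (hp : nonneg p) (hx : Dom x p (a ^ 2)) (hy : Dom y p (b ^ 2)) :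
    Dom (x + y) p ((a + b) ^ 2) := fun g => by
  rw [ev_add]
  exact sq_add_le ha hb (sq_nonneg_ev hp g) (hx g) (hy g)

theorem Dom.add2 {x y p : MonoidAlgebra ℝ G} {C C' : ℝ} (hx : Dom x p C) (hy : Dom y p C') :
    Dom (x + y) p (2 * C + 2 * C') := fun g => by
  rw [ev_add]
  linarith only [sq_nonneg (ev x g - ev y g), hy g, hx g]

theorem Dom.sub2 {x y p : MonoidAlgebra ℝ G} {C C' : ℝ} (hx : Dom x p C) (hy : Dom y p C') :
    Dom (x - y) p (2 * C + 2 * C') := by
  rw [sub_eq_add_neg]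
  exact hx.add2 hy.neg

/-- sum of families, in terms of norms -/
theorem Dom.sum {ι : Type*} (s : Finset ι) {x : ι → MonoidAlgebra ℝ G} {p : MonoidAlgebra ℝ G}
    {a : ι → ℝ} (ha : ∀ i ∈ s, 0 ≤ a i) (hp : nonneg p) (h : ∀ i ∈ s, Dom (x i) p (a i ^ 2)) :
    Dom (∑ i ∈ s, x i) p ((∑ i ∈ s, a i) ^ 2) := by
  classical
  induction s using Finset.induction_on with
  | empty => simpa using Dom.zero hp le_rfl
  | insert i s hi ih =>
    rw [Finset.sum_insert hi, Finset.sum_insert hi]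
    exact Dom.add (ha i (Finset.mem_insert_self _ _))
      (Finset.sum_nonneg fun j hj => ha j (Finset.mem_insert_of_mem hj)) hp
      (h i (Finset.mem_insert_self _ _))
      (ih (fun j hj => ha j (Finset.mem_insert_of_mem hj))
        fun j hj => h j (Finset.mem_insert_of_mem hj))

/-- Cauchy-Schwarz for a signed measure against its absolute value. -/
theorem Dom.absm (x : MonoidAlgebra ℝ G) : Dom x (absm x) (l1 x) := fun g => by
  have hs : (MA.absm x).coeff.support ⊆ x.coeff.support := by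
    intro w hw
    rw [Finsupp.mem_support_iff, coeff_absm] at hw
    exact Finsupp.mem_support_iff.mpr fun h => hw (by rw [h, abs_zero])
  rw [ev_eq_sum x g x.coeff.support (Finset.Subset.refl _), ev_eq_sum (MA.absm x) _ _ hs, l1]
  have h := Finset.sum_sq_le_sum_mul_sum_of_sq_le_mul x.coeff.support
    (r := fun w => x.coeff w * g w) (f := fun w => |x.coeff w|)
    (g := fun w => (MA.absm x).coeff w * g w ^ 2) (fun w _ => abs_nonneg _)
    (fun w _ => mul_nonneg (by rw [coeff_absm]; exact abs_nonneg _) (sq_nonneg _))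
    (fun w _ => le_of_eq (by
      rw [coeff_absm, ← mul_assoc, ← sq, sq_abs]; ring))
  exact h

theorem Dom.self {x : MonoidAlgebra ℝ G} (hx : nonneg x) : Dom x x (aug x) := by
  have h := Dom.absm x
  have e : MA.absm x = x := by
    refine MonoidAlgebra.coeff_injective (Finsupp.ext fun w => ?_)
    rw [coeff_absm, abs_of_nonneg (hx w)]
  rwa [e, l1_of_nonneg hx] at h

theorem Dom.of_le {x p : MonoidAlgebra ℝ G} {K : ℝ} (h1 : le x (K • p))
    (h2 : le (-x) (K • p)) : Dom x p (l1 x * K) := by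
  refine (Dom.absm x).base (l1_nonneg x) fun w => ?_
  rw [coeff_absm]
  exact abs_le.mpr ⟨by
    have := h2 w
    rw [MonoidAlgebra.coeff_neg, Finsupp.neg_apply] at this
    linarith, h1 w⟩

/-- the l1 bound -/
theorem Dom.l1_sq {x p : MonoidAlgebra ℝ G} {C : ℝ} (h : Dom x p C) (hp : nonneg p)
    (hC : 0 ≤ C) : l1 x ^ 2 ≤ C * aug p := by
  obtain ⟨g, hg, e⟩ := l1_eq_ev_sign x
  rw [e]
  refine (h g).trans (mul_le_mul_of_nonneg_left ?_ hC)
  refine ev_mono_fun hp fun w => ?_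
  have := hg w
  rw [← sq_abs]
  exact pow_le_one₀ (abs_nonneg _) this

theorem Dom.l1_le {x p : MonoidAlgebra ℝ G} {C : ℝ} (h : Dom x p C) (hp : nonneg p)
    (hp1 : aug p = 1) (hC : 0 ≤ C) : l1 x ≤ Real.sqrt C := by
  have := h.l1_sq hp hC
  rw [hp1, mul_one] at this
  exact Real.le_sqrt_of_sq_le this

/-- two iterated integrals commute -/
theorem ev_comm (x y : MonoidAlgebra ℝ G) (f : G → G → ℝ) :
    ev x (fun u => ev y fun v => f u v) = ev y (fun v => ev x fun u => f u v) := by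
  rw [ev_def, Finsupp.sum, ev_def, Finsupp.sum]
  simp only [ev_def, Finsupp.sum, Finset.mul_sum]
  rw [Finset.sum_comm]
  exact Finset.sum_congr rfl fun _ _ => Finset.sum_congr rfl fun _ _ => by ring

/-- a signed measure of mass zero integrates centred functions -/
theorem ev_sub_const {w : MonoidAlgebra ℝ G} (hw : aug w = 0) (g : G → ℝ) (c : ℝ) :
    ev w (fun u => g u - c) = ev w g := by
  rw [ev_sub_fun, ev_const, hw, mul_zero, sub_zero]

/-- Pythagoras -/
theorem ev_sq_sub {ρ : MonoidAlgebra ℝ G} (hρ : aug ρ = 1) (g : G → ℝ) :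
    ev ρ (fun u => (g u - ev ρ g) ^ 2) = ev ρ (fun u => g u ^ 2) - ev ρ g ^ 2 := by
  have e : (fun u => (g u - ev ρ g) ^ 2)
      = fun u => (g u ^ 2 - (2 * ev ρ g) * g u) + ev ρ g ^ 2 := by
    funext u; ring
  rw [e, ev_add_fun, ev_sub_fun, ev_mul_fun, ev_const, hρ]
  ring

end basic

section mon

variable [Monoid G]

theorem Dom.one : Dom (1 : MonoidAlgebra ℝ G) 1 1 := fun g => by
  rw [ev_one, ev_one, one_mul]

/-- multiplicativity -/
theorem Dom.mul {x p y q : MonoidAlgebra ℝ G} {C D : ℝ} (hx : Dom x p C) (hy : Dom y q D)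
    (hp : nonneg p) (hC : 0 ≤ C) : Dom (x * y) (p * q) (C * D) := fun g => by
  rw [ev_mul, ev_mul]
  calc ev x (fun u => ev y fun v => g (u * v)) ^ 2
      ≤ C * ev p (fun u => (ev y fun v => g (u * v)) ^ 2) := hx _
    _ ≤ C * ev p (fun u => D * ev q (fun v => g (u * v) ^ 2)) :=
        mul_le_mul_of_nonneg_left (ev_mono_fun hp fun u => hy _) hC
    _ = _ := by rw [ev_mul_fun]; ring

theorem Dom.mul_left {x p y : MonoidAlgebra ℝ G} {C : ℝ} (hx : Dom x p C) (hy : Prob y) :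
    Dom (y * x) (y * p) C := by
  have h := (Dom.self hy.nonneg).mul hx hy.nonneg (aug_nonneg hy.nonneg)
  rwa [hy.aug, one_mul] at h

theorem Dom.mul_right {x p y : MonoidAlgebra ℝ G} {C : ℝ} (hx : Dom x p C) (hy : Prob y)
    (hp : nonneg p) (hC : 0 ≤ C) : Dom (x * y) (p * y) C := by
  have h := hx.mul (Dom.self hy.nonneg) hp hC
  rwa [hy.aug, mul_one] at h

/-- The Bessel step: a mass zero insertion in the first cell is orthogonal to everything that
averages the first cell. -/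
theorem Dom.bessel_left {w ρ Ψ S π : MonoidAlgebra ℝ G} {D C B : ℝ}
    (hw : aug w = 0) (hρ : Prob ρ) (hwD : Dom w ρ D) (hD : 0 ≤ D)
    (hΨ : Dom Ψ π C) (hC : 0 ≤ C) (hS : Dom S π B) (hB : 0 ≤ B) (hπ : nonneg π) :
    Dom (w * Ψ + ρ * S) (ρ * π) (D * C + B) := by
  intro g
  -- average over the first cell
  set gb : G → ℝ := fun v => ev ρ (fun u => g (u * v)) with hgb
  have e1 : ev (ρ * S) g = ev S gb := by rw [ev_mul, ev_comm]
  have e2 : ev (w * Ψ) g = ev w (fun u => ev Ψ fun v => g (u * v) - gb v) := by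
    rw [ev_mul]
    have : (fun u => ev Ψ fun v => g (u * v) - gb v)
        = fun u => (ev Ψ fun v => g (u * v)) - ev Ψ gb := by
      funext u
      rw [ev_sub_fun]
    rw [this, ev_sub_const hw]
  set V1 := ev ρ (fun u => ev π fun v => (g (u * v) - gb v) ^ 2) with hV1
  set V2 := ev π (fun v => gb v ^ 2) with hV2
  have hV1n : 0 ≤ V1 := ev_nonneg hρ.nonneg fun u => ev_nonneg hπ fun v => sq_nonneg _
  have hV2n : 0 ≤ V2 := ev_nonneg hπ fun v => sq_nonneg _
  have hV : ev (ρ * π) (fun x => g x ^ 2) = V1 + V2 := by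
    rw [ev_mul, hV1, hV2, ev_comm, ev_comm ρ π, ← ev_add_fun]
    congr 1
    funext v
    have := ev_sq_sub hρ.aug (fun u => g (u * v))
    change ev ρ (fun u => (g (u * v) - gb v) ^ 2) = _ at this
    rw [this]
    change _ = _ - gb v ^ 2 + gb v ^ 2
    ring
  have hA : ev (w * Ψ) g ^ 2 ≤ D * C * V1 := by
    rw [e2]
    calc ev w (fun u => ev Ψ fun v => g (u * v) - gb v) ^ 2
        ≤ D * ev ρ (fun u => (ev Ψ fun v => g (u * v) - gb v) ^ 2) := hwD _
      _ ≤ D * ev ρ (fun u => C * ev π (fun v => (g (u * v) - gb v) ^ 2)) :=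
          mul_le_mul_of_nonneg_left (ev_mono_fun hρ.nonneg fun u => hΨ _) hD
      _ = D * C * V1 := by rw [ev_mul_fun]; ring
  have hB' : ev (ρ * S) g ^ 2 ≤ B * V2 := by
    rw [e1]; exact hS _
  rw [ev_add, hV]
  set a := ev (w * Ψ) g
  set b := ev (ρ * S) g
  have hDC : 0 ≤ D * C := mul_nonneg hD hC
  -- (a+b)^2 <= (DC+B)(V1+V2)
  have hcross : 2 * (a * b) ≤ D * C * V2 + B * V1 := by
    have h1 : (a * b) ^ 2 ≤ (D * C * V2) * (B * V1) := by
      calc (a * b) ^ 2 = a ^ 2 * b ^ 2 := by ring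
        _ ≤ (D * C * V1) * (B * V2) := mul_le_mul hA hB' (sq_nonneg _) (mul_nonneg hDC hV1n)
        _ = _ := by ring
    have h2 : 0 ≤ D * C * V2 := mul_nonneg hDC hV2n
    have h3 : 0 ≤ B * V1 := mul_nonneg hB hV1n
    have h4 : |a * b| ≤ Real.sqrt ((D * C * V2) * (B * V1)) := Real.abs_le_sqrt h1
    have h5 : Real.sqrt ((D * C * V2) * (B * V1)) ≤ ((D * C * V2) + (B * V1)) / 2 := by
      rw [Real.sqrt_le_left (by linarith only [h3, h2])]
      linarith only [sq_nonneg (D * C * V2 - B * V1)]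
    have h6 := le_abs_self (a * b)
    linarith only [h6, h5, h4]
  linarith only [hcross, hB', hA]

/-- law close to the base -/
theorem Dom.near {x ρ : MonoidAlgebra ℝ G} {χ : ℝ} (hρ : Prob ρ) (hx : aug x = 1)
    (h : Dom (x - ρ) ρ χ) (hχ : 0 ≤ χ) : Dom x ρ (1 + χ) := by
  have hw : aug (x - ρ) = 0 := by rw [aug_sub, hx, hρ.aug, sub_self]
  have := Dom.bessel_left hw hρ h hχ Dom.one zero_le_one Dom.one zero_le_one nonneg_one
  rw [mul_one, mul_one, sub_add_cancel, mul_one, add_comm] at this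
  exact this

/-- tensorization for lists of cells: the product of the `x i` against `ρ ^ n`. -/
theorem Dom.tensor_list {ρ : MonoidAlgebra ℝ G} {χ : ℝ} (hρ : Prob ρ) (hχ : 0 ≤ χ)
    (l : List (MonoidAlgebra ℝ G)) (hl : ∀ x ∈ l, aug x = 1 ∧ Dom (x - ρ) ρ χ) :
    Dom l.prod (ρ ^ l.length) ((1 + χ) ^ l.length) ∧
      Dom (l.prod - ρ ^ l.length) (ρ ^ l.length) ((1 + χ) ^ l.length - 1) := by
  induction l with
  | nil =>
    simp only [List.prod_nil, List.length_nil, pow_zero, sub_self]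
    exact ⟨Dom.one, Dom.zero nonneg_one le_rfl⟩
  | cons x l ih =>
    have hx := hl x List.mem_cons_self
    obtain ⟨ih1, ih2⟩ := ih fun y hy => hl y (List.mem_cons_of_mem _ hy)
    have h1 : (1 : ℝ) ≤ (1 + χ) ^ l.length := one_le_pow₀ (by linarith)
    rw [List.prod_cons, List.length_cons, pow_succ', pow_succ']
    refine ⟨(Dom.near hρ hx.1 hx.2 hχ).mul ih1 hρ.nonneg (by linarith), ?_⟩
    have hw : aug (x - ρ) = 0 := by rw [aug_sub, hx.1, hρ.aug, sub_self]
    have := Dom.bessel_left hw hρ hx.2 hχ ih1 (by linarith) ih2 (by linarith)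
      (nonneg_pow hρ.nonneg _)
    have e : (x - ρ) * l.prod + ρ * (l.prod - ρ ^ l.length)
        = x * l.prod - ρ * ρ ^ l.length := by
      rw [sub_mul, mul_sub]; abel
    rw [e] at this
    have e2 : χ * (1 + χ) ^ l.length + ((1 + χ) ^ l.length - 1)
        = (1 + χ) * (1 + χ) ^ l.length - 1 := by ring
    rwa [e2] at this

/-- Bessel for a mass zero insertion in the cell number `t`, followed by anything. -/
theorem Dom.bessel_sum {w ρ : MonoidAlgebra ℝ G} {D : ℝ} (hw : aug w = 0) (hρ : Prob ρ)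
    (hwD : Dom w ρ D) (hD : 0 ≤ D) (π : MonoidAlgebra ℝ G) (hπ : nonneg π) (R : ℕ)
    (Ψ : ℕ → MonoidAlgebra ℝ G) (C : ℕ → ℝ) (hC : ∀ t < R, 0 ≤ C t)
    (hΨ : ∀ t < R, Dom (Ψ t) (ρ ^ (R - 1 - t) * π) (C t)) :
    Dom (∑ t ∈ range R, ρ ^ t * w * Ψ t) (ρ ^ R * π) (D * ∑ t ∈ range R, C t) := by
  induction R generalizing Ψ C with
  | zero => simpa using Dom.zero hπ le_rfl
  | succ R ih =>
    have ih' := ih (fun t => Ψ (t + 1)) (fun t => C (t + 1)) (fun t ht => hC _ (by omega))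
      (fun t ht => by
        have := hΨ (t + 1) (by omega)
        have e : R + 1 - 1 - (t + 1) = R - 1 - t := by omega
        rwa [e] at this)
    have h0 := hΨ 0 (by omega)
    have e0 : R + 1 - 1 - 0 = R := by omega
    rw [e0] at h0
    have hb := Dom.bessel_left hw hρ hwD hD h0 (hC 0 (by omega)) ih'
      (mul_nonneg hD (Finset.sum_nonneg fun t ht => hC _ (by
        have := Finset.mem_range.mp ht; omega)))
      (nonneg_mul (nonneg_pow hρ.nonneg R) hπ)
    rw [Finset.sum_range_succ' (fun t => ρ ^ t * w * Ψ t), Finset.sum_range_succ' C]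
    have e1 : ∑ t ∈ range R, ρ ^ (t + 1) * w * Ψ (t + 1) + ρ ^ 0 * w * Ψ 0
        = w * Ψ 0 + ρ * ∑ t ∈ range R, ρ ^ t * w * Ψ (t + 1) := by
      rw [pow_zero, one_mul, add_comm, Finset.mul_sum]
      congr 1
      exact Finset.sum_congr rfl fun t _ => by rw [pow_succ']; simp only [mul_assoc]
    have e2 : ρ ^ (R + 1) * π = ρ * (ρ ^ R * π) := by rw [pow_succ', mul_assoc]
    rw [e1, e2]
    have e3 : D * (∑ t ∈ range R, C (t + 1) + C 0)
        = D * C 0 + D * ∑ t ∈ range R, C (t + 1) := by ring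
    rwa [e3]

end mon

end Vale.Agent.P321.MA
end

section

/-!
Contexts: signed measures on `G × G`, acting on measures on `G` by sandwiching.
-/

namespace Vale.Agent.P321.MA

open Finset

variable {G : Type*}

section tens

/-- product measure -/
noncomputable def tens (a b : MonoidAlgebra ℝ G) : MonoidAlgebra ℝ (G × G) :=
  a.coeff.sum fun u r => b.coeff.sum fun v s => MonoidAlgebra.single (u, v) (r * s)

theorem ev_tens (a b : MonoidAlgebra ℝ G) (g : G × G → ℝ) :
    ev (tens a b) g = ev a fun u => ev b fun v => g (u, v) := by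
  rw [tens, ev, map_finsuppSum, ev_def]
  refine Finsupp.sum_congr fun u _ => ?_
  rw [map_finsuppSum, ev_def, Finsupp.sum, Finsupp.sum, Finset.mul_sum]
  refine Finset.sum_congr rfl fun v _ => ?_
  have := ev_single (u, v) (a.coeff u * b.coeff v) g
  rw [ev] at this
  rw [this]
  ring

theorem tens_sub_left (a a' b : MonoidAlgebra ℝ G) : tens (a - a') b = tens a b - tens a' b :=
  ext_ev fun g => by simp only [ev_sub, ev_tens]
theorem tens_sub_right (a b b' : MonoidAlgebra ℝ G) : tens a (b - b') = tens a b - tens a b' :=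
  ext_ev fun g => by simp only [ev_sub, ev_tens, ev_sub_fun]
theorem l1_tens_le (a b : MonoidAlgebra ℝ G) : l1 (tens a b) ≤ l1 a * l1 b := by
  obtain ⟨g, hg, e⟩ := l1_eq_ev_sign (tens a b)
  rw [e, ev_tens]
  have h1 : ∀ u, |ev b fun v => g (u, v)| ≤ l1 b := fun u => by
    have := abs_ev_le b (g := fun v => g (u, v)) (c := 1) (fun v => hg _)
    rwa [one_mul] at this
  have := abs_ev_le a h1
  calc ev a (fun u => ev b fun v => g (u, v)) ≤ |ev a (fun u => ev b fun v => g (u, v))| :=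
        le_abs_self _
    _ ≤ l1 b * l1 a := this
    _ = _ := mul_comm _ _

theorem nonneg_iff_ev {x : MonoidAlgebra ℝ G} :
    nonneg x ↔ ∀ g : G → ℝ, (∀ w, 0 ≤ g w) → 0 ≤ ev x g := by
  classical
  refine ⟨fun h g hg => ev_nonneg h hg, fun h w => ?_⟩
  have key : ev x (fun v => if v = w then 1 else 0) = x.coeff w := by
    rw [ev_eq_sum x _ (insert w x.coeff.support) (Finset.subset_insert _ _),
      Finset.sum_eq_single w]
    · rw [if_pos rfl, mul_one]
    · intro v _ hv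
      rw [if_neg hv, mul_zero]
    · intro hw
      exact absurd (Finset.mem_insert_self _ _) hw
  rw [← key]
  refine h _ fun v => ?_
  split_ifs <;> norm_num

theorem nonneg_tens {a b : MonoidAlgebra ℝ G} (ha : nonneg a) (hb : nonneg b) :
    nonneg (tens a b) := by
  rw [nonneg_iff_ev]
  intro g hg
  rw [ev_tens]
  exact ev_nonneg ha fun u => ev_nonneg hb fun v => hg _

/-- comparison of two product contexts -/
theorem l1_tens_sub {a b a' b' : MonoidAlgebra ℝ G} (hb : l1 b ≤ 1) (ha' : l1 a' ≤ 1) :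
    l1 (tens a b - tens a' b') ≤ l1 (a - a') + l1 (b - b') := by
  have e : tens a b - tens a' b' = tens (a - a') b + tens a' (b - b') := by
    rw [tens_sub_left, tens_sub_right]; abel
  rw [e]
  refine (l1_add _ _).trans (add_le_add ?_ ?_)
  · refine (l1_tens_le _ _).trans ?_
    have := mul_le_mul_of_nonneg_left hb (l1_nonneg (a - a'))
    rwa [mul_one] at this
  · refine (l1_tens_le _ _).trans ?_
    have := mul_le_mul_of_nonneg_right ha' (l1_nonneg (b - b'))
    rwa [one_mul] at this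

theorem le_iff_ev {x y : MonoidAlgebra ℝ G} :
    le x y ↔ ∀ g : G → ℝ, (∀ w, 0 ≤ g w) → ev x g ≤ ev y g := by
  rw [le_iff, nonneg_iff_ev]
  refine forall_congr' fun g => imp_congr_right fun _ => ?_
  rw [ev_sub, sub_nonneg]

theorem absm_le {x y : MonoidAlgebra ℝ G} (h1 : le x y) (h2 : le (-x) y) : le (absm x) y :=
  fun w => by
    rw [coeff_absm]
    refine abs_le.mpr ⟨?_, h1 w⟩
    have := h2 w
    rw [MonoidAlgebra.coeff_neg, Finsupp.neg_apply] at this
    linarith

theorem absm_sub_le {x y : MonoidAlgebra ℝ G} (hx : nonneg x) (hy : nonneg y) :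
    le (absm (x - y)) (x + y) := by
  refine absm_le ?_ ?_
  · rw [le_iff]
    have : x + y - (x - y) = y + y := by abel
    rw [this]; exact nonneg_add hy hy
  · rw [le_iff]
    have : x + y - -(x - y) = x + x := by abel
    rw [this]; exact nonneg_add hx hx

end tens

section mon

variable [Monoid G]

theorem tens_mul (a b a' b' : MonoidAlgebra ℝ G) :
    tens a b * tens a' b' = tens (a * a') (b * b') :=
  ext_ev fun g => by
    simp only [ev_mul, ev_tens, Prod.mk_mul_mk]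
    congr 1
    funext u
    rw [ev_comm]

theorem tens_one : tens (1 : MonoidAlgebra ℝ G) 1 = 1 :=
  ext_ev fun g => by
    rw [ev_tens, ev_one, ev_one, ev_one]
    rfl

theorem tens_prob {a b : MonoidAlgebra ℝ G} (ha : Prob a) (hb : Prob b) : Prob (tens a b) := by
  rw [prob_iff]
  refine ⟨nonneg_tens ha.nonneg hb.nonneg, ?_⟩
  rw [aug, ev_tens]
  change ev a (fun _ => MA.aug b) = 1
  rw [ev_const, hb.aug, ha.aug, one_mul]

/-- the sandwich map -/
noncomputable def sand (κ : MonoidAlgebra ℝ (G × G)) (Φ : MonoidAlgebra ℝ G) :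
    MonoidAlgebra ℝ G :=
  κ.coeff.sum fun uv r => r • (MonoidAlgebra.single uv.1 (1 : ℝ) * Φ * MonoidAlgebra.single uv.2 1)

theorem ev_sand (κ : MonoidAlgebra ℝ (G × G)) (Φ : MonoidAlgebra ℝ G) (g : G → ℝ) :
    ev (sand κ Φ) g = ev κ fun uv => ev Φ fun w => g (uv.1 * w * uv.2) := by
  rw [sand, ev, map_finsuppSum, ev_def]
  refine Finsupp.sum_congr fun uv _ => ?_
  have h : ev (κ.coeff uv • (MonoidAlgebra.single uv.1 (1 : ℝ) * Φ * MonoidAlgebra.single uv.2 1)) g
      = κ.coeff uv * ev Φ fun w => g (uv.1 * w * uv.2) := by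
    rw [ev_smul, ev_mul, ev_mul, ev_single, one_mul]
    congr 2
    funext w
    rw [ev_single, one_mul]
  exact h

theorem sand_add_left (κ κ' : MonoidAlgebra ℝ (G × G)) (Φ : MonoidAlgebra ℝ G) :
    sand (κ + κ') Φ = sand κ Φ + sand κ' Φ :=
  ext_ev fun g => by simp only [ev_add, ev_sand]
theorem sand_sub_left (κ κ' : MonoidAlgebra ℝ (G × G)) (Φ : MonoidAlgebra ℝ G) :
    sand (κ - κ') Φ = sand κ Φ - sand κ' Φ :=
  ext_ev fun g => by simp only [ev_sub, ev_sand]
theorem sand_tens (a b Φ : MonoidAlgebra ℝ G) : sand (tens a b) Φ = a * Φ * b :=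
  ext_ev fun g => by
    simp only [ev_sand, ev_tens, ev_mul]
    congr 1
    funext u
    rw [ev_comm]

theorem nonneg_sand {κ : MonoidAlgebra ℝ (G × G)} {Φ : MonoidAlgebra ℝ G} (hκ : nonneg κ)
    (hΦ : nonneg Φ) : nonneg (sand κ Φ) := by
  rw [nonneg_iff_ev]
  intro g hg
  rw [ev_sand]
  exact ev_nonneg hκ fun uv => ev_nonneg hΦ fun w => hg _

theorem le_sand {κ κ' : MonoidAlgebra ℝ (G × G)} {Φ : MonoidAlgebra ℝ G} (h : le κ κ')
    (hΦ : nonneg Φ) : le (sand κ Φ) (sand κ' Φ) := by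
  rw [le_iff, ← sand_sub_left]
  exact nonneg_sand (le_iff.mp h) hΦ

/-- signed context: `sand κ Φ` is dominated through the base `sand |κ| π`. -/
theorem Dom.sand_absm (κ : MonoidAlgebra ℝ (G × G)) {Φ π : MonoidAlgebra ℝ G} {C : ℝ}
    (h : Dom Φ π C) : Dom (sand κ Φ) (sand (MA.absm κ) π) (l1 κ * C) := fun g => by
  rw [ev_sand, ev_sand]
  calc (ev κ fun uv => ev Φ fun w => g (uv.1 * w * uv.2)) ^ 2
      ≤ l1 κ * ev (MA.absm κ) (fun uv => (ev Φ fun w => g (uv.1 * w * uv.2)) ^ 2) :=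
        Dom.absm κ _
    _ ≤ l1 κ * ev (MA.absm κ) (fun uv => C * ev π (fun w => g (uv.1 * w * uv.2) ^ 2)) :=
        mul_le_mul_of_nonneg_left (ev_mono_fun (absm_nonneg κ) fun uv => h _) (l1_nonneg κ)
    _ = _ := by rw [ev_mul_fun]; ring

/-- signed context with a dominating positive context -/
theorem Dom.sand {κ κ' : MonoidAlgebra ℝ (G × G)} {Φ π : MonoidAlgebra ℝ G} {C : ℝ}
    (h : Dom Φ π C) (hC : 0 ≤ C) (hπ : nonneg π) (hκ : le (MA.absm κ) κ') :
    Dom (sand κ Φ) (sand κ' π) (l1 κ * C) :=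
  (Dom.sand_absm κ h).base_le (mul_nonneg (l1_nonneg κ) hC) (le_sand hκ hπ)

/-- changing the context `a _ b` into `a' _ b'`. -/
theorem Dom.shift {a b a' b' Φ π : MonoidAlgebra ℝ G} {C τ : ℝ} (ha : Prob a) (hb : Prob b)
    (ha' : Prob a') (hb' : Prob b') (h : Dom Φ π C) (hC : 0 ≤ C) (hπ : nonneg π)
    (hτ : l1 (a - a') + l1 (b - b') ≤ τ) :
    Dom (a * Φ * b - a' * Φ * b') (a * π * b + a' * π * b') (τ * C) := by
  have h1 := Dom.sand (κ := tens a b - tens a' b') (κ' := tens a b + tens a' b') h hC hπ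
    (absm_sub_le (nonneg_tens ha.nonneg hb.nonneg) (nonneg_tens ha'.nonneg hb'.nonneg))
  rw [sand_sub_left, sand_add_left, sand_tens, sand_tens, sand_tens, sand_tens] at h1
  have h2 : nonneg (a * π * b + a' * π * b') :=
    nonneg_add (nonneg_mul (nonneg_mul ha.nonneg hπ) hb.nonneg)
      (nonneg_mul (nonneg_mul ha'.nonneg hπ) hb'.nonneg)
  refine h1.mono h2 (mul_le_mul_of_nonneg_right ?_ hC)
  exact (l1_tens_sub hb.l1.le ha'.l1.le).trans hτ

end mon

end Vale.Agent.P321.MA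
end

section

/-!
Total variation of the binomial coefficients and smoothness of `((1+M)/2)^N`.
-/

namespace Vale.Agent.P321

open Polynomial Finset

theorem sum_choose_sq (n : ℕ) :
    ∑ j ∈ range (n + 1), ((n.choose j : ℝ)) * ((n : ℝ) - 2 * (j : ℝ)) ^ 2 = (n : ℝ) * 2 ^ n := by
  have h := bernsteinPolynomial.variance ℝ n
  have h2 := congrArg (Polynomial.eval (1 / 2 : ℝ)) h
  simp only [Polynomial.eval_finsetSum, bernsteinPolynomial, eval_mul, eval_pow, eval_sub,
    eval_natCast, eval_X, eval_one, nsmul_eq_mul] at h2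
  have e : ∀ j ∈ range (n + 1), ((n.choose j : ℝ)) * ((n : ℝ) - 2 * j) ^ 2 =
      4 * 2 ^ n * (((n : ℝ) * (1 / 2) - j) ^ 2 *
        ((n.choose j : ℝ) * (1 / 2) ^ j * (1 - 1 / 2) ^ (n - j))) := by
    intro j hj
    have hj' : j ≤ n := by simpa [Nat.lt_succ_iff] using hj
    have : ((1 / 2 : ℝ)) ^ j * (1 - 1 / 2) ^ (n - j) = (1 / 2) ^ n := by
      rw [show (1 - 1 / 2 : ℝ) = 1 / 2 by norm_num, ← pow_add]
      congr 1
      omega
    have h3 : (2 : ℝ) ^ n * (1 / 2) ^ n = 1 := by rw [← mul_pow]; norm_num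
    calc ((n.choose j : ℝ)) * ((n : ℝ) - 2 * j) ^ 2
        = ((n.choose j : ℝ)) * ((n : ℝ) - 2 * j) ^ 2 * ((2 : ℝ) ^ n * (1 / 2) ^ n) := by
          rw [h3, mul_one]
      _ = _ := by rw [← this]; ring
  rw [Finset.sum_congr rfl e, ← Finset.mul_sum, h2]
  ring

theorem sum_choose_abs (n : ℕ) :
    ∑ j ∈ range (n + 1), ((n.choose j : ℝ)) * |(n : ℝ) - 2 * j| ≤ 2 ^ n * Real.sqrt n := by
  have hcs := Finset.sum_mul_sq_le_sq_mul_sq (range (n + 1))
    (fun j => Real.sqrt (n.choose j)) (fun j => Real.sqrt (n.choose j) * |(n : ℝ) - 2 * j|)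
  have e1 : ∑ j ∈ range (n + 1), Real.sqrt (n.choose j) * (Real.sqrt (n.choose j) * |(n : ℝ) - 2 * j|)
      = ∑ j ∈ range (n + 1), ((n.choose j : ℝ)) * |(n : ℝ) - 2 * j| := by
    refine Finset.sum_congr rfl fun j _ => ?_
    rw [← mul_assoc, Real.mul_self_sqrt (Nat.cast_nonneg _)]
  have e2 : ∑ j ∈ range (n + 1), Real.sqrt (n.choose j) ^ 2 = 2 ^ n := by
    rw [show ((2 : ℝ) ^ n) = ((∑ j ∈ range (n + 1), n.choose j : ℕ) : ℝ) by
      rw [Nat.sum_range_choose]; push_cast; rfl]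
    push_cast
    exact Finset.sum_congr rfl fun j _ => Real.sq_sqrt (Nat.cast_nonneg _)
  have e3 : ∑ j ∈ range (n + 1), (Real.sqrt (n.choose j) * |(n : ℝ) - 2 * j|) ^ 2 = n * 2 ^ n := by
    rw [← sum_choose_sq]
    refine Finset.sum_congr rfl fun j _ => ?_
    rw [mul_pow, Real.sq_sqrt (Nat.cast_nonneg _), sq_abs]
  rw [e1, e2, e3] at hcs
  have h0 : 0 ≤ ∑ j ∈ range (n + 1), ((n.choose j : ℝ)) * |(n : ℝ) - 2 * j| :=
    Finset.sum_nonneg fun j _ => mul_nonneg (Nat.cast_nonneg _) (abs_nonneg _)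
  refine abs_le_of_sq_le_sq' ?_ (by positivity) |>.2
  rw [mul_pow, Real.sq_sqrt (Nat.cast_nonneg _)]
  calc _ ≤ _ := hcs
    _ = _ := by ring

/-- coefficients of `(1-X)(1+X)^N`. -/
theorem coeff_sub_mul (N j : ℕ) :
    (((1 : ℝ[X]) - X) * (1 + X) ^ N).coeff j * (N + 1)
      = ((N + 1).choose j : ℝ) * (((N + 1 : ℕ) : ℝ) - 2 * j) := by
  cases j with
  | zero =>
    rw [sub_mul, one_mul, coeff_sub, coeff_one_add_X_pow, coeff_X_mul_zero]
    simp
  | succ j =>
    rw [sub_mul, one_mul, coeff_sub, coeff_one_add_X_pow, coeff_X_mul, coeff_one_add_X_pow]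
    have h1 : ((N + 1).choose (j + 1) : ℝ) = N.choose j + N.choose (j + 1) := by
      rw [Nat.choose_succ_succ]; push_cast; ring
    have h2 : ((N : ℝ) + 1) * N.choose j = ((N + 1).choose (j + 1) : ℝ) * (j + 1) := by
      exact_mod_cast Nat.add_one_mul_choose_eq N j
    push_cast
    rw [h1] at h2 ⊢
    linear_combination (-2) * h2

theorem sum_abs_coeff (N : ℕ) :
    ∑ j ∈ range (N + 2), |(((1 : ℝ[X]) - X) * (1 + X) ^ N).coeff j|
      ≤ 2 ^ N * (2 / Real.sqrt (N + 1)) := by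
  have hN : (0 : ℝ) < N + 1 := by positivity
  have e : ∑ j ∈ range (N + 2), |(((1 : ℝ[X]) - X) * (1 + X) ^ N).coeff j|
      = (∑ j ∈ range ((N + 1) + 1), ((N + 1).choose j : ℝ) * |((N + 1 : ℕ) : ℝ) - 2 * j|)
        / (N + 1) := by
    rw [Finset.sum_div]
    refine Finset.sum_congr rfl fun j _ => ?_
    have := coeff_sub_mul N j
    have h5 : |(((1 : ℝ[X]) - X) * (1 + X) ^ N).coeff j| * ((N : ℝ) + 1)
        = |(((1 : ℝ[X]) - X) * (1 + X) ^ N).coeff j * ((N : ℝ) + 1)| := by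
      rw [abs_mul, abs_of_pos hN]
    rw [eq_div_iff hN.ne', h5, this, abs_mul, Nat.abs_cast]
  rw [e, div_le_iff₀ hN]
  refine (sum_choose_abs (N + 1)).trans ?_
  have hs : Real.sqrt ((N : ℝ) + 1) * Real.sqrt (N + 1) = N + 1 := Real.mul_self_sqrt hN.le
  have hs0 : 0 < Real.sqrt ((N : ℝ) + 1) := Real.sqrt_pos.mpr hN
  push_cast
  rw [pow_succ]
  have : 2 ^ N * (2 / Real.sqrt ((N : ℝ) + 1)) * (N + 1) = 2 ^ N * 2 * Real.sqrt (N + 1) := by
    field_simp
    rw [sq, hs]
  rw [this]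

namespace L1Str

variable {A : Type*} [Ring A] [Algebra ℝ A] (S : L1Str A)

theorem nrm_coin {M : A} (hM : S.nrm M ≤ 1) (N : ℕ) :
    S.nrm ((1 - M) * ((1 / 2 : ℝ) • (1 + M)) ^ N) ≤ 2 / Real.sqrt (N + 1) := by
  have hdeg : (((1 : ℝ[X]) - X) * (1 + X) ^ N).natDegree < N + 2 := by
    refine Nat.lt_of_le_of_lt (natDegree_mul_le) ?_
    have h1 : ((1 : ℝ[X]) - X).natDegree ≤ 1 := by
      refine (natDegree_sub_le _ _).trans ?_
      simp
    have h2 : ((1 + X : ℝ[X]) ^ N).natDegree ≤ N := by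
      refine natDegree_pow_le.trans ?_
      have : (1 + X : ℝ[X]).natDegree ≤ 1 := by
        refine (natDegree_add_le _ _).trans ?_
        simp
      calc N * _ ≤ N * 1 := Nat.mul_le_mul_left _ this
        _ = N := mul_one N
    omega
  have e : (1 - M) * ((1 / 2 : ℝ) • (1 + M)) ^ N
      = ((1 / 2 : ℝ) ^ N) • aeval M (((1 : ℝ[X]) - X) * (1 + X) ^ N) := by
    rw [smul_pow, mul_smul_comm]
    simp
  rw [e, S.nrm_smul, aeval_eq_sum_range' hdeg]
  have h1 : S.nrm (∑ i ∈ range (N + 2), (((1 : ℝ[X]) - X) * (1 + X) ^ N).coeff i • M ^ i)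
      ≤ ∑ j ∈ range (N + 2), |(((1 : ℝ[X]) - X) * (1 + X) ^ N).coeff j| := by
    refine (S.nrm_sum_le _ _).trans (Finset.sum_le_sum fun i _ => ?_)
    rw [S.nrm_smul]
    have : S.nrm (M ^ i) ≤ 1 :=
      (S.nrm_pow_le M i).trans (pow_le_one₀ (S.nrm_nonneg _) hM)
    calc _ ≤ |(((1 : ℝ[X]) - X) * (1 + X) ^ N).coeff i| * 1 :=
          mul_le_mul_of_nonneg_left this (abs_nonneg _)
      _ = _ := mul_one _
  have h2 := h1.trans (sum_abs_coeff N)
  have h3 : |(1 / 2 : ℝ) ^ N| = (1 / 2) ^ N := abs_of_nonneg (by positivity)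
  rw [h3]
  calc (1 / 2 : ℝ) ^ N * _ ≤ (1 / 2 : ℝ) ^ N * (2 ^ N * (2 / Real.sqrt (N + 1))) :=
        mul_le_mul_of_nonneg_left h2 (by positivity)
    _ = ((1 / 2 : ℝ) * 2) ^ N * (2 / Real.sqrt (N + 1)) := by rw [mul_pow]; ring
    _ = _ := by norm_num

/-- Smoothness: with `N = 4^s` coins and failure exponent `m = 4 s`. -/
theorem slip_smooth {M : A} {G : ℕ} (hM : S.Prob M) (h : S.Slip M G) (s t : ℕ)
    (ht : G * (4 * s) * 4 ^ s ≤ t) :
    S.nrm ((1 - M) * M ^ t) ≤ 4 / 2 ^ s := by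
  obtain ⟨B, E, hB, hE, e⟩ := S.slip_coins hM h (4 * s) (4 ^ s)
  have key : S.nrm ((1 - M) * M ^ (G * (4 * s) * 4 ^ s)) ≤ 4 / 2 ^ s := by
    rw [e, mul_add, ← mul_assoc]
    refine (S.nrm_add _ _).trans ?_
    have h1 : S.nrm ((1 - M) * ((1 / 2 : ℝ) • (1 + M)) ^ (4 ^ s) * B) ≤ 2 / 2 ^ s := by
      refine (S.nrm_mul_prob_right hB).trans ((S.nrm_coin hM.2.le _).trans ?_)
      have : (2 : ℝ) ^ s ≤ Real.sqrt (((4 ^ s : ℕ) : ℝ) + 1) := by
        apply Real.le_sqrt_of_sq_le
        push_cast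
        rw [← pow_mul, mul_comm s 2, pow_mul]
        norm_num
      exact div_le_div_of_nonneg_left (by norm_num) (by positivity) this
    have h2 : S.nrm ((1 - M) * E) ≤ 2 / 2 ^ s := by
      have h3 : S.nrm (1 - M) ≤ 2 := by
        have := S.nrm_sub 1 M
        rw [S.nrm_one, hM.2] at this
        linarith only [this]
      refine (S.nrm_mul _ _).trans ?_
      have h4 : ((4 ^ s : ℕ) : ℝ) * (1 / 2 : ℝ) ^ (4 * s) ≤ 1 / 2 ^ s := by
        push_cast
        rw [pow_mul, ← mul_pow]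
        have h5 : (1 : ℝ) / 2 ^ s = (1 / 2) ^ s := by rw [one_div_pow]
        rw [h5]
        refine pow_le_pow_left₀ (by norm_num) (by norm_num) s
      calc S.nrm (1 - M) * S.nrm E ≤ 2 * (1 / 2 ^ s) :=
            mul_le_mul h3 (hE.trans h4) (S.nrm_nonneg _) (by norm_num)
        _ = 2 / 2 ^ s := by ring
    calc _ ≤ 2 / (2 : ℝ) ^ s + 2 / 2 ^ s := add_le_add h1 h2
      _ = 4 / 2 ^ s := by ring
  obtain ⟨k, rfl⟩ := Nat.exists_eq_add_of_le ht
  rw [pow_add, ← mul_assoc]
  exact (S.nrm_mul_prob_right (hM.pow k).2.le).trans key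

end L1Str

end Vale.Agent.P321
end

section

/-!
One level of the Thue-Morse construction: first order part, remainder, presence bounds.
-/

namespace Vale.Agent.P321.MA

open Finset

variable {G : Type*} [Monoid G]

/-! ### small extra facts -/

omit [Monoid G] in
theorem abs_ev_le_absm (x : MonoidAlgebra ℝ G) (g : G → ℝ) :
    |ev x g| ≤ ev (absm x) (fun w => |g w|) := by
  have hs : (absm x).coeff.support ⊆ x.coeff.support := by
    intro w hw
    rw [Finsupp.mem_support_iff, coeff_absm] at hw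
    exact Finsupp.mem_support_iff.mpr fun h => hw (by rw [h, abs_zero])
  rw [ev_eq_sum x g x.coeff.support (Finset.Subset.refl _), ev_eq_sum (absm x) _ _ hs]
  refine (Finset.abs_sum_le_sum_abs _ _).trans (Finset.sum_le_sum fun w _ => ?_)
  rw [abs_mul, coeff_absm]

theorem absm_mul_le (x y : MonoidAlgebra ℝ G) : le (absm (x * y)) (absm x * absm y) := by
  have key : ∀ g : G → ℝ, (∀ w, 0 ≤ g w) → |ev (x * y) g| ≤ ev (absm x * absm y) g := by
    intro g hg
    rw [ev_mul, ev_mul]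
    refine (abs_ev_le_absm x _).trans (ev_mono_fun (absm_nonneg x) fun u => ?_)
    have := abs_ev_le_absm y (fun v => g (u * v))
    simpa only [abs_of_nonneg (hg _)] using this
  refine absm_le ?_ ?_
  · rw [le_iff_ev]
    intro g hg
    exact (le_abs_self _).trans (key g hg)
  · rw [le_iff_ev]
    intro g hg
    rw [ev_neg]
    exact (neg_le_abs _).trans (key g hg)

theorem mul_sand_left (a : MonoidAlgebra ℝ G) (κ : MonoidAlgebra ℝ (G × G))
    (Φ : MonoidAlgebra ℝ G) : a * sand κ Φ = sand (tens a 1 * κ) Φ :=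
  ext_ev fun g => by
    rw [ev_mul, ev_sand, ev_mul, ev_tens]
    congr 1
    funext u
    rw [ev_one, ev_sand]
    congr 1
    funext uv
    congr 1
    funext w
    simp only [Prod.fst_mul, Prod.snd_mul, one_mul, mul_assoc]

theorem sand_mul_right (b : MonoidAlgebra ℝ G) (κ : MonoidAlgebra ℝ (G × G))
    (Φ : MonoidAlgebra ℝ G) : sand κ Φ * b = sand (κ * tens 1 b) Φ :=
  ext_ev fun g => by
    rw [ev_mul, ev_sand, ev_sand, ev_mul]
    congr 1
    funext uv
    rw [ev_tens, ev_one, ev_comm]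
    congr 1
    funext v
    congr 1
    funext w
    simp only [Prod.fst_mul, Prod.snd_mul, mul_one, mul_assoc]

theorem prob_pow {x : MonoidAlgebra ℝ G} (h : Prob x) (n : ℕ) : Prob (x ^ n) := L1Str.Prob.pow h n
theorem prob_mul {x y : MonoidAlgebra ℝ G} (h : Prob x) (h' : Prob y) : Prob (x * y) :=
  L1Str.Prob.mul h h'

theorem l1_pow_sub_pow {Y : MonoidAlgebra ℝ G} (hY : Prob Y) {φ : ℝ} {t : ℕ}
    (h : l1 ((1 - Y) * Y ^ t) ≤ φ) (s n : ℕ) (hs : t ≤ s) :
    l1 (Y ^ s - Y ^ (s + n)) ≤ n * φ := by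
  induction n with
  | zero => simp [l1_zero]
  | succ n ih =>
    have e : Y ^ s - Y ^ (s + (n + 1)) = (Y ^ s - Y ^ (s + n))
        + ((1 - Y) * Y ^ t) * Y ^ (s + n - t) := by
      have h1 : Y ^ t * Y ^ (s + n - t) = Y ^ (s + n) := by
        rw [← pow_add]; congr 1; omega
      rw [mul_assoc, h1, sub_mul, one_mul, ← pow_succ', ← add_assoc]
      abel
    rw [e]
    refine (l1_add _ _).trans ?_
    have h2 := (l1_mul_prob_right (x := (1 - Y) * Y ^ t) (prob_pow hY (s + n - t))).trans h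
    push_cast
    linarith only [h2, ih]

/-! ### words in two letters -/

/-- product of letters -/
noncomputable def wd (Y0 Y1 : MonoidAlgebra ℝ G) : List Bool → MonoidAlgebra ℝ G
  | [] => 1
  | b :: l => (if b then Y1 else Y0) * wd Y0 Y1 l

theorem wd_nil (Y0 Y1 : MonoidAlgebra ℝ G) : wd Y0 Y1 [] = 1 := rfl
theorem wd_cons (Y0 Y1 : MonoidAlgebra ℝ G) (b : Bool) (l : List Bool) :
    wd Y0 Y1 (b :: l) = (if b then Y1 else Y0) * wd Y0 Y1 l := rfl
theorem wd_append (Y0 Y1 : MonoidAlgebra ℝ G) (l l' : List Bool) :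
    wd Y0 Y1 (l ++ l') = wd Y0 Y1 l * wd Y0 Y1 l' := by
  induction l with
  | nil => rw [List.nil_append, wd_nil, one_mul]
  | cons b l ih => rw [List.cons_append, wd_cons, wd_cons, ih, mul_assoc]

/-- first order part -/
noncomputable def lin (Y0 e : MonoidAlgebra ℝ G) : List Bool → MonoidAlgebra ℝ G
  | [] => 0
  | b :: l => (if b then e else 0) * Y0 ^ l.length + Y0 * lin Y0 e l

theorem lin_nil (Y0 e : MonoidAlgebra ℝ G) : lin Y0 e [] = 0 := rfl
theorem lin_cons (Y0 e : MonoidAlgebra ℝ G) (b : Bool) (l : List Bool) :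
    lin Y0 e (b :: l) = (if b then e else 0) * Y0 ^ l.length + Y0 * lin Y0 e l := rfl
theorem lin_append (Y0 e : MonoidAlgebra ℝ G) (l l' : List Bool) :
    lin Y0 e (l ++ l') = lin Y0 e l * Y0 ^ l'.length + Y0 ^ l.length * lin Y0 e l' := by
  induction l with
  | nil => rw [List.nil_append, lin_nil, zero_mul, zero_add, List.length_nil, pow_zero, one_mul]
  | cons b l ih =>
    rw [List.cons_append, lin_cons, lin_cons, ih, List.length_append, List.length_cons,
      pow_add, pow_succ']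
    noncomm_ring

/-- second order remainder -/
noncomputable def rmd (Y0 Y1 : MonoidAlgebra ℝ G) (l : List Bool) : MonoidAlgebra ℝ G :=
  wd Y0 Y1 l - Y0 ^ l.length - lin Y0 (Y1 - Y0) l

theorem rmd_nil (Y0 Y1 : MonoidAlgebra ℝ G) : rmd Y0 Y1 [] = 0 := by
  rw [rmd, wd_nil, lin_nil, List.length_nil, pow_zero, sub_self, sub_zero]

theorem wd_sub_cons (Y0 Y1 : MonoidAlgebra ℝ G) (b : Bool) (l : List Bool) :
    wd Y0 Y1 (b :: l) - Y0 ^ (b :: l).length
      = (if b then (Y1 - Y0) * wd Y0 Y1 l else 0) + Y0 * (wd Y0 Y1 l - Y0 ^ l.length) := by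
  rw [wd_cons, List.length_cons, pow_succ', mul_sub]
  cases b
  · simp
  · simp only [if_true, sub_mul]; abel

theorem rmd_cons (Y0 Y1 : MonoidAlgebra ℝ G) (b : Bool) (l : List Bool) :
    rmd Y0 Y1 (b :: l)
      = (if b then (Y1 - Y0) * (wd Y0 Y1 l - Y0 ^ l.length) else 0) + Y0 * rmd Y0 Y1 l := by
  rw [rmd, wd_sub_cons, lin_cons, rmd]
  cases b
  · simp only [Bool.false_eq_true, if_false, zero_mul, zero_add, mul_sub]
  · simp only [if_true, mul_sub]; abel

/-- A pair of laws, close to each other, mutually comparable. -/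
structure Pair (Y0 Y1 : MonoidAlgebra ℝ G) (D c C : ℝ) : Prop where
  p0 : Prob Y0
  p1 : Prob Y1
  dom : Dom (Y1 - Y0) Y0 D
  D0 : 0 ≤ D
  D1 : D ≤ 1
  c0 : 0 < c
  c1 : c ≤ 1
  C1 : 1 ≤ C
  lo : le (c • Y0) Y1
  hi : le Y1 (C • Y0)

section pair

variable {Y0 Y1 : MonoidAlgebra ℝ G} {D c C : ℝ}

end pair

/-! ### Thue-Morse words and the first order part -/

/-- Thue-Morse word of length `2 ^ k`. -/
def tmb : ℕ → List Bool
  | 0 => [false]
  | k + 1 => tmb k ++ (tmb k).map not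

/-- complement -/
def tmc (k : ℕ) : List Bool := (tmb k).map not

theorem tmb_succ (k : ℕ) : tmb (k + 1) = tmb k ++ tmc k := rfl
theorem tmc_succ (k : ℕ) : tmc (k + 1) = tmc k ++ tmb k := by
  rw [tmc, tmb_succ, List.map_append, tmc, List.map_map]
  congr 1
  have : (not ∘ not) = id := by funext b; simp
  rw [this, List.map_id]
theorem tmb_length (k : ℕ) : (tmb k).length = 2 ^ k := by
  induction k with
  | zero => rfl
  | succ k ih =>
    rw [tmb_succ, List.length_append, tmc, List.length_map, ih, pow_succ, mul_two]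
theorem tmc_length (k : ℕ) : (tmc k).length = 2 ^ k := by
  rw [tmc, List.length_map, tmb_length]

/-- signed context of the first order part -/
noncomputable def kap (Y : MonoidAlgebra ℝ G) : ℕ → MonoidAlgebra ℝ (G × G)
  | 0 => 1
  | k + 1 => kap Y k * (tens 1 (Y ^ 2 ^ k) - tens (Y ^ 2 ^ k) 1)

/-- positive context dominating `kap` -/
noncomputable def kap' (Y : MonoidAlgebra ℝ G) : ℕ → MonoidAlgebra ℝ (G × G)
  | 0 => 1
  | k + 1 => kap' Y k * (tens 1 (Y ^ 2 ^ k) + tens (Y ^ 2 ^ k) 1)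

theorem sand_one (Φ : MonoidAlgebra ℝ G) : sand 1 Φ = Φ := by
  rw [← tens_one, sand_tens, one_mul, mul_one]

theorem commute_tens (Y : MonoidAlgebra ℝ G) (a b c d : ℕ) :
    Commute (tens (Y ^ a) (Y ^ b)) (tens (Y ^ c) (Y ^ d)) := by
  unfold Commute SemiconjBy
  rw [tens_mul, tens_mul, ← pow_add, ← pow_add, ← pow_add, ← pow_add, add_comm a, add_comm b]

theorem commute_kap (Y : MonoidAlgebra ℝ G) (a b k : ℕ) :
    Commute (tens (Y ^ a) (Y ^ b)) (kap Y k) := by
  induction k with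
  | zero => exact Commute.one_right _
  | succ k ih =>
    refine ih.mul_right (Commute.sub_right ?_ ?_)
    · simpa using commute_tens Y a b 0 (2 ^ k)
    · simpa using commute_tens Y a b (2 ^ k) 0

theorem commute_kap' (Y : MonoidAlgebra ℝ G) (a b k : ℕ) :
    Commute (tens (Y ^ a) (Y ^ b)) (kap' Y k) := by
  induction k with
  | zero => exact Commute.one_right _
  | succ k ih =>
    refine ih.mul_right (Commute.add_right ?_ ?_)
    · simpa using commute_tens Y a b 0 (2 ^ k)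
    · simpa using commute_tens Y a b (2 ^ k) 0

theorem lin_tm (Y0 e : MonoidAlgebra ℝ G) (k : ℕ) :
    lin Y0 e (tmc k) - lin Y0 e (tmb k) = sand (kap Y0 k) e := by
  induction k with
  | zero =>
    change lin Y0 e [true] - lin Y0 e [false] = sand 1 e
    simp [lin_cons, lin_nil, sand_one]
  | succ k ih =>
    rw [tmc_succ, tmb_succ, lin_append, lin_append, tmb_length, tmc_length, kap, mul_sub,
      sand_sub_left, ← sand_mul_right]
    have hc := commute_kap Y0 (2 ^ k) 0 k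
    rw [pow_zero] at hc
    rw [← hc.eq, ← mul_sand_left, ← ih]
    noncomm_ring

theorem absm_kap_le {Y : MonoidAlgebra ℝ G} (hY : Prob Y) (k : ℕ) :
    le (absm (kap Y k)) (kap' Y k) := by
  induction k with
  | zero =>
    change le (absm 1) 1
    intro w
    rw [coeff_absm, abs_of_nonneg (nonneg_one w)]
  | succ k ih =>
    refine le_trans (absm_mul_le _ _) (le_mul (absm_nonneg _) (absm_nonneg _) ih ?_)
    exact absm_sub_le (nonneg_tens nonneg_one (nonneg_pow hY.nonneg _))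
      (nonneg_tens (nonneg_pow hY.nonneg _) nonneg_one)

theorem sand_kap' (Y : MonoidAlgebra ℝ G) (k : ℕ) :
    sand (kap' Y k) Y = (2 ^ k : ℝ) • Y ^ 2 ^ k := by
  induction k with
  | zero =>
    change sand 1 Y = _
    rw [sand_one]; simp
  | succ k ih =>
    rw [kap', mul_add, sand_add_left, ← sand_mul_right]
    have hc := commute_kap' Y (2 ^ k) 0 k
    rw [pow_zero] at hc
    rw [← hc.eq, ← mul_sand_left, ih, smul_mul_assoc, mul_smul_comm, ← pow_add, ← add_smul,
      ← mul_two, ← mul_two, ← pow_succ, ← pow_succ]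

theorem absm_tens_pow_mul_le {Y : MonoidAlgebra ℝ G} (hY : Prob Y) (k M : ℕ) :
    le (absm (kap Y k * tens (Y ^ M) (Y ^ M))) (kap' Y k * tens (Y ^ M) (Y ^ M)) := by
  refine le_trans (absm_mul_le _ _) (le_mul (absm_nonneg _) (absm_nonneg _) (absm_kap_le hY k) ?_)
  intro w
  rw [coeff_absm, abs_of_nonneg
    (nonneg_tens (nonneg_pow hY.nonneg M) (nonneg_pow hY.nonneg M) w)]

theorem sand_kap_ctx (Y Φ : MonoidAlgebra ℝ G) (k M : ℕ) :
    sand (kap Y k * tens (Y ^ M) (Y ^ M)) Φ = Y ^ M * sand (kap Y k) Φ * Y ^ M := by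
  have hc := commute_kap Y M 0 k
  rw [pow_zero] at hc
  rw [mul_sand_left, sand_mul_right, hc.eq, mul_assoc, tens_mul, one_mul, mul_one]

theorem sand_kap'_ctx (Y Φ : MonoidAlgebra ℝ G) (k M : ℕ) :
    sand (kap' Y k * tens (Y ^ M) (Y ^ M)) Φ = Y ^ M * sand (kap' Y k) Φ * Y ^ M := by
  have hc := commute_kap' Y M 0 k
  rw [pow_zero] at hc
  rw [mul_sand_left, sand_mul_right, hc.eq, mul_assoc, tens_mul, one_mul, mul_one]

/-- the l1 norm of the first order context -/
theorem l1_kap {Y : MonoidAlgebra ℝ G} (hY : Prob Y) {φ : ℝ} {M0 : ℕ}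
    (hφ : l1 ((1 - Y) * Y ^ M0) ≤ φ) (k M : ℕ) (hM : k * M0 ≤ M) :
    l1 (kap Y k * tens (Y ^ M) (Y ^ M)) ≤ (2 ^ k * φ) ^ k := by
  have hφ0 : 0 ≤ φ := (l1_nonneg _).trans hφ
  -- sharper form with an arbitrary upper bound on the number of levels
  have key : ∀ K k M : ℕ, k ≤ K → k * M0 ≤ M →
      l1 (kap Y k * tens (Y ^ M) (Y ^ M)) ≤ (2 ^ K * φ) ^ k := by
    intro K k
    induction k with
    | zero =>
      intro M _ _
      rw [pow_zero, kap, one_mul, (tens_prob (prob_pow hY M) (prob_pow hY M)).l1]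
    | succ k ih =>
      intro M hK hM
      obtain ⟨M1, rfl⟩ : ∃ M1, M = M1 + M0 :=
        ⟨M - M0, by
          have : M0 ≤ (k + 1) * M0 := Nat.le_mul_of_pos_left _ (Nat.succ_pos k)
          omega⟩
      have hM1 : k * M0 ≤ M1 := by
        have : (k + 1) * M0 = k * M0 + M0 := by ring
        omega
      have e : kap Y (k + 1) * tens (Y ^ (M1 + M0)) (Y ^ (M1 + M0))
          = (kap Y k * tens (Y ^ M1) (Y ^ M1))
            * (tens (Y ^ M0) (Y ^ (M0 + 2 ^ k)) - tens (Y ^ (M0 + 2 ^ k)) (Y ^ M0)) := by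
        rw [kap]
        have c1 : tens (1 : MonoidAlgebra ℝ G) (Y ^ 2 ^ k) * tens (Y ^ (M1 + M0)) (Y ^ (M1 + M0))
            = tens (Y ^ M1) (Y ^ M1) * tens (Y ^ M0) (Y ^ (M0 + 2 ^ k)) := by
          rw [tens_mul, tens_mul, one_mul, ← pow_add, ← pow_add, ← pow_add]
          congr 2; ring
        have c2 : tens (Y ^ 2 ^ k) (1 : MonoidAlgebra ℝ G) * tens (Y ^ (M1 + M0)) (Y ^ (M1 + M0))
            = tens (Y ^ M1) (Y ^ M1) * tens (Y ^ (M0 + 2 ^ k)) (Y ^ M0) := by
          rw [tens_mul, tens_mul, one_mul, ← pow_add, ← pow_add, ← pow_add]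
          congr 2; ring
        rw [mul_assoc, sub_mul, c1, c2, ← mul_sub, mul_assoc]
      rw [e]
      refine (l1_mul _ _).trans ?_
      have h1 := ih M1 (by omega) hM1
      have h2 : l1 (tens (Y ^ M0) (Y ^ (M0 + 2 ^ k)) - tens (Y ^ (M0 + 2 ^ k)) (Y ^ M0))
          ≤ 2 ^ K * φ := by
        refine (l1_tens_sub (prob_pow hY _).l1.le (prob_pow hY _).l1.le).trans ?_
        have h3 := l1_pow_sub_pow hY hφ M0 (2 ^ k) _root_.le_rfl
        rw [l1_sub_comm (Y ^ (M0 + 2 ^ k))]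
        push_cast at h3
        have h4 : (2 : ℝ) ^ (k + 1) ≤ 2 ^ K := pow_le_pow_right₀ (by norm_num) hK
        have h5 := mul_le_mul_of_nonneg_right h4 hφ0
        rw [pow_succ] at h5
        linarith only [h3, h5]
      rw [pow_succ]
      exact mul_le_mul h1 h2 (l1_nonneg _) (by positivity)
  exact key k k M _root_.le_rfl hM

section pair2

variable {Y0 Y1 : MonoidAlgebra ℝ G} {D c C : ℝ}

end pair2

end Vale.Agent.P321.MA
end
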