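import Mathlib.Algebra.MonoidAlgebra.Basic
import Mathlib.Algebra.FreeMonoid.Basic
import Mathlib.Algebra.MonoidAlgebra.MapDomain
import Vale.Agent.P321.Bdl.B1

section

/-!
A graded norm which controls both the size of a signed measure and the size of its averages over
shifts, and the joint shift lemma.
-/

namespace Vale.Agent.P321.MA

open Finset

variable {G : Type*} [Monoid G]

theorem le_mul_mul {a b x y : MonoidAlgebra ℝ G} (ha : nonneg a) (hb : nonneg b) (h : le x y) :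
    le (a * x * b) (a * y * b) := by
  have e : a * y * b - a * x * b = a * (y - x) * b := by
    rw [mul_sub, sub_mul]
  rw [le_iff, e]
  exact nonneg_mul (nonneg_mul ha (le_iff.mp h)) hb

theorem le_mul_left {a x y : MonoidAlgebra ℝ G} (ha : nonneg a) (h : le x y) :
    le (a * x) (a * y) := by
  have := le_mul_mul ha nonneg_one h
  rwa [mul_one, mul_one] at this

theorem le_mul_right {b x y : MonoidAlgebra ℝ G} (hb : nonneg b) (h : le x y) :
    le (x * b) (y * b) := by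
  have := le_mul_mul nonneg_one hb h
  rwa [one_mul, one_mul] at this

theorem le_pow {x y : MonoidAlgebra ℝ G} (hx : nonneg x) (h : le x y) (n : ℕ) :
    le (x ^ n) (y ^ n) := by
  induction n with
  | zero => rw [pow_zero, pow_zero]; exact le_refl _
  | succ n ih => rw [pow_succ, pow_succ]; exact le_mul (nonneg_pow hx n) hx ih h

theorem le_inv_smul {x y : MonoidAlgebra ℝ G} {c : ℝ} (hc : 0 < c) (h : le (c • x) y) :
    le x (c⁻¹ • y) := by
  have := le_smul (inv_nonneg.mpr hc.le) h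
  rwa [smul_smul, inv_mul_cancel₀ hc.ne', one_smul] at this

theorem le_smul_trans {x y z : MonoidAlgebra ℝ G} {c c' : ℝ} (hc : 0 ≤ c)
    (h : le x (c • y)) (h' : le y (c' • z)) : le x ((c * c') • z) := by
  refine le_trans h ?_
  rw [mul_smul]
  exact le_smul hc h'

/-- shift averages of `X` are small -/
def Av (Y X : MonoidAlgebra ℝ G) (j : ℕ) (r : ℝ) : Prop :=
  ∀ (y : MonoidAlgebra ℝ G) (i : ℕ) (c : ℝ), 0 ≤ c → Dom y (Y ^ i) c → ∀ R : ℕ, 1 ≤ R →
    Dom (∑ t ∈ range R, Y ^ t * X * y * Y ^ (R - 1 - t)) (Y ^ (R - 1 + j + i)) (R * r * c)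

/-- graded norm -/
structure Nm (Y X : MonoidAlgebra ℝ G) (j : ℕ) (r : ℝ) : Prop where
  r0 : 0 ≤ r
  dom : Dom X (Y ^ j) (r ^ 2)
  av : Av Y X j (r ^ 2)

section nm

variable {Y : MonoidAlgebra ℝ G}

theorem Nm.mono {X : MonoidAlgebra ℝ G} {j : ℕ} {r r' : ℝ} (hY : nonneg Y) (h : Nm Y X j r)
    (hr : r ≤ r') : Nm Y X j r' := by
  have hsq : r ^ 2 ≤ r' ^ 2 := pow_le_pow_left₀ h.r0 hr 2
  refine ⟨h.r0.trans hr, h.dom.mono (nonneg_pow hY _) hsq, ?_⟩
  intro y i c hc hy R hR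
  refine (h.av y i c hc hy R hR).mono (nonneg_pow hY _) ?_
  have : (0 : ℝ) ≤ R := Nat.cast_nonneg _
  exact mul_le_mul_of_nonneg_right (mul_le_mul_of_nonneg_left hsq this) hc

theorem Nm.zero (hY : nonneg Y) (j : ℕ) : Nm Y 0 j 0 := by
  refine ⟨_root_.le_rfl, Dom.zero (nonneg_pow hY _) (by norm_num), ?_⟩
  intro y i c hc hy R hR
  simp only [mul_zero, zero_mul, Finset.sum_const_zero]
  exact Dom.zero (nonneg_pow hY _) (by simp only [ne_eq, OfNat.ofNat_ne_zero, not_false_eq_true, zero_pow, mul_zero, zero_mul, Std.le_refl])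

theorem Nm.add {X X' : MonoidAlgebra ℝ G} {j : ℕ} {r r' : ℝ} (hY : nonneg Y)
    (h : Nm Y X j r) (h' : Nm Y X' j r') : Nm Y (X + X') j (r + r') := by
  refine ⟨add_nonneg h.r0 h'.r0, Dom.add h.r0 h'.r0 (nonneg_pow hY _) h.dom h'.dom, ?_⟩
  intro y i c hc hy R hR
  have hRc : 0 ≤ (R : ℝ) * c := mul_nonneg (Nat.cast_nonneg _) hc
  have h1 := h.av y i c hc hy R hR
  have h2 := h'.av y i c hc hy R hR
  have e : ∀ s : ℝ, (R : ℝ) * s ^ 2 * c = (s * Real.sqrt (R * c)) ^ 2 := by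
    intro s
    rw [mul_pow, Real.sq_sqrt hRc]; ring
  rw [e] at h1 h2
  have h3 := Dom.add (mul_nonneg h.r0 (Real.sqrt_nonneg _)) (mul_nonneg h'.r0 (Real.sqrt_nonneg _))
    (nonneg_pow hY _) h1 h2
  rw [← add_mul, ← e, ← Finset.sum_add_distrib] at h3
  have e2 : (∑ t ∈ range R, Y ^ t * (X + X') * y * Y ^ (R - 1 - t))
      = ∑ t ∈ range R, (Y ^ t * X * y * Y ^ (R - 1 - t) + Y ^ t * X' * y * Y ^ (R - 1 - t)) :=
    Finset.sum_congr rfl fun t _ => by rw [mul_add, add_mul, add_mul]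
  rw [e2]
  exact h3

theorem Nm.smul {X : MonoidAlgebra ℝ G} {j : ℕ} {r : ℝ} (h : Nm Y X j r) (c : ℝ) :
    Nm Y (c • X) j (|c| * r) := by
  refine ⟨mul_nonneg (abs_nonneg _) h.r0, ?_, ?_⟩
  · have := h.dom.smul c
    rwa [mul_pow, sq_abs]
  · intro y i d hd hy R hR
    have h1 := (h.av y i d hd hy R hR).smul c
    have e : c • ∑ t ∈ range R, Y ^ t * X * y * Y ^ (R - 1 - t)
        = ∑ t ∈ range R, Y ^ t * (c • X) * y * Y ^ (R - 1 - t) := by
      rw [Finset.smul_sum]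
      exact Finset.sum_congr rfl fun t _ => by
        rw [mul_smul_comm, smul_mul_assoc, smul_mul_assoc]
    have e2 : c ^ 2 * (R * r ^ 2 * d) = R * (|c| * r) ^ 2 * d := by
      rw [mul_pow, sq_abs]; ring
    rwa [e, e2] at h1

theorem Nm.neg {X : MonoidAlgebra ℝ G} {j : ℕ} {r : ℝ} (h : Nm Y X j r) : Nm Y (-X) j r := by
  have := h.smul (-1)
  simpa using this

theorem Nm.sub {X X' : MonoidAlgebra ℝ G} {j : ℕ} {r r' : ℝ} (hY : nonneg Y)
    (h : Nm Y X j r) (h' : Nm Y X' j r') : Nm Y (X - X') j (r + r') := by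
  rw [sub_eq_add_neg]
  exact h.add hY h'.neg

theorem Nm.mul_dom {X g : MonoidAlgebra ℝ G} {j i : ℕ} {r s : ℝ} (hY : nonneg Y)
    (h : Nm Y X j r) (hs : 0 ≤ s) (hg : Dom g (Y ^ i) (s ^ 2)) :
    Nm Y (X * g) (j + i) (r * s) := by
  refine ⟨mul_nonneg h.r0 hs, ?_, ?_⟩
  · rw [pow_add, mul_pow]
    exact h.dom.mul hg (nonneg_pow hY _) (sq_nonneg _)
  · intro y i' c hc hy R hR
    have h1 : Dom (g * y) (Y ^ (i + i')) (s ^ 2 * c) := by
      rw [pow_add]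
      exact hg.mul hy (nonneg_pow hY _) (sq_nonneg _)
    have h2 := h.av (g * y) (i + i') (s ^ 2 * c) (mul_nonneg (sq_nonneg _) hc) h1 R hR
    have e : (∑ t ∈ range R, Y ^ t * (X * g) * y * Y ^ (R - 1 - t))
        = ∑ t ∈ range R, Y ^ t * X * (g * y) * Y ^ (R - 1 - t) :=
      Finset.sum_congr rfl fun t _ => by simp only [mul_assoc]
    have e2 : (R : ℝ) * (r * s) ^ 2 * c = R * r ^ 2 * (s ^ 2 * c) := by ring
    have e3 : R - 1 + (j + i) + i' = R - 1 + j + (i + i') := by (clear * -; omega)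
    rw [e, e2, e3]
    exact h2

theorem Nm.mul_pow {X : MonoidAlgebra ℝ G} {j : ℕ} {r : ℝ} (hY : Prob Y)
    (h : Nm Y X j r) (i : ℕ) : Nm Y (X * Y ^ i) (j + i) r := by
  have h1 : Dom (Y ^ i) (Y ^ i) ((1 : ℝ) ^ 2) := by
    have := Dom.self (nonneg_pow hY.nonneg i)
    rwa [(prob_pow hY i).aug, ← one_pow 2] at this
  have := h.mul_dom hY.nonneg zero_le_one h1
  rwa [mul_one] at this

theorem Nm.pow_mul {X : MonoidAlgebra ℝ G} {j : ℕ} {r : ℝ} (hY : Prob Y)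
    (h : Nm Y X j r) (i : ℕ) : Nm Y (Y ^ i * X) (i + j) r := by
  refine ⟨h.r0, ?_, ?_⟩
  · rw [pow_add]
    exact h.dom.mul_left (prob_pow hY i)
  · intro y i' c hc hy R hR
    have h1 := (h.av y i' c hc hy R hR).mul_left (prob_pow hY i)
    have e : Y ^ i * ∑ t ∈ range R, Y ^ t * X * y * Y ^ (R - 1 - t)
        = ∑ t ∈ range R, Y ^ t * (Y ^ i * X) * y * Y ^ (R - 1 - t) := by
      rw [Finset.mul_sum]
      refine Finset.sum_congr rfl fun t _ => ?_
      have : Y ^ i * Y ^ t = Y ^ t * Y ^ i := by rw [← pow_add, ← pow_add, add_comm]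
      simp only [← mul_assoc, this]
    have e2 : i + (R - 1 + j + i') = R - 1 + (i + j) + i' := by omega
    rw [e, ← pow_add, e2] at h1
    exact h1

theorem Nm.mul {X X' : MonoidAlgebra ℝ G} {j j' : ℕ} {r r' : ℝ} (hY : nonneg Y)
    (h : Nm Y X j r) (h' : Nm Y X' j' r') : Nm Y (X * X') (j + j') (r * r') :=
  h.mul_dom hY h'.r0 h'.dom

/-- a mass zero measure in one cell -/
theorem Nm.base {e : MonoidAlgebra ℝ G} (hY : Prob Y) (he : aug e = 0) {r : ℝ} (hr : 0 ≤ r)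
    (h : Dom e Y (r ^ 2)) : Nm Y e 1 r := by
  refine ⟨hr, by rwa [pow_one], ?_⟩
  intro y i c hc hy R hR
  have h1 := Dom.bessel_sum he hY h (sq_nonneg _) (Y ^ i) (nonneg_pow hY.nonneg _) R
    (fun t => y * Y ^ (R - 1 - t)) (fun _ => c) (fun _ _ => hc)
    (fun t ht => by
      have e1 : Y ^ (R - 1 - t) * Y ^ i = Y ^ i * Y ^ (R - 1 - t) := by
        rw [← pow_add, ← pow_add, add_comm]
      rw [e1]
      exact hy.mul_right (prob_pow hY _) (nonneg_pow hY.nonneg _) hc)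
  have e2 : (∑ t ∈ range R, Y ^ t * e * (y * Y ^ (R - 1 - t)))
      = ∑ t ∈ range R, Y ^ t * e * y * Y ^ (R - 1 - t) :=
    Finset.sum_congr rfl fun t _ => by simp only [mul_assoc]
  rw [e2, ← pow_add] at h1
  have e3 : R + i = R - 1 + 1 + i := by (clear * - hR; omega)
  rw [e3] at h1
  refine h1.mono (nonneg_pow hY.nonneg _) (_root_.le_of_eq ?_)
  rw [Finset.sum_const, Finset.card_range, nsmul_eq_mul]; ring

/-- The joint shift lemma: a bracket `X` between `Y ^ M`, in the outer contexts `A` and `V`. -/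
theorem Nm.joint_shift {X A V : MonoidAlgebra ℝ G} (hY : Prob Y) (hA : Prob A) (hV : Prob V)
    {r τ : ℝ} {j M R : ℕ} (h : Nm Y X j r) (hR : 1 ≤ R) (hRM : R ≤ M)
    (hτ : ∀ t < R, l1 (A * Y ^ M - A * Y ^ (M + t)) + l1 (Y ^ M * V - Y ^ (M - t) * V) ≤ τ) :
    Dom (A * (Y ^ M * X * Y ^ M) * V) (A * Y ^ (M + j + M) * V) ((4 * τ + 2 / R) * r ^ 2) := by
  have hτ0 : 0 ≤ τ := by
    refine _root_.le_trans ?_ (hτ 0 (by omega))
    exact add_nonneg (l1_nonneg _) (l1_nonneg _)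
  have hRpos : (0 : ℝ) < R := by exact_mod_cast hR
  set B := A * Y ^ (M + j + M) * V with hB
  have hBn : nonneg B :=
    nonneg_mul (nonneg_mul hA.nonneg (nonneg_pow hY.nonneg _)) hV.nonneg
  set Z : ℕ → MonoidAlgebra ℝ G := fun t => A * (Y ^ (M + t) * X * Y ^ (M - t)) * V with hZ
  have h1 : ∀ t < R, Dom (Z 0 - Z t) B (2 * τ * r ^ 2) := by
    intro t ht
    have h0 := Dom.shift (prob_mul hA (prob_pow hY M)) (prob_mul (prob_pow hY M) hV)
      (prob_mul hA (prob_pow hY (M + t))) (prob_mul (prob_pow hY (M - t)) hV)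
      h.dom (sq_nonneg _) (nonneg_pow hY.nonneg _) (hτ t ht)
    have e1 : A * Y ^ M * Y ^ j * (Y ^ M * V) = B := by
      rw [hB, pow_add Y (M + j) M, pow_add Y M j]; simp only [mul_assoc]
    have e2 : A * Y ^ (M + t) * Y ^ j * (Y ^ (M - t) * V) = B := by
      have : M + j + M = (M + t) + j + (M - t) := by omega
      rw [hB, this, pow_add _ _ (M - t), pow_add _ (M + t)]; simp only [mul_assoc]
    have e3 : A * Y ^ M * X * (Y ^ M * V) - A * Y ^ (M + t) * X * (Y ^ (M - t) * V)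
        = Z 0 - Z t := by
      simp only [hZ, Nat.add_zero, Nat.sub_zero, mul_assoc]
    rw [e1, e2, e3, ← two_smul ℝ B] at h0
    have := h0.base_smul
    exact this.mono hBn (_root_.le_of_eq (by ring))
  have h2 : Dom ((1 / (R : ℝ)) • ∑ t ∈ range R, (Z 0 - Z t)) B (2 * τ * r ^ 2) := by
    have hc : 0 ≤ 2 * τ * r ^ 2 := by (clear * - hτ0; positivity)
    have h0 := (Dom.sum (range R) (a := fun _ => Real.sqrt (2 * τ * r ^ 2))
      (fun _ _ => Real.sqrt_nonneg _) hBn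
      (fun t ht => by
        rw [Real.sq_sqrt hc]
        exact h1 t (Finset.mem_range.mp ht))).smul (1 / (R : ℝ))
    refine h0.mono hBn (_root_.le_of_eq ?_)
    rw [Finset.sum_const, Finset.card_range, nsmul_eq_mul, _root_.mul_pow, Real.sq_sqrt hc,
      one_div, inv_pow]
    (clear * - hR; field_simp)
  have h3 : Dom ((1 / (R : ℝ)) • ∑ t ∈ range R, Z t) B (r ^ 2 / R) := by
    have ha := h.av (Y ^ (M - (R - 1))) (M - (R - 1)) 1 zero_le_one (by
      have := Dom.self (nonneg_pow hY.nonneg (M - (R - 1)))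
      rwa [(prob_pow hY _).aug] at this) R hR
    have hc : 0 ≤ (R : ℝ) * r ^ 2 * 1 := by (clear * - hR; positivity)
    have hb := ((ha.mul_left (prob_mul hA (prob_pow hY M))).mul_right hV
      (nonneg_mul (nonneg_mul hA.nonneg (nonneg_pow hY.nonneg _)) (nonneg_pow hY.nonneg _))
      hc).smul (1 / (R : ℝ))
    have e2 : A * Y ^ M * Y ^ (R - 1 + j + (M - (R - 1))) * V = B := by
      rw [hB, mul_assoc A, ← pow_add]
      congr 3
      omega
    have e3 : A * Y ^ M * (∑ t ∈ range R, Y ^ t * X * Y ^ (M - (R - 1)) * Y ^ (R - 1 - t)) * V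
        = ∑ t ∈ range R, Z t := by
      rw [Finset.mul_sum, Finset.sum_mul]
      refine Finset.sum_congr rfl fun t ht => ?_
      have htR := Finset.mem_range.mp ht
      have e4 : Y ^ (M - (R - 1)) * Y ^ (R - 1 - t) = Y ^ (M - t) := by
        rw [← pow_add]; congr 1; omega
      calc A * Y ^ M * (Y ^ t * X * Y ^ (M - (R - 1)) * Y ^ (R - 1 - t)) * V
          = A * ((Y ^ M * Y ^ t) * X * (Y ^ (M - (R - 1)) * Y ^ (R - 1 - t))) * V := by
            simp only [mul_assoc]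
        _ = Z t := by rw [e4, ← pow_add]
    rw [e2, e3] at hb
    refine hb.mono hBn (_root_.le_of_eq ?_)
    (clear * - hR; field_simp)
  have e5 : A * (Y ^ M * X * Y ^ M) * V
      = (1 / (R : ℝ)) • ∑ t ∈ range R, (Z 0 - Z t) + (1 / (R : ℝ)) • ∑ t ∈ range R, Z t := by
    have e6 : Z 0 = A * (Y ^ M * X * Y ^ M) * V := by
      simp only [hZ, Nat.add_zero, Nat.sub_zero]
    rw [← smul_add, ← Finset.sum_add_distrib]
    simp only [sub_add_cancel, Finset.sum_const, Finset.card_range]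
    rw [← e6, ← Nat.cast_smul_eq_nsmul ℝ, smul_smul, one_div, inv_mul_cancel₀ hRpos.ne', one_smul]
  rw [e5]
  refine (h2.add2 h3).mono hBn (_root_.le_of_eq ?_)
  ring

end nm

end Vale.Agent.P321.MA
end

section

/-!
One level of the construction, starting from a background `Y` and two letters
`Y + e - f`, `Y + e + f`.
-/

namespace Vale.Agent.P321.MA

open Finset

variable {G : Type*} [Monoid G]

/-- level datum -/
structure Trip (Y e f : MonoidAlgebra ℝ G) (a b c C : ℝ) : Prop where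
  hY : Prob Y
  e0 : aug e = 0
  f0 : aug f = 0
  hf : Dom f Y (a ^ 2)
  he : Dom e Y (b ^ 2)
  a0 : 0 ≤ a
  a1 : a ≤ 1
  b0 : 0 ≤ b
  b1 : b ≤ 1
  c0 : 0 < c
  c1 : c ≤ 1
  C1 : 1 ≤ C
  pM : Prob (Y + e - f)
  pP : Prob (Y + e + f)
  loM : le (c • Y) (Y + e - f)
  loP : le (c • Y) (Y + e + f)
  hiM : le (Y + e - f) (C • Y)
  hiP : le (Y + e + f) (C • Y)

/-- half sum and half difference of the two Thue-Morse words -/
noncomputable def SD (Y e f : MonoidAlgebra ℝ G) : ℕ → MonoidAlgebra ℝ G × MonoidAlgebra ℝ G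
  | 0 => (Y + e, f)
  | k + 1 => ((SD Y e f k).1 * (SD Y e f k).1 - (SD Y e f k).2 * (SD Y e f k).2,
      (SD Y e f k).2 * (SD Y e f k).1 - (SD Y e f k).1 * (SD Y e f k).2)

theorem wd_tm (Y e f : MonoidAlgebra ℝ G) (k : ℕ) :
    wd (Y + e - f) (Y + e + f) (tmb k) = (SD Y e f k).1 - (SD Y e f k).2 ∧
      wd (Y + e - f) (Y + e + f) (tmc k) = (SD Y e f k).1 + (SD Y e f k).2 := by
  induction k with
  | zero =>
    constructor
    · change (Y + e - f) * 1 = Y + e - f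
      rw [mul_one]
    · change (Y + e + f) * 1 = Y + e + f
      rw [mul_one]
  | succ k ih =>
    obtain ⟨h1, h2⟩ := ih
    constructor
    · rw [tmb_succ, wd_append, h1, h2, SD]
      noncomm_ring
    · rw [tmc_succ, wd_append, h1, h2, SD]
      noncomm_ring

/-- linear part -/
noncomputable def lam (Y f : MonoidAlgebra ℝ G) (k : ℕ) : MonoidAlgebra ℝ G := sand (kap Y k) f

theorem lam_zero (Y f : MonoidAlgebra ℝ G) : lam Y f 0 = f := sand_one f

theorem lam_succ (Y f : MonoidAlgebra ℝ G) (k : ℕ) :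
    lam Y f (k + 1) = lam Y f k * Y ^ 2 ^ k - Y ^ 2 ^ k * lam Y f k := by
  rw [lam, kap, mul_sub, sand_sub_left, ← sand_mul_right]
  have hc := commute_kap Y (2 ^ k) 0 k
  rw [pow_zero] at hc
  rw [← hc.eq, ← mul_sand_left, lam]

/-- even remainder -/
noncomputable def Sr (Y e f : MonoidAlgebra ℝ G) (k : ℕ) : MonoidAlgebra ℝ G :=
  (SD Y e f k).1 - Y ^ 2 ^ k

/-- odd remainder -/
noncomputable def Dr (Y e f : MonoidAlgebra ℝ G) (k : ℕ) : MonoidAlgebra ℝ G :=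
  (SD Y e f k).2 - lam Y f k

theorem Sr_succ (Y e f : MonoidAlgebra ℝ G) (k : ℕ) :
    Sr Y e f (k + 1) = Sr Y e f k * Y ^ 2 ^ k + Y ^ 2 ^ k * Sr Y e f k
      + Sr Y e f k * Sr Y e f k
      - (lam Y f k + Dr Y e f k) * (lam Y f k + Dr Y e f k) := by
  have hp : Y ^ 2 ^ (k + 1) = Y ^ 2 ^ k * Y ^ 2 ^ k := by
    rw [← pow_add]; congr 1; ring
  rw [Sr, SD, hp, Sr, Dr]
  noncomm_ring

theorem Dr_succ (Y e f : MonoidAlgebra ℝ G) (k : ℕ) :
    Dr Y e f (k + 1) = (Dr Y e f k * Y ^ 2 ^ k - Y ^ 2 ^ k * Dr Y e f k)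
      + (Dr Y e f k * Sr Y e f k - Sr Y e f k * Dr Y e f k)
      + (lam Y f k * Sr Y e f k - Sr Y e f k * lam Y f k) := by
  rw [Dr, SD, lam_succ, Dr, Sr]
  noncomm_ring

theorem Trip.lam_nm {Y e f : MonoidAlgebra ℝ G} {a b c C : ℝ} (h : Trip Y e f a b c C) (k : ℕ) :
    Nm Y (lam Y f k) (2 ^ k) (2 ^ k * a) := by
  induction k with
  | zero =>
    rw [lam_zero, pow_zero, pow_zero, one_mul]
    exact Nm.base h.hY h.f0 h.a0 h.hf
  | succ k ih =>
    rw [lam_succ]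
    have := (ih.mul_pow h.hY (2 ^ k)).sub h.hY.nonneg (ih.pow_mul h.hY (2 ^ k))
    have e1 : 2 ^ k + 2 ^ k = 2 ^ (k + 1) := by ring
    have e2 : (2 : ℝ) ^ k * a + 2 ^ k * a = 2 ^ (k + 1) * a := by ring
    rwa [e1, e2] at this

/-- bounds for the norms of the remainders -/
noncomputable def sd (a b : ℝ) : ℕ → ℝ × ℝ
  | 0 => (b, 0)
  | k + 1 => ((sd a b k).1 + (sd a b k).1 + (sd a b k).1 * (sd a b k).1
        + (2 ^ k * a + (sd a b k).2) * (2 ^ k * a + (sd a b k).2),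
      ((sd a b k).2 + (sd a b k).2)
        + ((sd a b k).2 * (sd a b k).1 + (sd a b k).1 * (sd a b k).2)
        + (2 ^ k * a * (sd a b k).1 + (sd a b k).1 * (2 ^ k * a)))

theorem Trip.SD_nm {Y e f : MonoidAlgebra ℝ G} {a b c C : ℝ} (h : Trip Y e f a b c C) (k : ℕ) :
    Nm Y (Sr Y e f k) (2 ^ k) (sd a b k).1 ∧ Nm Y (Dr Y e f k) (2 ^ k) (sd a b k).2 := by
  induction k with
  | zero =>
    constructor
    · have e1 : Sr Y e f 0 = e := by
        rw [Sr, SD, pow_zero, pow_one]; simp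
      rw [e1, pow_zero]
      exact Nm.base h.hY h.e0 h.b0 h.he
    · have e1 : Dr Y e f 0 = 0 := by
        rw [Dr, SD, lam_zero]; simp
      rw [e1]
      exact Nm.zero h.hY.nonneg _
  | succ k ih =>
    obtain ⟨hS, hD⟩ := ih
    have hL := h.lam_nm k
    have hn := h.hY.nonneg
    have e1 : 2 ^ k + 2 ^ k = 2 ^ (k + 1) := by ring
    constructor
    · rw [Sr_succ]
      have hLD := hL.add hn hD
      have := (((hS.mul_pow h.hY (2 ^ k)).add hn (hS.pow_mul h.hY (2 ^ k))).add hn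
        (hS.mul hn hS)).sub hn (hLD.mul hn hLD)
      rwa [e1] at this
    · rw [Dr_succ]
      have := (((hD.mul_pow h.hY (2 ^ k)).sub hn (hD.pow_mul h.hY (2 ^ k))).add hn
        ((hD.mul hn hS).sub hn (hS.mul hn hD))).add hn ((hL.mul hn hS).sub hn (hS.mul hn hL))
      rwa [e1] at this

/-- constants -/
noncomputable def Kc : ℕ → ℝ
  | 0 => 1
  | k + 1 => 2 * Kc k + 2 * Kc k ^ 2 + (2 ^ k + 2 * Kc k) ^ 2 + 2 * Kc k * (1 + 2 * Kc k)
      + 2 * 2 ^ k * Kc k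

theorem Kc_one_le (k : ℕ) : 1 ≤ Kc k := by
  induction k with
  | zero => exact _root_.le_rfl
  | succ k ih =>
    rw [Kc]
    have h1 : (0 : ℝ) ≤ 2 ^ k := by (clear * -; positivity)
    nlinarith only [ih]

theorem sd_bound {a b : ℝ} (a0 : 0 ≤ a) (a1 : a ≤ 1) (b0 : 0 ≤ b) (b1 : b ≤ 1) (k : ℕ) :
    0 ≤ (sd a b k).1 ∧ 0 ≤ (sd a b k).2 ∧
      (sd a b k).1 ≤ Kc k * (b + a ^ 2) ∧ (sd a b k).2 ≤ Kc k * (a * (b + a ^ 2)) := by
  induction k with
  | zero =>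
    simp only [sd, Kc, one_mul]
    refine ⟨b0, _root_.le_rfl, ?_, ?_⟩
    · nlinarith only []
    · (clear * - a0 b0; positivity)
  | succ k ih =>
    obtain ⟨s0, d0, hs, hd⟩ := ih
    set s := (sd a b k).1 with hs'
    set d := (sd a b k).2 with hd'
    set K := Kc k with hK
    have hK1 : 1 ≤ K := Kc_one_le k
    have hK0 : 0 ≤ K := by linarith only [hK1]
    set m : ℝ := 2 ^ k with hm
    have hm0 : 0 ≤ m := by positivity
    set η := b + a ^ 2 with hη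
    have hη0 : 0 ≤ η := by (clear * - b0; positivity)
    have hη2 : η ≤ 2 := by nlinarith only [a1, b1, a0]
    have hd2 : d ≤ 2 * K * a := by
      calc d ≤ K * (a * η) := hd
        _ ≤ K * (a * 2) := by (clear * - hη2 a0 hK1; gcongr)
        _ = 2 * K * a := by ring
    have hs2 : s ≤ 2 * K := by
      calc s ≤ K * η := hs
        _ ≤ K * 2 := by (clear * - hη2 hK1; gcongr)
        _ = 2 * K := by ring
    have ha2 : a ^ 2 ≤ η := by rw [hη]; linarith only [b0]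
    simp only [sd, Kc]
    rw [← hs', ← hd', ← hK, ← hm]
    refine ⟨by (clear * - s0 a0 d0; positivity), by (clear * - d0 s0 a0; positivity), ?_, ?_⟩
    · have h1 : s * s ≤ 2 * K ^ 2 * η := by
        calc s * s ≤ (2 * K) * (K * η) := mul_le_mul hs2 hs s0 (by positivity)
          _ = 2 * K ^ 2 * η := by ring
      have h2 : (m * a + d) * (m * a + d) ≤ (m + 2 * K) ^ 2 * η := by
        have h3 : m * a + d ≤ (m + 2 * K) * a := by linarith only [hd2]
        calc (m * a + d) * (m * a + d) ≤ ((m + 2 * K) * a) * ((m + 2 * K) * a) :=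
              mul_le_mul h3 h3 (by (clear * - a0 d0; positivity)) (by positivity)
          _ = (m + 2 * K) ^ 2 * a ^ 2 := by ring
          _ ≤ (m + 2 * K) ^ 2 * η := mul_le_mul_of_nonneg_left ha2 (by positivity)
      have h4 : 0 ≤ (2 * K * (1 + 2 * K) + 2 * m * K) * η := by (clear * - hK1 b0; positivity)
      linarith only [h4, h2, h1, hs]
    · have h1 : d * s ≤ 2 * K * (K * (a * η)) := by
        calc d * s ≤ (K * (a * η)) * (2 * K) := mul_le_mul hd hs2 s0 (by (clear * - hK1 a0 b0; positivity))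
          _ = _ := by ring
      have h2 : m * a * s ≤ m * K * (a * η) := by
        calc m * a * s ≤ m * a * (K * η) := mul_le_mul_of_nonneg_left hs (by (clear * - a0; positivity))
          _ = _ := by ring
      have h4 : 0 ≤ (2 * K ^ 2 + (m + 2 * K) ^ 2) * (a * η) := by (clear * - hK1 a0 b0; positivity)
      linarith only [h4, h2, h1, hd, d0]

theorem Trip.Sr_nm {Y e f : MonoidAlgebra ℝ G} {a b c C : ℝ} (h : Trip Y e f a b c C) (k : ℕ) :
    Nm Y (Sr Y e f k) (2 ^ k) (Kc k * (b + a ^ 2)) :=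
  (h.SD_nm k).1.mono h.hY.nonneg (sd_bound h.a0 h.a1 h.b0 h.b1 k).2.2.1

theorem Trip.Dr_nm {Y e f : MonoidAlgebra ℝ G} {a b c C : ℝ} (h : Trip Y e f a b c C) (k : ℕ) :
    Nm Y (Dr Y e f k) (2 ^ k) (Kc k * (a * (b + a ^ 2))) :=
  (h.SD_nm k).2.mono h.hY.nonneg (sd_bound h.a0 h.a1 h.b0 h.b1 k).2.2.2

/-- first order terms with a long background on both sides -/
theorem dom_lam {Y f : MonoidAlgebra ℝ G} (hY : Prob Y) {A φ : ℝ} {M0 : ℕ} (hf : Dom f Y A)
    (hA : 0 ≤ A) (hφ : l1 ((1 - Y) * Y ^ M0) ≤ φ) (k M : ℕ) (hM : k * M0 ≤ M) :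
    Dom (Y ^ M * lam Y f k * Y ^ M) (Y ^ (M + 2 ^ k + M)) ((2 ^ k * φ) ^ k * A * 2 ^ k) := by
  rw [lam, ← sand_kap_ctx]
  have h1 := Dom.sand hf hA hY.nonneg (absm_tens_pow_mul_le hY k M)
  rw [sand_kap'_ctx, sand_kap', mul_smul_comm, smul_mul_assoc, ← pow_add, ← pow_add] at h1
  have h2 := h1.base_smul
  refine h2.mono (nonneg_pow hY.nonneg _) ?_
  have h3 := l1_kap hY hφ k M hM
  exact mul_le_mul_of_nonneg_right (mul_le_mul_of_nonneg_right h3 hA) (by positivity)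

/-- the next letter, with background `Y` -/
noncomputable def upT (Y X0 X1 : MonoidAlgebra ℝ G) (l : List Bool) (M : ℕ) :
    MonoidAlgebra ℝ G := Y ^ M * wd X0 X1 l * Y ^ M

theorem wd_prob' {X0 X1 : MonoidAlgebra ℝ G} (h0 : Prob X0) (h1 : Prob X1) (l : List Bool) :
    Prob (wd X0 X1 l) := by
  induction l with
  | nil => exact prob_one
  | cons b l ih =>
    rw [wd_cons]
    cases b
    · simpa using prob_mul h0 ih
    · simpa using prob_mul h1 ih

theorem upT_prob {Y X0 X1 : MonoidAlgebra ℝ G} (hY : Prob Y) (h0 : Prob X0) (h1 : Prob X1)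
    (l : List Bool) (M : ℕ) : Prob (upT Y X0 X1 l M) :=
  prob_mul (prob_mul (prob_pow hY M) (wd_prob' h0 h1 l)) (prob_pow hY M)

theorem wd_lo' {Y X0 X1 : MonoidAlgebra ℝ G} {c : ℝ} (hc : 0 ≤ c) (hY : nonneg Y)
    (h0 : le (c • Y) X0) (h1 : le (c • Y) X1) (l : List Bool) :
    le (c ^ l.length • Y ^ l.length) (wd X0 X1 l) := by
  induction l with
  | nil => simpa [wd_nil] using le_refl (1 : MonoidAlgebra ℝ G)
  | cons b l ih =>
    rw [wd_cons, List.length_cons, pow_succ', pow_succ', mul_smul, ← mul_smul_comm,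
      ← smul_mul_assoc]
    refine le_mul (nonneg_smul hc hY) (nonneg_smul (pow_nonneg hc _) (nonneg_pow hY _)) ?_ ih
    cases b
    · simpa using h0
    · simpa using h1

theorem wd_hi' {Y X0 X1 : MonoidAlgebra ℝ G} {C : ℝ} (p0 : Prob X0) (p1 : Prob X1)
    (h0 : le X0 (C • Y)) (h1 : le X1 (C • Y)) (l : List Bool) :
    le (wd X0 X1 l) (C ^ l.length • Y ^ l.length) := by
  induction l with
  | nil => simpa [wd_nil] using le_refl (1 : MonoidAlgebra ℝ G)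
  | cons b l ih =>
    rw [wd_cons, List.length_cons, pow_succ', pow_succ', mul_smul, ← mul_smul_comm,
      ← smul_mul_assoc]
    refine le_mul ?_ (wd_prob' p0 p1 l).nonneg ?_ ih
    · cases b
      · simpa using p0.nonneg
      · simpa using p1.nonneg
    · cases b
      · simpa using h0
      · simpa using h1

theorem upT_lo {Y X0 X1 : MonoidAlgebra ℝ G} {c : ℝ} (hc : 0 ≤ c) (hY : nonneg Y)
    (h0 : le (c • Y) X0) (h1 : le (c • Y) X1) (l : List Bool) (M : ℕ) :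
    le (c ^ l.length • Y ^ (M + l.length + M)) (upT Y X0 X1 l M) := by
  have hn := nonneg_pow hY
  have h := le_mul_mul (hn M) (hn M) (wd_lo' hc hY h0 h1 l)
  rwa [mul_smul_comm, smul_mul_assoc, ← pow_add, ← pow_add] at h

theorem upT_hi {Y X0 X1 : MonoidAlgebra ℝ G} {C : ℝ} (hY : nonneg Y) (p0 : Prob X0)
    (p1 : Prob X1) (h0 : le X0 (C • Y)) (h1 : le X1 (C • Y)) (l : List Bool) (M : ℕ) :
    le (upT Y X0 X1 l M) (C ^ l.length • Y ^ (M + l.length + M)) := by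
  have hn := nonneg_pow hY
  have h := le_mul_mul (hn M) (hn M) (wd_hi' p0 p1 h0 h1 l)
  rwa [mul_smul_comm, smul_mul_assoc, ← pow_add, ← pow_add] at h

section level

variable {Y e f : MonoidAlgebra ℝ G} {a b c C t : ℝ} {k M : ℕ}

/-- half of the linear part of the new difference -/
noncomputable def Fone (Y f : MonoidAlgebra ℝ G) (k M : ℕ) : MonoidAlgebra ℝ G :=
  Y ^ M * lam Y f k * Y ^ M

theorem upT_sub (Y e f : MonoidAlgebra ℝ G) (k M : ℕ) :
    upT Y (Y + e - f) (Y + e + f) (tmc k) M - upT Y (Y + e - f) (Y + e + f) (tmb k) M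
      = (2 : ℝ) • Fone Y f k M + Y ^ M * ((2 : ℝ) • Dr Y e f k) * Y ^ M := by
  obtain ⟨h1, h2⟩ := wd_tm Y e f k
  rw [upT, upT, h1, h2, Fone, Dr]
  rw [two_smul, two_smul]
  noncomm_ring

theorem upT_sub_pow (Y e f : MonoidAlgebra ℝ G) (k M : ℕ) :
    upT Y (Y + e - f) (Y + e + f) (tmb k) M - Y ^ (M + 2 ^ k + M)
        = Y ^ M * (Sr Y e f k - Dr Y e f k) * Y ^ M - Fone Y f k M ∧
      upT Y (Y + e - f) (Y + e + f) (tmc k) M - Y ^ (M + 2 ^ k + M)
        = Y ^ M * (Sr Y e f k + Dr Y e f k) * Y ^ M + Fone Y f k M := by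
  obtain ⟨h1, h2⟩ := wd_tm Y e f k
  have e1 : Y ^ (M + 2 ^ k + M) = Y ^ M * Y ^ 2 ^ k * Y ^ M := by
    rw [pow_add, pow_add]
  constructor
  · rw [upT, h1, e1, Fone, Dr, Sr]
    noncomm_ring
  · rw [upT, h2, e1, Fone, Dr, Sr]
    noncomm_ring

/-- constant of one level -/
noncomputable def KL (k : ℕ) : ℝ := 8 * Kc k ^ 2 + 8 * 2 ^ k

theorem KL_one_le (k : ℕ) : 1 ≤ KL k := by
  have := Kc_one_le k
  have h2 : (0 : ℝ) ≤ 8 * 2 ^ k := by positivity
  unfold KL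
  nlinarith only [this, h2]

theorem Trip.Fone_dom (h : Trip Y e f a b c C) {M0 : ℕ} (hM : k * M0 ≤ M)
    (ht : (2 ^ k * l1 ((1 - Y) * Y ^ M0)) ^ k ≤ t) :
    Dom (Fone Y f k M) (Y ^ (M + 2 ^ k + M)) (2 ^ k * t) := by
  have h1 := dom_lam h.hY h.hf (sq_nonneg a) _root_.le_rfl k M hM
  refine h1.mono (nonneg_pow h.hY.nonneg _) ?_
  have ha : a ^ 2 ≤ 1 := pow_le_one₀ h.a0 h.a1
  have h0 : 0 ≤ (2 ^ k * l1 ((1 - Y) * Y ^ M0)) ^ k := by
    have := l1_nonneg ((1 - Y) * Y ^ M0)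
    (clear * - this; positivity)
  calc (2 ^ k * l1 ((1 - Y) * Y ^ M0)) ^ k * a ^ 2 * 2 ^ k
      ≤ t * 1 * 2 ^ k := by
        refine mul_le_mul_of_nonneg_right ?_ (by positivity)
        exact mul_le_mul ht ha (sq_nonneg a) (h0.trans ht)
    _ = _ := by ring

theorem tiny_nonneg {M0 : ℕ} (ht : (2 ^ k * l1 ((1 - Y) * Y ^ M0)) ^ k ≤ t) : 0 ≤ t := by
  have := l1_nonneg ((1 - Y) * Y ^ M0)
  exact _root_.le_trans (by positivity) ht

/-- size of the difference of the two new letters -/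
theorem Trip.diff_dom (h : Trip Y e f a b c C) {M0 : ℕ} (hM : k * M0 ≤ M)
    (ht : (2 ^ k * l1 ((1 - Y) * Y ^ M0)) ^ k ≤ t) :
    Dom (upT Y (Y + e - f) (Y + e + f) (tmc k) M - upT Y (Y + e - f) (Y + e + f) (tmb k) M)
      (Y ^ (M + 2 ^ k + M)) (KL k * ((a * (b + a ^ 2)) ^ 2 + t)) := by
  have hn := nonneg_pow h.hY.nonneg
  have ht0 := tiny_nonneg ht
  rw [upT_sub]
  have h1 := (h.Fone_dom hM ht).smul 2
  have h2 := (((h.Dr_nm k).dom.smul 2).mul_left (prob_pow h.hY M)).mul_right (prob_pow h.hY M)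
    (nonneg_mul (hn _) (hn _)) (by (clear * -; positivity))
  rw [← pow_add, ← pow_add] at h2
  refine (h1.add2 h2).mono (hn _) ?_
  have e1 : 2 * (2 ^ 2 * (2 ^ k * t)) + 2 * (2 ^ 2 * (Kc k * (a * (b + a ^ 2))) ^ 2)
      = 8 * 2 ^ k * t + 8 * Kc k ^ 2 * (a * (b + a ^ 2)) ^ 2 := by ring
  rw [e1, KL]
  have h3 : 0 ≤ 8 * (2 : ℝ) ^ k * (a * (b + a ^ 2)) ^ 2 := by (clear * -; positivity)
  have h4 : 0 ≤ 8 * Kc k ^ 2 * t := by (clear * - ht0; positivity)
  linarith only [h4, h3]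

/-- presence of one new letter -/
theorem Trip.pres_dom (h : Trip Y e f a b c C) {M0 : ℕ} (hM : k * M0 ≤ M)
    (ht : (2 ^ k * l1 ((1 - Y) * Y ^ M0)) ^ k ≤ t) :
    Dom (upT Y (Y + e - f) (Y + e + f) (tmb k) M - Y ^ (M + 2 ^ k + M)) (Y ^ (M + 2 ^ k + M))
        (KL k * ((b + a ^ 2) ^ 2 + t)) ∧
      Dom (upT Y (Y + e - f) (Y + e + f) (tmc k) M - Y ^ (M + 2 ^ k + M)) (Y ^ (M + 2 ^ k + M))
        (KL k * ((b + a ^ 2) ^ 2 + t)) := by
  have hn := nonneg_pow h.hY.nonneg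
  have ht0 := tiny_nonneg ht
  have hK := Kc_one_le k
  have a0 := h.a0
  have b0 := h.b0
  have hη : 0 ≤ b + a ^ 2 := by (clear * - b0; positivity)
  have hab : Kc k * (b + a ^ 2) + Kc k * (a * (b + a ^ 2)) ≤ 2 * Kc k * (b + a ^ 2) := by
    have : a * (b + a ^ 2) ≤ 1 * (b + a ^ 2) := mul_le_mul_of_nonneg_right h.a1 hη
    linarith only [mul_nonneg (sub_nonneg.2 this) (sub_nonneg.2 hK), this]
  have h1 := h.Fone_dom hM ht
  have hS := h.Sr_nm k
  have hD := h.Dr_nm k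
  have key : ∀ X : MonoidAlgebra ℝ G, Nm Y X (2 ^ k) (2 * Kc k * (b + a ^ 2)) →
      Dom (Y ^ M * X * Y ^ M) (Y ^ (M + 2 ^ k + M)) ((2 * Kc k * (b + a ^ 2)) ^ 2) := by
    intro X hX
    have h2 := (hX.dom.mul_left (prob_pow h.hY M)).mul_right (prob_pow h.hY M)
      (nonneg_mul (hn _) (hn _)) (sq_nonneg _)
    rwa [← pow_add, ← pow_add] at h2
  have hb : 2 * (2 * Kc k * (b + a ^ 2)) ^ 2 + 2 * (2 ^ k * t)
      ≤ KL k * ((b + a ^ 2) ^ 2 + t) := by
    rw [KL]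
    have h3 : 0 ≤ 8 * (2 : ℝ) ^ k * (b + a ^ 2) ^ 2 := by (clear * -; positivity)
    have h4 : 0 ≤ 8 * Kc k ^ 2 * t := by (clear * - hK ht0; positivity)
    have h5 : 0 ≤ 6 * (2 : ℝ) ^ k * t := by (clear * - ht0; positivity)
    linarith only [h5, h4, h3]
  constructor
  · rw [(upT_sub_pow Y e f k M).1]
    exact ((key _ ((hS.sub h.hY.nonneg hD).mono h.hY.nonneg hab)).sub2 h1).mono (hn _) hb
  · rw [(upT_sub_pow Y e f k M).2]
    exact ((key _ ((hS.add h.hY.nonneg hD).mono h.hY.nonneg hab)).add2 h1).mono (hn _) hb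

end level

/-- presence of a word in two letters which are both close to `ρ`. -/
theorem pres_word {ρ Z0 Z1 : MonoidAlgebra ℝ G} {ω : ℝ} (hρ : Prob ρ) (hω : 0 ≤ ω)
    (p0 : Prob Z0) (p1 : Prob Z1) (h0 : Dom (Z0 - ρ) ρ ω) (h1 : Dom (Z1 - ρ) ρ ω)
    (L : List Bool) :
    Dom (wd Z0 Z1 L) (ρ ^ L.length) ((1 + ω) ^ L.length) ∧
      l1 (wd Z0 Z1 L - ρ ^ L.length) ≤ Real.sqrt ((1 + ω) ^ L.length - 1) := by
  have e : wd Z0 Z1 L = (L.map fun b => if b then Z1 else Z0).prod := by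
    induction L with
    | nil => rfl
    | cons b l ih => rw [wd_cons, ih, List.map_cons, List.prod_cons]
  have h2 := Dom.tensor_list hρ hω (L.map fun b => if b then Z1 else Z0) (by
    intro x hx
    rw [List.mem_map] at hx
    obtain ⟨b, _, rfl⟩ := hx
    cases b
    · simp only [Bool.false_eq_true, if_false]
      exact ⟨p0.aug, h0⟩
    · simp only [if_true]
      exact ⟨p1.aug, h1⟩)
  rw [List.length_map, ← e] at h2
  refine ⟨h2.1, h2.2.l1_le (nonneg_pow hρ.nonneg _) (prob_pow hρ _).aug ?_⟩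
  have := one_le_pow₀ (by linarith : (1 : ℝ) ≤ 1 + ω) (n := L.length)
  linarith only [this]

end Vale.Agent.P321.MA
end

section

/-!
Two levels: the gain coming from the joint shift of a bracket.
-/

namespace Vale.Agent.P321.MA

open Finset

variable {G : Type*} [Monoid G]

/-- all hypotheses used in the analysis of the upper level -/
structure WL (Y Z0 Z1 F1 B : MonoidAlgebra ℝ G) (M j n0 M' m' R : ℕ)
    (c₁ C₁ ω t1 r τ : ℝ) : Prop where
  hY : Prob Y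
  p0 : Prob Z0
  p1 : Prob Z1
  hc : 0 < c₁
  hc1 : c₁ ≤ 1
  hC : 1 ≤ C₁
  lo : le (c₁ • Y ^ (M + j + M)) Z0
  hi : le Z1 (C₁ • Z0)
  ω0 : 0 ≤ ω
  ω1 : ω ≤ 1
  d0 : Dom (Z0 - Y ^ (M + j + M)) (Y ^ (M + j + M)) ω
  d1 : Dom (Z1 - Y ^ (M + j + M)) (Y ^ (M + j + M)) ω
  diff : Z1 - Z0 = F1 + Y ^ M * B * Y ^ M
  dF1 : Dom F1 (Y ^ (M + j + M)) t1
  t10 : 0 ≤ t1
  t11 : t1 ≤ 1
  nB : Nm Y B j r
  r1 : r ≤ 1
  hR : 1 ≤ R
  hRM : R ≤ M
  hn : n0 ≤ M'
  hτ : 4 * Real.sqrt ((1 + ω) ^ (n0 + m') - 1)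
    + 2 * R * l1 ((1 - Y) * Y ^ ((M + j + M) * n0)) ≤ τ

section wl

variable {Y Z0 Z1 F1 B : MonoidAlgebra ℝ G} {M j n0 M' m' R : ℕ} {c₁ C₁ ω t1 r τ : ℝ}

theorem wd_replicate (Z0 Z1 : MonoidAlgebra ℝ G) (n : ℕ) :
    wd Z0 Z1 (List.replicate n false) = Z0 ^ n := by
  induction n with
  | zero => rw [List.replicate_zero, wd_nil, pow_zero]
  | succ n ih => rw [List.replicate_succ, wd_cons, ih, pow_succ']; simp

theorem WL.pres (h : WL Y Z0 Z1 F1 B M j n0 M' m' R c₁ C₁ ω t1 r τ) (L : List Bool)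
    (hL : L.length ≤ n0 + m') :
    l1 (wd Z0 Z1 L - Y ^ ((M + j + M) * L.length)) ≤ Real.sqrt ((1 + ω) ^ (n0 + m') - 1) := by
  have h1 := (pres_word (prob_pow h.hY (M + j + M)) h.ω0 h.p0 h.p1 h.d0 h.d1 L).2
  rw [← pow_mul] at h1
  refine h1.trans (Real.sqrt_le_sqrt ?_)
  have := pow_le_pow_right₀ (by linarith only [h.ω0] : (1 : ℝ) ≤ 1 + ω) hL
  linarith only [this]

theorem l1_sub_le_two {x y : MonoidAlgebra ℝ G} (hx : Prob x) (hy : Prob y) :
    l1 (x - y) ≤ 2 := by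
  have := (str (G := G)).nrm_sub x y
  have h1 : (str (G := G)).nrm x = 1 := hx.2
  have h2 : (str (G := G)).nrm y = 1 := hy.2
  rw [h1, h2] at this
  have h3 : (str (G := G)).nrm (x - y) = l1 (x - y) := rfl
  linarith only [this, h3]

theorem WL.ctxL (h : WL Y Z0 Z1 F1 B M j n0 M' m' R c₁ C₁ ω t1 r τ) (a t : ℕ) (ha : n0 ≤ a) :
    l1 (Z0 ^ a * Y ^ M - Z0 ^ a * Y ^ (M + t)) ≤
      2 * Real.sqrt ((1 + ω) ^ (n0 + m') - 1) + t * l1 ((1 - Y) * Y ^ ((M + j + M) * n0)) := by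
  obtain ⟨a', rfl⟩ := Nat.exists_eq_add_of_le ha
  have hw := h.pres (List.replicate n0 false) (by rw [List.length_replicate]; omega)
  rw [wd_replicate, List.length_replicate] at hw
  set S := M + j + M with hS
  set δ := Real.sqrt ((1 + ω) ^ (n0 + m') - 1) with hδ
  have e : Z0 ^ (n0 + a') * Y ^ M - Z0 ^ (n0 + a') * Y ^ (M + t)
      = Z0 ^ a' * ((Z0 ^ n0 - Y ^ (S * n0)) * (Y ^ M - Y ^ (M + t))
        + (Y ^ (S * n0 + M) - Y ^ (S * n0 + M + t))) := by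
    have e1 : Z0 ^ (n0 + a') = Z0 ^ a' * Z0 ^ n0 := by rw [← pow_add]; congr 1; omega
    have e2 : Y ^ (S * n0 + M + t) = Y ^ (S * n0) * Y ^ (M + t) := by
      rw [← pow_add]; congr 1; omega
    have e3 : Y ^ (S * n0 + M) = Y ^ (S * n0) * Y ^ M := by rw [← pow_add]
    rw [e1, e2, e3]
    noncomm_ring
  rw [e]
  refine (l1_mul_prob_left (prob_pow h.p0 a')).trans ((l1_add _ _).trans (add_le_add ?_ ?_))
  · refine (l1_mul _ _).trans ?_
    have h2 := l1_sub_le_two (prob_pow h.hY M) (prob_pow h.hY (M + t))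
    calc l1 (Z0 ^ n0 - Y ^ (S * n0)) * l1 (Y ^ M - Y ^ (M + t)) ≤ δ * 2 :=
          mul_le_mul hw h2 (l1_nonneg _) (Real.sqrt_nonneg _)
      _ = 2 * δ := by ring
  · exact l1_pow_sub_pow h.hY _root_.le_rfl (S * n0 + M) t (by (clear * -; omega))

theorem WL.ctxR (h : WL Y Z0 Z1 F1 B M j n0 M' m' R c₁ C₁ ω t1 r τ) (l : List Bool) (t : ℕ)
    (hl : l.length ≤ m') (ht : t ≤ M) :
    l1 (Y ^ M * (wd Z0 Z1 l * Z0 ^ M') - Y ^ (M - t) * (wd Z0 Z1 l * Z0 ^ M')) ≤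
      2 * Real.sqrt ((1 + ω) ^ (n0 + m') - 1) + t * l1 ((1 - Y) * Y ^ ((M + j + M) * n0)) := by
  obtain ⟨b', hb'⟩ := Nat.exists_eq_add_of_le h.hn
  have hw := h.pres (l ++ List.replicate n0 false) (by
    rw [List.length_append, List.length_replicate]; omega)
  rw [wd_append, wd_replicate, List.length_append, List.length_replicate] at hw
  set S := M + j + M with hS
  set δ := Real.sqrt ((1 + ω) ^ (n0 + m') - 1) with hδ
  set N := S * (l.length + n0) with hN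
  have hNn : S * n0 ≤ N := by rw [hN]; exact Nat.mul_le_mul_left _ (by (clear * -; omega))
  have e : Y ^ M * (wd Z0 Z1 l * Z0 ^ M') - Y ^ (M - t) * (wd Z0 Z1 l * Z0 ^ M')
      = ((Y ^ M - Y ^ (M - t)) * (wd Z0 Z1 l * Z0 ^ n0 - Y ^ N)
        + (Y ^ (M - t + N + t) - Y ^ (M - t + N))) * Z0 ^ b' := by
    have e1 : Z0 ^ M' = Z0 ^ n0 * Z0 ^ b' := by rw [hb', pow_add]
    have e2 : Y ^ (M - t + N + t) = Y ^ M * Y ^ N := by
      rw [← pow_add]; congr 1; (clear * - ht; omega)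
    have e3 : Y ^ (M - t + N) = Y ^ (M - t) * Y ^ N := by rw [← pow_add]
    rw [e1, e2, e3]
    noncomm_ring
  rw [e]
  refine (l1_mul_prob_right (prob_pow h.p0 b')).trans ((l1_add _ _).trans (add_le_add ?_ ?_))
  · refine (l1_mul _ _).trans ?_
    have h2 := l1_sub_le_two (prob_pow h.hY M) (prob_pow h.hY (M - t))
    exact mul_le_mul h2 hw (l1_nonneg _) (by norm_num)
  · rw [l1_sub_comm]
    exact l1_pow_sub_pow h.hY _root_.le_rfl (M - t + N) t (by omega)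

/-- the joint shift in the present setting -/
theorem WL.shift (h : WL Y Z0 Z1 F1 B M j n0 M' m' R c₁ C₁ ω t1 r τ) {X : MonoidAlgebra ℝ G}
    {i : ℕ} {s : ℝ} (hX : Nm Y X i s) (a : ℕ) (ha : n0 ≤ a) (l : List Bool)
    (hl : l.length ≤ m') :
    Dom (Z0 ^ a * (Y ^ M * X * Y ^ M) * (wd Z0 Z1 l * Z0 ^ M'))
      (Z0 ^ a * Y ^ (M + i + M) * (wd Z0 Z1 l * Z0 ^ M')) ((4 * τ + 2 / R) * s ^ 2) := by
  refine hX.joint_shift h.hY (prob_pow h.p0 a)
    (prob_mul (wd_prob' h.p0 h.p1 l) (prob_pow h.p0 M')) h.hR h.hRM (fun t ht => ?_)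
  have h1 := h.ctxL a t ha
  have h2 := h.ctxR l t hl (by have := h.hRM; omega)
  have h3 : (t : ℝ) ≤ R := by exact_mod_cast ht.le
  have h4 := mul_le_mul_of_nonneg_right h3 (l1_nonneg ((1 - Y) * Y ^ ((M + j + M) * n0)))
  have := h.hτ
  linarith only [h1, h2, h4, this]

theorem WL.wd_hi (h : WL Y Z0 Z1 F1 B M j n0 M' m' R c₁ C₁ ω t1 r τ) (l : List Bool) :
    le (wd Z0 Z1 l) (C₁ ^ l.length • Z0 ^ l.length) := by
  refine wd_hi' h.p0 h.p1 ?_ h.hi l
  intro w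
  rw [MonoidAlgebra.coeff_smul, Finsupp.smul_apply, smul_eq_mul]
  have := h.p0.nonneg w
  linarith only [mul_nonneg (sub_nonneg.2 this) (sub_nonneg.2 h.hC)]

/-- change of base to powers of `Z0` -/
theorem WL.base (h : WL Y Z0 Z1 F1 B M j n0 M' m' R c₁ C₁ ω t1 r τ) (a n : ℕ) (l : List Bool)
    (hn : n ≤ m' + 2) (hl : l.length ≤ m') :
    le (Z0 ^ a * Y ^ ((M + j + M) * n) * (wd Z0 Z1 l * Z0 ^ M'))
      ((((c₁⁻¹) ^ (m' + 2) * C₁ ^ m')) • Z0 ^ (a + n + l.length + M')) := by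
  have hci : 1 ≤ c₁⁻¹ := (one_le_inv₀ h.hc).mpr h.hc1
  have h1 : le (Y ^ ((M + j + M) * n)) ((c₁⁻¹) ^ n • Z0 ^ n) := by
    have := le_pow (nonneg_pow h.hY.nonneg _) (le_inv_smul h.hc h.lo) n
    rwa [smul_pow, ← pow_mul] at this
  have h2 := h.wd_hi l
  have h0 := nonneg_pow h.p0.nonneg
  have h3 : le (Z0 ^ a * Y ^ ((M + j + M) * n) * (wd Z0 Z1 l * Z0 ^ M'))
      (Z0 ^ a * ((c₁⁻¹) ^ n • Z0 ^ n) * ((C₁ ^ l.length • Z0 ^ l.length) * Z0 ^ M')) := by
    refine le_mul (nonneg_mul (h0 a) (nonneg_pow h.hY.nonneg _))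
      (nonneg_mul (wd_prob' h.p0 h.p1 l).nonneg (h0 M')) ?_ ?_
    · exact le_mul_left (h0 a) h1
    · exact le_mul_right (h0 M') h2
  have e : Z0 ^ a * ((c₁⁻¹) ^ n • Z0 ^ n) * ((C₁ ^ l.length • Z0 ^ l.length) * Z0 ^ M')
      = ((c₁⁻¹) ^ n * C₁ ^ l.length) • Z0 ^ (a + n + l.length + M') := by
    rw [mul_smul_comm, smul_mul_assoc, smul_mul_assoc, mul_smul_comm, smul_smul, ← pow_add,
      ← pow_add, ← pow_add]
    congr 2
    omega
  rw [e] at h3
  refine le_trans h3 ?_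
  intro w
  rw [MonoidAlgebra.coeff_smul, MonoidAlgebra.coeff_smul, Finsupp.smul_apply, Finsupp.smul_apply,
    smul_eq_mul, smul_eq_mul]
  refine mul_le_mul_of_nonneg_right ?_ (h0 _ w)
  exact mul_le_mul (pow_le_pow_right₀ hci hn) (pow_le_pow_right₀ h.hC hl)
    (pow_nonneg (by linarith only [h.hC, h]) _) (pow_nonneg (by linarith only [hci]) _)

/-- constant for the change of base -/
noncomputable def KB (c₁ C₁ : ℝ) (m' : ℕ) : ℝ := (c₁⁻¹) ^ (m' + 2) * C₁ ^ m'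

theorem WL.KB_one_le (h : WL Y Z0 Z1 F1 B M j n0 M' m' R c₁ C₁ ω t1 r τ) :
    1 ≤ KB c₁ C₁ m' := by
  have hci : 1 ≤ c₁⁻¹ := (one_le_inv₀ h.hc).mpr h.hc1
  have h1 := one_le_pow₀ hci (n := m' + 2)
  have h2 := one_le_pow₀ h.hC (n := m')
  unfold KB
  nlinarith only [h1, h2]

theorem WL.τ0 (h : WL Y Z0 Z1 F1 B M j n0 M' m' R c₁ C₁ ω t1 r τ) : 0 ≤ τ := by
  refine _root_.le_trans ?_ h.hτ
  have := l1_nonneg ((1 - Y) * Y ^ ((M + j + M) * n0))
  (clear * - this; positivity)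

theorem WL.R0 (h : WL Y Z0 Z1 F1 B M j n0 M' m' R c₁ C₁ ω t1 r τ) : (0 : ℝ) < R := by
  exact_mod_cast h.hR

/-- one changed cell -/
theorem WL.single (h : WL Y Z0 Z1 F1 B M j n0 M' m' R c₁ C₁ ω t1 r τ) (a : ℕ) (ha : n0 ≤ a)
    (l : List Bool) (hl : l.length ≤ m') :
    Dom (Z0 ^ a * ((Z1 - Z0) * wd Z0 Z1 l) * Z0 ^ M') (Z0 ^ (a + 1 + l.length + M'))
      (KB c₁ C₁ m' * (8 * (τ + 1 / R) * r ^ 2 + 2 * t1)) := by
  have hτ := h.τ0
  have hR := h.R0
  have hV : Prob (wd Z0 Z1 l * Z0 ^ M') := prob_mul (wd_prob' h.p0 h.p1 l) (prob_pow h.p0 M')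
  have h0 := nonneg_pow h.p0.nonneg
  have hYn := nonneg_pow h.hY.nonneg
  have h1 := h.shift h.nB a ha l hl
  have h2 := (h.dF1.mul_left (prob_pow h.p0 a)).mul_right hV
    (nonneg_mul (h0 a) (hYn _)) h.t10
  have h3 := h2.add2 h1
  have e : Z0 ^ a * F1 * (wd Z0 Z1 l * Z0 ^ M')
      + Z0 ^ a * (Y ^ M * B * Y ^ M) * (wd Z0 Z1 l * Z0 ^ M')
      = Z0 ^ a * ((Z1 - Z0) * wd Z0 Z1 l) * Z0 ^ M' := by
    rw [h.diff]
    simp only [mul_add, add_mul, mul_assoc]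
  rw [e] at h3
  have hb := h.base a 1 l (by (clear * -; omega)) hl
  rw [mul_one] at hb
  have h4 := h3.base (by
    have := h.t10
    (clear * - this hτ hR; positivity)) hb
  refine h4.mono (h0 _) ?_
  rw [KB, mul_comm]
  refine mul_le_mul_of_nonneg_left ?_ ?_
  · have : (4 * τ + 2 / (R : ℝ)) ≤ 4 * (τ + 1 / R) := by
      have h5 : 2 / (R : ℝ) = 2 * (1 / R) := by ring
      have h6 : 0 ≤ 1 / (R : ℝ) := by positivity
      rw [h5]; linarith only [h6]
    have h7 := mul_le_mul_of_nonneg_right this (sq_nonneg r)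
    linarith only [h7]
  · have := h.hc
    have := h.hC
    (clear a ha l hl hτ hR hV h0 hYn h1 h2 h3 e hb h4; positivity)

theorem WL.Z0_pow_dom (h : WL Y Z0 Z1 F1 B M j n0 M' m' R c₁ C₁ ω t1 r τ) (g : ℕ) :
    Dom (Z0 ^ g) (Y ^ ((M + j + M) * g)) (2 ^ g) := by
  have h1 := (pres_word (prob_pow h.hY (M + j + M)) h.ω0 h.p0 h.p1 h.d0 h.d1
    (List.replicate g false)).1
  rw [wd_replicate, List.length_replicate, ← pow_mul] at h1
  exact h1.mono (nonneg_pow h.hY.nonneg _)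
    (pow_le_pow_left₀ (by linarith [h.ω0]) (by (clear * - h; linarith [h.ω1])) g)

/-- two changed cells -/
theorem WL.double (h : WL Y Z0 Z1 F1 B M j n0 M' m' R c₁ C₁ ω t1 r τ) (a g : ℕ) (ha : n0 ≤ a)
    (l : List Bool) (hl : g + l.length ≤ m') :
    Dom (Z0 ^ a * ((Z1 - Z0) * (Z0 ^ g * ((Z1 - Z0) * wd Z0 Z1 l))) * Z0 ^ M')
      (Z0 ^ (a + (g + 2) + l.length + M'))
      (KB c₁ C₁ m' * 2 ^ m' * (8 * (τ + 1 / R) * r ^ 4 + 24 * t1)) := by
  have hτ := h.τ0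
  have hR := h.R0
  have hr0 := h.nB.r0
  have hr1 := h.r1
  have ht0 := h.t10
  have ht1 := h.t11
  set S := M + j + M with hS
  have hV : Prob (wd Z0 Z1 l * Z0 ^ M') := prob_mul (wd_prob' h.p0 h.p1 l) (prob_pow h.p0 M')
  have h0 := nonneg_pow h.p0.nonneg
  have hYn := nonneg_pow h.hY.nonneg
  -- the main bracket
  have hG := h.Z0_pow_dom g
  have hG' : Dom (Y ^ M * Z0 ^ g * Y ^ M * B) (Y ^ (M + S * g + M + j))
      ((Real.sqrt (2 ^ g) * r) ^ 2) := by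
    have h1 := ((hG.mul_left (prob_pow h.hY M)).mul_right (prob_pow h.hY M)
      (nonneg_mul (hYn _) (hYn _)) (by positivity)).mul h.nB.dom
      (nonneg_mul (nonneg_mul (hYn _) (hYn _)) (hYn _)) (by positivity)
    rw [← pow_add, ← pow_add, ← pow_add] at h1
    rwa [_root_.mul_pow, Real.sq_sqrt (by positivity)]
  have hX := h.nB.mul_dom h.hY.nonneg (by positivity) hG'
  have h1 := h.shift hX a ha l (by omega)
  -- cross terms
  have hB : Dom (Y ^ M * B * Y ^ M) (Y ^ S) (r ^ 2) := by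
    have := (h.nB.dom.mul_left (prob_pow h.hY M)).mul_right (prob_pow h.hY M)
      (nonneg_mul (hYn _) (hYn _)) (sq_nonneg r)
    rwa [← pow_add, ← pow_add] at this
  have hF : Dom (Z1 - Z0) (Y ^ S) (2 * t1 + 2 * r ^ 2) := by
    rw [h.diff]; exact h.dF1.add2 hB
  have hx1 : Dom (F1 * (Z0 ^ g * (Z1 - Z0))) (Y ^ S * (Y ^ (S * g) * Y ^ S))
      (t1 * (2 ^ g * (2 * t1 + 2 * r ^ 2))) :=
    h.dF1.mul (hG.mul hF (hYn _) (by positivity)) (hYn _) ht0
  have hx2 : Dom ((Y ^ M * B * Y ^ M) * (Z0 ^ g * F1)) (Y ^ S * (Y ^ (S * g) * Y ^ S))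
      (r ^ 2 * (2 ^ g * t1)) :=
    hB.mul (hG.mul h.dF1 (hYn _) (by positivity)) (hYn _) (sq_nonneg r)
  have hx := hx1.add2 hx2
  have eS : Y ^ S * (Y ^ (S * g) * Y ^ S) = Y ^ (S * (g + 2)) := by
    rw [← pow_add, ← pow_add]; congr 1; ring
  have eS2 : M + (j + (M + S * g + M + j)) + M = S * (g + 2) := by
    rw [hS]; ring
  rw [eS] at hx
  rw [eS2] at h1
  have h2 := (hx.mul_left (prob_pow h.p0 a)).mul_right hV
    (nonneg_mul (h0 a) (hYn _)) (by (clear * - ht0; positivity))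
  have h3 := h1.add2 h2
  have e : Z0 ^ a * (Y ^ M * (B * (Y ^ M * Z0 ^ g * Y ^ M * B)) * Y ^ M)
        * (wd Z0 Z1 l * Z0 ^ M')
      + Z0 ^ a * (F1 * (Z0 ^ g * (Z1 - Z0)) + (Y ^ M * B * Y ^ M) * (Z0 ^ g * F1))
        * (wd Z0 Z1 l * Z0 ^ M')
      = Z0 ^ a * ((Z1 - Z0) * (Z0 ^ g * ((Z1 - Z0) * wd Z0 Z1 l))) * Z0 ^ M' := by
    rw [h.diff]
    simp only [mul_add, add_mul, mul_assoc]
    abel
  rw [e] at h3
  have h4 := h3.base (by (clear * - hτ hR ht0; positivity)) (h.base a (g + 2) l (by omega) (by omega))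
  refine h4.mono (h0 _) ?_
  have hg : (2 : ℝ) ^ g ≤ 2 ^ m' := pow_le_pow_right₀ (by norm_num) (by omega)
  have hr2 : r ^ 2 ≤ 1 := pow_le_one₀ hr0 hr1
  have hsq : (r * (Real.sqrt (2 ^ g) * r)) ^ 2 = 2 ^ g * r ^ 4 := by
    rw [_root_.mul_pow, _root_.mul_pow, Real.sq_sqrt (by positivity)]; ring
  rw [hsq]
  have hKB : 0 ≤ KB c₁ C₁ m' := by linarith only [h.KB_one_le]
  have hmain : 2 * ((4 * τ + 2 / (R : ℝ)) * (2 ^ g * r ^ 4))
      + 2 * (2 * (t1 * (2 ^ g * (2 * t1 + 2 * r ^ 2))) + 2 * (r ^ 2 * (2 ^ g * t1)))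
      ≤ 2 ^ m' * (8 * (τ + 1 / R) * r ^ 4 + 24 * t1) := by
    have h5 : (4 * τ + 2 / (R : ℝ)) ≤ 4 * (τ + 1 / R) := by
      have h5 : 2 / (R : ℝ) = 2 * (1 / R) := by ring
      have h6 : 0 ≤ 1 / (R : ℝ) := by (clear * - hR; positivity)
      rw [h5]; linarith only [h6]
    have h6 : 2 * ((4 * τ + 2 / (R : ℝ)) * (2 ^ g * r ^ 4))
        ≤ 2 ^ m' * (8 * (τ + 1 / R) * r ^ 4) := by
      calc 2 * ((4 * τ + 2 / (R : ℝ)) * (2 ^ g * r ^ 4))
          ≤ 2 * ((4 * (τ + 1 / R)) * (2 ^ m' * r ^ 4)) := by (clear * - h5 hg hτ hR; gcongr)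
        _ = _ := by ring
    have h7 : 2 * t1 + 2 * r ^ 2 ≤ 4 := by linarith only [ht1, hr2]
    have h8 : 2 * (2 * (t1 * (2 ^ g * (2 * t1 + 2 * r ^ 2))) + 2 * (r ^ 2 * (2 ^ g * t1)))
        ≤ 2 ^ m' * (24 * t1) := by
      calc 2 * (2 * (t1 * (2 ^ g * (2 * t1 + 2 * r ^ 2))) + 2 * (r ^ 2 * (2 ^ g * t1)))
          ≤ 2 * (2 * (t1 * (2 ^ m' * 4)) + 2 * (1 * (2 ^ m' * t1))) := by (clear * - hg h7 ht0 hr2; gcongr)
        _ = 2 ^ m' * (20 * t1) := by ring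
        _ ≤ 2 ^ m' * (24 * t1) := by gcongr; norm_num
    calc _ ≤ 2 ^ m' * (8 * (τ + 1 / R) * r ^ 4) + 2 ^ m' * (24 * t1) := add_le_add h6 h8
      _ = _ := by ring
  calc _ ≤ (2 ^ m' * (8 * (τ + 1 / R) * r ^ 4 + 24 * t1)) * ((c₁⁻¹) ^ (m' + 2) * C₁ ^ m') :=
        mul_le_mul_of_nonneg_right hmain hKB
    _ = _ := by rw [KB]; ring

/-- presence of a word in a long background, with gain -/
theorem WL.pres_gain (h : WL Y Z0 Z1 F1 B M j n0 M' m' R c₁ C₁ ω t1 r τ) {β : ℝ} (hβ0 : 0 ≤ β)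
    (hβ : KB c₁ C₁ m' * (8 * (τ + 1 / R) * r ^ 2 + 2 * t1) ≤ β ^ 2) (a : ℕ) (ha : n0 ≤ a)
    (l : List Bool) (hl : l.length ≤ m') :
    Dom (Z0 ^ a * (wd Z0 Z1 l - Z0 ^ l.length) * Z0 ^ M') (Z0 ^ (a + l.length + M'))
      ((l.length * β) ^ 2) := by
  have h0 := nonneg_pow h.p0.nonneg
  induction l generalizing a with
  | nil =>
    rw [wd_nil, List.length_nil, pow_zero, sub_self, mul_zero, zero_mul]
    exact Dom.zero (h0 _) (by (clear * -; positivity))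
  | cons b l ih =>
    rw [List.length_cons] at hl
    have ih' := ih (a + 1) (by omega) (by omega)
    rw [wd_sub_cons, mul_add, add_mul]
    have e1 : Z0 ^ a * (Z0 * (wd Z0 Z1 l - Z0 ^ l.length)) * Z0 ^ M'
        = Z0 ^ (a + 1) * (wd Z0 Z1 l - Z0 ^ l.length) * Z0 ^ M' := by
      rw [pow_succ]; simp only [mul_assoc]
    have e2 : a + 1 + l.length + M' = a + (b :: l).length + M' := by
      rw [List.length_cons]; omega
    rw [e2] at ih'
    have h1 : Dom (Z0 ^ a * (if b then (Z1 - Z0) * wd Z0 Z1 l else 0) * Z0 ^ M')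
        (Z0 ^ (a + (b :: l).length + M')) (β ^ 2) := by
      cases b
      · simp only [Bool.false_eq_true, if_false, mul_zero, zero_mul]
        exact Dom.zero (h0 _) (sq_nonneg _)
      · simp only [if_true]
        have := (h.single a ha l (by omega)).mono (h0 _) hβ
        rwa [e2] at this
    rw [e1]
    have h2 := Dom.add hβ0 (by (clear * - hβ0; positivity) : 0 ≤ (l.length : ℝ) * β) (h0 _) h1 ih'
    refine h2.mono (h0 _) (_root_.le_of_eq ?_)
    rw [List.length_cons]; push_cast; ring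

/-- second order terms, one cell fixed -/
theorem WL.double_sum (h : WL Y Z0 Z1 F1 B M j n0 M' m' R c₁ C₁ ω t1 r τ) {β : ℝ} (hβ0 : 0 ≤ β)
    (hβ : KB c₁ C₁ m' * 2 ^ m' * (8 * (τ + 1 / R) * r ^ 4 + 24 * t1) ≤ β ^ 2) (a g : ℕ)
    (ha : n0 ≤ a) (l : List Bool) (hl : g + l.length ≤ m') :
    Dom (Z0 ^ a * ((Z1 - Z0) * (Z0 ^ g * (wd Z0 Z1 l - Z0 ^ l.length))) * Z0 ^ M')
      (Z0 ^ (a + 1 + g + l.length + M')) ((l.length * β) ^ 2) := by
  have h0 := nonneg_pow h.p0.nonneg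
  induction l generalizing g with
  | nil =>
    rw [wd_nil, List.length_nil, pow_zero, sub_self, mul_zero, mul_zero, mul_zero, zero_mul]
    exact Dom.zero (h0 _) (by (clear * -; positivity))
  | cons b l ih =>
    rw [List.length_cons] at hl
    have ih' := ih (g + 1) (by omega)
    rw [wd_sub_cons, mul_add, mul_add, mul_add, add_mul]
    have e1 : Z0 ^ a * ((Z1 - Z0) * (Z0 ^ g * (Z0 * (wd Z0 Z1 l - Z0 ^ l.length)))) * Z0 ^ M'
        = Z0 ^ a * ((Z1 - Z0) * (Z0 ^ (g + 1) * (wd Z0 Z1 l - Z0 ^ l.length))) * Z0 ^ M' := by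
      rw [pow_succ]; simp only [mul_assoc]
    have e2 : a + 1 + (g + 1) + l.length + M' = a + 1 + g + (b :: l).length + M' := by
      rw [List.length_cons]; omega
    rw [e2] at ih'
    have h1 : Dom (Z0 ^ a * ((Z1 - Z0) * (Z0 ^ g * (if b then (Z1 - Z0) * wd Z0 Z1 l else 0)))
          * Z0 ^ M')
        (Z0 ^ (a + 1 + g + (b :: l).length + M')) (β ^ 2) := by
      cases b
      · simp only [Bool.false_eq_true, if_false, mul_zero, zero_mul]
        exact Dom.zero (h0 _) (sq_nonneg _)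
      · simp only [if_true]
        have := (h.double a g ha l (by omega)).mono (h0 _) hβ
        have e3 : a + (g + 2) + l.length + M' = a + 1 + g + (true :: l).length + M' := by
          rw [List.length_cons]; (clear * -; omega)
        rwa [e3] at this
    rw [e1]
    have h2 := Dom.add hβ0 (by (clear * - hβ0; positivity) : 0 ≤ (l.length : ℝ) * β) (h0 _) h1 ih'
    refine h2.mono (h0 _) (_root_.le_of_eq ?_)
    rw [List.length_cons]; push_cast; ring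

/-- second order remainder in a long background, with gain -/
theorem WL.rmd_gain (h : WL Y Z0 Z1 F1 B M j n0 M' m' R c₁ C₁ ω t1 r τ) {β : ℝ} (hβ0 : 0 ≤ β)
    (hβ : KB c₁ C₁ m' * 2 ^ m' * (8 * (τ + 1 / R) * r ^ 4 + 24 * t1) ≤ β ^ 2) (a : ℕ)
    (ha : n0 ≤ a) (l : List Bool) (hl : l.length ≤ m') :
    Dom (Z0 ^ a * rmd Z0 Z1 l * Z0 ^ M') (Z0 ^ (a + l.length + M'))
      ((l.length * (m' * β)) ^ 2) := by
  have h0 := nonneg_pow h.p0.nonneg
  induction l generalizing a with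
  | nil =>
    rw [rmd_nil, mul_zero, zero_mul]
    exact Dom.zero (h0 _) (by (clear * -; positivity))
  | cons b l ih =>
    rw [List.length_cons] at hl
    have ih' := ih (a + 1) (by omega) (by omega)
    rw [rmd_cons, mul_add, add_mul]
    have e1 : Z0 ^ a * (Z0 * rmd Z0 Z1 l) * Z0 ^ M'
        = Z0 ^ (a + 1) * rmd Z0 Z1 l * Z0 ^ M' := by
      rw [pow_succ]; simp only [mul_assoc]
    have e2 : a + 1 + l.length + M' = a + (b :: l).length + M' := by
      rw [List.length_cons]; omega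
    rw [e2] at ih'
    have h1 : Dom (Z0 ^ a * (if b then (Z1 - Z0) * (wd Z0 Z1 l - Z0 ^ l.length) else 0)
        * Z0 ^ M') (Z0 ^ (a + (b :: l).length + M')) ((m' * β) ^ 2) := by
      cases b
      · simp only [Bool.false_eq_true, if_false, mul_zero, zero_mul]
        exact Dom.zero (h0 _) (sq_nonneg _)
      · simp only [if_true]
        have h3 := h.double_sum hβ0 hβ a 0 ha l (by omega)
        rw [pow_zero, one_mul, Nat.add_zero, e2] at h3
        refine h3.mono (h0 _) ?_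
        have : (l.length : ℝ) ≤ m' := by exact_mod_cast (by omega : l.length ≤ m')
        exact pow_le_pow_left₀ (by (clear * - hβ0; positivity)) (mul_le_mul_of_nonneg_right this hβ0) 2
    rw [e1]
    have h2 := Dom.add (by (clear * - hβ0; positivity) : 0 ≤ (m' : ℝ) * β)
      (by (clear * - hβ0; positivity) : 0 ≤ (l.length : ℝ) * (m' * β)) (h0 _) h1 ih'
    refine h2.mono (h0 _) (_root_.le_of_eq ?_)
    rw [List.length_cons]; push_cast; ring

end wl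

end Vale.Agent.P321.MA
end

section

/-!
The double step: two levels of the construction with the gain.
-/

namespace Vale.Agent.P321.MA

open Finset

variable {G : Type*} [Monoid G]

/-- ratio constant of the first level -/
noncomputable def C1c (k : ℕ) (c C : ℝ) : ℝ := C ^ 2 ^ k * (c ^ 2 ^ k)⁻¹

/-- the constant of the double step -/
noncomputable def KD (k k' : ℕ) (c C : ℝ) : ℝ :=
  KL k * (c ^ 2 ^ k)⁻¹ + 4 * Kc k ^ 2 + 4 * 2 ^ k + C1c k c C + C1c k c C ^ (2 * 2 ^ k')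
    + C1c k c C ^ 2 ^ k' * (2 * 2 ^ k' + 8 * ((2 : ℝ) ^ k') ^ 4 * KB (c ^ 2 ^ k) (C1c k c C) (2 ^ k')
      * 2 ^ 2 ^ k' * (128 * Kc k ^ 4 + 96 * 2 ^ k))
    + ((2 : ℝ) ^ k') ^ 2 * KB (c ^ 2 ^ k) (C1c k c C) (2 ^ k') * (32 * Kc k ^ 2 + 8 * 2 ^ k)

section

variable {c C : ℝ}

theorem C1c_one_le (k : ℕ) (hc : 0 < c) (hc1 : c ≤ 1) (hC : 1 ≤ C) : 1 ≤ C1c k c C := by
  have h1 : 1 ≤ C ^ 2 ^ k := one_le_pow₀ hC
  have h2 : 1 ≤ (c ^ 2 ^ k)⁻¹ := (one_le_inv₀ (pow_pos hc _)).mpr (pow_le_one₀ hc.le hc1)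
  unfold C1c
  nlinarith only [h1, h2]

theorem KB_one_le' {c₁ C₁ : ℝ} (hc : 0 < c₁) (hc1 : c₁ ≤ 1) (hC : 1 ≤ C₁) (m' : ℕ) :
    1 ≤ KB c₁ C₁ m' := by
  have hci : 1 ≤ c₁⁻¹ := (one_le_inv₀ hc).mpr hc1
  have h1 := one_le_pow₀ hci (n := m' + 2)
  have h2 := one_le_pow₀ hC (n := m')
  unfold KB
  linarith only [mul_nonneg (sub_nonneg.2 h1) (sub_nonneg.2 h2), mul_nonneg (mul_self_nonneg (1 : ℝ)) (sub_nonneg.2 h2), mul_nonneg (mul_self_nonneg (1 : ℝ)) (sub_nonneg.2 h1)]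

/-- all lower bounds on the constant -/
theorem KD_bounds (k k' : ℕ) (hc : 0 < c) (hc1 : c ≤ 1) (hC : 1 ≤ C) :
    1 ≤ KD k k' c C ∧ KL k * (c ^ 2 ^ k)⁻¹ ≤ KD k k' c C ∧ KL k ≤ KD k k' c C ∧
      4 * Kc k ^ 2 ≤ KD k k' c C ∧ 4 * 2 ^ k ≤ KD k k' c C ∧ C1c k c C ≤ KD k k' c C ∧
      C1c k c C ^ (2 * 2 ^ k') ≤ KD k k' c C ∧
      C1c k c C ^ 2 ^ k' * (2 * 2 ^ k' + 8 * ((2 : ℝ) ^ k') ^ 4
        * KB (c ^ 2 ^ k) (C1c k c C) (2 ^ k') * 2 ^ 2 ^ k' * (128 * Kc k ^ 4 + 96 * 2 ^ k))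
          ≤ KD k k' c C ∧
      ((2 : ℝ) ^ k') ^ 2 * KB (c ^ 2 ^ k) (C1c k c C) (2 ^ k') * (32 * Kc k ^ 2 + 8 * 2 ^ k)
        ≤ KD k k' c C := by
  have hC1 := C1c_one_le k hc hc1 hC
  have hcm : 0 < c ^ 2 ^ k := pow_pos hc _
  have hcm1 : c ^ 2 ^ k ≤ 1 := pow_le_one₀ hc.le hc1
  have hKB := KB_one_le' hcm hcm1 hC1 (2 ^ k')
  have hKL := KL_one_le k
  have hKc := Kc_one_le k
  have hi : 1 ≤ (c ^ 2 ^ k)⁻¹ := (one_le_inv₀ hcm).mpr hcm1
  have t1 : 0 ≤ KL k * (c ^ 2 ^ k)⁻¹ := by (clear * - hKL hc; positivity)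
  have t2 : 0 ≤ 4 * Kc k ^ 2 := by positivity
  have t3 : (0 : ℝ) ≤ 4 * 2 ^ k := by positivity
  have t4 : 0 ≤ C1c k c C := by linarith
  have t5 : 0 ≤ C1c k c C ^ (2 * 2 ^ k') := by positivity
  have t6 : 0 ≤ C1c k c C ^ 2 ^ k' * (2 * 2 ^ k' + 8 * ((2 : ℝ) ^ k') ^ 4
      * KB (c ^ 2 ^ k) (C1c k c C) (2 ^ k') * 2 ^ 2 ^ k' * (128 * Kc k ^ 4 + 96 * 2 ^ k)) := by
    positivity
  have t7 : 0 ≤ ((2 : ℝ) ^ k') ^ 2 * KB (c ^ 2 ^ k) (C1c k c C) (2 ^ k')
      * (32 * Kc k ^ 2 + 8 * 2 ^ k) := by positivity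
  have t8 : KL k ≤ KL k * (c ^ 2 ^ k)⁻¹ := by linarith only [mul_nonneg (sub_nonneg.2 hi) (sub_nonneg.2 hKL), mul_nonneg (mul_self_nonneg (1 : ℝ)) (sub_nonneg.2 hi)]
  unfold KD
  refine ⟨by linarith only [t8, t7, t6, t5, t3, t2, hKL, hC1], by linarith only [hC1, t2, t3, t5, t6, t7], by linarith only [hC1, t2, t3, t5, t6, t7, t8], by linarith only [hC1, hKL, t3, t5, t6, t7, t8], by linarith only [hC1, hKL, t2, t5, t6, t7, t8], by linarith only [hKL, t2, t3, t5, t6, t7, t8],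
    by linarith only [hC1, hKL, t2, t3, t6, t7, t8], by linarith only [hC1, hKL, t2, t3, t5, t7, t8], by linarith only [hC1, hKL, t2, t3, t5, t6, t8]⟩

theorem le_of_smul_le {x y : MonoidAlgebra ℝ G} {C₁ K : ℝ} (hx : nonneg x) (hC : 0 < C₁)
    (hK : C₁ ≤ K) (h : le x (C₁ • y)) : le (K⁻¹ • x) y := by
  intro w
  rw [MonoidAlgebra.coeff_smul, Finsupp.smul_apply, smul_eq_mul]
  have h1 := h w
  rw [MonoidAlgebra.coeff_smul, Finsupp.smul_apply, smul_eq_mul] at h1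
  have hK0 : 0 < K := lt_of_lt_of_le hC hK
  have h2 : K⁻¹ * x.coeff w ≤ C₁⁻¹ * x.coeff w :=
    mul_le_mul_of_nonneg_right (inv_anti₀ hC hK) (hx w)
  have h3 : C₁⁻¹ * x.coeff w ≤ y.coeff w := by
    rw [inv_mul_le_iff₀ hC]; exact h1
  exact h2.trans h3

theorem le_smul_mono {x y : MonoidAlgebra ℝ G} {C₁ K : ℝ} (hy : nonneg y)
    (hK : C₁ ≤ K) (h : le x (C₁ • y)) : le x (K • y) := by
  intro w
  rw [MonoidAlgebra.coeff_smul, Finsupp.smul_apply, smul_eq_mul]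
  have h1 := h w
  rw [MonoidAlgebra.coeff_smul, Finsupp.smul_apply, smul_eq_mul] at h1
  exact h1.trans (mul_le_mul_of_nonneg_right hK (hy w))

variable {Y e f : MonoidAlgebra ℝ G} {a b t : ℝ} {k M : ℕ}

/-- comparisons between the two new letters and powers of the background -/
theorem Trip.comp (h : Trip Y e f a b c C) (k M : ℕ) :
    le (c ^ 2 ^ k • Y ^ (M + 2 ^ k + M)) (upT Y (Y + e - f) (Y + e + f) (tmb k) M) ∧
    le (upT Y (Y + e - f) (Y + e + f) (tmc k) M)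
      (C1c k c C • upT Y (Y + e - f) (Y + e + f) (tmb k) M) ∧
    le (upT Y (Y + e - f) (Y + e + f) (tmb k) M)
      (C1c k c C • upT Y (Y + e - f) (Y + e + f) (tmc k) M) := by
  have hcm : 0 < c ^ 2 ^ k := pow_pos h.c0 _
  have hCm : 0 < C ^ 2 ^ k := pow_pos (by linarith only [h.C1]) _
  have lo0 := upT_lo h.c0.le h.hY.nonneg h.loM h.loP (tmb k) M
  have lo1 := upT_lo h.c0.le h.hY.nonneg h.loM h.loP (tmc k) M
  have hi0 := upT_hi h.hY.nonneg h.pM h.pP h.hiM h.hiP (tmb k) M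
  have hi1 := upT_hi h.hY.nonneg h.pM h.pP h.hiM h.hiP (tmc k) M
  rw [tmb_length] at lo0 hi0
  rw [tmc_length] at lo1 hi1
  exact ⟨lo0, le_smul_trans hCm.le hi1 (le_inv_smul hcm lo0),
    le_smul_trans hCm.le hi0 (le_inv_smul hcm lo1)⟩

/-- the hypotheses of the upper level -/
theorem Trip.toWL (h : Trip Y e f a b c C) {M0 : ℕ} (hM : k * M0 ≤ M)
    (ht : (2 ^ k * l1 ((1 - Y) * Y ^ M0)) ^ k ≤ t) (k' : ℕ)
    (hK : KD k k' c C * ((b + a ^ 2) ^ 2 + t) ≤ 1) {τ : ℝ} {M' n0 R : ℕ}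
    (hR : 1 ≤ R) (hRM : R ≤ M) (hn : n0 ≤ M')
    (hτ : 4 * Real.sqrt ((1 + KL k * ((b + a ^ 2) ^ 2 + t)) ^ (n0 + 2 ^ k') - 1)
      + 2 * R * l1 ((1 - Y) * Y ^ ((M + 2 ^ k + M) * n0)) ≤ τ) :
    WL Y (upT Y (Y + e - f) (Y + e + f) (tmb k) M) (upT Y (Y + e - f) (Y + e + f) (tmc k) M)
      ((2 : ℝ) • Fone Y f k M) ((2 : ℝ) • Dr Y e f k) M (2 ^ k) n0 M' (2 ^ k') R
      (c ^ 2 ^ k) (C1c k c C) (KL k * ((b + a ^ 2) ^ 2 + t)) (4 * 2 ^ k * t)
      (2 * (Kc k * (a * (b + a ^ 2)))) τ := by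
  obtain ⟨b1, b2, b3, b4, b5, -⟩ := KD_bounds k k' h.c0 h.c1 h.C1
  have ht0 := tiny_nonneg ht
  have a0 := h.a0
  have b0 := h.b0
  have hη : 0 ≤ b + a ^ 2 := by (clear * - b0; positivity)
  have hE : 0 ≤ (b + a ^ 2) ^ 2 + t := by (clear * - ht0; positivity)
  have hKc := Kc_one_le k
  obtain ⟨lo, hi, -⟩ := h.comp k M
  obtain ⟨d0, d1⟩ := h.pres_dom hM ht
  have hFd := (h.Fone_dom hM ht).smul 2
  have hDr := (h.Dr_nm k).smul 2
  rw [abs_of_nonneg (by norm_num : (0 : ℝ) ≤ 2)] at hDr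
  refine ⟨h.hY, upT_prob h.hY h.pM h.pP _ _, upT_prob h.hY h.pM h.pP _ _, pow_pos h.c0 _,
    pow_le_one₀ h.c0.le h.c1, C1c_one_le k h.c0 h.c1 h.C1, lo, hi,
    mul_nonneg (by linarith only [KL_one_le k]) hE,
    (mul_le_mul_of_nonneg_right b3 hE).trans hK, d0, d1, upT_sub Y e f k M, ?_,
    by (clear * - ht0; positivity), ?_, hDr, ?_, hR, hRM, hn, hτ⟩
  · refine hFd.mono (nonneg_pow h.hY.nonneg _) (_root_.le_of_eq ?_)
    ring
  · have h1 : KD k k' c C * t ≤ KD k k' c C * ((b + a ^ 2) ^ 2 + t) :=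
      mul_le_mul_of_nonneg_left (by nlinarith only []) (by linarith only [b1])
    exact (mul_le_mul_of_nonneg_right b5 ht0).trans (h1.trans hK)
  · -- r <= 1
    have h1 : (2 * (Kc k * (b + a ^ 2))) ^ 2 ≤ 1 := by
      calc (2 * (Kc k * (b + a ^ 2))) ^ 2 = (4 * Kc k ^ 2) * (b + a ^ 2) ^ 2 := by ring
        _ ≤ KD k k' c C * (b + a ^ 2) ^ 2 := mul_le_mul_of_nonneg_right b4 (sq_nonneg _)
        _ ≤ KD k k' c C * ((b + a ^ 2) ^ 2 + t) :=
            mul_le_mul_of_nonneg_left (by linarith only [ht0]) (by linarith only [b1])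
        _ ≤ 1 := hK
    have h2 : 2 * (Kc k * (b + a ^ 2)) ≤ 1 := by
      by_contra hcon
      push Not at hcon
      nlinarith only [h1, hcon]
    refine _root_.le_trans ?_ h2
    have h3 : a * (b + a ^ 2) ≤ 1 * (b + a ^ 2) := mul_le_mul_of_nonneg_right h.a1 hη
    rw [one_mul] at h3
    have h4 : Kc k * (a * (b + a ^ 2)) ≤ Kc k * (b + a ^ 2) :=
      mul_le_mul_of_nonneg_left h3 (by linarith only [hKc])
    linarith only [h4]

end

/-- **The double step.** -/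
theorem double_step (k k' : ℕ) (c C : ℝ) (hc : 0 < c) (hc1 : c ≤ 1) (hC : 1 ≤ C) :
    ∃ K : ℝ, 1 ≤ K ∧ ∀ {Y e f : MonoidAlgebra ℝ G} {a b t : ℝ} {M M0 : ℕ},
      Trip Y e f a b c C → k * M0 ≤ M → (2 ^ k * l1 ((1 - Y) * Y ^ M0)) ^ k ≤ t →
      K * ((b + a ^ 2) ^ 2 + t) ≤ 1 →
      ∀ Z0 Z1 : MonoidAlgebra ℝ G, Z0 = upT Y (Y + e - f) (Y + e + f) (tmb k) M →
        Z1 = upT Y (Y + e - f) (Y + e + f) (tmc k) M →
      Prob Z0 ∧ Prob Z1 ∧ le (K⁻¹ • Z0) Z1 ∧ le Z1 (K • Z0) ∧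
      Dom (Z1 - Z0) Z0 (K * ((a * (b + a ^ 2)) ^ 2 + t)) ∧
      (∀ L : List Bool, l1 (wd Z0 Z1 L - Y ^ ((2 * M + 2 ^ k) * L.length))
        ≤ Real.sqrt ((1 + K * ((b + a ^ 2) ^ 2 + t)) ^ L.length - 1)) ∧
      ∀ {t' τ : ℝ} {M' M0' n0 R : ℕ}, k' * M0' ≤ M' →
        (2 ^ k' * l1 ((1 - Z0) * Z0 ^ M0')) ^ k' ≤ t' → 1 ≤ R → R ≤ M → n0 ≤ M' →
        4 * Real.sqrt ((1 + K * ((b + a ^ 2) ^ 2 + t)) ^ (n0 + 2 ^ k') - 1)
          + 2 * R * l1 ((1 - Y) * Y ^ ((2 * M + 2 ^ k) * n0)) ≤ τ →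
        ∀ W0 W1 : MonoidAlgebra ℝ G, W0 = upT Z0 Z0 Z1 (tmb k') M' →
          W1 = upT Z0 Z0 Z1 (tmc k') M' →
        Prob W0 ∧ Prob W1 ∧ le (K⁻¹ • W0) W1 ∧ le W1 (K • W0) ∧
        Dom (W1 - W0) W0 (K * (((a * (b + a ^ 2)) ^ 2) ^ 2 * (τ + 1 / R) + t + t')) ∧
        (∀ L : List Bool, l1 (wd W0 W1 L - Z0 ^ ((2 * M' + 2 ^ k') * L.length))
          ≤ Real.sqrt ((1 + K * ((a * (b + a ^ 2)) ^ 2 * (τ + 1 / R) + t + t')) ^ L.length
            - 1)) := by
  obtain ⟨b1, b2, b3, b4, b5, b6, b7, b8, b9⟩ := KD_bounds k k' hc hc1 hC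
  refine ⟨KD k k' c C, b1, ?_⟩
  intro Y e f a b t M M0 h hM ht hK Z0 Z1 hZ0 hZ1
  set K := KD k k' c C with hKdef
  have hK0 : 0 ≤ K := by linarith only [b1]
  have ht0 := tiny_nonneg ht
  have a0 := h.a0
  have b0 := h.b0
  have hη : 0 ≤ b + a ^ 2 := by (clear * - b0; positivity)
  have hE : 0 ≤ (b + a ^ 2) ^ 2 + t := by (clear * - ht0; positivity)
  have hδη : (a * (b + a ^ 2)) ^ 2 ≤ (b + a ^ 2) ^ 2 := by
    rw [mul_pow]
    have : a ^ 2 ≤ 1 := pow_le_one₀ a0 h.a1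
    linarith only [mul_nonneg (sq_nonneg (b + a ^ 2 : ℝ)) (sub_nonneg.2 this)]
  have hC1 := C1c_one_le k hc hc1 hC
  have hcm : 0 < c ^ 2 ^ k := pow_pos hc _
  have pZ0 : Prob Z0 := by rw [hZ0]; exact upT_prob h.hY h.pM h.pP _ _
  have pZ1 : Prob Z1 := by rw [hZ1]; exact upT_prob h.hY h.pM h.pP _ _
  obtain ⟨lo, hi, hi'⟩ := h.comp k M
  rw [← hZ0] at lo
  rw [← hZ0, ← hZ1] at hi hi'
  have hdiff := h.diff_dom hM ht
  rw [← hZ0, ← hZ1] at hdiff
  obtain ⟨d0, d1⟩ := h.pres_dom hM ht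
  rw [← hZ0] at d0
  rw [← hZ1] at d1
  have hKL0 : 0 ≤ KL k := by linarith only [KL_one_le k]
  have hdom : Dom (Z1 - Z0) Z0 (K * ((a * (b + a ^ 2)) ^ 2 + t)) := by
    have h1 := hdiff.base (mul_nonneg hKL0 (by (clear * - ht0; positivity))) (le_inv_smul hcm lo)
    refine h1.mono pZ0.nonneg ?_
    calc KL k * ((a * (b + a ^ 2)) ^ 2 + t) * (c ^ 2 ^ k)⁻¹
        = (KL k * (c ^ 2 ^ k)⁻¹) * ((a * (b + a ^ 2)) ^ 2 + t) := by ring
      _ ≤ _ := mul_le_mul_of_nonneg_right b2 (by (clear * - ht0; positivity))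
  have eS : M + 2 ^ k + M = 2 * M + 2 ^ k := by ring
  have hlevK : ∀ L : List Bool, l1 (wd Z0 Z1 L - Y ^ ((2 * M + 2 ^ k) * L.length))
        ≤ Real.sqrt ((1 + K * ((b + a ^ 2) ^ 2 + t)) ^ L.length - 1) := by
    intro L
    have h1 := (pres_word (prob_pow h.hY _) (mul_nonneg hKL0 hE) pZ0 pZ1 d0 d1 L).2
    rw [← pow_mul, eS] at h1
    refine h1.trans (Real.sqrt_le_sqrt ?_)
    have h2 : KL k * ((b + a ^ 2) ^ 2 + t) ≤ K * ((b + a ^ 2) ^ 2 + t) :=
      mul_le_mul_of_nonneg_right b3 hE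
    have h3 := pow_le_pow_left₀ (by have := mul_nonneg hKL0 hE; linarith only [this] :
      0 ≤ 1 + KL k * ((b + a ^ 2) ^ 2 + t)) (by linarith only [h2] :
      1 + KL k * ((b + a ^ 2) ^ 2 + t) ≤ 1 + K * ((b + a ^ 2) ^ 2 + t)) L.length
    linarith only [h3]
  refine ⟨pZ0, pZ1, le_of_smul_le pZ0.nonneg (by linarith only [hC1]) b6 hi',
    le_smul_mono pZ0.nonneg b6 hi, hdom, hlevK, ?_⟩
  intro t' τ M' M0' n0 R hM' ht' hR hRM hn hτ W0 W1 hW0 hW1
  have ht'0 := tiny_nonneg ht'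
  have hτ2 : 4 * Real.sqrt ((1 + KL k * ((b + a ^ 2) ^ 2 + t)) ^ (n0 + 2 ^ k') - 1)
      + 2 * R * l1 ((1 - Y) * Y ^ ((M + 2 ^ k + M) * n0)) ≤ τ := by
    rw [eS]
    refine _root_.le_trans (add_le_add ?_ _root_.le_rfl) hτ
    refine mul_le_mul_of_nonneg_left (Real.sqrt_le_sqrt ?_) (by norm_num)
    have h2 : KL k * ((b + a ^ 2) ^ 2 + t) ≤ K * ((b + a ^ 2) ^ 2 + t) :=
      mul_le_mul_of_nonneg_right b3 hE
    have h3 := pow_le_pow_left₀ (by have := mul_nonneg hKL0 hE; linarith only [this] :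
      0 ≤ 1 + KL k * ((b + a ^ 2) ^ 2 + t)) (by linarith only [h2] :
      1 + KL k * ((b + a ^ 2) ^ 2 + t) ≤ 1 + K * ((b + a ^ 2) ^ 2 + t)) (n0 + 2 ^ k')
    linarith only [h3]
  have w := h.toWL hM ht k' hK (M' := M') hR hRM hn hτ2
  rw [← hZ0, ← hZ1] at w
  set C₁ := C1c k c C with hC₁
  set B₁ := KB (c ^ 2 ^ k) C₁ (2 ^ k') with hB₁
  have hB1 : 1 ≤ B₁ := w.KB_one_le
  have hτ0 := w.τ0
  have hR0 := w.R0
  set δ := a * (b + a ^ 2) with hδ
  have hKc := Kc_one_le k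
  have h0 := nonneg_pow pZ0.nonneg
  have hC₁0 : 0 < C₁ := by linarith only [hC1]
  -- letters of the upper level
  have hZ0lo : le (C₁⁻¹ • Z0) Z0 := le_of_smul_le pZ0.nonneg zero_lt_one hC1 (by
    rw [one_smul]; exact le_refl _)
  have hZ1lo : le (C₁⁻¹ • Z0) Z1 := le_of_smul_le pZ0.nonneg hC₁0 _root_.le_rfl hi'
  have hZ0hi : le Z0 (C₁ • Z0) := le_smul_mono pZ0.nonneg hC1 (by rw [one_smul]; exact le_refl _)
  have hCi : 0 ≤ C₁⁻¹ := inv_nonneg.mpr hC₁0.le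
  have Wlo : ∀ l : List Bool, l.length = 2 ^ k' →
      le (Z0 ^ (M' + 2 ^ k' + M')) (C₁ ^ 2 ^ k' • upT Z0 Z0 Z1 l M') := by
    intro l hl
    have h1 := upT_lo hCi pZ0.nonneg hZ0lo hZ1lo l M'
    rw [hl, inv_pow] at h1
    have h2 := le_inv_smul (inv_pos.mpr (pow_pos hC₁0 (2 ^ k'))) h1
    rwa [inv_inv] at h2
  have Whi : ∀ l : List Bool, l.length = 2 ^ k' →
      le (upT Z0 Z0 Z1 l M') (C₁ ^ 2 ^ k' • Z0 ^ (M' + 2 ^ k' + M')) := by
    intro l hl
    have h1 := upT_hi pZ0.nonneg pZ0 pZ1 hZ0hi hi l M'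
    rwa [hl] at h1
  have hCp : 0 ≤ C₁ ^ 2 ^ k' := by (clear * - hC1; positivity)
  have eC : C₁ ^ 2 ^ k' * C₁ ^ 2 ^ k' = C₁ ^ (2 * 2 ^ k') := by rw [two_mul, pow_add]
  have h01 : le W0 (C₁ ^ (2 * 2 ^ k') • W1) := by
    rw [← eC, hW0, hW1]
    exact le_smul_trans hCp (Whi _ (tmb_length k')) (Wlo _ (tmc_length k'))
  have h10 : le W1 (C₁ ^ (2 * 2 ^ k') • W0) := by
    rw [← eC, hW0, hW1]
    exact le_smul_trans hCp (Whi _ (tmc_length k')) (Wlo _ (tmb_length k'))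
  have pW0 : Prob W0 := by rw [hW0]; exact upT_prob pZ0 pZ0 pZ1 _ _
  have pW1 : Prob W1 := by rw [hW1]; exact upT_prob pZ0 pZ0 pZ1 _ _
  have hm' : ((2 ^ k' : ℕ) : ℝ) = 2 ^ k' := by push_cast; rfl
  have eS' : M' + 2 ^ k' + M' = 2 * M' + 2 ^ k' := by ring
  -- difference
  have hWdiff : W1 - W0 = Z0 ^ M' * lam Z0 (Z1 - Z0) k' * Z0 ^ M'
      + (Z0 ^ M' * rmd Z0 Z1 (tmc k') * Z0 ^ M' - Z0 ^ M' * rmd Z0 Z1 (tmb k') * Z0 ^ M') := by
    have e1 : ∀ l : List Bool, l.length = 2 ^ k' → wd Z0 Z1 l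
        = Z0 ^ 2 ^ k' + lin Z0 (Z1 - Z0) l + rmd Z0 Z1 l := by
      intro l hl
      rw [rmd, hl]; abel
    rw [lam, ← lin_tm, hW0, hW1, upT, upT, e1 _ (tmc_length k'), e1 _ (tmb_length k')]
    noncomm_ring
  have hlin : Dom (Z0 ^ M' * lam Z0 (Z1 - Z0) k' * Z0 ^ M') (Z0 ^ (M' + 2 ^ k' + M'))
      (2 ^ k' * t') := by
    have hA : K * (δ ^ 2 + t) ≤ 1 :=
      (mul_le_mul_of_nonneg_left (by linarith only [hδη]) hK0).trans hK
    have h1 := dom_lam pZ0 (hdom.mono pZ0.nonneg hA) zero_le_one (M0 := M0') _root_.le_rfl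
      k' M' hM'
    refine h1.mono (h0 _) ?_
    rw [mul_one, mul_comm]
    exact mul_le_mul_of_nonneg_left ht' (by positivity)
  set β2 := B₁ * 2 ^ 2 ^ k' * (8 * (τ + 1 / R) * (2 * (Kc k * δ)) ^ 4 + 24 * (4 * 2 ^ k * t))
    with hβ2
  have hβ20 : 0 ≤ β2 := by (clear * - hB1 hτ0 hR ht0; positivity)
  have hrm : ∀ l : List Bool, l.length = 2 ^ k' →
      Dom (Z0 ^ M' * rmd Z0 Z1 l * Z0 ^ M') (Z0 ^ (M' + 2 ^ k' + M'))
        (((2 : ℝ) ^ k') ^ 4 * β2) := by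
    intro l hl
    have h1 := w.rmd_gain (Real.sqrt_nonneg β2) (by rw [Real.sq_sqrt hβ20]) M' hn l
      (by rw [hl])
    rw [hl] at h1
    refine h1.mono (h0 _) (_root_.le_of_eq ?_)
    rw [hm', mul_pow, mul_pow, Real.sq_sqrt hβ20]
    ring
  have hWd : Dom (W1 - W0) W0 (K * ((δ ^ 2) ^ 2 * (τ + 1 / R) + t + t')) := by
    rw [hWdiff]
    have h1 := hlin.add2 ((hrm _ (tmc_length k')).sub2 (hrm _ (tmb_length k')))
    have h2 := h1.base (p' := W0) (K := C₁ ^ 2 ^ k') (by (clear * - ht'0 hB1 hτ0 hR ht0; positivity)) (by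
      rw [hW0]; exact Wlo _ (tmb_length k'))
    refine h2.mono pW0.nonneg ?_
    set m' : ℝ := 2 ^ k' with hm'def
    have hm'0 : 0 ≤ m' := by positivity
    set Q : ℝ := 2 ^ 2 ^ k' with hQ
    have hQ0 : 0 ≤ Q := by positivity
    have e2 : (2 * (m' * t') + 2 * (2 * (m' ^ 4 * β2) + 2 * (m' ^ 4 * β2))) * C₁ ^ 2 ^ k'
        = C₁ ^ 2 ^ k' * (2 * m') * t'
          + C₁ ^ 2 ^ k' * (8 * m' ^ 4 * B₁ * Q * (128 * Kc k ^ 4)) * ((δ ^ 2) ^ 2 * (τ + 1 / R))
          + C₁ ^ 2 ^ k' * (8 * m' ^ 4 * B₁ * Q * (96 * 2 ^ k)) * t := by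
      rw [hβ2]; ring
    rw [e2]
    set T := C₁ ^ 2 ^ k' * (2 * m' + 8 * m' ^ 4 * B₁ * Q * (128 * Kc k ^ 4 + 96 * 2 ^ k))
      with hT
    have hT1 : C₁ ^ 2 ^ k' * (2 * m') ≤ T := by
      rw [hT]
      refine mul_le_mul_of_nonneg_left ?_ hCp
      have : 0 ≤ 8 * m' ^ 4 * B₁ * Q * (128 * Kc k ^ 4 + 96 * 2 ^ k) := by (clear * - hB1 hKc; positivity)
      linarith only [this]
    have hT2 : C₁ ^ 2 ^ k' * (8 * m' ^ 4 * B₁ * Q * (128 * Kc k ^ 4)) ≤ T := by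
      rw [hT]
      refine mul_le_mul_of_nonneg_left ?_ hCp
      have : 0 ≤ 8 * m' ^ 4 * B₁ * Q * (96 * 2 ^ k) := by positivity
      have e3 : 8 * m' ^ 4 * B₁ * Q * (128 * Kc k ^ 4 + 96 * 2 ^ k)
        = 8 * m' ^ 4 * B₁ * Q * (128 * Kc k ^ 4) + 8 * m' ^ 4 * B₁ * Q * (96 * 2 ^ k) := by ring
      rw [e3]; linarith only [hm', this]
    have hT3 : C₁ ^ 2 ^ k' * (8 * m' ^ 4 * B₁ * Q * (96 * 2 ^ k)) ≤ T := by
      rw [hT]
      refine mul_le_mul_of_nonneg_left ?_ hCp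
      have : 0 ≤ 8 * m' ^ 4 * B₁ * Q * (128 * Kc k ^ 4) := by (clear * - hB1 hKc; positivity)
      have e3 : 8 * m' ^ 4 * B₁ * Q * (128 * Kc k ^ 4 + 96 * 2 ^ k)
        = 8 * m' ^ 4 * B₁ * Q * (128 * Kc k ^ 4) + 8 * m' ^ 4 * B₁ * Q * (96 * 2 ^ k) := by ring
      rw [e3]; linarith only [hm', this]
    have hX : 0 ≤ (δ ^ 2) ^ 2 * (τ + 1 / R) := by (clear * - hτ0 hR; positivity)
    have g1 := mul_le_mul_of_nonneg_right (hT1.trans b8) ht'0
    have g2 := mul_le_mul_of_nonneg_right (hT2.trans b8) hX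
    have g3 := mul_le_mul_of_nonneg_right (hT3.trans b8) ht0
    have e4 : K * ((δ ^ 2) ^ 2 * (τ + 1 / R) + t + t')
        = K * t' + K * ((δ ^ 2) ^ 2 * (τ + 1 / R)) + K * t := by ring
    rw [e4]
    exact add_le_add (add_le_add g1 g2) g3
  -- presence
  set β1 := B₁ * (8 * (τ + 1 / R) * (2 * (Kc k * δ)) ^ 2 + 2 * (4 * 2 ^ k * t)) with hβ1
  have hβ10 : 0 ≤ β1 := by (clear * - hB1 hτ0 hR ht0; positivity)
  have hpr : ∀ l : List Bool, l.length = 2 ^ k' →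
      Dom (upT Z0 Z0 Z1 l M' - Z0 ^ (M' + 2 ^ k' + M')) (Z0 ^ (M' + 2 ^ k' + M'))
        (K * (δ ^ 2 * (τ + 1 / R) + t + t')) := by
    intro l hl
    have h1 := w.pres_gain (Real.sqrt_nonneg β1) (by rw [Real.sq_sqrt hβ10]) M' hn l
      (by rw [hl])
    rw [hl] at h1
    have e5 : Z0 ^ M' * (wd Z0 Z1 l - Z0 ^ 2 ^ k') * Z0 ^ M'
        = upT Z0 Z0 Z1 l M' - Z0 ^ (M' + 2 ^ k' + M') := by
      rw [mul_sub, sub_mul, ← pow_add, ← pow_add, upT]
    rw [e5] at h1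
    refine h1.mono (h0 _) ?_
    rw [hm', mul_pow, Real.sq_sqrt hβ10, hβ1]
    set m' : ℝ := 2 ^ k' with hm'def
    have e6 : m' ^ 2 * (B₁ * (8 * (τ + 1 / R) * (2 * (Kc k * δ)) ^ 2 + 2 * (4 * 2 ^ k * t)))
        = m' ^ 2 * B₁ * (32 * Kc k ^ 2) * (δ ^ 2 * (τ + 1 / R)) + m' ^ 2 * B₁ * (8 * 2 ^ k) * t := by
      ring
    rw [e6]
    have hT2 : m' ^ 2 * B₁ * (32 * Kc k ^ 2) ≤ m' ^ 2 * B₁ * (32 * Kc k ^ 2 + 8 * 2 ^ k) := by
      refine mul_le_mul_of_nonneg_left ?_ (by (clear * - hB1; positivity))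
      have : (0 : ℝ) ≤ 8 * 2 ^ k := by positivity
      linarith only [this]
    have hT3 : m' ^ 2 * B₁ * (8 * 2 ^ k) ≤ m' ^ 2 * B₁ * (32 * Kc k ^ 2 + 8 * 2 ^ k) := by
      refine mul_le_mul_of_nonneg_left ?_ (by positivity)
      have : (0 : ℝ) ≤ 32 * Kc k ^ 2 := by positivity
      linarith only [this]
    have hX : 0 ≤ δ ^ 2 * (τ + 1 / R) := by (clear * - hτ0 hR; positivity)
    have g2 := mul_le_mul_of_nonneg_right (hT2.trans b9) hX
    have g3 := mul_le_mul_of_nonneg_right (hT3.trans b9) ht0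
    have g4 := mul_nonneg hK0 ht'0
    have e4 : K * (δ ^ 2 * (τ + 1 / R) + t + t')
        = K * (δ ^ 2 * (τ + 1 / R)) + K * t + K * t' := by ring
    rw [e4]
    linarith only [g4, g3, g2]
  refine ⟨pW0, pW1, le_of_smul_le pW0.nonneg (by (clear * - hC1; positivity)) b7 h01,
    le_smul_mono pW0.nonneg b7 h10, hWd, ?_⟩
  intro L
  have q0 := hpr _ (tmb_length k')
  have q1 := hpr _ (tmc_length k')
  rw [← hW0] at q0
  rw [← hW1] at q1
  have h1 := (pres_word (prob_pow pZ0 _) (by (clear * - b1 hτ0 hR ht0 ht'0; positivity)) pW0 pW1 q0 q1 L).2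
  rw [← pow_mul, eS'] at h1
  exact h1

/-- A pair of laws gives a level datum with `e = f`. -/
theorem Trip.of_pair {Y0 Y1 : MonoidAlgebra ℝ G} {D c C : ℝ} (p0 : Prob Y0) (p1 : Prob Y1)
    (hD : Dom (Y1 - Y0) Y0 D) (D0 : 0 ≤ D) (D1 : D ≤ 1) (c0 : 0 < c) (c1 : c ≤ 1) (C1 : 1 ≤ C)
    (lo : le (c • Y0) Y1) (hi : le Y1 (C • Y0)) :
    Trip Y0 ((1 / 2 : ℝ) • (Y1 - Y0)) ((1 / 2 : ℝ) • (Y1 - Y0)) (Real.sqrt D / 2)
        (Real.sqrt D / 2) c C ∧
      Y0 + (1 / 2 : ℝ) • (Y1 - Y0) - (1 / 2 : ℝ) • (Y1 - Y0) = Y0 ∧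
      Y0 + (1 / 2 : ℝ) • (Y1 - Y0) + (1 / 2 : ℝ) • (Y1 - Y0) = Y1 := by
  have e0 : Y0 + (1 / 2 : ℝ) • (Y1 - Y0) - (1 / 2 : ℝ) • (Y1 - Y0) = Y0 := by abel
  have e1 : Y0 + (1 / 2 : ℝ) • (Y1 - Y0) + (1 / 2 : ℝ) • (Y1 - Y0) = Y1 := by
    rw [add_assoc, ← add_smul]
    norm_num
  have ha : aug ((1 / 2 : ℝ) • (Y1 - Y0)) = 0 := by
    rw [aug_smul, aug_sub, p1.aug, p0.aug, sub_self, mul_zero]
  have hd : Dom ((1 / 2 : ℝ) • (Y1 - Y0)) Y0 ((Real.sqrt D / 2) ^ 2) := by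
    have := hD.smul (1 / 2)
    have e : (Real.sqrt D / 2) ^ 2 = (1 / 2) ^ 2 * D := by
      rw [div_pow, Real.sq_sqrt D0]; ring
    rwa [e]
  have hs : Real.sqrt D ≤ 1 := Real.sqrt_le_one.mpr D1
  have hs0 := Real.sqrt_nonneg D
  have loM : le (c • Y0) Y0 := by
    intro w
    rw [MonoidAlgebra.coeff_smul, Finsupp.smul_apply, smul_eq_mul]
    have := p0.nonneg w
    linarith only [mul_nonneg (sub_nonneg.2 c1) (sub_nonneg.2 this)]
  have hiM : le Y0 (C • Y0) := by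
    intro w
    rw [MonoidAlgebra.coeff_smul, Finsupp.smul_apply, smul_eq_mul]
    have := p0.nonneg w
    linarith only [mul_nonneg (sub_nonneg.2 C1) (sub_nonneg.2 this)]
  refine ⟨⟨p0, ha, ha, hd, hd, by (clear * -; positivity), by linarith only [hs], by (clear * -; positivity), by linarith only [hs], c0, c1,
    C1, ?_, ?_, ?_, ?_, ?_, ?_⟩, e0, e1⟩
  · rw [e0]; exact p0
  · rw [e1]; exact p1
  · rw [e0]; exact loM
  · rw [e1]; exact lo
  · rw [e0]; exact hiM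
  · rw [e1]; exact hi

end Vale.Agent.P321.MA
end

section

/-!
The l1 structure on the free monoid algebra over the reals.
-/

namespace Vale.Agent.P321

open Finset

/-- finitely supported signed measures on words. -/
abbrev Alg : Type := MonoidAlgebra ℝ (FreeMonoid Bool)

/-- l1 mass. -/
noncomputable def l1 (x : Alg) : ℝ := ∑ w ∈ x.coeff.support, |x.coeff w|

theorem l1_eq_sum (x : Alg) (s : Finset (FreeMonoid Bool)) (hs : x.coeff.support ⊆ s) :
    l1 x = ∑ w ∈ s, |x.coeff w| := by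
  refine Finset.sum_subset hs fun w _ hw => ?_
  rw [Finsupp.notMem_support_iff.mp hw, abs_zero]

theorem l1_nonneg (x : Alg) : 0 ≤ l1 x := Finset.sum_nonneg fun _ _ => abs_nonneg _

theorem l1_add (x y : Alg) : l1 (x + y) ≤ l1 x + l1 y := by
  classical
  have h1 : (x + y).coeff.support ⊆ x.coeff.support ∪ y.coeff.support := by
    rw [MonoidAlgebra.coeff_add]
    exact Finsupp.support_add
  rw [l1_eq_sum _ _ h1, l1_eq_sum x _ Finset.subset_union_left,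
    l1_eq_sum y _ Finset.subset_union_right, ← Finset.sum_add_distrib]
  refine Finset.sum_le_sum fun w _ => ?_
  rw [MonoidAlgebra.coeff_add, Finsupp.add_apply]
  exact abs_add_le _ _

theorem l1_zero : l1 0 = 0 := by simp [l1]

theorem l1_sum_le {ι : Type*} (s : Finset ι) (f : ι → Alg) :
    l1 (∑ i ∈ s, f i) ≤ ∑ i ∈ s, l1 (f i) := by
  classical
  induction s using Finset.induction_on with
  | empty => simp [l1_zero]
  | insert a s ha ih =>
    rw [Finset.sum_insert ha, Finset.sum_insert ha]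
    exact (l1_add _ _).trans (by linarith)

theorem l1_single (w : FreeMonoid Bool) (r : ℝ) : l1 (MonoidAlgebra.single w r) = |r| := by
  classical
  rw [l1_eq_sum _ {w} (by rw [MonoidAlgebra.coeff_single]; exact Finsupp.support_single_subset)]
  rw [Finset.sum_singleton, MonoidAlgebra.coeff_single, Finsupp.single_eq_same]

theorem l1_mul (x y : Alg) : l1 (x * y) ≤ l1 x * l1 y := by
  rw [MonoidAlgebra.mul_def, Finsupp.sum]
  refine (l1_sum_le _ _).trans ?_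
  unfold l1
  rw [Finset.sum_mul_sum]
  refine Finset.sum_le_sum fun a _ => ?_
  rw [Finsupp.sum]
  refine (l1_sum_le _ _).trans ?_
  refine Finset.sum_le_sum fun b _ => ?_
  rw [l1_single, abs_mul]

theorem l1_smul (c : ℝ) (x : Alg) : l1 (c • x) = |c| * l1 x := by
  have h1 : (c • x).coeff.support ⊆ x.coeff.support := by
    rw [MonoidAlgebra.coeff_smul]
    exact Finsupp.support_smul
  rw [l1_eq_sum _ _ h1, l1, Finset.mul_sum]
  refine Finset.sum_congr rfl fun w _ => ?_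
  rw [MonoidAlgebra.coeff_smul, Finsupp.smul_apply, smul_eq_mul, abs_mul]

theorem l1_one : l1 1 = 1 := by
  rw [MonoidAlgebra.one_def, l1_single, abs_one]

/-- coefficientwise nonnegativity. -/
def nonneg (x : Alg) : Prop := ∀ w, 0 ≤ x.coeff w

/-- total mass. -/
noncomputable def aug : Alg →ₐ[ℝ] ℝ := MonoidAlgebra.lift ℝ ℝ (FreeMonoid Bool) 1

theorem aug_eq (x : Alg) : aug x = ∑ w ∈ x.coeff.support, x.coeff w := by
  rw [aug, MonoidAlgebra.lift_apply, Finsupp.sum]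
  simp

theorem l1_of_nonneg {x : Alg} (hx : nonneg x) : l1 x = aug x := by
  rw [aug_eq, l1]
  exact Finset.sum_congr rfl fun w _ => abs_of_nonneg (hx w)

theorem nonneg_add {x y : Alg} (hx : nonneg x) (hy : nonneg y) : nonneg (x + y) := by
  intro w
  rw [MonoidAlgebra.coeff_add, Finsupp.add_apply]
  exact add_nonneg (hx w) (hy w)

theorem nonneg_smul {c : ℝ} {x : Alg} (hc : 0 ≤ c) (hx : nonneg x) : nonneg (c • x) := by
  intro w
  rw [MonoidAlgebra.coeff_smul, Finsupp.smul_apply, smul_eq_mul]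
  exact mul_nonneg hc (hx w)

theorem nonneg_single (w : FreeMonoid Bool) {r : ℝ} (hr : 0 ≤ r) :
    nonneg (MonoidAlgebra.single w r) := by
  classical
  intro v
  rw [MonoidAlgebra.coeff_single, Finsupp.single_apply]
  by_cases h : w = v
  · rw [if_pos h]; exact hr
  · rw [if_neg h]

theorem nonneg_one : nonneg 1 := by
  rw [MonoidAlgebra.one_def]
  exact nonneg_single _ zero_le_one

theorem nonneg_mul {x y : Alg} (hx : nonneg x) (hy : nonneg y) : nonneg (x * y) := by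
  classical
  intro w
  rw [MonoidAlgebra.coeff_mul, Finsupp.sum]
  refine Finset.sum_nonneg fun a _ => ?_
  rw [Finsupp.sum]
  refine Finset.sum_nonneg fun b _ => ?_
  by_cases h : a * b = w
  · rw [if_pos h]; exact mul_nonneg (hx a) (hy b)
  · rw [if_neg h]

theorem exists_min {x y : Alg} (hx : nonneg x) (hy : nonneg y) :
    ∃ h : Alg, nonneg h ∧ nonneg (x - h) ∧ nonneg (y - h) ∧
      l1 (x - y) = l1 x + l1 y - 2 * l1 h := by
  classical
  let h : Alg := MonoidAlgebra.ofCoeff (Finsupp.zipWith min (min_self 0) x.coeff y.coeff)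
  have hc : ∀ w, h.coeff w = min (x.coeff w) (y.coeff w) := fun w =>
    Finsupp.zipWith_apply (hf := min_self 0)
  have e1 : ∀ z z' : Alg, ∀ w, (z - z').coeff w = z.coeff w - z'.coeff w := by
    intro z z' w
    have h1 : (z - z' + z').coeff w = z.coeff w := by rw [sub_add_cancel]
    rw [MonoidAlgebra.coeff_add, Finsupp.add_apply] at h1
    linarith
  have hh : nonneg h := fun w => by rw [hc]; exact le_min (hx w) (hy w)
  refine ⟨h, hh, ?_, ?_, ?_⟩
  · intro w; rw [e1, hc]; linarith only [min_le_left (x.coeff w) (y.coeff w)]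
  · intro w; rw [e1, hc]; linarith only [min_le_right (x.coeff w) (y.coeff w)]
  · let s := x.coeff.support ∪ y.coeff.support
    have hs1 : x.coeff.support ⊆ s := Finset.subset_union_left
    have hs2 : y.coeff.support ⊆ s := Finset.subset_union_right
    have hz : ∀ w, w ∉ s → x.coeff w = 0 ∧ y.coeff w = 0 := by
      intro w hw
      rw [Finset.mem_union, not_or] at hw
      exact ⟨Finsupp.notMem_support_iff.mp hw.1, Finsupp.notMem_support_iff.mp hw.2⟩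
    have hs3 : h.coeff.support ⊆ s := by
      intro w hw
      by_contra hn
      obtain ⟨a, b⟩ := hz w hn
      rw [Finsupp.mem_support_iff, hc, a, b, min_self] at hw
      exact hw rfl
    have hs4 : (x - y).coeff.support ⊆ s := by
      intro w hw
      by_contra hn
      obtain ⟨a, b⟩ := hz w hn
      rw [Finsupp.mem_support_iff, e1, a, b, sub_self] at hw
      exact hw rfl
    rw [l1_eq_sum _ s hs1, l1_eq_sum _ s hs2, l1_eq_sum _ s hs3, l1_eq_sum _ s hs4,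
      ← Finset.sum_add_distrib, Finset.mul_sum, ← Finset.sum_sub_distrib]
    refine Finset.sum_congr rfl fun w _ => ?_
    rw [e1, hc, abs_of_nonneg (hx w), abs_of_nonneg (hy w),
      abs_of_nonneg (le_min (hx w) (hy w))]
    rcases le_total (x.coeff w) (y.coeff w) with hle | hle
    · rw [min_eq_left hle, abs_of_nonpos (by linarith only [hle])]; ring
    · rw [min_eq_right hle, abs_of_nonneg (by linarith only [hle])]; ring

/-- The l1 structure. -/
noncomputable def l1Str : L1Str Alg where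
  nrm := l1
  pos := nonneg
  nrm_nonneg := l1_nonneg
  nrm_add := l1_add
  nrm_mul := l1_mul
  nrm_smul := l1_smul
  nrm_one := l1_one
  pos_add := nonneg_add
  pos_mul := nonneg_mul
  pos_smul := nonneg_smul
  pos_one := nonneg_one
  nrm_add_pos := fun hx hy => by
    rw [l1_of_nonneg hx, l1_of_nonneg hy, l1_of_nonneg (nonneg_add hx hy), map_add]
  nrm_mul_pos := fun hx hy => by
    rw [l1_of_nonneg hx, l1_of_nonneg hy, l1_of_nonneg (nonneg_mul hx hy), map_mul]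
  exists_min := exists_min

end Vale.Agent.P321
end

section

/-!
Push forward along a monoid homomorphism and restriction to a set, for signed measures on a monoid.
-/

namespace Vale.Agent.P321.MA

open Finset

section push

variable {G H : Type*} [Monoid G] [Monoid H]

/-- push forward -/
noncomputable def push (f : G →* H) : MonoidAlgebra ℝ G →ₐ[ℝ] MonoidAlgebra ℝ H :=
  MonoidAlgebra.mapDomainAlgHom ℝ ℝ f

theorem push_single (f : G →* H) (w : G) (r : ℝ) :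
    push f (MonoidAlgebra.single w r) = MonoidAlgebra.single (f w) r := by
  change MonoidAlgebra.mapDomain f (MonoidAlgebra.single w r) = _
  rw [MonoidAlgebra.mapDomain_single]

theorem ev_push (f : G →* H) (x : MonoidAlgebra ℝ G) (g : H → ℝ) :
    ev (push f x) g = ev x (fun w => g (f w)) := by
  induction x using MonoidAlgebra.induction_linear with
  | zero => rw [map_zero, ev_zero, ev_zero]
  | add x y hx hy => rw [map_add, ev_add, ev_add, hx, hy]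
  | single m r => rw [push_single, ev_single, ev_single]

theorem nonneg_iff_ev' {x : MonoidAlgebra ℝ G} :
    nonneg x ↔ ∀ g : G → ℝ, (∀ w, 0 ≤ g w) → 0 ≤ ev x g := by
  classical
  constructor
  · intro h g hg
    exact ev_nonneg h hg
  · intro h w
    have h1 := h (fun v => if v = w then 1 else 0) (fun v => by split_ifs <;> norm_num)
    rw [ev_eq_sum x _ (insert w x.coeff.support) (Finset.subset_insert _ _),
      Finset.sum_eq_single w] at h1
    · simpa only [ge_iff_le, ↓reduceIte, mul_one] using h1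
    · intro v _ hv
      rw [if_neg hv, mul_zero]
    · intro hw
      exact absurd (Finset.mem_insert_self _ _) hw

theorem nonneg_push (f : G →* H) {x : MonoidAlgebra ℝ G} (hx : nonneg x) : nonneg (push f x) := by
  rw [nonneg_iff_ev']
  intro g hg
  rw [ev_push]
  exact ev_nonneg hx fun w => hg _

theorem aug_push (f : G →* H) (x : MonoidAlgebra ℝ G) : aug (push f x) = aug x := by
  rw [aug, ev_push, aug]

theorem prob_push (f : G →* H) {x : MonoidAlgebra ℝ G} (hx : Prob x) : Prob (push f x) :=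
  prob_iff.mpr ⟨nonneg_push f hx.1, by rw [aug_push, hx.aug]⟩

theorem le_push (f : G →* H) {x y : MonoidAlgebra ℝ G} (h : le x y) :
    le (push f x) (push f y) := by
  rw [le_iff] at h ⊢
  rw [← map_sub]
  exact nonneg_push f h

theorem l1_push_le (f : G →* H) (x : MonoidAlgebra ℝ G) : l1 (push f x) ≤ l1 x := by
  obtain ⟨g, hg, e⟩ := l1_eq_ev_sign (push f x)
  rw [e, ev_push]
  have := abs_ev_le x (g := fun w => g (f w)) (c := 1) fun w => hg _
  rw [one_mul] at this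
  exact (le_abs_self _).trans this

theorem Dom.push (f : G →* H) {x p : MonoidAlgebra ℝ G} {C : ℝ} (h : Dom x p C) :
    Dom (MA.push f x) (MA.push f p) C := fun g => by
  rw [ev_push, ev_push]
  exact h _

end push

section restr

variable {G : Type*}

open Classical in
/-- restriction to a set -/
noncomputable def restr (S : G → Prop) (x : MonoidAlgebra ℝ G) : MonoidAlgebra ℝ G :=
  MonoidAlgebra.ofCoeff (x.coeff.filter S)

open Classical in
theorem coeff_restr (S : G → Prop) (x : MonoidAlgebra ℝ G) (w : G) :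
    (restr S x).coeff w = if S w then x.coeff w else 0 := by
  rw [restr, MonoidAlgebra.coeff_ofCoeff, Finsupp.filter_apply]

theorem restr_add (S : G → Prop) (x y : MonoidAlgebra ℝ G) :
    restr S (x + y) = restr S x + restr S y := by
  classical
  refine MonoidAlgebra.coeff_injective (Finsupp.ext fun w => ?_)
  rw [MonoidAlgebra.coeff_add, Finsupp.add_apply, coeff_restr, coeff_restr, coeff_restr,
    MonoidAlgebra.coeff_add, Finsupp.add_apply]
  split_ifs <;> simp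

theorem restr_smul (S : G → Prop) (c : ℝ) (x : MonoidAlgebra ℝ G) :
    restr S (c • x) = c • restr S x := by
  classical
  refine MonoidAlgebra.coeff_injective (Finsupp.ext fun w => ?_)
  rw [MonoidAlgebra.coeff_smul, Finsupp.smul_apply, coeff_restr, coeff_restr,
    MonoidAlgebra.coeff_smul, Finsupp.smul_apply]
  split_ifs <;> simp

theorem restr_zero (S : G → Prop) : restr S (0 : MonoidAlgebra ℝ G) = 0 := by
  have := restr_smul S 0 (0 : MonoidAlgebra ℝ G)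
  simpa only [smul_zero, zero_smul] using this

theorem restr_neg (S : G → Prop) (x : MonoidAlgebra ℝ G) : restr S (-x) = - restr S x := by
  have := restr_smul S (-1) x
  simpa only [neg_smul, one_smul] using this

theorem restr_sub (S : G → Prop) (x y : MonoidAlgebra ℝ G) :
    restr S (x - y) = restr S x - restr S y := by
  rw [sub_eq_add_neg, restr_add, restr_neg, ← sub_eq_add_neg]

theorem restr_sum {ι : Type*} (S : G → Prop) (s : Finset ι) (f : ι → MonoidAlgebra ℝ G) :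
    restr S (∑ i ∈ s, f i) = ∑ i ∈ s, restr S (f i) := by
  classical
  induction s using Finset.induction_on with
  | empty => simp [restr_zero]
  | insert a s ha ih => rw [Finset.sum_insert ha, Finset.sum_insert ha, restr_add, ih]

open Classical in
theorem ev_restr (S : G → Prop) (x : MonoidAlgebra ℝ G) (g : G → ℝ) :
    ev (restr S x) g = ev x (fun w => if S w then g w else 0) := by
  have hs : (restr S x).coeff.support ⊆ x.coeff.support := by
    intro w hw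
    rw [Finsupp.mem_support_iff, coeff_restr] at hw
    rw [Finsupp.mem_support_iff]
    intro h
    apply hw
    rw [h]
    split_ifs <;> rfl
  rw [ev_eq_sum _ _ _ hs, ev_eq_sum x _ _ (Finset.Subset.refl _)]
  refine Finset.sum_congr rfl fun w _ => ?_
  rw [coeff_restr]
  split_ifs <;> simp

theorem nonneg_restr (S : G → Prop) {x : MonoidAlgebra ℝ G} (hx : nonneg x) :
    nonneg (restr S x) := by
  classical
  intro w
  rw [coeff_restr]
  split_ifs
  · exact hx w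
  · exact le_rfl

theorem restr_le (S : G → Prop) {x : MonoidAlgebra ℝ G} (hx : nonneg x) : le (restr S x) x := by
  classical
  intro w
  rw [coeff_restr]
  split_ifs
  · exact le_rfl
  · exact hx w

theorem le_restr (S : G → Prop) {x y : MonoidAlgebra ℝ G} (h : le x y) :
    le (restr S x) (restr S y) := by
  classical
  intro w
  rw [coeff_restr, coeff_restr]
  split_ifs
  · exact h w
  · exact le_rfl

theorem Dom.restr (S : G → Prop) {x p : MonoidAlgebra ℝ G} {C : ℝ} (h : Dom x p C) :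
    Dom (MA.restr S x) (MA.restr S p) C := fun g => by
  classical
  rw [ev_restr, ev_restr]
  have := h fun w => if S w then g w else 0
  have e : (fun w => (if S w then g w else 0) ^ 2) = fun w => if S w then g w ^ 2 else 0 := by
    funext w
    split_ifs <;> simp
  rwa [e] at this

/-- normalized restriction is close in total variation -/
theorem l1_sub_restr (S : G → Prop) {x : MonoidAlgebra ℝ G} (hx : nonneg x) {m : ℝ}
    (hx1 : aug x = 1) (hm : aug (restr S x) = m) (hm0 : 0 < m) :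
    l1 (x - m⁻¹ • restr S x) ≤ 2 * (1 - m) := by
  have hm1 : m ≤ 1 := by
    have h1 := aug_nonneg (le_iff.mp (restr_le S hx))
    rw [aug_sub, hx1, hm] at h1
    linarith only [h1]
  have e : x - m⁻¹ • restr S x = (x - restr S x) + (-(m⁻¹ - 1)) • restr S x := by
    rw [neg_smul, sub_smul, one_smul]; abel
  rw [e]
  refine (l1_add _ _).trans ?_
  rw [l1_smul, l1_of_nonneg (le_iff.mp (restr_le S hx)), aug_sub, hx1, hm,
    l1_of_nonneg (nonneg_restr S hx), hm, abs_neg, abs_of_nonneg (by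
      rw [sub_nonneg]; exact (one_le_inv₀ hm0).mpr hm1)]
  have : (m⁻¹ - 1) * m = 1 - m := by (clear * - hm0; field_simp)
  rw [this]; linarith only []

end restr

section powers

variable {G : Type*} [Monoid G]

/-- powers of close probability elements -/
theorem l1_pow_sub {A B : MonoidAlgebra ℝ G} (hA : Prob A) (hB : Prob B) (t : ℕ) :
    l1 (A ^ t - B ^ t) ≤ t * l1 (A - B) := by
  induction t with
  | zero => simp [l1_zero]
  | succ t ih =>
    have e : A ^ (t + 1) - B ^ (t + 1) = (A ^ t - B ^ t) * A + B ^ t * (A - B) := by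
      rw [pow_succ, pow_succ, sub_mul, mul_sub]; abel
    rw [e]
    refine (l1_add _ _).trans ?_
    have h1 := l1_mul_prob_right (x := A ^ t - B ^ t) hA
    have h2 : l1 (B ^ t * (A - B)) ≤ l1 (A - B) := l1_mul_prob_left (L1Str.Prob.pow hB t)
    push_cast
    linarith only [ih, h1, h2]

/-- transfer of slip smoothness -/
theorem l1_slip_transfer {A B : MonoidAlgebra ℝ G} (hA : Prob A) (hB : Prob B) (t : ℕ) :
    l1 ((1 - A) * A ^ t) ≤ l1 ((1 - B) * B ^ t) + (2 * t + 1) * l1 (A - B) := by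
  have e : (1 - A) * A ^ t = (1 - B) * B ^ t + ((A ^ t - B ^ t) - (A ^ (t + 1) - B ^ (t + 1))) := by
    rw [sub_mul, sub_mul, one_mul, one_mul, ← pow_succ', ← pow_succ']; abel
  rw [e]
  refine (l1_add _ _).trans ?_
  have h1 := l1_pow_sub hA hB t
  have h2 := l1_pow_sub hA hB (t + 1)
  have h3 : l1 ((A ^ t - B ^ t) - (A ^ (t + 1) - B ^ (t + 1)))
      ≤ l1 (A ^ t - B ^ t) + l1 (A ^ (t + 1) - B ^ (t + 1)) := by
    rw [sub_eq_add_neg]
    refine (l1_add _ _).trans ?_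
    rw [l1_neg]
  push_cast at h2
  linarith only [h1, h3, h2]

end powers

end Vale.Agent.P321.MA
end
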