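import Mathlib.Tactic.Module
import Mathlib.Data.Nat.Choose.Vandermonde
import Mathlib.Data.Nat.Choose.Central
import Mathlib.Analysis.SpecialFunctions.Exp
import Mathlib.Analysis.Complex.ExponentialBounds
import Mathlib.Algebra.Polynomial.Derivative
import Vale.Agent.P321.Bdl.B1

section

/-!
Thue-Morse step: iterated commutators and the slip step.
-/

namespace Vale.Agent.P321

namespace L1Str

variable {A : Type*} [Ring A] [Algebra ℝ A] (S : L1Str A)

/-- Thue-Morse pair of products. -/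
def tm (x y : A) : ℕ → A × A
  | 0 => (x, y)
  | k + 1 => ((tm x y k).1 * (tm x y k).2, (tm x y k).2 * (tm x y k).1)

variable {S}

end L1Str

end Vale.Agent.P321
end

section

/-!
Numeric recursion and the sequence of pairs of words.
-/

namespace Vale.Agent.P321

section Words

variable {A : Type*} [Ring A] [Algebra ℝ A] {S : L1Str A}

/-- repeat a list. -/
def rep (u : List Bool) : ℕ → List Bool
  | 0 => []
  | k + 1 => rep u k ++ u

theorem rep_zero (u : List Bool) : rep u 0 = [] := rfl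
theorem rep_succ (u : List Bool) (k : ℕ) : rep u (k + 1) = rep u k ++ u := rfl

theorem rep_length (u : List Bool) (k : ℕ) : (rep u k).length = k * u.length := by
  induction k with
  | zero => simp [rep_zero]
  | succ k ih => rw [rep_succ, List.length_append, ih]; ring

variable (F : List Bool → A)

theorem F_rep (hF : ∀ u v, F (u ++ v) = F u * F v) (hF1 : F [] = 1) (u : List Bool) (k : ℕ) :
    F (rep u k) = F u ^ k := by
  induction k with
  | zero => rw [rep_zero, hF1, pow_zero]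
  | succ k ih => rw [rep_succ, hF, ih, pow_succ]

end Words

end Vale.Agent.P321
end

section

/-!
Smoothing of a mass zero insertion by the explicit coins of `U = r + (1 - r) v`:
quantitative bounds for the first and the second difference of `U^a w U^b` in the position of `w`.
-/

namespace Vale.Agent.P321.Smooth

open Finset
open MA (ev le Prob Dom aug nonneg)

variable {G : Type*}

theorem Dom.wadd {x y p s : MonoidAlgebra ℝ G} {C D a b : ℝ} (hx : Dom x p C) (hy : Dom y s D)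
    (ha : 0 ≤ a) (hb : 0 ≤ b) (hC : 0 ≤ C) (hD : 0 ≤ D) (hp : nonneg p) (hs : nonneg s) :
    Dom (a • x + b • y) (a • p + b • s) (a * C + b * D) := fun g => by
  rw [MA.ev_add, MA.ev_add, MA.ev_smul, MA.ev_smul, MA.ev_smul, MA.ev_smul]
  set X := ev x g
  set Y := ev y g
  set P := ev p fun w => g w ^ 2
  set S := ev s fun w => g w ^ 2
  have hP : 0 ≤ P := MA.sq_nonneg_ev hp g
  have hS : 0 ≤ S := MA.sq_nonneg_ev hs g
  have h1 : X ^ 2 ≤ C * P := hx g
  have h2 : Y ^ 2 ≤ D * S := hy g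
  have h3 : 2 * (X * Y) ≤ C * S + D * P := by
    have h4 : (X * Y) ^ 2 ≤ (C * S) * (D * P) := by
      calc (X * Y) ^ 2 = X ^ 2 * Y ^ 2 := by ring
        _ ≤ (C * P) * (D * S) := mul_le_mul h1 h2 (sq_nonneg _) (mul_nonneg hC hP)
        _ = _ := by ring
    have h5 : 0 ≤ C * S := mul_nonneg hC hS
    have h6 : 0 ≤ D * P := mul_nonneg hD hP
    by_contra hcon
    push Not at hcon
    have h7 : (C * S + D * P) ^ 2 < (2 * (X * Y)) ^ 2 := by
      apply pow_lt_pow_left₀ hcon (by linarith) (by norm_num)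
    linarith only [h7, h4, sq_nonneg (C * S - D * P)]
  have h8 : 0 ≤ a * b := mul_nonneg ha hb
  linarith only [mul_le_mul_of_nonneg_left h3 h8, mul_le_mul_of_nonneg_left h2 (mul_nonneg hb hb), mul_le_mul_of_nonneg_left h1 (mul_nonneg ha ha)]

section mon

variable [Monoid G]

/-- symmetrised multiplication -/
noncomputable def bop (v : MonoidAlgebra ℝ G) (Φ : MonoidAlgebra ℝ G) : MonoidAlgebra ℝ G :=
  (1 / 2 : ℝ) • (v * Φ + Φ * v)

/-- the binomial average of a sequence -/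
noncomputable def cN (β : ℝ) : ℕ → (ℕ → ℝ) → ℝ
  | 0, C => C 0
  | N + 1, C => (1 - β) * cN β N C + β * cN β N (fun J => C (J + 1))

theorem cN_nonneg {β : ℝ} (h0 : 0 ≤ β) (h1 : β ≤ 1) (N : ℕ) :
    ∀ C : ℕ → ℝ, (∀ J, 0 ≤ C J) → 0 ≤ cN β N C := by
  induction N with
  | zero => intro C hC; exact hC 0
  | succ N ih =>
    intro C hC
    exact add_nonneg (mul_nonneg (by linarith) (ih C hC)) (mul_nonneg h0 (ih _ fun J => hC _))

theorem mix {v : MonoidAlgebra ℝ G} (hv : Prob v) {r : ℝ} (h0 : 0 ≤ r) (h1 : r ≤ 1) (N : ℕ) :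
    ∀ (Φ π : MonoidAlgebra ℝ G) (C : ℕ → ℝ), v * π = π * v → nonneg π → (∀ J, 0 ≤ C J) →
      (∀ J, Dom ((bop v)^[J] Φ) (v ^ J * π) (C J)) →
      Dom ((r • 1 + (1 - r) • v) ^ N * Φ * (r • 1 + (1 - r) • v) ^ N)
        ((r • 1 + (1 - r) • v) ^ (2 * N) * π) (cN (2 * r * (1 - r)) N C) := by
  induction N with
  | zero =>
    intro Φ π C _ _ _ h
    simpa [cN] using h 0
  | succ N ih =>
    intro Φ π C hc hπ hC h
    set U : MonoidAlgebra ℝ G := r • 1 + (1 - r) • v with hU
    have hUn : nonneg U := MA.nonneg_add (MA.nonneg_smul h0 MA.nonneg_one)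
      (MA.nonneg_smul (by linarith) hv.nonneg)
    have hcomm : Commute v U := by
      rw [hU]
      exact ((Commute.one_right v).smul_right r).add_right ((Commute.refl v).smul_right _)
    have hβ0 : 0 ≤ 2 * r * (1 - r) := mul_nonneg (by linarith) (by linarith)
    have hβ1 : 2 * r * (1 - r) ≤ 1 := by linarith only [sq_nonneg (2 * r - 1)]
    have i1 := ih Φ π C hc hπ hC h
    have i2 := ih (bop v Φ) (v * π) (fun J => C (J + 1)) (by rw [mul_assoc, hc])
      (MA.nonneg_mul hv.nonneg hπ) (fun J => hC _) (fun J => by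
        have := h (J + 1)
        rw [Function.iterate_succ_apply, pow_succ, mul_assoc] at this
        exact this)
    have n1 : nonneg (U ^ (2 * N) * π) := MA.nonneg_mul (MA.nonneg_pow hUn _) hπ
    have c1 := cN_nonneg hβ0 hβ1 N C hC
    have c2 := cN_nonneg hβ0 hβ1 N (fun J => C (J + 1)) (fun J => hC _)
    -- v on both sides
    have i3 : Dom (v * (U ^ N * Φ * U ^ N) * v) (v * (U ^ (2 * N) * π) * v)
        (cN (2 * r * (1 - r)) N C) :=
      MA.Dom.mul_right (MA.Dom.mul_left i1 hv) hv (MA.nonneg_mul hv.nonneg n1) c1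
    have j1 := Dom.wadd i1 i3 (sq_nonneg r) (sq_nonneg (1 - r)) c1 c1 n1
      (MA.nonneg_mul (MA.nonneg_mul hv.nonneg n1) hv.nonneg)
    have j2 := Dom.wadd j1 i2 zero_le_one hβ0 (by positivity) c2
      (MA.nonneg_add (MA.nonneg_smul (sq_nonneg r) n1) (MA.nonneg_smul (sq_nonneg _)
        (MA.nonneg_mul (MA.nonneg_mul hv.nonneg n1) hv.nonneg)))
      (MA.nonneg_mul (MA.nonneg_pow hUn _) (MA.nonneg_mul hv.nonneg hπ))
    have e1 : U ^ (N + 1) * Φ * U ^ (N + 1)
        = (1 : ℝ) • (r ^ 2 • (U ^ N * Φ * U ^ N) + (1 - r) ^ 2 • (v * (U ^ N * Φ * U ^ N) * v))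
          + (2 * r * (1 - r)) • (U ^ N * bop v Φ * U ^ N) := by
      have hNc : U ^ N * v = v * U ^ N := (hcomm.pow_right N).eq.symm
      have a1 : U ^ (N + 1) * Φ * U ^ (N + 1) = U ^ N * (U * Φ * U) * U ^ N := by
        calc U ^ (N + 1) * Φ * U ^ (N + 1) = (U ^ N * U) * Φ * (U * U ^ N) := by
              rw [← pow_succ, ← pow_succ']
          _ = _ := by simp only [mul_assoc]
      have a2 : U * Φ * U = r ^ 2 • Φ + (1 - r) ^ 2 • (v * Φ * v)
          + (2 * r * (1 - r)) • bop v Φ := by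
        rw [hU, bop, add_mul, mul_add, add_mul, add_mul, smul_mul_assoc, smul_mul_assoc, one_mul,
          mul_smul_comm, mul_smul_comm, mul_one, mul_smul_comm, mul_smul_comm]
        simp only [smul_mul_assoc, mul_one, smul_smul, smul_add]
        module
      have a3 : v * (U ^ N * Φ * U ^ N) * v = U ^ N * (v * Φ * v) * U ^ N := by
        calc v * (U ^ N * Φ * U ^ N) * v = (v * U ^ N) * Φ * (U ^ N * v) := by
              simp only [mul_assoc]
          _ = (U ^ N * v) * Φ * (v * U ^ N) := by rw [hNc]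
          _ = _ := by simp only [mul_assoc]
      rw [a1, a2, a3, one_smul]
      simp only [mul_add, add_mul, mul_smul_comm, smul_mul_assoc]
    have e2 : U ^ (2 * (N + 1)) * π
        = (1 : ℝ) • (r ^ 2 • (U ^ (2 * N) * π) + (1 - r) ^ 2 • (v * (U ^ (2 * N) * π) * v))
          + (2 * r * (1 - r)) • (U ^ (2 * N) * (v * π)) := by
      have hNc : U ^ (2 * N) * v = v * U ^ (2 * N) := (hcomm.pow_right (2 * N)).eq.symm
      have a1 : U ^ (2 * (N + 1)) * π = U ^ (2 * N) * ((U * U) * π) := by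
        rw [mul_add, mul_one, pow_add, pow_two, mul_assoc]
      have a2 : U * U = r ^ 2 • 1 + (1 - r) ^ 2 • (v * v) + (2 * r * (1 - r)) • v := by
        rw [hU, add_mul, mul_add, mul_add, smul_mul_assoc, smul_mul_assoc, one_mul,
          mul_smul_comm, mul_smul_comm, mul_one]
        simp only [smul_mul_assoc, one_mul, mul_smul_comm, smul_smul]
        module
      have a3 : v * (U ^ (2 * N) * π) * v = U ^ (2 * N) * ((v * v) * π) := by
        calc v * (U ^ (2 * N) * π) * v = (v * U ^ (2 * N)) * (π * v) := by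
              simp only [mul_assoc]
          _ = (U ^ (2 * N) * v) * (v * π) := by rw [hNc, hc]
          _ = _ := by simp only [mul_assoc]
      rw [a1, a2, a3, one_smul]
      simp only [mul_add, add_mul, mul_smul_comm, smul_mul_assoc, one_mul]
    rw [e1, e2]
    have e3 : cN (2 * r * (1 - r)) (N + 1) C = 1 * (r ^ 2 * cN (2 * r * (1 - r)) N C
        + (1 - r) ^ 2 * cN (2 * r * (1 - r)) N C)
        + 2 * r * (1 - r) * cN (2 * r * (1 - r)) N (fun J => C (J + 1)) := by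
      rw [cN]; ring
    rw [e3]
    exact j2


/-- shift of a sequence -/
def sh (c : ℕ → ℝ) : ℕ → ℝ
  | 0 => 0
  | K + 1 => c K

/-- homogeneous combination of insertions -/
noncomputable def hom (v w : MonoidAlgebra ℝ G) (n : ℕ) (c : ℕ → ℝ) : MonoidAlgebra ℝ G :=
  ∑ K ∈ range (n + 1), c K • (v ^ K * w * v ^ (n - K))

theorem v_hom (v w : MonoidAlgebra ℝ G) (n : ℕ) (c : ℕ → ℝ) :
    v * hom v w n c = hom v w (n + 1) (sh c) := by
  rw [hom, hom, Finset.sum_range_succ' _ (n + 1), Finset.mul_sum]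
  simp only [sh, zero_smul, add_zero]
  refine Finset.sum_congr rfl fun K _ => ?_
  rw [mul_smul_comm, pow_succ', show n + 1 - (K + 1) = n - K by omega]
  simp only [mul_assoc]

theorem hom_v (v w : MonoidAlgebra ℝ G) (n : ℕ) (c : ℕ → ℝ) (hc : c (n + 1) = 0) :
    hom v w n c * v = hom v w (n + 1) c := by
  rw [hom, hom, Finset.sum_range_succ _ (n + 1), Finset.sum_mul, hc, zero_smul, add_zero]
  refine Finset.sum_congr rfl fun K hK => ?_
  have := Finset.mem_range.mp hK
  rw [smul_mul_assoc, show n + 1 - K = (n - K) + 1 by omega, pow_succ]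
  simp only [mul_assoc]

theorem hom_sub (v w : MonoidAlgebra ℝ G) (n : ℕ) (c d : ℕ → ℝ) :
    hom v w n c - hom v w n d = hom v w n (fun K => c K - d K) := by
  rw [hom, hom, hom, ← Finset.sum_sub_distrib]
  exact Finset.sum_congr rfl fun K _ => by rw [sub_smul]

theorem bop_hom (v w : MonoidAlgebra ℝ G) (n : ℕ) (c : ℕ → ℝ) (hc : c (n + 1) = 0) :
    bop v (hom v w n c) = hom v w (n + 1) (fun K => (sh c K + c K) / 2) := by
  rw [bop, v_hom, hom_v _ _ _ _ hc, hom, hom, hom, ← Finset.sum_add_distrib, Finset.smul_sum]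
  refine Finset.sum_congr rfl fun K _ => ?_
  rw [← add_smul, smul_smul]
  congr 1
  ring

/-- commutator with `v` -/
noncomputable def com (v Φ : MonoidAlgebra ℝ G) : MonoidAlgebra ℝ G := v * Φ - Φ * v

theorem com_hom (v w : MonoidAlgebra ℝ G) (n : ℕ) (c : ℕ → ℝ) (hc : c (n + 1) = 0) :
    com v (hom v w n c) = hom v w (n + 1) (fun K => sh c K - c K) := by
  rw [com, v_hom, hom_v _ _ _ _ hc, hom_sub]

theorem bop_com (v Φ : MonoidAlgebra ℝ G) : bop v (com v Φ) = com v (bop v Φ) := by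
  rw [bop, com, bop, com, mul_smul_comm, smul_mul_assoc, ← smul_sub]
  congr 1
  rw [mul_sub, sub_mul, mul_add, add_mul]
  simp only [mul_assoc]
  abel

theorem bop_iter_com (v Φ : MonoidAlgebra ℝ G) (J : ℕ) :
    (bop v)^[J] (com v Φ) = com v ((bop v)^[J] Φ) := by
  induction J generalizing Φ with
  | zero => rfl
  | succ J ih => rw [Function.iterate_succ_apply, Function.iterate_succ_apply, bop_com, ih]

/-- binomial weights -/
noncomputable def bc (J K : ℕ) : ℝ := (J.choose K : ℝ) / 2 ^ J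

theorem bc_zero {J K : ℕ} (h : J < K) : bc J K = 0 := by
  rw [bc, Nat.choose_eq_zero_of_lt h, Nat.cast_zero, zero_div]

theorem bc_step (J : ℕ) : (fun K => (sh (bc J) K + bc J K) / 2) = bc (J + 1) := by
  funext K
  cases K with
  | zero => simp [sh, bc, pow_succ]; ring
  | succ K =>
    simp only [sh, bc, Nat.choose_succ_succ, Nat.cast_add, pow_succ]
    field_simp

theorem bop_iter (v w : MonoidAlgebra ℝ G) (J : ℕ) : (bop v)^[J] w = hom v w J (bc J) := by
  induction J with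
  | zero =>
    rw [Function.iterate_zero_apply, hom, Finset.sum_range_one]
    simp [bc]
  | succ J ih =>
    rw [Function.iterate_succ_apply', ih, bop_hom _ _ _ _ (bc_zero (Nat.lt_succ_self J)), bc_step]

theorem Dom_hom {v w : MonoidAlgebra ℝ G} {D : ℝ} (hv : Prob v) (hw : aug w = 0)
    (hD : 0 ≤ D) (h : Dom w v D) (n : ℕ) (c : ℕ → ℝ) :
    Dom (hom v w n c) (v ^ (n + 1)) (D * ∑ K ∈ range (n + 1), c K ^ 2) := by
  have := MA.Dom.bessel_sum hw hv h hD 1 MA.nonneg_one (n + 1)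
    (fun K => c K • v ^ (n - K)) (fun K => c K ^ 2) (fun K _ => sq_nonneg _)
    (fun K _ => by
      have h1 := (MA.Dom.self (MA.nonneg_pow hv.nonneg (n - K))).smul (c K)
      rw [MA.aug_pow, hv.aug, one_pow, mul_one] at h1
      rw [show n + 1 - 1 - K = n - K by omega, mul_one]
      exact h1)
  rw [mul_one] at this
  rw [hom]
  have e : ∀ K ∈ range (n + 1), v ^ K * w * (c K • v ^ (n - K))
      = c K • (v ^ K * w * v ^ (n - K)) := fun K _ => mul_smul_comm _ _ _
  rwa [Finset.sum_congr rfl e] at this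

end mon

section energy

/-- autocorrelation -/
noncomputable def ac (c : ℕ → ℝ) (d N : ℕ) : ℝ := ∑ K ∈ range N, c K * c (K + d)

theorem energy_one {c : ℕ → ℝ} {n : ℕ} (hc : ∀ K, n ≤ K → c K = 0) :
    ∑ K ∈ range (n + 1), (sh c K - c K) ^ 2 = 2 * ac c 0 n - 2 * ac c 1 n := by
  rw [Finset.sum_range_succ']
  simp only [sh, ac, add_zero]
  have h1 : ∑ K ∈ range n, c (K + 1) ^ 2 + c 0 ^ 2 = ∑ K ∈ range n, c K * c K := by
    rw [← Finset.sum_range_succ' (fun K => c K ^ 2) n, Finset.sum_range_succ, hc n le_rfl]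
    simp [pow_two]
  have h2 : ∑ K ∈ range n, (c K - c (K + 1)) ^ 2 = ∑ K ∈ range n, c K * c K
      - 2 * ∑ K ∈ range n, c K * c (K + 1) + ∑ K ∈ range n, c (K + 1) ^ 2 := by
    rw [Finset.mul_sum, ← Finset.sum_sub_distrib, ← Finset.sum_add_distrib]
    exact Finset.sum_congr rfl fun K _ => by ring
  rw [h2]
  linarith

theorem ac_sh {c : ℕ → ℝ} {n : ℕ} (hc : ∀ K, n ≤ K → c K = 0) :
    ac (fun K => sh c K - c K) 1 (n + 1) = 2 * ac c 1 n - ac c 2 n - ac c 0 n := by
  rw [ac, Finset.sum_range_succ']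
  simp only [sh, ac, add_zero]
  have h1 : ∑ K ∈ range n, c (K + 1) ^ 2 + c 0 ^ 2 = ∑ K ∈ range n, c K * c K := by
    rw [← Finset.sum_range_succ' (fun K => c K ^ 2) n, Finset.sum_range_succ, hc n le_rfl]
    simp [pow_two]
  have h3 : ∑ K ∈ range n, c (K + 1) * c (K + 2) + c 0 * c 1 = ∑ K ∈ range n, c K * c (K + 1) := by
    rw [← Finset.sum_range_succ' (fun K => c K * c (K + 1)) n, Finset.sum_range_succ, hc n le_rfl]
    simp
  have h2 : ∑ K ∈ range n, (c K - c (K + 1)) * (c (K + 1) - c (K + 1 + 1))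
      = ∑ K ∈ range n, c K * c (K + 1) - ∑ K ∈ range n, c K * c (K + 2)
        - ∑ K ∈ range n, c (K + 1) ^ 2 + ∑ K ∈ range n, c (K + 1) * c (K + 2) := by
    rw [← Finset.sum_sub_distrib, ← Finset.sum_sub_distrib, ← Finset.sum_add_distrib]
    exact Finset.sum_congr rfl fun K _ => by ring
  rw [h2]
  have h4 : c (0 + 1) = c 1 := rfl
  rw [h4]
  nlinarith only [h1, h3]

theorem energy_two {c : ℕ → ℝ} {n : ℕ} (hc : ∀ K, n ≤ K → c K = 0) :
    ∑ K ∈ range (n + 2), (sh (fun K => sh c K - c K) K - (sh c K - c K)) ^ 2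
      = 6 * ac c 0 n - 8 * ac c 1 n + 2 * ac c 2 n := by
  have hd : ∀ K, n + 1 ≤ K → (fun K => sh c K - c K) K = 0 := by
    intro K hK
    obtain ⟨K, rfl⟩ : ∃ m, K = m + 1 := ⟨K - 1, by omega⟩
    simp only [sh]
    rw [hc K (by omega), hc (K + 1) (by omega), sub_zero]
  have h1 := energy_one hd
  have h2 : ac (fun K => sh c K - c K) 0 (n + 1) = 2 * ac c 0 n - 2 * ac c 1 n := by
    rw [← energy_one hc, ac]
    exact Finset.sum_congr rfl fun K _ => by simp only [add_zero]; ring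
  rw [h1, h2, ac_sh hc]
  ring

theorem ac_bc (J d : ℕ) : ac (bc J) d (J + 1) = ((2 * J).choose (J + d) : ℝ) / 4 ^ J := by
  have h1 : (2 * J).choose (J + d) = ∑ k ∈ range (J + 1), J.choose k * J.choose (k + d) := by
    rw [two_mul, Nat.add_choose_eq, Finset.Nat.sum_antidiagonal_eq_sum_range_succ
      (fun i j => J.choose i * J.choose j)]
    have h2 : ∑ k ∈ range (J + d + 1), J.choose k * J.choose (J + d - k)
        = ∑ k ∈ range (J + 1), J.choose k * J.choose (J + d - k) := by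
      symm
      refine Finset.sum_subset (Finset.range_mono (by omega)) fun k _ hk => ?_
      have hk2 : ¬ k < J + 1 := fun h => hk (Finset.mem_range.mpr h)
      rw [Nat.choose_eq_zero_of_lt (by omega), zero_mul]
    rw [Nat.succ_eq_add_one, h2, ← Finset.sum_range_reflect]
    refine Finset.sum_congr rfl fun k hk => ?_
    have hk' : k ≤ J := by have := Finset.mem_range.mp hk; omega
    rw [show J + 1 - 1 - k = J - k by omega, Nat.choose_symm hk',
      show J + d - (J - k) = k + d by omega]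
  rw [h1, ac]
  push_cast
  rw [Finset.sum_div]
  refine Finset.sum_congr rfl fun k _ => ?_
  rw [bc, bc, div_mul_div_comm, ← mul_pow]
  norm_num

/-- central binomial weight -/
noncomputable def cb (J : ℕ) : ℝ := ((2 * J).choose J : ℝ) / 4 ^ J

theorem cb_nonneg (J : ℕ) : 0 ≤ cb J := by rw [cb]; positivity

theorem cb_sq (J : ℕ) : cb J ^ 2 * (2 * J + 1) ≤ 1 := by
  induction J with
  | zero => simp [cb]
  | succ J ih =>
    have h1 : cb (J + 1) = cb J * ((2 * J + 1) / (2 * J + 2)) := by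
      have h2 := Nat.succ_mul_centralBinom_succ J
      rw [Nat.centralBinom_eq_two_mul_choose, Nat.centralBinom_eq_two_mul_choose] at h2
      have h3 : ((J : ℝ) + 1) * ((2 * (J + 1)).choose (J + 1) : ℝ)
          = 2 * (2 * J + 1) * ((2 * J).choose J : ℝ) := by exact_mod_cast h2
      rw [cb, cb, pow_succ]
      field_simp
      nlinarith only [h3]
    have h4 : (0 : ℝ) ≤ J := Nat.cast_nonneg J
    rw [h1, mul_pow]
    push_cast
    have h5 : ((2 * (J : ℝ) + 1) / (2 * J + 2)) ^ 2 * (2 * (J + 1) + 1) ≤ 2 * J + 1 := by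
      rw [div_pow, div_mul_eq_mul_div, div_le_iff₀ (by positivity)]
      linarith only [h4]
    calc cb J ^ 2 * ((2 * (J : ℝ) + 1) / (2 * J + 2)) ^ 2 * (2 * (J + 1) + 1)
        = cb J ^ 2 * (((2 * (J : ℝ) + 1) / (2 * J + 2)) ^ 2 * (2 * (J + 1) + 1)) := by ring
      _ ≤ cb J ^ 2 * (2 * J + 1) := mul_le_mul_of_nonneg_left h5 (sq_nonneg _)
      _ ≤ 1 := ih

theorem choose_one (J : ℕ) : ((2 * J).choose (J + 1) : ℝ) / 4 ^ J = cb J * (J / (J + 1)) := by
  have h := Nat.choose_succ_right_eq (2 * J) J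
  rw [show 2 * J - J = J by omega] at h
  have h2 : ((2 * J).choose (J + 1) : ℝ) * (J + 1) = ((2 * J).choose J : ℝ) * J := by
    exact_mod_cast h
  rw [cb]
  field_simp
  linarith only [h2]

theorem choose_two (J : ℕ) : ((2 * J).choose (J + 2) : ℝ) / 4 ^ J
    = cb J * (J * (J - 1) / ((J + 1) * (J + 2))) := by
  have h := Nat.choose_succ_right_eq (2 * J) (J + 1)
  have h0 := choose_one J
  rcases Nat.eq_zero_or_pos J with rfl | hJ
  · simp
  rw [show 2 * J - (J + 1) = J - 1 by omega] at h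
  have h2 : ((2 * J).choose (J + 2) : ℝ) * (J + 2) = ((2 * J).choose (J + 1) : ℝ) * (J - 1) := by
    have h3 : ((J - 1 : ℕ) : ℝ) = (J : ℝ) - 1 := by
      rw [Nat.cast_sub hJ, Nat.cast_one]
    rw [← h3]
    exact_mod_cast h
  have h4 : ((2 * J).choose (J + 2) : ℝ) / 4 ^ J
      = ((2 * J).choose (J + 1) : ℝ) / 4 ^ J * ((J - 1) / (J + 2)) := by
    field_simp
    linarith only [h2]
  rw [h4, h0]
  field_simp

theorem E_one (J : ℕ) : ∑ K ∈ range (J + 2), (sh (bc J) K - bc J K) ^ 2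
    = 2 * cb J / (J + 1) := by
  rw [energy_one (fun K hK => bc_zero (by omega)), ac_bc, ac_bc, choose_one, add_zero]
  rw [← cb]
  field_simp
  ring

theorem E_two (J : ℕ) : ∑ K ∈ range (J + 3),
    (sh (fun K => sh (bc J) K - bc J K) K - (sh (bc J) K - bc J K)) ^ 2
    = 12 * cb J / ((J + 1) * (J + 2)) := by
  rw [energy_two (n := J + 1) (fun K hK => bc_zero (by omega)), ac_bc, ac_bc, ac_bc, choose_one,
    choose_two, add_zero]
  rw [← cb]
  field_simp
  ring


theorem cb_le (J : ℕ) : cb J ≤ Real.sqrt (((J : ℝ) + 1)⁻¹) := by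
  refine Real.le_sqrt_of_sq_le ?_
  have h := cb_sq J
  have h4 : (0 : ℝ) ≤ J := Nat.cast_nonneg J
  have h5 : (0 : ℝ) < (J : ℝ) + 1 := by positivity
  rw [← one_div, le_div_iff₀ h5]
  nlinarith only [sq_nonneg (cb J), h]

end energy

section average

theorem cN_mono {β : ℝ} (h0 : 0 ≤ β) (h1 : β ≤ 1) (N : ℕ) :
    ∀ C C' : ℕ → ℝ, (∀ J, C J ≤ C' J) → cN β N C ≤ cN β N C' := by
  induction N with
  | zero => intro C C' h; exact h 0
  | succ N ih =>
    intro C C' h
    exact add_le_add (mul_le_mul_of_nonneg_left (ih _ _ h) (by linarith))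
      (mul_le_mul_of_nonneg_left (ih _ _ fun J => h _) h0)

theorem cN_mul (β a : ℝ) (N : ℕ) : ∀ C : ℕ → ℝ, cN β N (fun J => a * C J) = a * cN β N C := by
  induction N with
  | zero => intro C; rfl
  | succ N ih =>
    intro C
    rw [cN, cN, ih, ih (fun J => C (J + 1))]
    ring

theorem cN_cs {β : ℝ} (h0 : 0 ≤ β) (h1 : β ≤ 1) (N : ℕ) :
    ∀ A B : ℕ → ℝ, (∀ J, 0 ≤ A J) → (∀ J, 0 ≤ B J) →
      cN β N (fun J => Real.sqrt (A J * B J)) ≤ Real.sqrt (cN β N A * cN β N B) := by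
  induction N with
  | zero => intro A B _ _; exact le_rfl
  | succ N ih =>
    intro A B hA hB
    have i1 := ih A B hA hB
    have i2 := ih (fun J => A (J + 1)) (fun J => B (J + 1)) (fun J => hA _) (fun J => hB _)
    rw [cN, cN, cN]
    set a := cN β N A
    set b := cN β N B
    set a' := cN β N fun J => A (J + 1)
    set b' := cN β N fun J => B (J + 1)
    have ha : 0 ≤ a := cN_nonneg h0 h1 N _ hA
    have hb : 0 ≤ b := cN_nonneg h0 h1 N _ hB
    have ha' : 0 ≤ a' := cN_nonneg h0 h1 N _ fun J => hA _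
    have hb' : 0 ≤ b' := cN_nonneg h0 h1 N _ fun J => hB _
    have h2 : 0 ≤ 1 - β := by linarith
    refine (add_le_add (mul_le_mul_of_nonneg_left i1 h2)
      (mul_le_mul_of_nonneg_left i2 h0)).trans ?_
    refine Real.le_sqrt_of_sq_le ?_
    have e1 : Real.sqrt (a * b) ^ 2 = a * b := Real.sq_sqrt (mul_nonneg ha hb)
    have e2 : Real.sqrt (a' * b') ^ 2 = a' * b' := Real.sq_sqrt (mul_nonneg ha' hb')
    have e3 : 2 * (Real.sqrt (a * b) * Real.sqrt (a' * b')) ≤ a * b' + a' * b := by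
      rw [← Real.sqrt_mul (mul_nonneg ha hb)]
      have : a * b * (a' * b') = (a * b') * (a' * b) := by ring
      rw [this]
      have h5 : 0 ≤ a * b' := mul_nonneg ha hb'
      have h6 : 0 ≤ a' * b := mul_nonneg ha' hb
      have h7 : Real.sqrt ((a * b') * (a' * b)) ≤ ((a * b') + (a' * b)) / 2 := by
        rw [Real.sqrt_le_left (by linarith only [h5, h6])]
        linarith only [sq_nonneg (a * b' - a' * b)]
      linarith
    have h8 : 0 ≤ (1 - β) * β := mul_nonneg h2 h0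
    have h9 := mul_le_mul_of_nonneg_left e3 h8
    linarith only [mul_eq_zero_of_left (sub_eq_zero.2 e2) ((1 - β) * β - (0)), mul_eq_zero_of_left (sub_eq_zero.2 e2) (β - (0)), mul_eq_zero_of_left (sub_eq_zero.2 e1) ((1 - β) * β - (0)), mul_eq_zero_of_left (sub_eq_zero.2 e1) (β - (0)), h9, e1]

theorem super_step {β x : ℝ} {s : ℕ} (hs : 1 ≤ s) (h0 : 0 ≤ β) (h1 : β ≤ 1) (hx : 1 ≤ x) :
    (1 - β) * (x ^ s)⁻¹ + β * ((x + 1) ^ s)⁻¹ ≤ ((x + β / (2 * s)) ^ s)⁻¹ := by
  have hs' : (1 : ℝ) ≤ s := by exact_mod_cast hs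
  have hx0 : 0 < x := by linarith
  set t := β / (2 * s) / x with ht
  have ht0 : 0 ≤ t := by positivity
  have e1 : x + β / (2 * s) = x * (1 + t) := by rw [ht]; field_simp
  have hst : (s : ℝ) * t = β / (2 * x) := by rw [ht]; field_simp
  have hst1 : (s : ℝ) * t ≤ 1 / 2 := by
    rw [hst, div_le_iff₀ (by positivity)]
    linarith only [hx, h1]
  have ht1 : t ≤ 1 := by nlinarith only [hs', hst1]
  -- (1+t)^s (1 - s t) ≤ 1
  have h2 : (1 + t) ^ s * (1 - s * t) ≤ 1 := by
    have h3 : 1 - (s : ℝ) * t ≤ (1 - t) ^ s := by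
      have := one_add_mul_le_pow (a := -t) (by linarith only [ht1]) s
      have e : 1 + (s : ℝ) * -t = 1 - s * t := by ring
      rw [e] at this
      have e2 : (1 : ℝ) + -t = 1 - t := by ring
      rwa [e2] at this
    calc (1 + t) ^ s * (1 - s * t) ≤ (1 + t) ^ s * (1 - t) ^ s :=
          mul_le_mul_of_nonneg_left h3 (by positivity)
      _ = (1 - t ^ 2) ^ s := by rw [← mul_pow]; ring
      _ ≤ 1 := pow_le_one₀ (by nlinarith only [ht1, hs', ht0, hst1]) (by (by_contra nlg; linarith only [nlg, mul_pos (sub_pos.2 (not_le.1 nlg)) (sub_pos.2 hx0), mul_nonneg (sq_nonneg (t : ℝ)) (le_of_lt (sub_pos.2 hx0))]))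
  have h4 : 1 - (s : ℝ) * t ≤ ((1 + t) ^ s)⁻¹ := by
    rw [le_inv_comm₀ (by linarith only [hst1]) (by positivity), le_inv_comm₀ (by positivity) (by linarith only [hst1])]
    rw [← one_div, le_div_iff₀ (by positivity)]
    linarith only [h2]
  have h5 : ((x + 1) ^ s)⁻¹ ≤ (x ^ s)⁻¹ * (1 - 1 / (2 * x)) := by
    have h6 : (x / (x + 1)) ^ s ≤ x / (x + 1) := by
      have h7 : x / (x + 1) ≤ 1 := by rw [div_le_one (by positivity)]; linarith only []
      calc (x / (x + 1)) ^ s ≤ (x / (x + 1)) ^ 1 := pow_le_pow_of_le_one (by positivity) h7 hs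
        _ = _ := pow_one _
    have h8 : x / (x + 1) ≤ 1 - 1 / (2 * x) := by
      rw [div_le_iff₀ (by positivity)]
      have : (1 - 1 / (2 * x)) * (x + 1) = x + 1 - (x + 1) / (2 * x) := by field_simp
      rw [this]
      have h9 : (x + 1) / (2 * x) ≤ 1 := by rw [div_le_one (by positivity)]; linarith only [hx]
      linarith only [h9]
    have e5 : ((x + 1) ^ s)⁻¹ = (x ^ s)⁻¹ * (x / (x + 1)) ^ s := by
      rw [div_pow]; field_simp
    rw [e5]
    exact mul_le_mul_of_nonneg_left (h6.trans h8) (by positivity)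
  have hxs : 0 < (x ^ s)⁻¹ := by positivity
  rw [e1, mul_pow, mul_inv]
  calc (1 - β) * (x ^ s)⁻¹ + β * ((x + 1) ^ s)⁻¹
      ≤ (1 - β) * (x ^ s)⁻¹ + β * ((x ^ s)⁻¹ * (1 - 1 / (2 * x))) := by
        have := mul_le_mul_of_nonneg_left h5 h0
        linarith only [this]
    _ = (x ^ s)⁻¹ * (1 - s * t) := by rw [hst]; field_simp; ring
    _ ≤ (x ^ s)⁻¹ * ((1 + t) ^ s)⁻¹ := mul_le_mul_of_nonneg_left h4 hxs.le

theorem cN_inv {β : ℝ} {s : ℕ} (hs : 1 ≤ s) (h0 : 0 ≤ β) (h1 : β ≤ 1) (N : ℕ) :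
    ∀ m : ℝ, 0 ≤ m → cN β N (fun J => (((J : ℝ) + m + 1) ^ s)⁻¹)
      ≤ ((m + 1 + β / (2 * s) * N) ^ s)⁻¹ := by
  induction N with
  | zero => intro m _; simp [cN]
  | succ N ih =>
    intro m hm
    have i1 := ih m hm
    have i2 := ih (m + 1) (by linarith only [hm])
    have e : (fun J : ℕ => ((((J + 1 : ℕ) : ℝ) + m + 1) ^ s)⁻¹)
        = fun J : ℕ => (((J : ℝ) + (m + 1) + 1) ^ s)⁻¹ := by
      funext J; push_cast; ring_nf
    rw [cN, e]
    have hx : (1 : ℝ) ≤ m + 1 + β / (2 * s) * N := by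
      have : 0 ≤ β / (2 * s) * N := by positivity
      linarith only [hm, this]
    have h3 := super_step hs h0 h1 hx
    have e2 : m + 1 + 1 + β / (2 * s) * (N : ℝ) = m + 1 + β / (2 * s) * N + 1 := by ring
    rw [e2] at i2
    have e3 : m + 1 + β / (2 * s) * ((N + 1 : ℕ) : ℝ) = m + 1 + β / (2 * s) * N + β / (2 * s) := by
      push_cast; ring
    rw [e3]
    exact (add_le_add (mul_le_mul_of_nonneg_left i1 (by linarith only [h1]))
      (mul_le_mul_of_nonneg_left i2 h0)).trans h3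

end average

end Vale.Agent.P321.Smooth
end

section

/-!
A small overlap of `N ^ K` and `N ^ (K + 1)` gives a slip with a slightly larger exponent.
-/

namespace Vale.Agent.P321

namespace L1Str

variable {A : Type*} [Ring A] [Algebra ℝ A] (S : L1Str A)

/-- `N ^ (K + 1) = (1/2)(1+N) h + U` with `nrm U ≤ 1 - η`. -/
theorem overlap_decomp {N h : A} {K : ℕ} {η : ℝ} (hN : S.Prob N) (hh : S.pos h)
    (h1 : S.pos (N ^ K - h)) (h2 : S.pos (N ^ (K + 1) - h)) (hη : η ≤ S.nrm h) :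
    ∃ U : A, S.pos U ∧ S.nrm U ≤ 1 - η ∧ S.nrm h ≤ 1 ∧
      N ^ (K + 1) = ((1 / 2 : ℝ) • (1 + N)) * h + U := by
  have hG := hN.pow (K + 1)
  have hh1 : S.nrm h ≤ 1 := by
    have := S.nrm_add_pos hh h2
    rw [add_sub_cancel, hG.2] at this
    linarith [S.nrm_nonneg (N ^ (K + 1) - h)]
  have hpos2 : S.pos (N ^ (K + 1) - N * h) := by
    rw [pow_succ', ← mul_sub]
    exact S.pos_mul hN.1 h1
  have e : N ^ (K + 1) - ((1 / 2 : ℝ) • (1 + N)) * h
      = (1 / 2 : ℝ) • (N ^ (K + 1) - h) + (1 / 2 : ℝ) • (N ^ (K + 1) - N * h) := by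
    rw [smul_mul_assoc, add_mul, one_mul, smul_sub, smul_sub, smul_add]
    have : N ^ (K + 1) = (1 / 2 : ℝ) • N ^ (K + 1) + (1 / 2 : ℝ) • N ^ (K + 1) := by
      rw [← add_smul]; norm_num
    nth_rewrite 1 [this]
    abel
  refine ⟨N ^ (K + 1) - ((1 / 2 : ℝ) • (1 + N)) * h, ?_, ?_, hh1, by abel⟩
  · rw [e]
    exact S.pos_add (S.pos_smul (by norm_num) h2) (S.pos_smul (by norm_num) hpos2)
  · have n1 : S.nrm (N ^ (K + 1) - h) = 1 - S.nrm h := by
      have := S.nrm_add_pos hh h2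
      rw [add_sub_cancel, hG.2] at this
      linarith only [this]
    have n2 : S.nrm (N ^ (K + 1) - N * h) = 1 - S.nrm h := by
      have := S.nrm_add_pos (S.pos_mul hN.1 hh) hpos2
      rw [add_sub_cancel, hG.2, S.nrm_mul_pos hN.1 hh, hN.2] at this
      linarith
    rw [e, S.nrm_add_pos (S.pos_smul (by norm_num) h2) (S.pos_smul (by norm_num) hpos2),
      S.nrm_smul, S.nrm_smul, n1, n2]
    rw [abs_of_nonneg (by norm_num : (0:ℝ) ≤ 1 / 2)]
    linarith only [hη]

/-- iterate: `N^((K+1) m) = (1/2)(1+N) B + V`, with `nrm V ≤ (1 - η) ^ m`. -/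
theorem overlap_pow {N h : A} {K : ℕ} {η : ℝ} (hN : S.Prob N) (hh : S.pos h)
    (h1 : S.pos (N ^ K - h)) (h2 : S.pos (N ^ (K + 1) - h)) (hη : η ≤ S.nrm h) (m : ℕ) :
    ∃ B V : A, S.nrm B ≤ 1 ∧ S.nrm V ≤ (1 - η) ^ m ∧
      N ^ ((K + 1) * m) = ((1 / 2 : ℝ) • (1 + N)) * B + V := by
  obtain ⟨U, hU, hU1, hb1, e⟩ := S.overlap_decomp hN hh h1 h2 hη
  have key : ∀ m : ℕ, ∃ B : A, S.pos B ∧ S.nrm B ≤ 1 ∧
      N ^ ((K + 1) * m) = ((1 / 2 : ℝ) • (1 + N)) * B + U ^ m := by
    intro m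
    induction m with
    | zero => exact ⟨0, S.pos_zero, by rw [S.nrm_zero]; norm_num, by simp⟩
    | succ m ih =>
      obtain ⟨B, hB, hB1, eB⟩ := ih
      have comm : N ^ (K + 1) * ((1 / 2 : ℝ) • (1 + N))
          = ((1 / 2 : ℝ) • (1 + N)) * N ^ (K + 1) := by
        rw [mul_smul_comm, smul_mul_assoc, mul_add, add_mul, mul_one, one_mul, ← pow_succ,
          ← pow_succ']
      have e2 : N ^ ((K + 1) * (m + 1))
          = ((1 / 2 : ℝ) • (1 + N)) * (N ^ (K + 1) * B + h * U ^ m) + U ^ (m + 1) := by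
        calc N ^ ((K + 1) * (m + 1)) = N ^ (K + 1) * N ^ ((K + 1) * m) := by
              rw [← pow_add]; congr 1; ring
          _ = N ^ (K + 1) * (((1 / 2 : ℝ) • (1 + N)) * B) + N ^ (K + 1) * U ^ m := by
              rw [eB, mul_add]
          _ = ((1 / 2 : ℝ) • (1 + N)) * (N ^ (K + 1) * B)
              + (((1 / 2 : ℝ) • (1 + N)) * h + U) * U ^ m := by
            rw [← mul_assoc, comm, mul_assoc]
            congr 1
            rw [← e]
          _ = _ := by
            rw [add_mul, pow_succ' U m, mul_add]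
            simp only [mul_assoc]
            abel
      have hpos : S.pos (N ^ (K + 1) * B + h * U ^ m) :=
        S.pos_add (S.pos_mul (hN.pow (K + 1)).1 hB) (S.pos_mul hh (S.pos_pow hU m))
      refine ⟨_, hpos, ?_, e2⟩
      have hq : S.pos ((1 / 2 : ℝ) • (1 + N)) :=
        S.pos_smul (by norm_num) (S.pos_add S.pos_one hN.1)
      have hqn : S.nrm ((1 / 2 : ℝ) • (1 + N)) = 1 := by
        rw [S.nrm_smul, S.nrm_add_pos S.pos_one hN.1, S.nrm_one, hN.2]
        rw [abs_of_nonneg (by norm_num : (0:ℝ) ≤ 1 / 2)]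
        norm_num
      have := S.nrm_add_pos (S.pos_mul hq hpos) (S.pos_pow hU (m + 1))
      rw [← e2, (hN.pow _).2, S.nrm_mul_pos hq hpos, hqn, one_mul] at this
      linarith [S.nrm_nonneg (U ^ (m + 1))]
  obtain ⟨B, hB, hB1, eB⟩ := key m
  refine ⟨B, U ^ m, hB1, ?_, eB⟩
  exact (S.nrm_pow_le U m).trans (pow_le_pow_left₀ (S.nrm_nonneg _) hU1 m)

/-- coins -/
theorem overlap_coins {M : A} {T : ℕ} {v : ℝ} (hM : S.Prob M)
    (h : ∃ B V : A, S.nrm B ≤ 1 ∧ S.nrm V ≤ v ∧ M ^ T = ((1 / 2 : ℝ) • (1 + M)) * B + V)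
    (J : ℕ) :
    ∃ B E : A, S.nrm B ≤ 1 ∧ S.nrm E ≤ J * v ∧
      M ^ (T * J) = ((1 / 2 : ℝ) • (1 + M)) ^ J * B + E := by
  obtain ⟨B, V, hB, hV, e⟩ := h
  set Q : A := (1 / 2 : ℝ) • (1 + M) with hQ
  have hQ1 : S.nrm Q ≤ 1 := by
    rw [hQ, S.nrm_smul, abs_of_nonneg (by norm_num : (0:ℝ) ≤ 1 / 2)]
    have := S.nrm_add 1 M
    rw [S.nrm_one, hM.2] at this
    linarith
  have hcomm : Commute (M ^ T) Q := by
    have : Commute (M ^ T) (1 + M) :=
      (Commute.one_right _).add_right ((Commute.refl M).pow_left _)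
    exact this.smul_right _
  induction J with
  | zero => exact ⟨1, 0, S.nrm_one.le, by rw [S.nrm_zero]; simp, by simp⟩
  | succ J ih =>
    obtain ⟨B', E', hB', hE', e'⟩ := ih
    refine ⟨B * B', Q ^ J * (V * B') + M ^ T * E', ?_, ?_, ?_⟩
    · exact (S.nrm_mul_prob_left hB).trans hB'
    · refine (S.nrm_add _ _).trans ?_
      have h1 : S.nrm (Q ^ J * (V * B')) ≤ v := by
        have hQN : S.nrm (Q ^ J) ≤ 1 :=
          (S.nrm_pow_le Q J).trans (pow_le_one₀ (S.nrm_nonneg _) hQ1)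
        refine (S.nrm_mul_prob_left hQN).trans ?_
        exact (S.nrm_mul_prob_right hB').trans hV
      have h2 : S.nrm (M ^ T * E') ≤ J * v :=
        (S.nrm_mul_prob_left (hM.pow _).2.le).trans hE'
      push_cast
      linarith
    · calc M ^ (T * (J + 1)) = M ^ T * M ^ (T * J) := by
            rw [← pow_add]; congr 1; ring
        _ = Q ^ J * (M ^ T * B') + M ^ T * E' := by
            rw [e', mul_add, ← mul_assoc, (hcomm.pow_right J).eq, mul_assoc]
        _ = Q ^ (J + 1) * (B * B') + (Q ^ J * (V * B') + M ^ T * E') := by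
            rw [e, add_mul, mul_add, pow_succ]
            simp only [mul_assoc]
            abel

/-- A small overlap gives a slip. -/
theorem slip_of_overlap {N h : A} {K : ℕ} {η : ℝ} (hN : S.Prob N) (hh : S.pos h)
    (h1 : S.pos (N ^ K - h)) (h2 : S.pos (N ^ (K + 1) - h)) (hη0 : 0 < η) (hη : η ≤ S.nrm h) :
    ∃ G : ℕ, S.Slip N G ∧ (G : ℝ) ≤ 100 * (K + 1) / η := by
  have hη1 : η ≤ 1 := by
    obtain ⟨_, _, _, hb1, _⟩ := S.overlap_decomp hN hh h1 h2 hη
    exact hη.trans hb1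
  set m : ℕ := ⌈5 / η⌉₊ with hm
  have hm1 : 5 / η ≤ m := Nat.le_ceil _
  have hm2 : (m : ℝ) ≤ 5 / η + 1 := (Nat.ceil_lt_add_one (by positivity)).le
  have hV : (1 - η) ^ m ≤ 1 / 60 := by
    have h3 : (1 - η) ^ m ≤ Real.exp (-5) := by
      have h4 : 1 - η ≤ Real.exp (-η) := by
        have := Real.add_one_le_exp (-η)
        linarith
      calc (1 - η) ^ m ≤ (Real.exp (-η)) ^ m := pow_le_pow_left₀ (by linarith) h4 m
        _ = Real.exp (m * (-η)) := by rw [← Real.exp_nat_mul]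
        _ ≤ Real.exp (-5) := by
          apply Real.exp_le_exp.mpr
          rw [div_le_iff₀ hη0] at hm1
          linarith only [hm1]
    refine h3.trans ?_
    rw [Real.exp_neg, inv_eq_one_div]
    apply one_div_le_one_div_of_le (by norm_num)
    have h5 : (2.7 : ℝ) < Real.exp 1 := by linarith only [Real.exp_one_gt_d9]
    have h6 : Real.exp 5 = Real.exp 1 ^ 5 := by
      rw [← Real.exp_nat_mul]; norm_num
    rw [h6]
    calc (60 : ℝ) ≤ 2.7 ^ 5 := by norm_num
      _ ≤ Real.exp 1 ^ 5 := pow_le_pow_left₀ (by norm_num) h5.le 5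
  obtain ⟨B, V, hB, hVn, e⟩ := S.overlap_pow hN hh h1 h2 hη m
  obtain ⟨B', E', hB', hE', e'⟩ := S.overlap_coins hN ⟨B, V, hB, hVn.trans hV, e⟩ 15
  have key : S.nrm ((1 - N) * N ^ ((K + 1) * m * 15)) ≤ 1 := by
    rw [e', mul_add, ← mul_assoc]
    refine (S.nrm_add _ _).trans ?_
    have g1 : S.nrm ((1 - N) * ((1 / 2 : ℝ) • (1 + N)) ^ 15 * B') ≤ 1 / 2 := by
      refine (S.nrm_mul_prob_right hB').trans ((S.nrm_coin hN.2.le _).trans ?_)
      have : Real.sqrt (((15 : ℕ) : ℝ) + 1) = 4 := by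
        rw [show ((15 : ℕ) : ℝ) + 1 = 4 ^ 2 by norm_num]
        exact Real.sqrt_sq (by norm_num)
      rw [this]
      norm_num
    have g2 : S.nrm ((1 - N) * E') ≤ 1 / 2 := by
      have h3 : S.nrm (1 - N) ≤ 2 := by
        have := S.nrm_sub 1 N
        rw [S.nrm_one, hN.2] at this
        linarith only [this]
      refine (S.nrm_mul _ _).trans ?_
      calc S.nrm (1 - N) * S.nrm E' ≤ 2 * (((15 : ℕ) : ℝ) * (1 / 60)) :=
            mul_le_mul h3 hE' (S.nrm_nonneg _) (by norm_num)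
        _ = 1 / 2 := by norm_num
    linarith only [g1, g2]
  refine ⟨(K + 1) * m * 15 + 1, ⟨Nat.le_add_left _ _, ?_⟩, ?_⟩
  · rw [Nat.add_sub_cancel, S.nrm_sub_comm]
    have e3 : N ^ ((K + 1) * m * 15) - N ^ ((K + 1) * m * 15 + 1)
        = (1 - N) * N ^ ((K + 1) * m * 15) := by
      rw [sub_mul, one_mul, ← pow_succ']
    rw [e3]
    exact key
  · push_cast
    rw [le_div_iff₀ hη0]
    have hmη : (m : ℝ) * η ≤ 6 := by
      have : (m : ℝ) * η ≤ (5 / η + 1) * η := mul_le_mul_of_nonneg_right hm2 hη0.le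
      have e5 : (5 / η + 1) * η = 5 + η := by field_simp
      linarith only [e5, this, hη1]
    have hK : (1 : ℝ) ≤ (K : ℝ) + 1 := by
      have : (0 : ℝ) ≤ K := Nat.cast_nonneg K
      linarith only [this]
    nlinarith only [hη1, hmη]

end L1Str

end Vale.Agent.P321
end

section

/-!
Smoothness of `((1-s) + s M)^n` for general `s`.
-/

namespace Vale.Agent.P321

open Finset

theorem sum_choose_div (x y : ℝ) (hx : 0 < x) (hy : 0 ≤ y) (hxy : x + y = 1) (n : ℕ) :
    ∑ k ∈ range (n + 1), (n.choose k : ℝ) * x ^ k * y ^ (n - k) / (k + 1) ≤ 1 / (x * (n + 1)) := by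
  have hn : (0 : ℝ) < n + 1 := by positivity
  have e1 : ∀ k ∈ range (n + 1), (n.choose k : ℝ) * x ^ k * y ^ (n - k) / (k + 1)
      = (1 / (x * (n + 1))) * (x ^ (k + 1) * y ^ (n + 1 - (k + 1)) * ((n + 1).choose (k + 1) : ℝ)) := by
    intro k _
    have h2 : ((n : ℝ) + 1) * n.choose k = ((n + 1).choose (k + 1) : ℝ) * (k + 1) := by
      exact_mod_cast Nat.add_one_mul_choose_eq n k
    have hk : (0 : ℝ) < k + 1 := by positivity
    have h3 : (n.choose k : ℝ) = ((n + 1).choose (k + 1) : ℝ) * (k + 1) / (n + 1) := by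
      field_simp
      linarith
    rw [h3, Nat.add_sub_add_right, pow_succ x k]
    field_simp
  rw [Finset.sum_congr rfl e1, ← Finset.mul_sum]
  have e2 := add_pow x y (n + 1)
  rw [hxy, one_pow, Finset.sum_range_succ'] at e2
  have h4 : ∑ k ∈ range (n + 1), x ^ (k + 1) * y ^ (n + 1 - (k + 1)) * ((n + 1).choose (k + 1) : ℝ) ≤ 1 := by
    have : 0 ≤ x ^ 0 * y ^ (n + 1 - 0) * ((n + 1).choose 0 : ℝ) := by positivity
    linarith
  calc _ ≤ (1 / (x * (n + 1))) * 1 := mul_le_mul_of_nonneg_left h4 (by positivity)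
    _ = _ := mul_one _

theorem sum_choose_div_sqrt (x y : ℝ) (hx : 0 < x) (hy : 0 ≤ y) (hxy : x + y = 1) (n : ℕ) :
    ∑ k ∈ range (n + 1), (n.choose k : ℝ) * x ^ k * y ^ (n - k) / Real.sqrt (k + 1)
      ≤ 1 / Real.sqrt (x * (n + 1)) := by
  have hcs := Finset.sum_mul_sq_le_sq_mul_sq (range (n + 1))
    (fun k => Real.sqrt ((n.choose k : ℝ) * x ^ k * y ^ (n - k)))
    (fun k => Real.sqrt ((n.choose k : ℝ) * x ^ k * y ^ (n - k)) / Real.sqrt ((k : ℝ) + 1))
  have hnn : ∀ k, 0 ≤ (n.choose k : ℝ) * x ^ k * y ^ (n - k) := fun k => by positivity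
  have e1 : ∑ k ∈ range (n + 1), Real.sqrt ((n.choose k : ℝ) * x ^ k * y ^ (n - k)) *
        (Real.sqrt ((n.choose k : ℝ) * x ^ k * y ^ (n - k)) / Real.sqrt ((k : ℝ) + 1))
      = ∑ k ∈ range (n + 1), (n.choose k : ℝ) * x ^ k * y ^ (n - k) / Real.sqrt (k + 1) := by
    refine Finset.sum_congr rfl fun k _ => ?_
    rw [← mul_div_assoc, Real.mul_self_sqrt (hnn k)]
  have e2 : ∑ k ∈ range (n + 1), Real.sqrt ((n.choose k : ℝ) * x ^ k * y ^ (n - k)) ^ 2 = 1 := by
    have e := add_pow x y n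
    rw [hxy, one_pow] at e
    rw [e]
    refine Finset.sum_congr rfl fun k _ => ?_
    rw [Real.sq_sqrt (hnn k)]
    ring
  have e3 : ∑ k ∈ range (n + 1), (Real.sqrt ((n.choose k : ℝ) * x ^ k * y ^ (n - k)) /
      Real.sqrt ((k : ℝ) + 1)) ^ 2 ≤ 1 / (x * (n + 1)) := by
    refine (le_of_eq ?_).trans (sum_choose_div x y hx hy hxy n)
    refine Finset.sum_congr rfl fun k _ => ?_
    rw [div_pow, Real.sq_sqrt (hnn k), Real.sq_sqrt (by positivity)]
  rw [e1, e2, one_mul] at hcs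
  have h0 : 0 ≤ ∑ k ∈ range (n + 1), (n.choose k : ℝ) * x ^ k * y ^ (n - k) / Real.sqrt (k + 1) :=
    Finset.sum_nonneg fun k _ => div_nonneg (hnn k) (Real.sqrt_nonneg _)
  have h5 := hcs.trans e3
  rw [show (1 : ℝ) / Real.sqrt (x * (n + 1)) = Real.sqrt (1 / (x * (n + 1))) by
    rw [Real.sqrt_div zero_le_one, Real.sqrt_one]]
  exact Real.le_sqrt_of_sq_le h5

namespace L1Str

variable {A : Type*} [Ring A] [Algebra ℝ A] (S : L1Str A)

/-- total variation of the binomial law with parameter `s`. -/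
theorem nrm_bin {M : A} (hM : S.nrm M ≤ 1) {s ρ : ℝ} (hρ : 0 < ρ) (h1 : ρ ≤ s) (h2 : ρ ≤ 1 - s)
    (n : ℕ) :
    S.nrm ((1 - M) * ((1 - s) • (1 : A) + s • M) ^ n) ≤ 2 / Real.sqrt (2 * ρ * (n + 1)) := by
  set R : A := (1 - s - ρ) • (1 : A) + (s - ρ) • M with hR
  have hRn : S.nrm R ≤ 1 - 2 * ρ := by
    refine (S.nrm_add _ _).trans ?_
    rw [S.nrm_smul, S.nrm_smul, S.nrm_one, abs_of_nonneg (by linarith : 0 ≤ 1 - s - ρ),
      abs_of_nonneg (by linarith : 0 ≤ s - ρ)]
    nlinarith [S.nrm_nonneg M]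
  have e0 : (1 - s) • (1 : A) + s • M = (2 * ρ) • ((1 / 2 : ℝ) • (1 + M)) + R := by
    rw [hR, smul_smul, smul_add]
    rw [show (2 * ρ * (1 / 2) : ℝ) = ρ by ring]
    rw [show (1 - s : ℝ) • (1 : A) = ρ • (1 : A) + (1 - s - ρ) • (1 : A) by
      rw [← add_smul]; congr 1; ring,
      show (s : ℝ) • M = ρ • M + (s - ρ) • M by rw [← add_smul]; congr 1; ring]
    abel
  have hc : Commute ((2 * ρ) • ((1 / 2 : ℝ) • (1 + M))) R := by
    have c1 : Commute (1 + M) R := by
      have : Commute (1 + M) M := (Commute.one_left M).add_left (Commute.refl M)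
      exact ((Commute.one_right _).smul_right _).add_right (this.smul_right _)
    exact (c1.smul_left _).smul_left _
  rw [e0, hc.add_pow, Finset.mul_sum]
  refine (S.nrm_sum_le _ _).trans ?_
  have hterm : ∀ k ∈ range (n + 1),
      S.nrm ((1 - M) * (((2 * ρ) • ((1 / 2 : ℝ) • (1 + M))) ^ k * R ^ (n - k) * (n.choose k : A)))
        ≤ 2 * ((n.choose k : ℝ) * (2 * ρ) ^ k * (1 - 2 * ρ) ^ (n - k) / Real.sqrt (k + 1)) := by
    intro k _
    have e1 : (1 - M) * (((2 * ρ) • ((1 / 2 : ℝ) • (1 + M))) ^ k * R ^ (n - k) * (n.choose k : A))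
        = ((n.choose k : ℝ) * (2 * ρ) ^ k) • (((1 - M) * ((1 / 2 : ℝ) • (1 + M)) ^ k) * R ^ (n - k)) := by
      rw [smul_pow, smul_mul_assoc, smul_mul_assoc, mul_smul_comm, mul_smul]
      have : ((n.choose k : A)) = (n.choose k : ℝ) • (1 : A) := by
        rw [Nat.cast_smul_eq_nsmul, nsmul_one]
      rw [this, mul_smul_comm, mul_one, mul_smul_comm, ← mul_assoc, smul_comm]
    rw [e1, S.nrm_smul, abs_of_nonneg (by positivity)]
    have h3 : S.nrm (((1 - M) * ((1 / 2 : ℝ) • (1 + M)) ^ k) * R ^ (n - k))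
        ≤ (2 / Real.sqrt (k + 1)) * (1 - 2 * ρ) ^ (n - k) := by
      refine (S.nrm_mul _ _).trans (mul_le_mul (S.nrm_coin hM k) ?_ (S.nrm_nonneg _) (by positivity))
      exact (S.nrm_pow_le _ _).trans (pow_le_pow_left₀ (S.nrm_nonneg _) hRn _)
    calc _ ≤ ((n.choose k : ℝ) * (2 * ρ) ^ k) * ((2 / Real.sqrt (k + 1)) * (1 - 2 * ρ) ^ (n - k)) :=
          mul_le_mul_of_nonneg_left h3 (by positivity)
      _ = _ := by ring
  refine (Finset.sum_le_sum hterm).trans ?_
  rw [← Finset.mul_sum]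
  have := sum_choose_div_sqrt (2 * ρ) (1 - 2 * ρ) (by positivity) (by linarith) (by ring) n
  calc _ ≤ 2 * (1 / Real.sqrt (2 * ρ * (n + 1))) := mul_le_mul_of_nonneg_left this (by norm_num)
    _ = _ := by ring

end L1Str

end Vale.Agent.P321
end

section

/-!
Probability generating polynomials: moments, Chebyshev, sup bounds.
-/

namespace Vale.Agent.P321

open Finset Polynomial

/-- generating polynomial of a law on `ℕ` with mean `m`, variance `v`. -/
structure PB (P : ℝ[X]) (m v : ℝ) : Prop where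
  nonneg : ∀ t, 0 ≤ P.coeff t
  one : P.eval 1 = 1
  mean : P.derivative.eval 1 = m
  sec : P.derivative.derivative.eval 1 = v - m + m ^ 2

theorem PB.one' : PB 1 0 0 := by
  refine ⟨fun t => ?_, by simp, by simp, by simp⟩
  rw [coeff_one]
  split_ifs <;> norm_num

theorem PB.mul {P Q : ℝ[X]} {m v m' v' : ℝ} (hP : PB P m v) (hQ : PB Q m' v') :
    PB (P * Q) (m + m') (v + v') := by
  refine ⟨fun t => ?_, ?_, ?_, ?_⟩
  · rw [coeff_mul]
    exact Finset.sum_nonneg fun x _ => mul_nonneg (hP.nonneg _) (hQ.nonneg _)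
  · rw [eval_mul, hP.one, hQ.one, one_mul]
  · rw [derivative_mul, eval_add, eval_mul, eval_mul, hP.one, hQ.one, hP.mean, hQ.mean]
    ring
  · rw [derivative_mul, derivative_add, derivative_mul, derivative_mul]
    simp only [eval_add, eval_mul, hP.one, hQ.one, hP.mean, hQ.mean, hP.sec, hQ.sec]
    ring

theorem PB.pow {P : ℝ[X]} {m v : ℝ} (hP : PB P m v) (n : ℕ) : PB (P ^ n) (n * m) (n * v) := by
  induction n with
  | zero => simpa using PB.one'
  | succ n ih =>
    rw [pow_succ]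
    have := ih.mul hP
    convert this using 1 <;> push_cast <;> ring

/-- one biased coin -/
noncomputable def cn (s : ℝ) : ℝ[X] := C (1 - s) + C s * X

theorem PB.cn {s : ℝ} (h0 : 0 ≤ s) (h1 : s ≤ 1) : PB (cn s) s (s * (1 - s)) := by
  refine ⟨fun t => ?_, ?_, ?_, ?_⟩
  · rw [P321.cn, coeff_add, coeff_C, coeff_C_mul, coeff_X]
    split_ifs <;> simp <;> linarith
  · simp [P321.cn]
  · simp [P321.cn]
  · simp [P321.cn]; ring

theorem sum_range_eq {P : ℝ[X]} {N : ℕ} (hN : P.natDegree < N) :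
    ∑ t ∈ range N, P.coeff t = P.eval 1 := by
  rw [eval_eq_sum_range' hN]
  simp

theorem sum_range_mean {P : ℝ[X]} {N : ℕ} (hN : P.natDegree < N) :
    ∑ t ∈ range N, P.coeff t * t = P.derivative.eval 1 := by
  rw [derivative_eval, sum_over_range' P _ N hN]
  · simp
  · intro n; simp

theorem sum_range_sec {P : ℝ[X]} {N : ℕ} (hN : P.natDegree < N) :
    ∑ t ∈ range N, P.coeff t * (t * (t - 1)) = P.derivative.derivative.eval 1 := by
  obtain ⟨n, rfl⟩ : ∃ n, N = n + 1 := ⟨N - 1, by omega⟩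
  rcases Nat.eq_zero_or_pos n with rfl | hn
  · have h0 : P.natDegree = 0 := by omega
    obtain ⟨a, ha⟩ : ∃ a, P = C a := ⟨_, eq_C_of_natDegree_eq_zero h0⟩
    subst ha
    simp
  · have hd : P.derivative.natDegree < n := by
      rcases Nat.eq_zero_or_pos P.natDegree with h | h
      · have : P.derivative.natDegree ≤ P.natDegree - 1 := natDegree_derivative_le P
        omega
      · have := natDegree_derivative_lt (p := P) (by omega)
        omega
    rw [← sum_range_mean hd, Finset.sum_range_succ']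
    simp only [Nat.cast_zero, zero_mul, mul_zero, add_zero]
    refine Finset.sum_congr rfl fun t _ => ?_
    rw [coeff_derivative]
    push_cast
    ring

theorem PB.sum_var {P : ℝ[X]} {m v : ℝ} (hP : PB P m v) {N : ℕ} (hN : P.natDegree < N) :
    ∑ t ∈ range N, P.coeff t * (t - m) ^ 2 = v := by
  have e : ∀ t ∈ range N, P.coeff t * ((t : ℝ) - m) ^ 2 = P.coeff t * (t * (t - 1))
      + (1 - 2 * m) * (P.coeff t * t) + m ^ 2 * P.coeff t := fun t _ => by ring
  rw [Finset.sum_congr rfl e, Finset.sum_add_distrib, Finset.sum_add_distrib, ← Finset.mul_sum,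
    ← Finset.mul_sum, sum_range_sec hN, sum_range_mean hN, sum_range_eq hN, hP.one, hP.mean,
    hP.sec]
  ring

/-- pairing of coefficient sequences -/
noncomputable def pip (P Q : ℝ[X]) : ℝ := P.sum fun t a => a * Q.coeff t

theorem pip_eq {P Q : ℝ[X]} {N : ℕ} (hN : P.natDegree < N) :
    pip P Q = ∑ t ∈ range N, P.coeff t * Q.coeff t := by
  rw [pip, sum_over_range' P _ N hN]
  intro n; simp

theorem PB.sum_le {P : ℝ[X]} {m v : ℝ} (hP : PB P m v) (s : Finset ℕ) :
    ∑ t ∈ s, P.coeff t ≤ 1 := by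
  set N := max (P.natDegree + 1) (s.sup id + 1) with hNd
  have hN : P.natDegree < N := by rw [hNd]; exact lt_of_lt_of_le (Nat.lt_succ_self _) (le_max_left _ _)
  have hs : s ⊆ range N := by
    intro t ht
    rw [mem_range]
    have : t ≤ s.sup id := Finset.le_sup (f := id) ht
    exact lt_of_lt_of_le (Nat.lt_succ_of_le this) (le_max_right _ _)
  rw [← hP.one, ← sum_range_eq hN]
  exact Finset.sum_le_sum_of_subset_of_nonneg hs fun t _ _ => hP.nonneg t

theorem pip_nonneg {P Q : ℝ[X]} {m v m' v' : ℝ} (hP : PB P m v) (hQ : PB Q m' v') :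
    0 ≤ pip P Q := by
  rw [pip_eq (Nat.lt_succ_self _)]
  exact Finset.sum_nonneg fun t _ => mul_nonneg (hP.nonneg t) (hQ.nonneg t)

theorem pip_le {P Q : ℝ[X]} {m v : ℝ} (hP : PB P m v) {b : ℝ} (hQ : ∀ t, Q.coeff t ≤ b) :
    pip P Q ≤ b := by
  rw [pip_eq (Nat.lt_succ_self _)]
  calc ∑ t ∈ range P.natDegree.succ, P.coeff t * Q.coeff t
      ≤ ∑ t ∈ range P.natDegree.succ, P.coeff t * b :=
        Finset.sum_le_sum fun t _ => mul_le_mul_of_nonneg_left (hQ t) (hP.nonneg t)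
    _ = b := by rw [← Finset.sum_mul, sum_range_eq (Nat.lt_succ_self _), hP.one, one_mul]

theorem pip_far {P Q : ℝ[X]} {m v m' v' : ℝ} (hP : PB P m v) (hQ : PB Q m' v') {b b' : ℝ}
    (hb : ∀ t, P.coeff t ≤ b) (hb' : ∀ t, Q.coeff t ≤ b') {D : ℝ} (hD : 0 < D)
    (hDm : D ≤ |m - m'|) :
    pip P Q ≤ b' * (4 * v / D ^ 2) + b * (4 * v' / D ^ 2) := by
  set N := max P.natDegree Q.natDegree + 1 with hN
  have h1 : P.natDegree < N := by rw [hN]; exact Nat.lt_succ_of_le (le_max_left _ _)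
  have h2 : Q.natDegree < N := by rw [hN]; exact Nat.lt_succ_of_le (le_max_right _ _)
  rw [pip_eq h1]
  have key : ∀ t ∈ range N, P.coeff t * Q.coeff t ≤
      b' * ((4 / D ^ 2) * (P.coeff t * (t - m) ^ 2))
        + b * ((4 / D ^ 2) * (Q.coeff t * (t - m') ^ 2)) := by
    intro t _
    have p0 := hP.nonneg t
    have q0 := hQ.nonneg t
    have hb0 : 0 ≤ b := p0.trans (hb t)
    have hb0' : 0 ≤ b' := q0.trans (hb' t)
    have hD2 : 0 < D ^ 2 := by positivity
    have hcase : D / 2 ≤ |(t : ℝ) - m| ∨ D / 2 ≤ |(t : ℝ) - m'| := by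
      by_contra hcon
      rw [not_or, not_le, not_le] at hcon
      have : |m - m'| ≤ |(t : ℝ) - m| + |(t : ℝ) - m'| := by
        have := abs_sub_le m (t : ℝ) m'
        rw [abs_sub_comm m (t : ℝ)] at this
        exact this
      linarith only [this, hDm, hcon.2, hcon.1]
    rcases hcase with h | h
    · have h3 : 1 ≤ (4 / D ^ 2) * ((t : ℝ) - m) ^ 2 := by
        have : (D / 2) ^ 2 ≤ ((t : ℝ) - m) ^ 2 := by
          rw [← sq_abs ((t : ℝ) - m)]
          exact pow_le_pow_left₀ (by positivity) h 2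
        rw [div_mul_eq_mul_div, le_div_iff₀ hD2]
        linarith only [this]
      have h4 : P.coeff t * Q.coeff t ≤ P.coeff t * b' := mul_le_mul_of_nonneg_left (hb' t) p0
      have h5 : P.coeff t * b' ≤ b' * ((4 / D ^ 2) * (P.coeff t * (t - m) ^ 2)) := by
        have : P.coeff t * b' * 1 ≤ P.coeff t * b' * ((4 / D ^ 2) * ((t : ℝ) - m) ^ 2) :=
          mul_le_mul_of_nonneg_left h3 (mul_nonneg p0 hb0')
        calc P.coeff t * b' = P.coeff t * b' * 1 := by ring
          _ ≤ _ := this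
          _ = _ := by ring
      have h6 : 0 ≤ b * ((4 / D ^ 2) * (Q.coeff t * (t - m') ^ 2)) := by positivity
      linarith only [h6, h5, h4]
    · have h3 : 1 ≤ (4 / D ^ 2) * ((t : ℝ) - m') ^ 2 := by
        have : (D / 2) ^ 2 ≤ ((t : ℝ) - m') ^ 2 := by
          rw [← sq_abs ((t : ℝ) - m')]
          exact pow_le_pow_left₀ (by positivity) h 2
        rw [div_mul_eq_mul_div, le_div_iff₀ hD2]
        linarith only [this]
      have h4 : P.coeff t * Q.coeff t ≤ b * Q.coeff t := mul_le_mul_of_nonneg_right (hb t) q0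
      have h5 : b * Q.coeff t ≤ b * ((4 / D ^ 2) * (Q.coeff t * (t - m') ^ 2)) := by
        have : b * Q.coeff t * 1 ≤ b * Q.coeff t * ((4 / D ^ 2) * ((t : ℝ) - m') ^ 2) :=
          mul_le_mul_of_nonneg_left h3 (mul_nonneg hb0 q0)
        calc b * Q.coeff t = b * Q.coeff t * 1 := by ring
          _ ≤ _ := this
          _ = _ := by ring
      have h6 : 0 ≤ b' * ((4 / D ^ 2) * (P.coeff t * (t - m) ^ 2)) := by positivity
      linarith only [h4, h5, h6]
  refine (Finset.sum_le_sum key).trans (le_of_eq ?_)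
  rw [Finset.sum_add_distrib, ← Finset.mul_sum, ← Finset.mul_sum, ← Finset.mul_sum,
    ← Finset.mul_sum, hP.sum_var h1, hQ.sum_var h2]
  ring

theorem coeff_mul_le {P Q : ℝ[X]} {b m v : ℝ} (hb : ∀ t, P.coeff t ≤ b) (hb0 : 0 ≤ b)
    (hQ : PB Q m v) (t : ℕ) : (P * Q).coeff t ≤ b := by
  rw [coeff_mul]
  calc ∑ x ∈ antidiagonal t, P.coeff x.1 * Q.coeff x.2
      ≤ ∑ x ∈ antidiagonal t, b * Q.coeff x.2 :=
        Finset.sum_le_sum fun x _ => mul_le_mul_of_nonneg_right (hb _) (hQ.nonneg _)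
    _ = b * ∑ x ∈ antidiagonal t, Q.coeff x.2 := by rw [Finset.mul_sum]
    _ ≤ b * 1 := by
        refine mul_le_mul_of_nonneg_left ?_ hb0
        have e := Finset.Nat.sum_antidiagonal_swap (n := t) (f := fun x : ℕ × ℕ => Q.coeff x.1)
        simp only [Prod.fst_swap] at e
        rw [e, Finset.Nat.sum_antidiagonal_eq_sum_range_succ_mk]
        exact hQ.sum_le _
    _ = b := mul_one b

theorem sum_coeff_one_sub_X_mul (P : ℝ[X]) (t : ℕ) :
    ∑ j ∈ range (t + 1), ((1 - X) * P).coeff j = P.coeff t := by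
  induction t with
  | zero => simp [sub_mul, mul_coeff_zero]
  | succ t ih =>
    rw [Finset.sum_range_succ, ih, sub_mul, one_mul, coeff_sub, coeff_X_mul]
    ring

/-- sup bound for the binomial law. -/
theorem cn_pow_coeff_le {s ρ : ℝ} (hρ : 0 < ρ) (h1 : ρ ≤ s) (h2 : ρ ≤ 1 - s) (n t : ℕ) :
    (cn s ^ n).coeff t ≤ 2 / Real.sqrt (2 * ρ * (n + 1)) := by
  set M : MonoidAlgebra ℝ (Multiplicative ℕ) := MonoidAlgebra.single (Multiplicative.ofAdd 1) 1
    with hM
  have hMn : (MA.str (G := Multiplicative ℕ)).nrm M ≤ 1 := by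
    rw [MA.str_nrm, hM, MA.l1_single, abs_one]
  have key := (MA.str (G := Multiplicative ℕ)).nrm_bin hMn hρ h1 h2 n
  rw [MA.str_nrm] at key
  have e1 : (1 - M) * ((1 - s) • (1 : MonoidAlgebra ℝ (Multiplicative ℕ)) + s • M) ^ n
      = aeval M ((1 - X) * cn s ^ n) := by
    rw [map_mul, map_sub, map_one, map_pow, cn, map_add, map_mul, aeval_C, aeval_C, aeval_X,
      Algebra.algebraMap_eq_smul_one, Algebra.algebraMap_eq_smul_one, smul_mul_assoc, one_mul]
  rw [e1] at key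
  set Q : ℝ[X] := (1 - X) * cn s ^ n with hQ
  have e2 : MA.ev (aeval M Q) (fun j => if Multiplicative.toAdd j ≤ t then 1 else 0)
      = (cn s ^ n).coeff t := by
    rw [aeval_eq_sum_range' (n := max (Q.natDegree + 1) (t + 1))
      (lt_of_lt_of_le (Nat.lt_succ_self _) (le_max_left _ _)), MA.ev_sum]
    have e3 : ∀ j ∈ range (max (Q.natDegree + 1) (t + 1)),
        MA.ev (Q.coeff j • M ^ j) (fun j => if Multiplicative.toAdd j ≤ t then 1 else 0)
        = if j ≤ t then Q.coeff j else 0 := by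
      intro j _
      rw [MA.ev_smul, hM, MonoidAlgebra.single_pow, MA.ev_single, one_pow, one_mul,
        ← ofAdd_nsmul, toAdd_ofAdd, smul_eq_mul, mul_one, mul_ite, mul_one, mul_zero]
    rw [Finset.sum_congr rfl e3, ← Finset.sum_filter]
    rw [← sum_coeff_one_sub_X_mul]
    refine Finset.sum_congr ?_ fun _ _ => rfl
    ext j
    simp only [mem_filter, mem_range, lt_max_iff]
    omega
  rw [← e2]
  refine (le_abs_self _).trans ((MA.abs_ev_le _ (c := 1) ?_).trans ?_)
  · intro w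
    split_ifs <;> simp
  · rw [one_mul]; exact key

end Vale.Agent.P321
end
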