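import Mathlib.Data.Nat.Choose.Vandermonde
import Mathlib.Algebra.Order.Chebyshev
import Mathlib.Analysis.Real.Sqrt
import Mathlib.Tactic
import Vale.Agent.P321.Bdl.B3
import Vale.Agent.P321.Bdl.B2

section

/-!
The weighted L2 form on the free algebra over a finite alphabet with a letter law.
-/

set_option linter.unusedSectionVars false

namespace Vale.Agent.P321

open Finset Polynomial

namespace Cr

variable {Λ : Type} [Fintype Λ] [DecidableEq Λ]

abbrev FA (Λ : Type) := MonoidAlgebra ℝ (FreeMonoid Λ)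

/-- letter law -/
structure Law (ν : Λ → ℝ) : Prop where
  pos : ∀ l, 0 < ν l
  sum : ∑ l, ν l = 1

/-- weight of a word -/
noncomputable def wt (ν : Λ → ℝ) : FreeMonoid Λ →* ℝ := FreeMonoid.lift ν

theorem wt_of (ν : Λ → ℝ) (l : Λ) (w : FreeMonoid Λ) :
    wt ν (FreeMonoid.of l * w) = ν l * wt ν w := by
  rw [map_mul, wt, FreeMonoid.lift_eval_of]

theorem wt_pos {ν : Λ → ℝ} (h : Law ν) (w : FreeMonoid Λ) : 0 < wt ν w := by
  induction w using FreeMonoid.recOn with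
  | one => rw [map_one]; exact one_pos
  | of_mul l w ih => rw [wt_of]; exact mul_pos (h.pos l) ih

/-- the linear element with coefficients `x` -/
noncomputable def lin (x : Λ → ℝ) : FA Λ := ∑ l, MonoidAlgebra.single (FreeMonoid.of l) (x l)

/-- the weighted bilinear form -/
noncomputable def ip (ν : Λ → ℝ) (A B : FA Λ) : ℝ := MA.ev A fun w => B.coeff w / wt ν w

variable (ν : Λ → ℝ)

theorem ip_add_left (A A' B : FA Λ) : ip ν (A + A') B = ip ν A B + ip ν A' B := MA.ev_add _ _ _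
theorem ip_smul_left (c : ℝ) (A B : FA Λ) : ip ν (c • A) B = c * ip ν A B := MA.ev_smul _ _ _
theorem ip_sum_left {ι : Type*} (s : Finset ι) (f : ι → FA Λ) (B : FA Λ) :
    ip ν (∑ i ∈ s, f i) B = ∑ i ∈ s, ip ν (f i) B := MA.ev_sum _ _ _

theorem ip_comm (A B : FA Λ) : ip ν A B = ip ν B A := by
  classical
  rw [ip, ip, MA.ev_eq_sum A _ (A.coeff.support ∪ B.coeff.support) Finset.subset_union_left,
    MA.ev_eq_sum B _ (A.coeff.support ∪ B.coeff.support) Finset.subset_union_right]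
  refine Finset.sum_congr rfl fun w _ => ?_
  ring

theorem ip_add_right (A B B' : FA Λ) : ip ν A (B + B') = ip ν A B + ip ν A B' := by
  rw [ip_comm, ip_add_left, ip_comm ν B, ip_comm ν B']
theorem ip_smul_right (c : ℝ) (A B : FA Λ) : ip ν A (c • B) = c * ip ν A B := by
  rw [ip_comm, ip_smul_left, ip_comm]
theorem ip_sum_right {ι : Type*} (s : Finset ι) (f : ι → FA Λ) (A : FA Λ) :
    ip ν A (∑ i ∈ s, f i) = ∑ i ∈ s, ip ν A (f i) := by
  rw [ip_comm, ip_sum_left]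
  exact Finset.sum_congr rfl fun i _ => ip_comm _ _ _

theorem of_mul_ne_one (l : Λ) (w : FreeMonoid Λ) : FreeMonoid.of l * w ≠ 1 := by
  intro h
  have := congrArg FreeMonoid.length h
  rw [FreeMonoid.length_mul, FreeMonoid.length_of, FreeMonoid.length_one] at this
  omega

theorem of_mul_inj {l l' : Λ} {w w' : FreeMonoid Λ}
    (h : FreeMonoid.of l * w = FreeMonoid.of l' * w') : l = l' := by
  have h2 : FreeMonoid.toList (FreeMonoid.of l * w) = FreeMonoid.toList (FreeMonoid.of l' * w') := by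
    rw [h]
  rw [FreeMonoid.toList_mul, FreeMonoid.toList_mul, FreeMonoid.toList_of, FreeMonoid.toList_of,
    List.singleton_append, List.singleton_append] at h2
  exact (List.cons.inj h2).1

theorem coeff_lin_mul (y : Λ → ℝ) (B : FA Λ) (l : Λ) (w : FreeMonoid Λ) :
    (lin y * B).coeff (FreeMonoid.of l * w) = y l * B.coeff w := by
  rw [lin, Finset.sum_mul, MonoidAlgebra.coeff_sum, Finsupp.finsetSum_apply,
    Finset.sum_eq_single l]
  · rw [MonoidAlgebra.coeff_single_mul_mul]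
  · intro l' _ hl'
    rw [MonoidAlgebra.coeff_single_mul_of_forall_mul_ne]
    intro d hd
    exact hl' (of_mul_inj hd)
  · intro h; exact absurd (Finset.mem_univ l) h

theorem coeff_lin_mul_one (y : Λ → ℝ) (B : FA Λ) : (lin y * B).coeff 1 = 0 := by
  rw [lin, Finset.sum_mul, MonoidAlgebra.coeff_sum, Finsupp.finsetSum_apply]
  refine Finset.sum_eq_zero fun l _ => ?_
  rw [MonoidAlgebra.coeff_single_mul_of_forall_mul_ne]
  intro d; exact of_mul_ne_one l d

theorem ip_lin_mul (hν : Law ν) (x y : Λ → ℝ) (A B : FA Λ) :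
    ip ν (lin x * A) (lin y * B) = (∑ l, x l * y l / ν l) * ip ν A B := by
  rw [ip, MA.ev_mul]
  conv_lhs => rw [lin]
  rw [MA.ev_sum, Finset.sum_mul]
  refine Finset.sum_congr rfl fun l _ => ?_
  rw [MA.ev_single]
  have e : (fun v => (lin y * B).coeff (FreeMonoid.of l * v) / wt ν (FreeMonoid.of l * v))
      = fun v => (B.coeff v / wt ν v) * (y l / ν l) := by
    funext v
    rw [coeff_lin_mul, wt_of]
    have := (hν.pos l).ne'
    have := (wt_pos hν v).ne'
    field_simp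
  rw [e]
  have e2 : MA.ev A (fun v => (B.coeff v / wt ν v) * (y l / ν l)) = (y l / ν l) * ip ν A B := by
    have := MA.ev_mul_fun A (y l / ν l) (fun v => B.coeff v / wt ν v)
    rw [ip, ← this]
    congr 1
    funext v; ring
  rw [e2]
  ring

theorem ip_one_one : ip ν (1 : FA Λ) 1 = 1 := by
  have h : wt ν (1 : FreeMonoid Λ) = 1 := (wt ν).map_one
  rw [ip, MA.ev_one, h, div_one, MonoidAlgebra.one_def, MonoidAlgebra.coeff_single,
    Finsupp.single_eq_same]

theorem ip_one_lin (y : Λ → ℝ) (B : FA Λ) : ip ν 1 (lin y * B) = 0 := by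
  rw [ip, MA.ev_one, coeff_lin_mul_one, zero_div]

theorem ip_lin_one (y : Λ → ℝ) (B : FA Λ) : ip ν (lin y * B) 1 = 0 := by
  rw [ip_comm, ip_one_lin]

/-- the mean letter -/
noncomputable def NN : FA Λ := lin ν

/-- the centred letter -/
noncomputable def et (a : Λ) : FA Λ := lin fun l => (if l = a then 1 else 0) - ν l

noncomputable def kap (a : Λ) : ℝ := 1 / ν a - 1

variable {ν}

theorem sum_NN (hν : Law ν) : ∑ l, ν l * ν l / ν l = 1 := by
  rw [← hν.sum]
  refine Finset.sum_congr rfl fun l _ => ?_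
  have := (hν.pos l).ne'
  field_simp

theorem sum_Net (hν : Law ν) (a : Λ) :
    ∑ l, ν l * ((if l = a then 1 else 0) - ν l) / ν l = 0 := by
  have : ∀ l ∈ Finset.univ, ν l * ((if l = a then 1 else 0) - ν l) / ν l
      = (if l = a then 1 else 0) - ν l := by
    intro l _
    have := (hν.pos l).ne'
    field_simp
  rw [Finset.sum_congr rfl this, Finset.sum_sub_distrib, hν.sum]
  simp

theorem sum_etN (hν : Law ν) (a : Λ) :
    ∑ l, ((if l = a then 1 else 0) - ν l) * ν l / ν l = 0 := by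
  refine Eq.trans (Finset.sum_congr rfl fun l _ => ?_) (sum_Net hν a)
  ring

theorem sum_etet (hν : Law ν) (a : Λ) :
    ∑ l, ((if l = a then 1 else 0) - ν l) * ((if l = a then 1 else 0) - ν l) / ν l = kap ν a := by
  have : ∀ l ∈ Finset.univ, ((if l = a then 1 else 0) - ν l) * ((if l = a then 1 else 0) - ν l) / ν l
      = (if l = a then (1 / ν l - 2) else 0) + ν l := by
    intro l _
    have := (hν.pos l).ne'
    split_ifs
    · field_simp; ring
    · field_simp; ring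
  rw [Finset.sum_congr rfl this, Finset.sum_add_distrib, hν.sum]
  simp [kap]
  ring

theorem ip_NN (hν : Law ν) (s t : ℕ) : ip ν (NN ν ^ s) (NN ν ^ t) = if s = t then 1 else 0 := by
  induction s generalizing t with
  | zero =>
    cases t with
    | zero => simp [ip_one_one]
    | succ t => rw [pow_zero, pow_succ', NN, ip_one_lin, if_neg (by omega)]
  | succ s ih =>
    cases t with
    | zero => rw [pow_zero, pow_succ', NN, ip_lin_one, if_neg (by omega)]
    | succ t =>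
      rw [pow_succ', pow_succ', NN, ip_lin_mul ν hν, sum_NN hν, one_mul]
      have := ih t
      rw [NN] at this
      rw [this]
      simp

theorem ip_Net (hν : Law ν) (a : Λ) (s t : ℕ) (B : FA Λ) :
    ip ν (NN ν ^ s) (NN ν ^ t * (et ν a * B)) = 0 := by
  induction s generalizing t with
  | zero =>
    cases t with
    | zero => rw [pow_zero, one_mul, et, ip_one_lin]
    | succ t => rw [pow_zero, pow_succ', mul_assoc, NN, ip_one_lin]
  | succ s ih =>
    cases t with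
    | zero =>
      rw [pow_zero, one_mul, pow_succ', NN, et, ip_lin_mul ν hν, sum_Net hν, zero_mul]
    | succ t =>
      rw [pow_succ', pow_succ', mul_assoc]
      have := ih t
      have e : NN ν = lin ν := rfl
      rw [e] at this ⊢
      rw [ip_lin_mul ν hν, sum_NN hν, one_mul, this]

theorem ip_etet (hν : Law ν) (a : Λ) (s t : ℕ) (A B : FA Λ) :
    ip ν (NN ν ^ s * (et ν a * A)) (NN ν ^ t * (et ν a * B))
      = if s = t then kap ν a * ip ν A B else 0 := by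
  induction s generalizing t with
  | zero =>
    cases t with
    | zero =>
      rw [pow_zero, one_mul, one_mul, et, ip_lin_mul ν hν, sum_etet hν, if_pos rfl]
    | succ t =>
      rw [pow_zero, one_mul, pow_succ', mul_assoc, NN, et, ip_lin_mul ν hν, sum_etN hν, zero_mul,
        if_neg (by omega)]
  | succ s ih =>
    cases t with
    | zero =>
      rw [pow_zero, one_mul, pow_succ', mul_assoc, NN, et, ip_lin_mul ν hν, sum_Net hν, zero_mul,
        if_neg (by omega)]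
    | succ t =>
      rw [pow_succ', pow_succ', mul_assoc, mul_assoc]
      have := ih t
      have e : NN ν = lin ν := rfl
      rw [e] at this ⊢
      rw [ip_lin_mul ν hν, sum_NN hν, one_mul, this]
      simp

theorem pip_eq_range {P Q : ℝ[X]} {N M : ℕ} (hN : P.natDegree < N) (hM : Q.natDegree < M) :
    pip P Q = ∑ s ∈ range N, ∑ t ∈ range M, P.coeff s * (Q.coeff t * (if s = t then 1 else 0)) := by
  rw [pip_eq hN]
  refine Finset.sum_congr rfl fun s _ => ?_
  rw [← Finset.mul_sum]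
  congr 1
  simp only [mul_ite, mul_one, mul_zero]
  rw [Finset.sum_ite_eq]
  split_ifs with h
  · rfl
  · rw [mem_range, not_lt] at h
    exact coeff_eq_zero_of_natDegree_lt (lt_of_lt_of_le hM h)

theorem ip_aeval (hν : Law ν) (P Q : ℝ[X]) :
    ip ν (aeval (NN ν) P) (aeval (NN ν) Q) = pip P Q := by
  rw [pip_eq_range (Nat.lt_succ_self _) (Nat.lt_succ_self _), aeval_eq_sum_range,
    aeval_eq_sum_range, ip_sum_left]
  refine Finset.sum_congr rfl fun s _ => ?_
  rw [ip_smul_left, ip_sum_right, Finset.mul_sum]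
  refine Finset.sum_congr rfl fun t _ => ?_
  rw [ip_smul_right, ip_NN hν]

theorem ip_aeval_et (hν : Law ν) (a : Λ) (P Q : ℝ[X]) (B : FA Λ) :
    ip ν (aeval (NN ν) P) (aeval (NN ν) Q * (et ν a * B)) = 0 := by
  rw [aeval_eq_sum_range, aeval_eq_sum_range, ip_sum_left]
  refine Finset.sum_eq_zero fun s _ => ?_
  rw [ip_smul_left, Finset.sum_mul, ip_sum_right, Finset.sum_eq_zero, mul_zero]
  intro t _
  rw [smul_mul_assoc, ip_smul_right, ip_Net hν, mul_zero]

theorem ip_et_et (hν : Law ν) (a : Λ) (P Q : ℝ[X]) (A B : FA Λ) :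
    ip ν (aeval (NN ν) P * (et ν a * A)) (aeval (NN ν) Q * (et ν a * B))
      = kap ν a * (pip P Q * ip ν A B) := by
  rw [pip_eq_range (Nat.lt_succ_self P.natDegree) (Nat.lt_succ_self Q.natDegree),
    aeval_eq_sum_range, aeval_eq_sum_range, Finset.sum_mul, ip_sum_left, Finset.sum_mul,
    Finset.sum_mul, Finset.mul_sum]
  refine Finset.sum_congr rfl fun s _ => ?_
  rw [smul_mul_assoc, ip_smul_left, ip_sum_right,
    Finset.mul_sum, Finset.sum_mul, Finset.mul_sum]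
  refine Finset.sum_congr rfl fun t _ => ?_
  rw [smul_mul_assoc, ip_smul_right, ip_etet hν]
  split_ifs
  · ring
  · ring

end Cr

end Vale.Agent.P321
end

section

/-!
Real sums used for the collision estimate.
-/

set_option linter.unusedSectionVars false

namespace Vale.Agent.P321

open Finset Polynomial

namespace Cr

theorem sum_inv_sqrt_le (n : ℕ) :
    ∑ i ∈ range n, 1 / Real.sqrt ((i : ℝ) + 1) ≤ 2 * Real.sqrt n := by
  induction n with
  | zero => simp
  | succ n ih =>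
    rw [Finset.sum_range_succ]
    have h1 : 0 < Real.sqrt ((n : ℝ) + 1) := Real.sqrt_pos.mpr (by positivity)
    have h2 : Real.sqrt ((n : ℝ) + 1) ^ 2 = n + 1 := Real.sq_sqrt (by positivity)
    have h3 : Real.sqrt (n : ℝ) ^ 2 = n := Real.sq_sqrt (by positivity)
    have h0 : 0 ≤ Real.sqrt (n : ℝ) := Real.sqrt_nonneg _
    have h4 : 1 / Real.sqrt ((n : ℝ) + 1) ≤ 2 * Real.sqrt ((n : ℝ) + 1) - 2 * Real.sqrt n := by
      rw [div_le_iff₀ h1]
      linarith only [h3, h2, sq_nonneg (Real.sqrt ((n : ℝ) + 1) - Real.sqrt n)]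
    push_cast
    linarith only [ih, h4]

theorem sum_inv_sq_le' (n : ℕ) :
    ∑ i ∈ range n, 1 / ((i : ℝ) + 1) ^ 2 ≤ 2 - 1 / (n : ℝ) := by
  induction n with
  | zero => norm_num
  | succ n ih =>
    rw [Finset.sum_range_succ]
    rcases Nat.eq_zero_or_pos n with rfl | hn
    · norm_num
    · have hn' : (0 : ℝ) < n := by exact_mod_cast hn
      have h : 1 / ((n : ℝ) + 1) ^ 2 ≤ 1 / (n : ℝ) - 1 / ((n : ℝ) + 1) := by
        rw [div_sub_div _ _ hn'.ne' (by positivity), div_le_div_iff₀ (by positivity) (by positivity)]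
        linarith only [hn']
      push_cast
      linarith only [ih, h]

theorem sum_inv_sq_le (n : ℕ) :
    ∑ i ∈ range n, 1 / ((i : ℝ) + 1) ^ 2 ≤ 2 := by
  have h := sum_inv_sq_le' n
  have : 0 ≤ 1 / (n : ℝ) := by positivity
  linarith only [h, this]

theorem sum_inv_le (n : ℕ) :
    ∑ i ∈ range n, 1 / ((i : ℝ) + 1) ≤ 2 * Real.sqrt n := by
  refine (Finset.sum_le_sum fun i _ => ?_).trans (sum_inv_sqrt_le n)
  have h1 : (1 : ℝ) ≤ (i : ℝ) + 1 := by linarith [(Nat.cast_nonneg i : (0 : ℝ) ≤ i)]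
  have h2 : Real.sqrt ((i : ℝ) + 1) ≤ (i : ℝ) + 1 := by
    rw [Real.sqrt_le_left (by positivity)]
    (by_contra nlg; linarith only [nlg, mul_pos (sub_pos.2 (not_le.1 nlg)) (sub_pos.2 (not_le.1 nlg)), mul_nonneg (sq_nonneg (↑i + 1 : ℝ)) (sub_nonneg.2 h1), mul_nonneg (sq_nonneg (↑i + 1 : ℝ)) (le_of_lt (sub_pos.2 (not_le.1 nlg)))])
  exact one_div_le_one_div_of_le (Real.sqrt_pos.mpr (by positivity)) h2

theorem conv_le (k : ℕ) :
    ∑ i ∈ range k, 1 / Real.sqrt ((i : ℝ) + 1) * (1 / Real.sqrt (((k - 1 - i : ℕ) : ℝ) + 1)) ≤ 6 := by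
  rcases Nat.eq_zero_or_pos k with rfl | hk
  · simp
  have hkR : (0 : ℝ) < k := by exact_mod_cast hk
  have key : ∀ i ∈ range k, 1 / Real.sqrt ((i : ℝ) + 1) * (1 / Real.sqrt (((k - 1 - i : ℕ) : ℝ) + 1))
      ≤ (3 / 2) / Real.sqrt k * (1 / Real.sqrt ((i : ℝ) + 1))
        + (3 / 2) / Real.sqrt k * (1 / Real.sqrt (((k - 1 - i : ℕ) : ℝ) + 1)) := by
    intro i hi
    rw [mem_range] at hi
    have hx : 0 < Real.sqrt ((i : ℝ) + 1) := Real.sqrt_pos.mpr (by positivity)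
    have hy : 0 < Real.sqrt (((k - 1 - i : ℕ) : ℝ) + 1) := Real.sqrt_pos.mpr (by positivity)
    have hz : 0 < Real.sqrt (k : ℝ) := Real.sqrt_pos.mpr hkR
    have hsum : (i : ℝ) + 1 + (((k - 1 - i : ℕ) : ℝ) + 1) = k + 1 := by
      have : i + 1 + ((k - 1 - i) + 1) = k + 1 := by omega
      exact_mod_cast this
    have hcase : (k : ℝ) / 2 ≤ (i : ℝ) + 1 ∨ (k : ℝ) / 2 ≤ ((k - 1 - i : ℕ) : ℝ) + 1 := by
      by_contra hcon
      rw [not_or, not_le, not_le] at hcon
      linarith only [hsum, hcon.2, hcon.1]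
    have aux : ∀ z : ℝ, (k : ℝ) / 2 ≤ z → 1 / Real.sqrt z ≤ (3 / 2) / Real.sqrt k := by
      intro z hzz
      have hz0 : 0 < z := lt_of_lt_of_le (by positivity) hzz
      have h1 : Real.sqrt k ≤ (3 / 2) * Real.sqrt z := by
        rw [show (3 / 2 : ℝ) * Real.sqrt z = Real.sqrt ((3 / 2) ^ 2 * z) by
          rw [Real.sqrt_mul (by positivity), Real.sqrt_sq (by norm_num)]]
        exact Real.sqrt_le_sqrt (by linarith only [hz0, hzz])
      rw [div_le_div_iff₀ (Real.sqrt_pos.mpr hz0) hz]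
      linarith only [h1]
    have n1 : 0 ≤ 1 / Real.sqrt ((i : ℝ) + 1) := by positivity
    have n2 : 0 ≤ 1 / Real.sqrt (((k - 1 - i : ℕ) : ℝ) + 1) := by positivity
    have n3 : 0 ≤ (3 / 2) / Real.sqrt (k : ℝ) := by positivity
    rcases hcase with h | h
    · have := aux _ h
      linarith only [mul_le_mul_of_nonneg_right this n2, mul_nonneg n3 n1]
    · have := aux _ h
      nlinarith only [mul_nonneg n3 n2, mul_le_mul_of_nonneg_left this n1, n3, n2, this, n1]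
  refine (Finset.sum_le_sum key).trans ?_
  rw [Finset.sum_add_distrib, ← Finset.mul_sum, ← Finset.mul_sum,
    Finset.sum_range_reflect (fun j => 1 / Real.sqrt ((j : ℝ) + 1)) k]
  have h1 := sum_inv_sqrt_le k
  have hz : 0 < Real.sqrt (k : ℝ) := Real.sqrt_pos.mpr hkR
  have h2 : (3 / 2) / Real.sqrt (k : ℝ) * ∑ i ∈ range k, 1 / Real.sqrt ((i : ℝ) + 1) ≤ 3 := by
    calc _ ≤ (3 / 2) / Real.sqrt (k : ℝ) * (2 * Real.sqrt k) :=
          mul_le_mul_of_nonneg_left h1 (by positivity)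
      _ = 3 := by field_simp
  linarith only [h2]

theorem sum_dist_le (g f : ℕ → ℝ) (hg : ∀ d, 0 ≤ g d) {K i : ℕ} (hi : i < K) {b : ℝ}
    (hfi : f i ≤ b) (h1 : ∀ j, j < i → f j ≤ g (i - 1 - j))
    (h2 : ∀ t, i + 1 + t < K → f (i + 1 + t) ≤ g t) :
    ∑ j ∈ range K, f j ≤ b + 2 * ∑ d ∈ range K, g d := by
  obtain ⟨m, rfl⟩ : ∃ m, K = i + 1 + m := ⟨K - (i + 1), by omega⟩
  rw [Finset.sum_range_add, Finset.sum_range_succ]
  have e1 : ∑ j ∈ range i, f j ≤ ∑ d ∈ range (i + 1 + m), g d := by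
    calc ∑ j ∈ range i, f j ≤ ∑ j ∈ range i, g (i - 1 - j) :=
          Finset.sum_le_sum fun j hj => h1 j (mem_range.mp hj)
      _ = ∑ j ∈ range i, g j := Finset.sum_range_reflect g i
      _ ≤ _ := Finset.sum_le_sum_of_subset_of_nonneg
          (fun x hx => by rw [mem_range] at hx ⊢; omega) fun d _ _ => hg d
  have e2 : ∑ t ∈ range m, f (i + 1 + t) ≤ ∑ d ∈ range (i + 1 + m), g d := by
    calc ∑ t ∈ range m, f (i + 1 + t) ≤ ∑ t ∈ range m, g t :=
          Finset.sum_le_sum fun t ht => h2 t (by rw [mem_range] at ht; omega)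
      _ ≤ _ := Finset.sum_le_sum_of_subset_of_nonneg
          (fun x hx => by rw [mem_range] at hx ⊢; omega) fun d _ _ => hg d
  linarith

/-- abstract double sum estimate -/
theorem double_sum_le {a F : ℕ → ℕ → ℝ} {R c : ℝ} {K k k' : ℕ} (hR : 0 ≤ R) (hc : 0 ≤ c)
    (hk : k ≤ K) (hk' : k' ≤ K)
    (ha : ∀ i j, 0 ≤ a i j)
    (hr : ∀ i, i < K → ∑ j ∈ range K, a i j ≤ R / Real.sqrt ((i : ℝ) + 1))
    (hr' : ∀ j, j < K → ∑ i ∈ range K, a i j ≤ R / Real.sqrt ((j : ℝ) + 1))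
    (hF : ∀ r r', r < k → r' < k' →
      F r r' ≤ c / Real.sqrt ((r : ℝ) + 1) + c / Real.sqrt ((r' : ℝ) + 1)) :
    ∑ i ∈ range k, ∑ j ∈ range k', a i j * F (k - 1 - i) (k' - 1 - j) ≤ 12 * R * c := by
  have h1 : ∑ i ∈ range k, ∑ j ∈ range k', a i j * F (k - 1 - i) (k' - 1 - j)
      ≤ ∑ i ∈ range k, ∑ j ∈ range k', (a i j * (c / Real.sqrt (((k - 1 - i : ℕ) : ℝ) + 1))
        + a i j * (c / Real.sqrt (((k' - 1 - j : ℕ) : ℝ) + 1))) := by
    refine Finset.sum_le_sum fun i hi => Finset.sum_le_sum fun j hj => ?_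
    rw [mem_range] at hi hj
    rw [← mul_add]
    exact mul_le_mul_of_nonneg_left (hF _ _ (by omega) (by omega)) (ha i j)
  refine h1.trans ?_
  simp only [Finset.sum_add_distrib]
  have h2 : ∑ i ∈ range k, ∑ j ∈ range k', a i j * (c / Real.sqrt (((k - 1 - i : ℕ) : ℝ) + 1))
      ≤ 6 * R * c := by
    have : ∀ i ∈ range k, ∑ j ∈ range k', a i j * (c / Real.sqrt (((k - 1 - i : ℕ) : ℝ) + 1))
        ≤ (R * c) * (1 / Real.sqrt ((i : ℝ) + 1) * (1 / Real.sqrt (((k - 1 - i : ℕ) : ℝ) + 1))) := by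
      intro i hi
      rw [mem_range] at hi
      rw [← Finset.sum_mul]
      have h3 : ∑ j ∈ range k', a i j ≤ R / Real.sqrt ((i : ℝ) + 1) :=
        (Finset.sum_le_sum_of_subset_of_nonneg (Finset.range_mono hk') fun j _ _ => ha i j).trans
          (hr i (by omega))
      calc _ ≤ R / Real.sqrt ((i : ℝ) + 1) * (c / Real.sqrt (((k - 1 - i : ℕ) : ℝ) + 1)) :=
            mul_le_mul_of_nonneg_right h3 (by positivity)
        _ = _ := by ring
    refine (Finset.sum_le_sum this).trans ?_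
    rw [← Finset.mul_sum]
    have h4 := conv_le k
    have : 0 ≤ R * c := mul_nonneg hR hc
    linarith only [mul_nonneg (sub_nonneg.2 h4) (sub_nonneg.2 this)]
  have h2' : ∑ i ∈ range k, ∑ j ∈ range k', a i j * (c / Real.sqrt (((k' - 1 - j : ℕ) : ℝ) + 1))
      ≤ 6 * R * c := by
    rw [Finset.sum_comm]
    have : ∀ j ∈ range k', ∑ i ∈ range k, a i j * (c / Real.sqrt (((k' - 1 - j : ℕ) : ℝ) + 1))
        ≤ (R * c) * (1 / Real.sqrt ((j : ℝ) + 1) * (1 / Real.sqrt (((k' - 1 - j : ℕ) : ℝ) + 1))) := by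
      intro j hj
      rw [mem_range] at hj
      rw [← Finset.sum_mul]
      have h3 : ∑ i ∈ range k, a i j ≤ R / Real.sqrt ((j : ℝ) + 1) :=
        (Finset.sum_le_sum_of_subset_of_nonneg (Finset.range_mono hk) fun i _ _ => ha i j).trans
          (hr' j (by omega))
      calc _ ≤ R / Real.sqrt ((j : ℝ) + 1) * (c / Real.sqrt (((k' - 1 - j : ℕ) : ℝ) + 1)) :=
            mul_le_mul_of_nonneg_right h3 (by positivity)
        _ = _ := by ring
    refine (Finset.sum_le_sum this).trans ?_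
    rw [← Finset.mul_sum]
    have h4 := conv_le k'
    have : 0 ≤ R * c := mul_nonneg hR hc
    nlinarith only [h4, this]
  linarith only [h2, h2']

/-- abstract induction for the collision recursion -/
theorem rec_bound {a b F : ℕ → ℕ → ℝ} {R c M : ℝ} {K : ℕ} (hR : 0 ≤ R) (hc : 0 ≤ c) (hM : 0 ≤ M)
    (ha : ∀ i j, 0 ≤ a i j)
    (hr : ∀ i, i < K → ∑ j ∈ range K, a i j ≤ R / Real.sqrt ((i : ℝ) + 1))
    (hr' : ∀ j, j < K → ∑ i ∈ range K, a i j ≤ R / Real.sqrt ((j : ℝ) + 1))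
    (hb : ∀ k k', k < K → k' < K → b k k' ≤ c / Real.sqrt ((min k k' : ℕ) + 1))
    (hF : ∀ k k', k < K → k' < K → F k k' = b k k' +
      M * ∑ i ∈ range k, ∑ j ∈ range k', a i j * F (k - 1 - i) (k' - 1 - j))
    (hsmall : 24 * M * R * Real.sqrt K ≤ 1) (k k' : ℕ) (hk : k < K) (hk' : k' < K) :
    F k k' ≤ (2 * c) / Real.sqrt ((min k k' : ℕ) + 1) := by
  induction k using Nat.strong_induction_on generalizing k' with
  | _ k ih =>
    rw [hF k k' hk hk']
    have h1 : ∑ i ∈ range k, ∑ j ∈ range k', a i j * F (k - 1 - i) (k' - 1 - j) ≤ 12 * R * (2 * c) := by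
      refine double_sum_le hR (by positivity) hk.le hk'.le ha hr hr' ?_
      intro r r' hr1 hr2
      refine (ih r hr1 r' (by omega) (by omega)).trans ?_
      rcases le_total r r' with h | h
      · rw [min_eq_left h]
        have : 0 ≤ 2 * c / Real.sqrt ((r' : ℝ) + 1) := by positivity
        linarith only [this]
      · rw [min_eq_right h]
        have : 0 ≤ 2 * c / Real.sqrt ((r : ℝ) + 1) := by positivity
        linarith only [this]
    have h2 := hb k k' hk hk'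
    have hmin : (((min k k' : ℕ) : ℝ) + 1) ≤ K := by
      have : min k k' + 1 ≤ K := by omega
      exact_mod_cast this
    have hs : 0 < Real.sqrt (((min k k' : ℕ) : ℝ) + 1) := Real.sqrt_pos.mpr (by positivity)
    have hs2 : Real.sqrt (((min k k' : ℕ) : ℝ) + 1) ≤ Real.sqrt K := Real.sqrt_le_sqrt hmin
    have h3 : M * (12 * R * (2 * c)) ≤ c / Real.sqrt (((min k k' : ℕ) : ℝ) + 1) := by
      rw [le_div_iff₀ hs]
      have h5 : 0 ≤ 24 * M * R := by positivity
      have h4 : 24 * M * R * Real.sqrt (((min k k' : ℕ) : ℝ) + 1) ≤ 1 :=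
        (mul_le_mul_of_nonneg_left hs2 h5).trans hsmall
      calc M * (12 * R * (2 * c)) * Real.sqrt (((min k k' : ℕ) : ℝ) + 1)
          = c * (24 * M * R * Real.sqrt (((min k k' : ℕ) : ℝ) + 1)) := by ring
        _ ≤ c * 1 := mul_le_mul_of_nonneg_left h4 hc
        _ = c := mul_one c
    have h6 : M * ∑ i ∈ range k, ∑ j ∈ range k', a i j * F (k - 1 - i) (k' - 1 - j)
        ≤ M * (12 * R * (2 * c)) := mul_le_mul_of_nonneg_left h1 hM
    have h7 : (2 * c) / Real.sqrt (((min k k' : ℕ) : ℝ) + 1)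
        = c / Real.sqrt (((min k k' : ℕ) : ℝ) + 1) + c / Real.sqrt (((min k k' : ℕ) : ℝ) + 1) := by ring
    rw [h7]
    linarith only [h2, h3, h6]

end Cr

end Vale.Agent.P321
end

section

/-!
Collision estimate for the positions of the marked letters.
-/

set_option linter.unusedSectionVars false

namespace Vale.Agent.P321

open Finset Polynomial

namespace Cr

/-- parameters -/
structure Par (s p ρ : ℝ) (b L : ℕ) : Prop where
  hρ : 0 < ρ
  h1 : ρ ≤ s
  h2 : ρ ≤ 1 - s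
  p0 : 0 ≤ p
  p1 : p ≤ 1
  hL : 1 ≤ L
  hb1 : L ≤ b
  hb2 : b ≤ 2 * L

noncomputable def vv (s p : ℝ) (b L i : ℕ) : ℝ[X] := cn s ^ (b + 2 * L * i) * cn p ^ i

/-- the sup constant -/
noncomputable def cc (ρ : ℝ) : ℝ := 2 / Real.sqrt (2 * ρ)

theorem cc_pos {ρ : ℝ} (h : 0 < ρ) : 0 < cc ρ := by unfold cc; positivity

variable {s p ρ : ℝ} {b L : ℕ}

theorem Par.s0 (h : Par s p ρ b L) : 0 < s := lt_of_lt_of_le h.hρ h.h1
theorem Par.s1 (h : Par s p ρ b L) : s ≤ 1 := by linarith [h.h2, h.hρ]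
theorem Par.LR (h : Par s p ρ b L) : (1 : ℝ) ≤ L := by exact_mod_cast h.hL
theorem Par.LR0 (h : Par s p ρ b L) : (0 : ℝ) < L := by linarith [h.LR]

theorem vv_PB (h : Par s p ρ b L) (i : ℕ) :
    PB (vv s p b L i) (((b + 2 * L * i : ℕ) : ℝ) * s + i * p)
      (((b + 2 * L * i : ℕ) : ℝ) * (s * (1 - s)) + i * (p * (1 - p))) :=
  ((PB.cn h.s0.le h.s1).pow _).mul ((PB.cn h.p0 h.p1).pow _)

theorem cn_pow_coeff_le' (h1 : 0 < ρ) (h2 : ρ ≤ s) (h3 : ρ ≤ 1 - s) (n t : ℕ) :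
    (cn s ^ n).coeff t ≤ cc ρ / Real.sqrt ((n : ℝ) + 1) := by
  have := cn_pow_coeff_le h1 h2 h3 n t
  rw [Real.sqrt_mul (by positivity)] at this
  rwa [cc, div_div]

theorem vv_coeff_le (h : Par s p ρ b L) (i t : ℕ) :
    (vv s p b L i).coeff t ≤ cc ρ / (Real.sqrt L * Real.sqrt ((i : ℝ) + 1)) := by
  have hL := h.LR0
  have hc := cc_pos h.hρ
  have h1 : ∀ t, (vv s p b L i).coeff t ≤ cc ρ / Real.sqrt (((b + 2 * L * i : ℕ) : ℝ) + 1) :=
    fun t => coeff_mul_le (fun t => cn_pow_coeff_le' h.hρ h.h1 h.h2 _ t) (by positivity)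
      ((PB.cn h.p0 h.p1).pow i) t
  refine (h1 t).trans ?_
  rw [← Real.sqrt_mul hL.le]
  refine div_le_div_of_nonneg_left hc.le (Real.sqrt_pos.mpr (by positivity)) ?_
  refine Real.sqrt_le_sqrt ?_
  have : L * (i + 1) ≤ b + 2 * L * i + 1 := by nlinarith only [h.hb1, Nat.zero_le (L * i), h]
  exact_mod_cast this

theorem quarter (x : ℝ) : x * (1 - x) ≤ 1 / 4 := by linarith only [sq_nonneg (x - 1 / 2)]

theorem vv_var_le (h : Par s p ρ b L) (i : ℕ) :
    ((b + 2 * L * i : ℕ) : ℝ) * (s * (1 - s)) + i * (p * (1 - p)) ≤ L * ((i : ℝ) + 1) := by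
  have h1 : ((b + 2 * L * i : ℕ) : ℝ) * (s * (1 - s)) ≤ ((2 * L * (i + 1) : ℕ) : ℝ) * (1 / 4) := by
    refine mul_le_mul ?_ (quarter s) (mul_nonneg h.s0.le (by linarith [h.s1])) (by positivity)
    have : b + 2 * L * i ≤ 2 * L * (i + 1) := by nlinarith only [h.hb2, h]
    exact_mod_cast this
  have h2 : (i : ℝ) * (p * (1 - p)) ≤ i * (1 / 4) :=
    mul_le_mul_of_nonneg_left (quarter p) (Nat.cast_nonneg i)
  have hL := h.LR
  push_cast at h1
  have hi : (0 : ℝ) ≤ i := Nat.cast_nonneg i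
  push_cast
  nlinarith only [h2, hL, h1]

theorem xy_aux {x y d : ℝ} (hx : 1 ≤ x) (hy : 1 ≤ y) (hd : 0 ≤ d)
    (h : y ^ 2 = x ^ 2 + d ∨ x ^ 2 = y ^ 2 + d) : x ^ 2 / y + y ^ 2 / x ≤ 2 * x + d := by
  have hx0 : 0 < x := by linarith
  have hy0 : 0 < y := by linarith
  rcases h with h | h
  · have hxy : x ≤ y := by
      (by_contra nlg; linarith only [nlg, mul_nonneg (le_of_lt (sub_pos.2 (not_le.1 nlg))) (sub_nonneg.2 hy), mul_pos (sub_pos.2 (not_le.1 nlg)) (sub_pos.2 (not_le.1 nlg)), h, hd])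
    have h1 : x ^ 2 / y ≤ x := by
      rw [div_le_iff₀ hy0]; (by_contra nlg; linarith only [nlg, mul_nonneg (le_of_lt (sub_pos.2 (not_le.1 nlg))) (sub_nonneg.2 hx), mul_nonneg (sq_nonneg (x : ℝ)) (sub_nonneg.2 hxy)])
    have h2 : y ^ 2 / x ≤ x + d := by
      rw [h, div_le_iff₀ hx0]; nlinarith only [hx, hd]
    linarith only [h1, h2]
  · have hxy : y ≤ x := by
      (by_contra nlg; linarith only [nlg, mul_nonneg (le_of_lt (sub_pos.2 (not_le.1 nlg))) (sub_nonneg.2 hx), mul_pos (sub_pos.2 (not_le.1 nlg)) (sub_pos.2 (not_le.1 nlg)), h, hd])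
    have h1 : y ^ 2 / x ≤ y := by
      rw [div_le_iff₀ hx0]; (by_contra nlg; linarith [mul_nonneg (le_of_lt (sub_pos.2 (not_le.1 nlg))) (sub_nonneg.2 hy), mul_nonneg (sq_nonneg (y : ℝ)) (sub_nonneg.2 hxy)])
    have h2 : x ^ 2 / y ≤ y + d := by
      rw [h, div_le_iff₀ hy0]; nlinarith only [hy, hd]
    linarith only [h2, h1, hxy]

theorem vv_pip_far (h : Par s p ρ b L) (i j d : ℕ) (hd : 1 ≤ d) (hij : j = i + d ∨ i = j + d) :
    pip (vv s p b L i) (vv s p b L j) ≤ cc ρ / (Real.sqrt L * L * s ^ 2)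
      * (2 * Real.sqrt ((i : ℝ) + 1) * (1 / (d : ℝ) ^ 2) + 1 / d) := by
  have hL := h.LR0
  have hs := h.s0
  have hc := cc_pos h.hρ
  have hdR : (1 : ℝ) ≤ d := by exact_mod_cast hd
  have hd0 : (0 : ℝ) < d := by linarith
  set x : ℝ := Real.sqrt ((i : ℝ) + 1) with hx
  set y : ℝ := Real.sqrt ((j : ℝ) + 1) with hy
  have hi0 : (0 : ℝ) ≤ i := Nat.cast_nonneg i
  have hj0 : (0 : ℝ) ≤ j := Nat.cast_nonneg j
  have hx1 : 1 ≤ x := by rw [hx]; exact Real.one_le_sqrt.mpr (by linarith)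
  have hy1 : 1 ≤ y := by rw [hy]; exact Real.one_le_sqrt.mpr (by linarith)
  have hx2 : x ^ 2 = i + 1 := Real.sq_sqrt (by positivity)
  have hy2 : y ^ 2 = j + 1 := Real.sq_sqrt (by positivity)
  have hx0 : 0 < x := by linarith
  have hy0 : 0 < y := by linarith
  have hsL : 0 < Real.sqrt L := Real.sqrt_pos.mpr hL
  have key := pip_far (vv_PB h i) (vv_PB h j) (vv_coeff_le h i) (vv_coeff_le h j)
    (D := 2 * L * s * d) (by positivity) (by
      rcases hij with hh | hh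
      · subst hh
        rw [abs_sub_comm]
        refine le_trans ?_ (le_abs_self _)
        push_cast
        linarith only [mul_nonneg hd0.le h.p0]
      · subst hh
        refine le_trans ?_ (le_abs_self _)
        push_cast
        linarith only [mul_nonneg hd0.le h.p0])
  have hv1 := vv_var_le h i
  have hv2 := vv_var_le h j
  rw [← hx, ← hy] at key
  refine key.trans ?_
  have hxy := xy_aux hx1 hy1 hd0.le (by
    rw [hx2, hy2]
    rcases hij with hh | hh
    · left; rw [hh]; push_cast; ring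
    · right; rw [hh]; push_cast; ring)
  calc cc ρ / (Real.sqrt L * y) * (4 * (((b + 2 * L * i : ℕ) : ℝ) * (s * (1 - s)) + i * (p * (1 - p))) / (2 * L * s * d) ^ 2)
        + cc ρ / (Real.sqrt L * x) * (4 * (((b + 2 * L * j : ℕ) : ℝ) * (s * (1 - s)) + j * (p * (1 - p))) / (2 * L * s * d) ^ 2)
      ≤ cc ρ / (Real.sqrt L * y) * (4 * (L * ((i : ℝ) + 1)) / (2 * L * s * d) ^ 2)
        + cc ρ / (Real.sqrt L * x) * (4 * (L * ((j : ℝ) + 1)) / (2 * L * s * d) ^ 2) := by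
        gcongr
    _ = cc ρ / (Real.sqrt L * L * s ^ 2) * ((x ^ 2 / y + y ^ 2 / x) / (d : ℝ) ^ 2) := by
        rw [← hx2, ← hy2]
        field_simp
        try ring
    _ ≤ cc ρ / (Real.sqrt L * L * s ^ 2) * ((2 * x + d) / (d : ℝ) ^ 2) := by
        gcongr
    _ = _ := by
        field_simp

theorem pip_comm (P Q : ℝ[X]) : pip P Q = pip Q P := by
  rw [pip_eq (N := max P.natDegree Q.natDegree + 1) (Nat.lt_succ_of_le (le_max_left _ _)),
    pip_eq (N := max P.natDegree Q.natDegree + 1) (Nat.lt_succ_of_le (le_max_right _ _))]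
  exact Finset.sum_congr rfl fun t _ => mul_comm _ _

/-- row sums of the collision matrix -/
theorem row_sum_le (h : Par s p ρ b L) {K : ℕ} (hK : K ≤ L) (i : ℕ) (hi : i < K) :
    ∑ j ∈ range K, pip (vv s p b L i) (vv s p b L j)
      ≤ (cc ρ * (1 + 12 / s ^ 2) / Real.sqrt L) / Real.sqrt ((i : ℝ) + 1) := by
  have hL := h.LR0
  have hs := h.s0
  have hc := cc_pos h.hρ
  set x : ℝ := Real.sqrt ((i : ℝ) + 1) with hx
  have hi0 : (0 : ℝ) ≤ i := Nat.cast_nonneg i
  have hx1 : 1 ≤ x := by rw [hx]; exact Real.one_le_sqrt.mpr (by linarith)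
  have hx2 : x ^ 2 = i + 1 := Real.sq_sqrt (by positivity)
  have hx0 : 0 < x := by linarith
  have hsL : 0 < Real.sqrt L := Real.sqrt_pos.mpr hL
  have hKR : ((i : ℝ) + 1) ≤ K := by exact_mod_cast hi
  have hKL : (K : ℝ) ≤ L := by exact_mod_cast hK
  set g : ℕ → ℝ := fun d => cc ρ / (Real.sqrt L * L * s ^ 2)
      * (2 * x * (1 / ((d : ℝ) + 1) ^ 2) + 1 / ((d : ℝ) + 1)) with hg
  have hg0 : ∀ d, 0 ≤ g d := fun d => by rw [hg]; positivity
  have e := sum_dist_le g (fun j => pip (vv s p b L i) (vv s p b L j)) hg0 hi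
    (b := cc ρ / (Real.sqrt L * x)) (pip_le (vv_PB h i) (vv_coeff_le h i))
    (by
      intro j hj
      have := vv_pip_far h i j (i - j) (by omega) (Or.inr (by omega))
      rw [hg]
      have e2 : (((i - 1 - j : ℕ) : ℝ) + 1) = ((i - j : ℕ) : ℝ) := by
        have : (i - 1 - j) + 1 = i - j := by omega
        exact_mod_cast this
      simp only [e2]
      exact this)
    (by
      intro t _
      have := vv_pip_far h i (i + 1 + t) (t + 1) (by omega) (Or.inl (by omega))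
      rw [hg]
      push_cast at this
      exact this)
  refine e.trans ?_
  have e3 : ∑ d ∈ range K, g d ≤ cc ρ / (Real.sqrt L * L * s ^ 2) * (2 * x * 2 + 2 * Real.sqrt K) := by
    rw [hg, ← Finset.mul_sum, Finset.sum_add_distrib, ← Finset.mul_sum]
    have := sum_inv_sq_le K
    have := sum_inv_le K
    gcongr
  have hKx : x ≤ Real.sqrt K := by rw [hx]; exact Real.sqrt_le_sqrt hKR
  have hKs : Real.sqrt (K : ℝ) * Real.sqrt K = K := Real.mul_self_sqrt (Nat.cast_nonneg K)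
  have hKs0 : 0 ≤ Real.sqrt (K : ℝ) := Real.sqrt_nonneg _
  have e4 : 2 * (cc ρ / (Real.sqrt L * L * s ^ 2) * (2 * x * 2 + 2 * Real.sqrt K))
      ≤ cc ρ * 12 / s ^ 2 / (Real.sqrt L * x) := by
    have e5 : (2 * x * 2 + 2 * Real.sqrt K) * (2 * x) ≤ 12 * L := by
      nlinarith only [hx2, hKR, hKL, hKs, hKx]
    rw [div_mul_eq_mul_div, mul_div_assoc', div_div, div_le_div_iff₀ (by positivity) (by positivity)]
    have e6 : 2 * (cc ρ * (2 * x * 2 + 2 * Real.sqrt K)) * (s ^ 2 * (Real.sqrt L * x))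
        = (cc ρ * s ^ 2 * Real.sqrt L) * ((2 * x * 2 + 2 * Real.sqrt K) * (2 * x)) := by ring
    have e7 : cc ρ * 12 * (Real.sqrt L * L * s ^ 2) = (cc ρ * s ^ 2 * Real.sqrt L) * (12 * L) := by ring
    rw [e6, e7]
    exact mul_le_mul_of_nonneg_left e5 (by positivity)
  calc cc ρ / (Real.sqrt L * x) + 2 * ∑ d ∈ range K, g d
      ≤ cc ρ / (Real.sqrt L * x) + 2 * (cc ρ / (Real.sqrt L * L * s ^ 2) * (2 * x * 2 + 2 * Real.sqrt K)) := by
        gcongr
    _ ≤ cc ρ / (Real.sqrt L * x) + cc ρ * 12 / s ^ 2 / (Real.sqrt L * x) := by linarith only [e4]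
    _ = _ := by field_simp

end Cr

end Vale.Agent.P321
end

section

/-!
The recursion for the weighted L2 norms.
-/

set_option linter.unusedSectionVars false

namespace Vale.Agent.P321

open Finset Polynomial

namespace Cr

variable {Λ : Type} [Fintype Λ] [DecidableEq Λ]

/-- evaluation of polynomials at the mean letter -/
noncomputable def al (ν : Λ → ℝ) (P : ℝ[X]) : FA Λ := aeval (NN ν) P

theorem al_mul (ν : Λ → ℝ) (P Q : ℝ[X]) : al ν (P * Q) = al ν P * al ν Q := map_mul _ _ _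

/-- the marked letter -/
noncomputable def EE (ν : Λ → ℝ) (p : ℝ) (a : Λ) : FA Λ := al ν (cn p) + p • et ν a

noncomputable def HH (ν : Λ → ℝ) (s p : ℝ) (a : Λ) (L : ℕ) : ℕ → FA Λ
  | 0 => al ν (cn s ^ L)
  | k + 1 => al ν (cn s ^ (2 * L)) * EE ν p a * HH ν s p a L k

variable {ν : Λ → ℝ} {s p ρ : ℝ} {b L : ℕ} {a : Λ}

theorem HH_expand (b k : ℕ) :
    al ν (cn s ^ b) * EE ν p a * HH ν s p a L k
      = al ν (cn s ^ (b + 2 * L * k + L) * cn p ^ (k + 1))
        + ∑ i ∈ range (k + 1), p • (al ν (vv s p b L i) * (et ν a * HH ν s p a L (k - i))) := by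
  induction k generalizing b with
  | zero =>
    rw [zero_add, Finset.sum_range_one, HH, EE, mul_add, add_mul, ← al_mul, ← al_mul]
    congr 2
    · rw [mul_zero, add_zero, pow_add, pow_one]; ring
    · rw [vv, mul_zero, add_zero, pow_zero, mul_one, mul_smul_comm, smul_mul_assoc, mul_assoc]
  | succ k ih =>
    rw [Finset.sum_range_succ']
    have e1 : al ν (cn s ^ b) * EE ν p a * HH ν s p a L (k + 1)
        = al ν (cn p) * (al ν (cn s ^ (b + 2 * L)) * EE ν p a * HH ν s p a L k)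
          + p • (al ν (cn s ^ b) * (et ν a * HH ν s p a L (k + 1))) := by
      conv_lhs => rw [EE, mul_add, add_mul]
      congr 1
      · rw [HH, ← mul_assoc, ← mul_assoc, ← mul_assoc, ← mul_assoc, ← al_mul, ← al_mul, ← al_mul]
        congr 3
        rw [pow_add]; ring
      · rw [mul_smul_comm, smul_mul_assoc, mul_assoc]
    rw [e1, ih, mul_add, ← al_mul, add_assoc, add_assoc, Finset.mul_sum]
    congr 1
    · congr 1
      rw [show b + 2 * L * (k + 1) + L = b + 2 * L + (2 * L * k + L) by ring, pow_succ (cn p) (k + 1)]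
      ring
    · congr 1
      · refine Finset.sum_congr rfl fun i _ => ?_
        rw [mul_smul_comm, ← mul_assoc, ← al_mul, Nat.add_sub_add_right]
        congr 3
        rw [vv, vv, show b + 2 * L + 2 * L * i = b + 2 * L * (i + 1) by ring, pow_succ]
        ring
      · rw [vv, mul_zero, add_zero, pow_zero, mul_one, Nat.sub_zero]

theorem HH_eq (k : ℕ) :
    HH ν s p a L k = al ν (cn s ^ (2 * L * k + L) * cn p ^ k)
        + ∑ i ∈ range k, p • (al ν (vv s p (2 * L) L i) * (et ν a * HH ν s p a L (k - 1 - i))) := by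
  cases k with
  | zero => simp [HH]
  | succ k =>
    rw [HH, HH_expand]
    congr 2
    congr 2
    ring_nf

theorem ip_expand (hν : Law ν) (P Q : ℝ[X]) (k k' : ℕ) (v : ℕ → ℝ[X]) (A B : ℕ → FA Λ) :
    ip ν (al ν P + ∑ i ∈ range k, p • (al ν (v i) * (et ν a * A i)))
      (al ν Q + ∑ j ∈ range k', p • (al ν (v j) * (et ν a * B j)))
      = pip P Q + p ^ 2 * kap ν a * ∑ i ∈ range k, ∑ j ∈ range k', pip (v i) (v j) * ip ν (A i) (B j) := by
  rw [ip_add_left, ip_add_right, ip_add_right]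
  have h1 : ip ν (al ν P) (al ν Q) = pip P Q := ip_aeval hν P Q
  have h2 : ip ν (al ν P) (∑ j ∈ range k', p • (al ν (v j) * (et ν a * B j))) = 0 := by
    rw [ip_sum_right]
    refine Finset.sum_eq_zero fun j _ => ?_
    rw [ip_smul_right]
    have := ip_aeval_et hν a P (v j) (B j)
    rw [al, al, this, mul_zero]
  have h3 : ip ν (∑ i ∈ range k, p • (al ν (v i) * (et ν a * A i))) (al ν Q) = 0 := by
    rw [ip_sum_left]
    refine Finset.sum_eq_zero fun j _ => ?_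
    rw [ip_smul_left, ip_comm]
    have := ip_aeval_et hν a Q (v j) (A j)
    rw [al, al, this, mul_zero]
  have h4 : ip ν (∑ i ∈ range k, p • (al ν (v i) * (et ν a * A i)))
      (∑ j ∈ range k', p • (al ν (v j) * (et ν a * B j)))
      = p ^ 2 * kap ν a * ∑ i ∈ range k, ∑ j ∈ range k', pip (v i) (v j) * ip ν (A i) (B j) := by
    rw [ip_sum_left, Finset.mul_sum]
    refine Finset.sum_congr rfl fun i _ => ?_
    rw [ip_sum_right, Finset.mul_sum]
    refine Finset.sum_congr rfl fun j _ => ?_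
    rw [ip_smul_left, ip_smul_right]
    have := ip_et_et hν a (v i) (v j) (A i) (B j)
    rw [al, al, this]
    ring
  rw [h1, h2, h3, h4]
  ring

theorem kap_nonneg (hν : Law ν) (a : Λ) : 0 ≤ kap ν a := by
  rw [kap, sub_nonneg, le_div_iff₀ (hν.pos a), one_mul, ← hν.sum]
  exact Finset.single_le_sum (f := ν) (fun l _ => (hν.pos l).le) (Finset.mem_univ a)

/-- row-sum constant -/
noncomputable def RR (ρ s : ℝ) (L : ℕ) : ℝ := cc ρ * (1 + 12 / s ^ 2) / Real.sqrt L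

theorem cs_pow_pip_le (h : Par s p ρ b L) (k k' : ℕ) :
    pip (cn s ^ (2 * L * k + L) * cn p ^ k) (cn s ^ (2 * L * k' + L) * cn p ^ k')
      ≤ (cc ρ / Real.sqrt L) / Real.sqrt ((min k k' : ℕ) + 1) := by
  have hL := h.LR0
  have hc := cc_pos h.hρ
  have aux : ∀ k k', pip (cn s ^ (2 * L * k + L) * cn p ^ k) (cn s ^ (2 * L * k' + L) * cn p ^ k')
      ≤ (cc ρ / Real.sqrt L) / Real.sqrt ((k' : ℝ) + 1) := by
    intro k k'
    refine pip_le (((PB.cn h.s0.le h.s1).pow _).mul ((PB.cn h.p0 h.p1).pow _)) ?_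
    intro t
    refine (coeff_mul_le (fun t => cn_pow_coeff_le' h.hρ h.h1 h.h2 _ t) (by positivity)
      ((PB.cn h.p0 h.p1).pow k') t).trans ?_
    rw [div_div, ← Real.sqrt_mul hL.le]
    refine div_le_div_of_nonneg_left hc.le (Real.sqrt_pos.mpr (by positivity)) ?_
    refine Real.sqrt_le_sqrt ?_
    have : L * (k' + 1) ≤ 2 * L * k' + L + 1 := by nlinarith only [Nat.zero_le (L * k')]
    exact_mod_cast this
  rcases le_total k k' with hk | hk
  · rw [min_eq_left hk, pip_comm]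
    exact aux k' k
  · rw [min_eq_right hk]
    exact aux k k'

/-- the L2 bound for the recursion -/
theorem ip_HH_le (hν : Law ν) (h : Par s p ρ b L) {K : ℕ} (hK : K ≤ L)
    (hsmall : 24 * (p ^ 2 * kap ν a) * RR ρ s L * Real.sqrt K ≤ 1) {k k' : ℕ} (hk : k < K)
    (hk' : k' < K) :
    ip ν (HH ν s p a L k) (HH ν s p a L k')
      ≤ (2 * (cc ρ / Real.sqrt L)) / Real.sqrt ((min k k' : ℕ) + 1) := by
  have h2 : Par s p ρ (2 * L) L := ⟨h.hρ, h.h1, h.h2, h.p0, h.p1, h.hL, by omega, le_rfl⟩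
  have hκ := kap_nonneg hν a
  have hc := cc_pos h.hρ
  have hs := h.s0
  refine rec_bound (a := fun i j => pip (vv s p (2 * L) L i) (vv s p (2 * L) L j))
    (b := fun k k' => pip (cn s ^ (2 * L * k + L) * cn p ^ k) (cn s ^ (2 * L * k' + L) * cn p ^ k'))
    (F := fun k k' => ip ν (HH ν s p a L k) (HH ν s p a L k')) (R := RR ρ s L)
    (c := cc ρ / Real.sqrt L) (M := p ^ 2 * kap ν a) (K := K) ?_ ?_ ?_ ?_ ?_ ?_ ?_ ?_ hsmall k k' hk hk'
  · unfold RR; positivity
  · positivity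
  · positivity
  · intro i j
    exact pip_nonneg (vv_PB h2 i) (vv_PB h2 j)
  · intro i hi
    exact row_sum_le h2 hK i hi
  · intro j hj
    have := row_sum_le h2 hK j hj
    simp only [pip_comm (vv s p (2 * L) L j)] at this
    exact this
  · intro k k' _ _
    exact cs_pow_pip_le h k k'
  · intro k k' _ _
    conv_lhs => rw [HH_eq (k := k), HH_eq (k := k')]
    rw [ip_expand hν]

/-- the difference between the marked product and its blank version -/
theorem ip_diff_le (hν : Law ν) (h : Par s p ρ L L) {K : ℕ} (hK1 : 1 ≤ K) (hK : K ≤ L)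
    (hsmall : 24 * (p ^ 2 * kap ν a) * RR ρ s L * Real.sqrt K ≤ 1) :
    ip ν (al ν (cn s ^ L) * EE ν p a * HH ν s p a L (K - 1) - al ν (cn s ^ (2 * L * K) * cn p ^ K))
      (al ν (cn s ^ L) * EE ν p a * HH ν s p a L (K - 1) - al ν (cn s ^ (2 * L * K) * cn p ^ K))
      ≤ 24 * (p ^ 2 * kap ν a) * RR ρ s L * (cc ρ / Real.sqrt L) := by
  have hκ := kap_nonneg hν a
  have hc := cc_pos h.hρ
  have hs := h.s0
  have e1 : al ν (cn s ^ L) * EE ν p a * HH ν s p a L (K - 1) - al ν (cn s ^ (2 * L * K) * cn p ^ K)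
      = al ν 0 + ∑ i ∈ range K, p • (al ν (vv s p L L i) * (et ν a * HH ν s p a L (K - 1 - i))) := by
    rw [HH_expand, Nat.sub_add_cancel hK1]
    have : L + 2 * L * (K - 1) + L = 2 * L * K := by
      obtain ⟨m, rfl⟩ : ∃ m, K = m + 1 := ⟨K - 1, by omega⟩
      rw [Nat.add_sub_cancel]; ring
    have e0 : al ν 0 = 0 := map_zero _
    rw [this, add_sub_cancel_left, e0, zero_add]
  rw [e1, ip_expand hν]
  have e2 : pip (0 : ℝ[X]) 0 = 0 := by simp [pip]
  rw [e2, zero_add]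
  have e3 : ∑ i ∈ range K, ∑ j ∈ range K, pip (vv s p L L i) (vv s p L L j) *
      ip ν (HH ν s p a L (K - 1 - i)) (HH ν s p a L (K - 1 - j))
      ≤ 12 * RR ρ s L * (2 * (cc ρ / Real.sqrt L)) := by
    refine double_sum_le (F := fun k k' => ip ν (HH ν s p a L k) (HH ν s p a L k')) (K := K)
      (by unfold RR; positivity) (by positivity) le_rfl le_rfl
      (fun i j => pip_nonneg (vv_PB h i) (vv_PB h j)) (fun i hi => row_sum_le h hK i hi) ?_ ?_
    · intro j hj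
      have := row_sum_le h hK j hj
      simp only [pip_comm (vv s p L L j)] at this
      exact this
    · intro r r' hr hr'
      refine (ip_HH_le hν h hK hsmall hr hr').trans ?_
      rcases le_total r r' with h' | h'
      · rw [min_eq_left h']
        have : 0 ≤ 2 * (cc ρ / Real.sqrt L) / Real.sqrt ((r' : ℝ) + 1) := by positivity
        linarith only [this]
      · rw [min_eq_right h']
        have : 0 ≤ 2 * (cc ρ / Real.sqrt L) / Real.sqrt ((r : ℝ) + 1) := by positivity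
        linarith only [this]
  calc p ^ 2 * kap ν a * ∑ i ∈ range K, ∑ j ∈ range K, pip (vv s p L L i) (vv s p L L j) *
      ip ν (HH ν s p a L (K - 1 - i)) (HH ν s p a L (K - 1 - j))
      ≤ p ^ 2 * kap ν a * (12 * RR ρ s L * (2 * (cc ρ / Real.sqrt L))) :=
        mul_le_mul_of_nonneg_left e3 (by positivity)
    _ = _ := by ring

end Cr

end Vale.Agent.P321
end

section

/-!
Comparison of the products of binomial coefficients `C(L+1,i) C(L-1,j)` and `C(L,i) C(L,j)`.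
-/

namespace Vale.Agent.P321.Hyp

open Finset Finset.Nat

theorem sum_shift (a n : ℕ) (h g : ℕ → ℝ) :
    ∑ p ∈ antidiagonal (n + 1), (p.1 : ℝ) * ((a + 1).choose p.1 : ℝ) * h p.1 * g p.2
      = (a + 1) * ∑ p ∈ antidiagonal n, (a.choose p.1 : ℝ) * h (p.1 + 1) * g p.2 := by
  rw [Finset.Nat.sum_antidiagonal_succ, Finset.mul_sum]
  simp only [Nat.cast_zero, zero_mul, zero_add]
  refine Finset.sum_congr rfl fun p _ => ?_
  have h1 := Nat.add_one_mul_choose_eq a p.1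
  have h2 : ((a : ℝ) + 1) * (a.choose p.1 : ℝ) = ((a + 1).choose (p.1 + 1) : ℝ) * (p.1 + 1) := by
    exact_mod_cast h1
  push_cast
  rw [← mul_assoc, ← mul_assoc, h2]
  ring

theorem vand (a b n : ℕ) :
    ∑ p ∈ antidiagonal n, (a.choose p.1 : ℝ) * (b.choose p.2 : ℝ) = ((a + b).choose n : ℝ) := by
  rw [Nat.add_choose_eq]
  push_cast
  rfl

theorem sum_swap (n : ℕ) (f : ℕ → ℕ → ℝ) :
    ∑ p ∈ antidiagonal n, f p.1 p.2 = ∑ p ∈ antidiagonal n, f p.2 p.1 :=
  (Finset.Nat.sum_antidiagonal_swap (n := n) (f := fun p => f p.1 p.2)).symm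

theorem mom_two (l m : ℕ) :
    ∑ p ∈ antidiagonal (m + 2), (p.1 : ℝ) * (p.1 - 1) *
        (((l + 2).choose p.1 : ℝ) * ((l + 2).choose p.2 : ℝ))
      = (l + 2) * (l + 1) * ((2 * l + 2).choose m : ℝ) := by
  have h1 := sum_shift (l + 1) (m + 1) (fun i => (i : ℝ) - 1) (fun j => ((l + 2).choose j : ℝ))
  have h2 := sum_shift l m (fun _ => 1) (fun j => ((l + 2).choose j : ℝ))
  have h3 := vand l (l + 2) m
  have e1 : ∑ p ∈ antidiagonal (m + 2), (p.1 : ℝ) * (p.1 - 1) *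
        (((l + 2).choose p.1 : ℝ) * ((l + 2).choose p.2 : ℝ))
      = ∑ p ∈ antidiagonal (m + 1 + 1), (p.1 : ℝ) * ((l + 1 + 1).choose p.1 : ℝ) *
        ((p.1 : ℝ) - 1) * ((l + 2).choose p.2 : ℝ) :=
    Finset.sum_congr rfl fun p _ => by ring
  have e2 : ∑ p ∈ antidiagonal (m + 1), ((l + 1).choose p.1 : ℝ) *
        (((p.1 + 1 : ℕ) : ℝ) - 1) * ((l + 2).choose p.2 : ℝ)
      = ∑ p ∈ antidiagonal (m + 1), (p.1 : ℝ) * ((l + 1).choose p.1 : ℝ) * 1 *
        ((l + 2).choose p.2 : ℝ) :=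
    Finset.sum_congr rfl fun p _ => by push_cast; ring
  have e3 : ∑ p ∈ antidiagonal m, (l.choose p.1 : ℝ) * 1 * ((l + 2).choose p.2 : ℝ)
      = ∑ p ∈ antidiagonal m, (l.choose p.1 : ℝ) * ((l + 2).choose p.2 : ℝ) :=
    Finset.sum_congr rfl fun p _ => by ring
  rw [e1, h1, e2, h2, e3, h3]
  have e4 : l + (l + 2) = 2 * l + 2 := by ring
  rw [e4]
  push_cast
  ring

theorem mom_cross (l m : ℕ) :
    ∑ p ∈ antidiagonal (m + 2), (p.1 : ℝ) * p.2 *
        (((l + 2).choose p.1 : ℝ) * ((l + 2).choose p.2 : ℝ))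
      = (l + 2) * (l + 2) * ((2 * l + 2).choose m : ℝ) := by
  have h1 := sum_shift (l + 1) (m + 1) (fun _ => 1) (fun j => (j : ℝ) * ((l + 2).choose j : ℝ))
  have h2 := sum_shift (l + 1) m (fun _ => 1) (fun j => ((l + 1).choose j : ℝ))
  have h3 := vand (l + 1) (l + 1) m
  have e1 : ∑ p ∈ antidiagonal (m + 2), (p.1 : ℝ) * p.2 *
        (((l + 2).choose p.1 : ℝ) * ((l + 2).choose p.2 : ℝ))
      = ∑ p ∈ antidiagonal (m + 1 + 1), (p.1 : ℝ) * ((l + 1 + 1).choose p.1 : ℝ) *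
        1 * ((p.2 : ℝ) * ((l + 2).choose p.2 : ℝ)) :=
    Finset.sum_congr rfl fun p _ => by ring
  have e2 : ∑ p ∈ antidiagonal (m + 1), ((l + 1).choose p.1 : ℝ) *
        1 * ((p.2 : ℝ) * ((l + 2).choose p.2 : ℝ))
      = ∑ p ∈ antidiagonal (m + 1), (p.1 : ℝ) * ((l + 1 + 1).choose p.1 : ℝ) * 1 *
        ((l + 1).choose p.2 : ℝ) := by
    rw [sum_swap (m + 1) (fun i j => ((l + 1).choose i : ℝ) * 1 * ((j : ℝ) * ((l + 2).choose j : ℝ)))]
    exact Finset.sum_congr rfl fun p _ => by ring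
  have e3 : ∑ p ∈ antidiagonal m, ((l + 1).choose p.1 : ℝ) * 1 * ((l + 1).choose p.2 : ℝ)
      = ∑ p ∈ antidiagonal m, ((l + 1).choose p.1 : ℝ) * ((l + 1).choose p.2 : ℝ) :=
    Finset.sum_congr rfl fun p _ => by ring
  rw [e1, h1, e2, h2, e3, h3]
  have e4 : l + 1 + (l + 1) = 2 * l + 2 := by ring
  rw [e4]
  push_cast
  ring

/-- second moment of the hypergeometric law -/
theorem second_moment (l n : ℕ) :
    ∑ p ∈ antidiagonal n, ((p.1 : ℝ) - p.2) ^ 2 *
        (((l + 2).choose p.1 : ℝ) * ((l + 2).choose p.2 : ℝ))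
      ≤ n * ((2 * (l + 2)).choose n : ℝ) := by
  have hv := vand (l + 2) (l + 2) n
  have e4 : l + 2 + (l + 2) = 2 * (l + 2) := by ring
  rw [e4] at hv
  match n with
  | 0 => simp
  | 1 =>
    rw [← hv, Finset.mul_sum]
    refine Finset.sum_le_sum fun p hp => ?_
    have hs : p.1 + p.2 = 1 := Finset.mem_antidiagonal.mp hp
    have h5 : ((p.1 : ℝ) - p.2) ^ 2 ≤ ((1 : ℕ) : ℝ) := by
      have : (p.1 = 0 ∧ p.2 = 1) ∨ (p.1 = 1 ∧ p.2 = 0) := by omega
      rcases this with ⟨h1, h2⟩ | ⟨h1, h2⟩ <;> rw [h1, h2] <;> norm_num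
    exact mul_le_mul_of_nonneg_right h5 (by positivity)
  | m + 2 =>
    have h1 := mom_two l m
    have h2 := mom_cross l m
    have h1' : ∑ p ∈ antidiagonal (m + 2), (p.2 : ℝ) * (p.2 - 1) *
        (((l + 2).choose p.1 : ℝ) * ((l + 2).choose p.2 : ℝ))
      = (l + 2) * (l + 1) * ((2 * l + 2).choose m : ℝ) := by
      rw [← h1, sum_swap (m + 2) (fun i j => (j : ℝ) * (j - 1) *
        (((l + 2).choose i : ℝ) * ((l + 2).choose j : ℝ)))]
      exact Finset.sum_congr rfl fun p _ => by ring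
    have e : ∑ p ∈ antidiagonal (m + 2), ((p.1 : ℝ) - p.2) ^ 2 *
        (((l + 2).choose p.1 : ℝ) * ((l + 2).choose p.2 : ℝ))
        = ∑ p ∈ antidiagonal (m + 2), (p.1 : ℝ) * (p.1 - 1) *
            (((l + 2).choose p.1 : ℝ) * ((l + 2).choose p.2 : ℝ))
          + ∑ p ∈ antidiagonal (m + 2), (p.2 : ℝ) * (p.2 - 1) *
            (((l + 2).choose p.1 : ℝ) * ((l + 2).choose p.2 : ℝ))
          - 2 * ∑ p ∈ antidiagonal (m + 2), (p.1 : ℝ) * p.2 *
            (((l + 2).choose p.1 : ℝ) * ((l + 2).choose p.2 : ℝ))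
          + ((m + 2 : ℕ) : ℝ) * ∑ p ∈ antidiagonal (m + 2),
            (((l + 2).choose p.1 : ℝ) * ((l + 2).choose p.2 : ℝ)) := by
      rw [Finset.mul_sum, Finset.mul_sum, ← Finset.sum_add_distrib, ← Finset.sum_sub_distrib,
        ← Finset.sum_add_distrib]
      refine Finset.sum_congr rfl fun p hp => ?_
      have hs : p.1 + p.2 = m + 2 := Finset.mem_antidiagonal.mp hp
      rw [← hs]
      push_cast
      ring
    rw [e, h1, h1', h2, hv]
    have h6 : (0 : ℝ) ≤ ((2 * l + 2).choose m : ℝ) := Nat.cast_nonneg _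
    have h7 : (0 : ℝ) ≤ l := Nat.cast_nonneg _
    nlinarith only [mul_nonneg (by linarith : (0 : ℝ) ≤ l + 2) h6, h6]

/-- first absolute moment -/
theorem abs_moment (l n : ℕ) :
    ∑ p ∈ antidiagonal n, (|(p.1 : ℝ) - p.2| + 1) *
        (((l + 2).choose p.1 : ℝ) * ((l + 2).choose p.2 : ℝ))
      ≤ (Real.sqrt n + 1) * ((2 * (l + 2)).choose n : ℝ) := by
  have hv := vand (l + 2) (l + 2) n
  have e4 : l + 2 + (l + 2) = 2 * (l + 2) := by ring
  rw [e4] at hv
  have h2 := second_moment l n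
  set C : ℝ := ((2 * (l + 2)).choose n : ℝ) with hC
  have hC0 : 0 ≤ C := Nat.cast_nonneg _
  have h3 : (∑ p ∈ antidiagonal n, |(p.1 : ℝ) - p.2| *
        (((l + 2).choose p.1 : ℝ) * ((l + 2).choose p.2 : ℝ))) ^ 2 ≤
      (∑ p ∈ antidiagonal n, (((l + 2).choose p.1 : ℝ) * ((l + 2).choose p.2 : ℝ))) *
      ∑ p ∈ antidiagonal n, ((p.1 : ℝ) - p.2) ^ 2 *
        (((l + 2).choose p.1 : ℝ) * ((l + 2).choose p.2 : ℝ)) := by
    refine Finset.sum_sq_le_sum_mul_sum_of_sq_le_mul _ (fun p _ => by positivity)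
      (fun p _ => by positivity) (fun p _ => le_of_eq ?_)
    rw [mul_pow, sq_abs]
    ring
  rw [hv] at h3
  have h4 : (∑ p ∈ antidiagonal n, |(p.1 : ℝ) - p.2| *
        (((l + 2).choose p.1 : ℝ) * ((l + 2).choose p.2 : ℝ))) ≤ Real.sqrt n * C := by
    have h5 : (∑ p ∈ antidiagonal n, |(p.1 : ℝ) - p.2| *
        (((l + 2).choose p.1 : ℝ) * ((l + 2).choose p.2 : ℝ))) ^ 2 ≤ (Real.sqrt n * C) ^ 2 := by
      rw [mul_pow, Real.sq_sqrt (Nat.cast_nonneg _)]
      calc _ ≤ C * (n * C) := h3.trans (mul_le_mul_of_nonneg_left h2 hC0)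
        _ = _ := by ring
    exact le_of_sq_le_sq h5 (by positivity)
  have e : ∑ p ∈ antidiagonal n, (|(p.1 : ℝ) - p.2| + 1) *
        (((l + 2).choose p.1 : ℝ) * ((l + 2).choose p.2 : ℝ))
      = (∑ p ∈ antidiagonal n, |(p.1 : ℝ) - p.2| *
        (((l + 2).choose p.1 : ℝ) * ((l + 2).choose p.2 : ℝ)))
        + ∑ p ∈ antidiagonal n, (((l + 2).choose p.1 : ℝ) * ((l + 2).choose p.2 : ℝ)) := by
    rw [← Finset.sum_add_distrib]
    exact Finset.sum_congr rfl fun p _ => by ring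
  rw [e, hv]
  linarith only [h4]

/-- pointwise comparison -/
theorem pt_le (l i j : ℕ) {D : ℝ} (hD : 0 < D) (hn : (i : ℝ) + j + D ≤ 2 * (l + 1)) :
    ((l + 1).choose i : ℝ) * ((l + 1).choose j : ℝ) - ((l + 2).choose i : ℝ) * (l.choose j : ℝ)
      ≤ 2 / D * ((|(i : ℝ) - j| + 1) *
        (((l + 1).choose i : ℝ) * ((l + 1).choose j : ℝ))) := by
  set y : ℝ := ((l + 1).choose i : ℝ) * ((l + 1).choose j : ℝ) with hy
  set x : ℝ := ((l + 2).choose i : ℝ) * (l.choose j : ℝ) with hx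
  have hy0 : 0 ≤ y := by positivity
  have hx0 : 0 ≤ x := by positivity
  have hR : 0 ≤ 2 / D * ((|(i : ℝ) - j| + 1) * y) := by positivity
  by_cases hi : i ≤ l + 1
  swap
  · have h0 : (l + 1).choose i = 0 := Nat.choose_eq_zero_of_lt (by omega)
    have : y = 0 := by rw [hy, h0]; simp
    linarith only [this, hR, hx0]
  by_cases hj : j ≤ l + 1
  swap
  · have h0 : (l + 1).choose j = 0 := Nat.choose_eq_zero_of_lt (by omega)
    have : y = 0 := by rw [hy, h0]; simp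
    linarith only [this, hR, hx0]
  have hi' : (i : ℝ) ≤ l + 1 := by exact_mod_cast hi
  have hj' : (j : ℝ) ≤ l + 1 := by exact_mod_cast hj
  have r1 : ((l + 2).choose i : ℝ) * ((l : ℝ) + 2 - i) = ((l + 1).choose i : ℝ) * (l + 2) := by
    have := Nat.choose_mul_succ_eq (l + 1) i
    have h2 : ((l + 1 + 1 - i : ℕ) : ℝ) = (l : ℝ) + 2 - i := by
      rw [Nat.cast_sub (by omega)]; push_cast; ring
    rw [← h2]
    have h3 : ((l + 1).choose i : ℝ) * (((l + 1 : ℕ) : ℝ) + 1)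
        = ((l + 1 + 1).choose i : ℝ) * ((l + 1 + 1 - i : ℕ) : ℝ) := by exact_mod_cast this
    push_cast at h3 ⊢
    linarith only [h3]
  have r2 : (l.choose j : ℝ) * (l + 1) = ((l + 1).choose j : ℝ) * ((l : ℝ) + 1 - j) := by
    have := Nat.choose_mul_succ_eq l j
    have h2 : ((l + 1 - j : ℕ) : ℝ) = (l : ℝ) + 1 - j := by
      rw [Nat.cast_sub (by omega)]; push_cast; ring
    rw [← h2]
    exact_mod_cast this
  have r3 : x * (((l : ℝ) + 2 - i) * (l + 1)) = y * (((l : ℝ) + 2) * (l + 1 - j)) := by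
    rw [hx, hy]
    linear_combination ((l.choose j : ℝ) * (l + 1)) * r1 + (((l + 1).choose i : ℝ) * (l + 2)) * r2
  have hl0 : (0 : ℝ) ≤ l := Nat.cast_nonneg _
  have hA : 0 < ((l : ℝ) + 2 - i) * (l + 1) := mul_pos (by linarith only [hi']) (by linarith only [hl0])
  rcases Nat.lt_or_ge j i with hij | hij
  · have hij' : (j : ℝ) + 1 ≤ i := by exact_mod_cast hij
    have h4 : ((l : ℝ) + 2 - i) * (l + 1) ≤ ((l : ℝ) + 2) * (l + 1 - j) := by nlinarith only [hD, hn, hij']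
    have h5 : y * (((l : ℝ) + 2 - i) * (l + 1)) ≤ x * (((l : ℝ) + 2 - i) * (l + 1)) := by
      rw [r3]
      exact mul_le_mul_of_nonneg_left h4 hy0
    have := le_of_mul_le_mul_right h5 hA
    linarith only [this, hR]
  · have hij' : (i : ℝ) ≤ j := by exact_mod_cast hij
    have hB : D / 2 ≤ (l : ℝ) + 2 - i := by linarith only [hn, hij']
    have e1 : |(i : ℝ) - j| = j - i := by rw [abs_of_nonpos (by linarith only [hij'])]; ring
    rw [e1]
    have h6 : (y - x) * (((l : ℝ) + 2 - i) * (l + 1)) ≤ y * ((j - i + 1) * (l + 1)) := by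
      have e2 : (y - x) * (((l : ℝ) + 2 - i) * (l + 1))
          = y * ((((l : ℝ) + 2 - i) * (l + 1)) - (((l : ℝ) + 2) * (l + 1 - j))) := by
        rw [sub_mul, r3]; ring
      rw [e2]
      refine mul_le_mul_of_nonneg_left ?_ hy0
      linarith only [hj']
    have h7 : (y - x) * ((l : ℝ) + 2 - i) ≤ y * (j - i + 1) := by
      have hl1 : (0 : ℝ) < l + 1 := by linarith only [h6]
      refine le_of_mul_le_mul_right ?_ hl1
      calc (y - x) * ((l : ℝ) + 2 - i) * (l + 1) = (y - x) * (((l : ℝ) + 2 - i) * (l + 1)) := by ring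
        _ ≤ y * ((j - i + 1) * (l + 1)) := h6
        _ = _ := by ring
    by_cases hxy : y - x ≤ 0
    · have e3 : 2 / D * (((j : ℝ) - i + 1) * y) = 2 / D * ((|(i : ℝ) - j| + 1) * y) := by rw [e1]
      rw [e3]; linarith only [hxy, hR]
    · push Not at hxy
      have h8 : (y - x) * (D / 2) ≤ y * (j - i + 1) :=
        (mul_le_mul_of_nonneg_left hB hxy.le).trans h7
      have e4 : 2 / D * (((j : ℝ) - i + 1) * y) = (y * (j - i + 1)) / (D / 2) := by
        field_simp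
      rw [e4, le_div_iff₀ (by positivity)]
      exact h8

/-- total comparison -/
theorem sum_abs_le (l n : ℕ) {D : ℝ} (hD : 0 < D) (hn : (n : ℝ) + D ≤ 2 * (l + 2)) :
    ∑ p ∈ antidiagonal n, |((l + 3).choose p.1 : ℝ) * ((l + 1).choose p.2 : ℝ)
        - ((l + 2).choose p.1 : ℝ) * ((l + 2).choose p.2 : ℝ)|
      ≤ 4 / D * (Real.sqrt n + 1) * ((2 * (l + 2)).choose n : ℝ) := by
  set x : ℕ × ℕ → ℝ := fun p => ((l + 3).choose p.1 : ℝ) * ((l + 1).choose p.2 : ℝ) with hx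
  set y : ℕ × ℕ → ℝ := fun p => ((l + 2).choose p.1 : ℝ) * ((l + 2).choose p.2 : ℝ) with hy
  have h1 : ∑ p ∈ antidiagonal n, x p = ∑ p ∈ antidiagonal n, y p := by
    rw [hx, hy]
    have h2 := vand (l + 3) (l + 1) n
    have h3 := vand (l + 2) (l + 2) n
    have e : l + 3 + (l + 1) = l + 2 + (l + 2) := by ring
    rw [h2, h3, e]
  have h4 : ∀ p ∈ antidiagonal n, y p - x p ≤ 2 / D * ((|(p.1 : ℝ) - p.2| + 1) * y p) := by
    intro p hp
    have hs : p.1 + p.2 = n := Finset.mem_antidiagonal.mp hp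
    have hs' : (p.1 : ℝ) + p.2 = n := by exact_mod_cast hs
    have := pt_le (l + 1) p.1 p.2 hD (by push_cast; linarith)
    exact this
  have h5 : ∀ p ∈ antidiagonal n, |x p - y p| ≤
      2 * (2 / D * ((|(p.1 : ℝ) - p.2| + 1) * y p)) + (x p - y p) := by
    intro p hp
    have h6 := h4 p hp
    have hy0 : 0 ≤ y p := by rw [hy]; positivity
    have hR : 0 ≤ 2 / D * ((|(p.1 : ℝ) - p.2| + 1) * y p) := by positivity
    rcases abs_cases (x p - y p) with ⟨h7, _⟩ | ⟨h7, _⟩ <;> rw [h7] <;> linarith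
  refine (Finset.sum_le_sum h5).trans ?_
  rw [Finset.sum_add_distrib, Finset.sum_sub_distrib, h1, sub_self, add_zero, ← Finset.mul_sum,
    ← Finset.mul_sum]
  have h8 := abs_moment l n
  calc 2 * (2 / D * ∑ p ∈ antidiagonal n, (|(p.1 : ℝ) - p.2| + 1) * y p)
      ≤ 2 * (2 / D * ((Real.sqrt n + 1) * ((2 * (l + 2)).choose n : ℝ))) := by gcongr
    _ = _ := by ring

end Vale.Agent.P321.Hyp
end

section

/-!
The double step with constants which are polynomial in the length `2 ^ k` of the Thue-Morse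
words.
-/

namespace Vale.Agent.P321.MA

open Finset

variable {G : Type*} [Monoid G]

theorem sd_bound_poly {a b : ℝ} (a0 : 0 ≤ a) (b0 : 0 ≤ b) (k : ℕ)
    (hk : 4 * 4 ^ k * (b + a ^ 2) ≤ 1) :
    0 ≤ (sd a b k).1 ∧ 0 ≤ (sd a b k).2 ∧
      (sd a b k).1 ≤ 4 * 4 ^ k * (b + a ^ 2) ∧ (sd a b k).2 ≤ 4 * 8 ^ k * (a * (b + a ^ 2)) := by
  have hη0 : 0 ≤ b + a ^ 2 := by positivity
  induction k with
  | zero =>
    simp only [sd, pow_zero, mul_one]
    refine ⟨b0, _root_.le_rfl, ?_, by positivity⟩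
    linarith only [b0, sq_nonneg a]
  | succ k ih =>
    have hk' : 4 * 4 ^ k * (b + a ^ 2) ≤ 1 := by
      refine _root_.le_trans ?_ hk
      refine mul_le_mul_of_nonneg_right ?_ hη0
      rw [pow_succ]
      have : (0 : ℝ) ≤ 4 ^ k := by positivity
      linarith
    obtain ⟨s0, d0, hs, hd⟩ := ih hk'
    set s := (sd a b k).1 with hs'
    set d := (sd a b k).2 with hd'
    set η := b + a ^ 2 with hη
    set p : ℝ := 2 ^ k with hp
    have hp0 : 0 < p := by positivity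
    have e4 : (4 : ℝ) ^ k = p ^ 2 := by rw [hp, ← pow_mul, mul_comm, pow_mul]; norm_num
    have e8 : (8 : ℝ) ^ k = p ^ 3 := by rw [hp, ← pow_mul, mul_comm, pow_mul]; norm_num
    have ha2 : a ^ 2 ≤ η := by rw [hη]; linarith
    rw [e4] at hs hk'
    rw [e8] at hd
    have hd2 : d ≤ p * a := by
      calc d ≤ 4 * p ^ 3 * (a * η) := hd
        _ = (4 * p ^ 2 * η) * (p * a) := by ring
        _ ≤ 1 * (p * a) := mul_le_mul_of_nonneg_right hk' (by positivity)
        _ = p * a := one_mul _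
    have hs2 : s ≤ 1 := hs.trans hk'
    have e4' : (4 : ℝ) ^ (k + 1) = 4 * p ^ 2 := by rw [pow_succ, e4]; ring
    have e8' : (8 : ℝ) ^ (k + 1) = 8 * p ^ 3 := by rw [pow_succ, e8]; ring
    simp only [sd]
    rw [← hs', ← hd', ← hp, e4', e8']
    refine ⟨by positivity, by positivity, ?_, ?_⟩
    · have h1 : s * s ≤ 4 * p ^ 2 * η := by
        calc s * s ≤ 1 * s := mul_le_mul_of_nonneg_right hs2 s0
          _ = s := one_mul s
          _ ≤ _ := hs
      have h2 : (p * a + d) * (p * a + d) ≤ 4 * p ^ 2 * η := by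
        have h3 : p * a + d ≤ 2 * p * a := by linarith
        calc (p * a + d) * (p * a + d) ≤ (2 * p * a) * (2 * p * a) :=
              mul_le_mul h3 h3 (by positivity) (by positivity)
          _ = 4 * p ^ 2 * a ^ 2 := by ring
          _ ≤ 4 * p ^ 2 * η := mul_le_mul_of_nonneg_left ha2 (by positivity)
      linarith only [h2, h1, hs]
    · have h1 : d * s ≤ 4 * p ^ 3 * (a * η) := by
        calc d * s ≤ d * 1 := mul_le_mul_of_nonneg_left hs2 d0
          _ = d := mul_one d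
          _ ≤ _ := hd
      have h2 : p * a * s ≤ 4 * p ^ 3 * (a * η) := by
        calc p * a * s ≤ p * a * (4 * p ^ 2 * η) := mul_le_mul_of_nonneg_left hs (by positivity)
          _ = _ := by ring
      linarith only [h2, h1, hd, d0]

/-- polynomial constant of one level -/
noncomputable def Kp (k : ℕ) : ℝ := 4 * 8 ^ k

/-- polynomial constant for the quadratic quantities of one level -/
noncomputable def KQ (k : ℕ) : ℝ := 2 ^ (6 * k + 8)

/-- the polynomial constant of the double step -/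
noncomputable def KP (k k' : ℕ) : ℝ := 2 ^ (12 * k + 4 * k' + 24)

theorem Kp_pos (k : ℕ) : 0 < Kp k := by unfold Kp; positivity
theorem KQ_pos (k : ℕ) : 0 < KQ k := by unfold KQ; positivity
theorem KP_pos (k k' : ℕ) : 0 < KP k k' := by unfold KP; positivity

theorem Kp_eq (k : ℕ) : Kp k = 2 ^ (3 * k + 2) := by
  rw [Kp, pow_add, pow_mul]; norm_num; ring

theorem KQ_ge (k : ℕ) : 8 * Kp k ^ 2 + 8 * 2 ^ k ≤ KQ k := by
  rw [Kp_eq, KQ, ← pow_mul]
  have e1 : (8 : ℝ) * 2 ^ ((3 * k + 2) * 2) = 2 ^ (6 * k + 7) := by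
    have : (8 : ℝ) = 2 ^ 3 := by norm_num
    rw [this, ← pow_add]; congr 1; ring
  have e2 : (8 : ℝ) * 2 ^ k ≤ 2 ^ (6 * k + 7) := by
    have : (8 : ℝ) = 2 ^ 3 := by norm_num
    rw [this, ← pow_add]
    exact pow_le_pow_right₀ (by norm_num) (by omega)
  have e3 : (2 : ℝ) ^ (6 * k + 8) = 2 ^ (6 * k + 7) + 2 ^ (6 * k + 7) := by
    rw [← two_mul, ← pow_succ']
  rw [e1, e3]
  linarith

section level

variable {Y e f : MonoidAlgebra ℝ G} {a b c C t : ℝ} {k M : ℕ}

theorem Trip.Sr_nm_poly (h : Trip Y e f a b c C) (k : ℕ) (hk : 4 * 4 ^ k * (b + a ^ 2) ≤ 1) :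
    Nm Y (Sr Y e f k) (2 ^ k) (Kp k * (b + a ^ 2)) := by
  obtain ⟨-, -, h1, -⟩ := sd_bound_poly h.a0 h.b0 k hk
  refine (h.SD_nm k).1.mono h.hY.nonneg (h1.trans ?_)
  have hη0 : 0 ≤ b + a ^ 2 := by have := h.b0; positivity
  refine mul_le_mul_of_nonneg_right ?_ hη0
  unfold Kp
  have : (4 : ℝ) ^ k ≤ 8 ^ k := pow_le_pow_left₀ (by norm_num) (by norm_num) k
  linarith

theorem Trip.Dr_nm_poly (h : Trip Y e f a b c C) (k : ℕ) (hk : 4 * 4 ^ k * (b + a ^ 2) ≤ 1) :
    Nm Y (Dr Y e f k) (2 ^ k) (Kp k * (a * (b + a ^ 2))) := by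
  obtain ⟨-, -, -, h1⟩ := sd_bound_poly h.a0 h.b0 k hk
  exact (h.SD_nm k).2.mono h.hY.nonneg h1

theorem Trip.diff_dom_poly (h : Trip Y e f a b c C) (hk : 4 * 4 ^ k * (b + a ^ 2) ≤ 1)
    {M0 : ℕ} (hM : k * M0 ≤ M)
    (ht : (2 ^ k * l1 ((1 - Y) * Y ^ M0)) ^ k ≤ t) :
    Dom (upT Y (Y + e - f) (Y + e + f) (tmc k) M - upT Y (Y + e - f) (Y + e + f) (tmb k) M)
      (Y ^ (M + 2 ^ k + M)) (KQ k * ((a * (b + a ^ 2)) ^ 2 + t)) := by
  have hn := nonneg_pow h.hY.nonneg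
  have ht0 := tiny_nonneg ht
  rw [upT_sub]
  have h1 := (h.Fone_dom hM ht).smul 2
  have h2 := (((h.Dr_nm_poly k hk).dom.smul 2).mul_left (prob_pow h.hY M)).mul_right
    (prob_pow h.hY M) (nonneg_mul (hn _) (hn _)) (by positivity)
  rw [← pow_add, ← pow_add] at h2
  refine (h1.add2 h2).mono (hn _) ?_
  have e1 : 2 * (2 ^ 2 * (2 ^ k * t)) + 2 * (2 ^ 2 * (Kp k * (a * (b + a ^ 2))) ^ 2)
      = 8 * 2 ^ k * t + 8 * Kp k ^ 2 * (a * (b + a ^ 2)) ^ 2 := by ring
  rw [e1]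
  have h3 : 0 ≤ 8 * (2 : ℝ) ^ k * (a * (b + a ^ 2)) ^ 2 := by positivity
  have h4 : 0 ≤ 8 * Kp k ^ 2 * t := by positivity
  have h5 := mul_le_mul_of_nonneg_right (KQ_ge k)
    (by positivity : 0 ≤ (a * (b + a ^ 2)) ^ 2 + t)
  linarith only [h5, h4, h3]

theorem Trip.pres_dom_poly (h : Trip Y e f a b c C) (hk : 4 * 4 ^ k * (b + a ^ 2) ≤ 1)
    {M0 : ℕ} (hM : k * M0 ≤ M)
    (ht : (2 ^ k * l1 ((1 - Y) * Y ^ M0)) ^ k ≤ t) :
    Dom (upT Y (Y + e - f) (Y + e + f) (tmb k) M - Y ^ (M + 2 ^ k + M)) (Y ^ (M + 2 ^ k + M))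
        (KQ k * ((b + a ^ 2) ^ 2 + t)) ∧
      Dom (upT Y (Y + e - f) (Y + e + f) (tmc k) M - Y ^ (M + 2 ^ k + M)) (Y ^ (M + 2 ^ k + M))
        (KQ k * ((b + a ^ 2) ^ 2 + t)) := by
  have hn := nonneg_pow h.hY.nonneg
  have ht0 := tiny_nonneg ht
  have hK := Kp_pos k
  have a0 := h.a0
  have b0 := h.b0
  have hη : 0 ≤ b + a ^ 2 := by positivity
  have hab : Kp k * (b + a ^ 2) + Kp k * (a * (b + a ^ 2)) ≤ 2 * Kp k * (b + a ^ 2) := by
    have : a * (b + a ^ 2) ≤ 1 * (b + a ^ 2) := mul_le_mul_of_nonneg_right h.a1 hη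
    linarith only [mul_nonneg (le_of_lt (sub_pos.2 hK)) (sub_nonneg.2 this)]
  have h1 := h.Fone_dom hM ht
  have hS := h.Sr_nm_poly k hk
  have hD := h.Dr_nm_poly k hk
  have key : ∀ X : MonoidAlgebra ℝ G, Nm Y X (2 ^ k) (2 * Kp k * (b + a ^ 2)) →
      Dom (Y ^ M * X * Y ^ M) (Y ^ (M + 2 ^ k + M)) ((2 * Kp k * (b + a ^ 2)) ^ 2) := by
    intro X hX
    have h2 := (hX.dom.mul_left (prob_pow h.hY M)).mul_right (prob_pow h.hY M)
      (nonneg_mul (hn _) (hn _)) (sq_nonneg _)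
    rwa [← pow_add, ← pow_add] at h2
  have hb : 2 * (2 * Kp k * (b + a ^ 2)) ^ 2 + 2 * (2 ^ k * t)
      ≤ KQ k * ((b + a ^ 2) ^ 2 + t) := by
    have h3 : 0 ≤ 8 * (2 : ℝ) ^ k * (b + a ^ 2) ^ 2 := by positivity
    have h4 : 0 ≤ 8 * Kp k ^ 2 * t := by positivity
    have h5 : 0 ≤ 6 * (2 : ℝ) ^ k * t := by positivity
    have h6 := mul_le_mul_of_nonneg_right (KQ_ge k)
      (by positivity : 0 ≤ (b + a ^ 2) ^ 2 + t)
    linarith only [h6, h5, h4, h3]
  constructor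
  · rw [(upT_sub_pow Y e f k M).1]
    exact ((key _ ((hS.sub h.hY.nonneg hD).mono h.hY.nonneg hab)).sub2 h1).mono (hn _) hb
  · rw [(upT_sub_pow Y e f k M).2]
    exact ((key _ ((hS.add h.hY.nonneg hD).mono h.hY.nonneg hab)).add2 h1).mono (hn _) hb

end level

section wl

variable {Y Z0 Z1 F1 B : MonoidAlgebra ℝ G} {M j n0 M' m' R : ℕ} {c₁ C₁ ω t1 r τ : ℝ}

theorem WL.Z0_pow_dom_two (h : WL Y Z0 Z1 F1 B M j n0 M' m' R c₁ C₁ ω t1 r τ)
    (hω : (1 + ω) ^ m' ≤ 2) (g : ℕ) (hg : g ≤ m') :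
    Dom (Z0 ^ g) (Y ^ ((M + j + M) * g)) 2 := by
  have h1 := (pres_word (prob_pow h.hY (M + j + M)) h.ω0 h.p0 h.p1 h.d0 h.d1
    (List.replicate g false)).1
  rw [wd_replicate, List.length_replicate, ← pow_mul] at h1
  exact h1.mono (nonneg_pow h.hY.nonneg _)
    ((pow_le_pow_right₀ (by linarith [h.ω0]) hg).trans hω)

/-- two changed cells -/
theorem WL.double_two (h : WL Y Z0 Z1 F1 B M j n0 M' m' R c₁ C₁ ω t1 r τ)
    (hω : (1 + ω) ^ m' ≤ 2) (a g : ℕ) (ha : n0 ≤ a)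
    (l : List Bool) (hl : g + l.length ≤ m') :
    Dom (Z0 ^ a * ((Z1 - Z0) * (Z0 ^ g * ((Z1 - Z0) * wd Z0 Z1 l))) * Z0 ^ M')
      (Z0 ^ (a + (g + 2) + l.length + M'))
      (KB c₁ C₁ m' * 2 * (8 * (τ + 1 / R) * r ^ 4 + 24 * t1)) := by
  have hτ := h.τ0
  have hR := h.R0
  have hr0 := h.nB.r0
  have hr1 := h.r1
  have ht0 := h.t10
  have ht1 := h.t11
  set S := M + j + M with hS
  have hV : Prob (wd Z0 Z1 l * Z0 ^ M') := prob_mul (wd_prob' h.p0 h.p1 l) (prob_pow h.p0 M')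
  have h0 := nonneg_pow h.p0.nonneg
  have hYn := nonneg_pow h.hY.nonneg
  have hG := h.Z0_pow_dom_two hω g (by omega)
  have hG' : Dom (Y ^ M * Z0 ^ g * Y ^ M * B) (Y ^ (M + S * g + M + j))
      ((Real.sqrt 2 * r) ^ 2) := by
    have h1 := ((hG.mul_left (prob_pow h.hY M)).mul_right (prob_pow h.hY M)
      (nonneg_mul (hYn _) (hYn _)) (by positivity)).mul h.nB.dom
      (nonneg_mul (nonneg_mul (hYn _) (hYn _)) (hYn _)) (by positivity)
    rw [← pow_add, ← pow_add, ← pow_add] at h1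
    rwa [_root_.mul_pow, Real.sq_sqrt (by positivity)]
  have hX := h.nB.mul_dom h.hY.nonneg (by positivity) hG'
  have h1 := h.shift hX a ha l (by omega)
  have hB : Dom (Y ^ M * B * Y ^ M) (Y ^ S) (r ^ 2) := by
    have := (h.nB.dom.mul_left (prob_pow h.hY M)).mul_right (prob_pow h.hY M)
      (nonneg_mul (hYn _) (hYn _)) (sq_nonneg r)
    rwa [← pow_add, ← pow_add] at this
  have hF : Dom (Z1 - Z0) (Y ^ S) (2 * t1 + 2 * r ^ 2) := by
    rw [h.diff]; exact h.dF1.add2 hB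
  have hx1 : Dom (F1 * (Z0 ^ g * (Z1 - Z0))) (Y ^ S * (Y ^ (S * g) * Y ^ S))
      (t1 * (2 * (2 * t1 + 2 * r ^ 2))) :=
    h.dF1.mul (hG.mul hF (hYn _) (by positivity)) (hYn _) ht0
  have hx2 : Dom ((Y ^ M * B * Y ^ M) * (Z0 ^ g * F1)) (Y ^ S * (Y ^ (S * g) * Y ^ S))
      (r ^ 2 * (2 * t1)) :=
    hB.mul (hG.mul h.dF1 (hYn _) (by positivity)) (hYn _) (sq_nonneg r)
  have hx := hx1.add2 hx2
  have eS : Y ^ S * (Y ^ (S * g) * Y ^ S) = Y ^ (S * (g + 2)) := by
    rw [← pow_add, ← pow_add]; congr 1; ring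
  have eS2 : M + (j + (M + S * g + M + j)) + M = S * (g + 2) := by
    rw [hS]; ring
  rw [eS] at hx
  rw [eS2] at h1
  have h2 := (hx.mul_left (prob_pow h.p0 a)).mul_right hV
    (nonneg_mul (h0 a) (hYn _)) (by positivity)
  have h3 := h1.add2 h2
  have e : Z0 ^ a * (Y ^ M * (B * (Y ^ M * Z0 ^ g * Y ^ M * B)) * Y ^ M)
        * (wd Z0 Z1 l * Z0 ^ M')
      + Z0 ^ a * (F1 * (Z0 ^ g * (Z1 - Z0)) + (Y ^ M * B * Y ^ M) * (Z0 ^ g * F1))
        * (wd Z0 Z1 l * Z0 ^ M')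
      = Z0 ^ a * ((Z1 - Z0) * (Z0 ^ g * ((Z1 - Z0) * wd Z0 Z1 l))) * Z0 ^ M' := by
    rw [h.diff]
    simp only [mul_add, add_mul, mul_assoc]
    abel
  rw [e] at h3
  have h4 := h3.base (by positivity) (h.base a (g + 2) l (by omega) (by omega))
  refine h4.mono (h0 _) ?_
  have hr2 : r ^ 2 ≤ 1 := pow_le_one₀ hr0 hr1
  have hsq : (r * (Real.sqrt 2 * r)) ^ 2 = 2 * r ^ 4 := by
    rw [_root_.mul_pow, _root_.mul_pow, Real.sq_sqrt (by positivity)]; ring
  rw [hsq]
  have hKB : 0 ≤ KB c₁ C₁ m' := by linarith only [h.KB_one_le, h]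
  have hmain : 2 * ((4 * τ + 2 / (R : ℝ)) * (2 * r ^ 4))
      + 2 * (2 * (t1 * (2 * (2 * t1 + 2 * r ^ 2))) + 2 * (r ^ 2 * (2 * t1)))
      ≤ 2 * (8 * (τ + 1 / R) * r ^ 4 + 24 * t1) := by
    have h5 : (4 * τ + 2 / (R : ℝ)) ≤ 4 * (τ + 1 / R) := by
      have h5 : 2 / (R : ℝ) = 2 * (1 / R) := by ring
      have h6 : 0 ≤ 1 / (R : ℝ) := by positivity
      rw [h5]; linarith only [h6]
    have h6 : 2 * ((4 * τ + 2 / (R : ℝ)) * (2 * r ^ 4))
        ≤ 2 * (8 * (τ + 1 / R) * r ^ 4) := by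
      calc 2 * ((4 * τ + 2 / (R : ℝ)) * (2 * r ^ 4))
          ≤ 2 * ((4 * (τ + 1 / R)) * (2 * r ^ 4)) := by gcongr
        _ = _ := by ring
    have h7 : 2 * t1 + 2 * r ^ 2 ≤ 4 := by linarith only [ht1, hr2]
    have h8 : 2 * (2 * (t1 * (2 * (2 * t1 + 2 * r ^ 2))) + 2 * (r ^ 2 * (2 * t1)))
        ≤ 2 * (24 * t1) := by
      calc 2 * (2 * (t1 * (2 * (2 * t1 + 2 * r ^ 2))) + 2 * (r ^ 2 * (2 * t1)))
          ≤ 2 * (2 * (t1 * (2 * 4)) + 2 * (1 * (2 * t1))) := by gcongr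
        _ = 2 * (20 * t1) := by ring
        _ ≤ 2 * (24 * t1) := by gcongr; norm_num
    calc _ ≤ 2 * (8 * (τ + 1 / R) * r ^ 4) + 2 * (24 * t1) := add_le_add h6 h8
      _ = _ := by ring
  calc _ ≤ (2 * (8 * (τ + 1 / R) * r ^ 4 + 24 * t1)) * ((c₁⁻¹) ^ (m' + 2) * C₁ ^ m') :=
        mul_le_mul_of_nonneg_right hmain hKB
    _ = _ := by rw [KB]; ring

/-- second order terms, one cell fixed -/
theorem WL.double_sum_two (h : WL Y Z0 Z1 F1 B M j n0 M' m' R c₁ C₁ ω t1 r τ)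
    (hω : (1 + ω) ^ m' ≤ 2) {β : ℝ} (hβ0 : 0 ≤ β)
    (hβ : KB c₁ C₁ m' * 2 * (8 * (τ + 1 / R) * r ^ 4 + 24 * t1) ≤ β ^ 2) (a g : ℕ)
    (ha : n0 ≤ a) (l : List Bool) (hl : g + l.length ≤ m') :
    Dom (Z0 ^ a * ((Z1 - Z0) * (Z0 ^ g * (wd Z0 Z1 l - Z0 ^ l.length))) * Z0 ^ M')
      (Z0 ^ (a + 1 + g + l.length + M')) ((l.length * β) ^ 2) := by
  have h0 := nonneg_pow h.p0.nonneg
  induction l generalizing g with
  | nil =>
    rw [wd_nil, List.length_nil, pow_zero, sub_self, mul_zero, mul_zero, mul_zero, zero_mul]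
    exact Dom.zero (h0 _) (by positivity)
  | cons b l ih =>
    rw [List.length_cons] at hl
    have ih' := ih (g + 1) (by omega)
    rw [wd_sub_cons, mul_add, mul_add, mul_add, add_mul]
    have e1 : Z0 ^ a * ((Z1 - Z0) * (Z0 ^ g * (Z0 * (wd Z0 Z1 l - Z0 ^ l.length)))) * Z0 ^ M'
        = Z0 ^ a * ((Z1 - Z0) * (Z0 ^ (g + 1) * (wd Z0 Z1 l - Z0 ^ l.length))) * Z0 ^ M' := by
      rw [pow_succ]; simp only [mul_assoc]
    have e2 : a + 1 + (g + 1) + l.length + M' = a + 1 + g + (b :: l).length + M' := by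
      rw [List.length_cons]; omega
    rw [e2] at ih'
    have h1 : Dom (Z0 ^ a * ((Z1 - Z0) * (Z0 ^ g * (if b then (Z1 - Z0) * wd Z0 Z1 l else 0)))
          * Z0 ^ M')
        (Z0 ^ (a + 1 + g + (b :: l).length + M')) (β ^ 2) := by
      cases b
      · simp only [Bool.false_eq_true, if_false, mul_zero, zero_mul]
        exact Dom.zero (h0 _) (sq_nonneg _)
      · simp only [if_true]
        have := (h.double_two hω a g ha l (by omega)).mono (h0 _) hβ
        have e3 : a + (g + 2) + l.length + M' = a + 1 + g + (true :: l).length + M' := by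
          rw [List.length_cons]; omega
        rwa [e3] at this
    rw [e1]
    have h2 := Dom.add hβ0 (by positivity : 0 ≤ (l.length : ℝ) * β) (h0 _) h1 ih'
    refine h2.mono (h0 _) (_root_.le_of_eq ?_)
    rw [List.length_cons]; push_cast; ring

/-- second order remainder in a long background, with gain -/
theorem WL.rmd_gain_two (h : WL Y Z0 Z1 F1 B M j n0 M' m' R c₁ C₁ ω t1 r τ)
    (hω : (1 + ω) ^ m' ≤ 2) {β : ℝ} (hβ0 : 0 ≤ β)
    (hβ : KB c₁ C₁ m' * 2 * (8 * (τ + 1 / R) * r ^ 4 + 24 * t1) ≤ β ^ 2) (a : ℕ)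
    (ha : n0 ≤ a) (l : List Bool) (hl : l.length ≤ m') :
    Dom (Z0 ^ a * rmd Z0 Z1 l * Z0 ^ M') (Z0 ^ (a + l.length + M'))
      ((l.length * (m' * β)) ^ 2) := by
  have h0 := nonneg_pow h.p0.nonneg
  induction l generalizing a with
  | nil =>
    rw [rmd_nil, mul_zero, zero_mul]
    exact Dom.zero (h0 _) (by positivity)
  | cons b l ih =>
    rw [List.length_cons] at hl
    have ih' := ih (a + 1) (by omega) (by omega)
    rw [rmd_cons, mul_add, add_mul]
    have e1 : Z0 ^ a * (Z0 * rmd Z0 Z1 l) * Z0 ^ M'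
        = Z0 ^ (a + 1) * rmd Z0 Z1 l * Z0 ^ M' := by
      rw [pow_succ]; simp only [mul_assoc]
    have e2 : a + 1 + l.length + M' = a + (b :: l).length + M' := by
      rw [List.length_cons]; omega
    rw [e2] at ih'
    have h1 : Dom (Z0 ^ a * (if b then (Z1 - Z0) * (wd Z0 Z1 l - Z0 ^ l.length) else 0)
        * Z0 ^ M') (Z0 ^ (a + (b :: l).length + M')) ((m' * β) ^ 2) := by
      cases b
      · simp only [Bool.false_eq_true, if_false, mul_zero, zero_mul]
        exact Dom.zero (h0 _) (sq_nonneg _)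
      · simp only [if_true]
        have h3 := h.double_sum_two hω hβ0 hβ a 0 ha l (by omega)
        rw [pow_zero, one_mul, Nat.add_zero, e2] at h3
        refine h3.mono (h0 _) ?_
        have : (l.length : ℝ) ≤ m' := by exact_mod_cast (by omega : l.length ≤ m')
        exact pow_le_pow_left₀ (by positivity) (mul_le_mul_of_nonneg_right this hβ0) 2
    rw [e1]
    have h2 := Dom.add (by positivity : 0 ≤ (m' : ℝ) * β)
      (by positivity : 0 ≤ (l.length : ℝ) * (m' * β)) (h0 _) h1 ih'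
    refine h2.mono (h0 _) (_root_.le_of_eq ?_)
    rw [List.length_cons]; push_cast; ring

end wl

end Vale.Agent.P321.MA
end
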