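import Mathlib.Analysis.SpecialFunctions.Pow.Asymptotics
import Mathlib.Analysis.Complex.ExponentialBounds
import Vale.Agent.P321.Bdl.B2
import Vale.Agent.P321.Defs
import Vale.Agent.P321.Bdl.B1

section

/-!
The element of the free monoid algebra attached to a string, and its relation to the trace law.
-/

namespace Vale.Agent.P321

open Finset
open scoped unitInterval ENNReal

/-- factor of a single letter. -/
noncomputable def letter (q : ℝ) (b : Bool) : Alg :=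
  q • (1 : Alg) + (1 - q) • MonoidAlgebra.single (FreeMonoid.of b) 1

/-- the word element. -/
noncomputable def W (q : ℝ) (u : List Bool) : Alg := (u.map (letter q)).prod

theorem W_nil (q : ℝ) : W q [] = 1 := by simp [W]

theorem W_cons (q : ℝ) (b : Bool) (u : List Bool) : W q (b :: u) = letter q b * W q u := by
  simp [W]

theorem W_append (q : ℝ) (u v : List Bool) : W q (u ++ v) = W q u * W q v := by
  simp [W]

theorem letter_nonneg {q : ℝ} (h0 : 0 ≤ q) (h1 : q ≤ 1) (b : Bool) : nonneg (letter q b) :=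
  nonneg_add (nonneg_smul h0 nonneg_one)
    (nonneg_smul (by linarith) (nonneg_single _ zero_le_one))

theorem letter_prob {q : ℝ} (h0 : 0 ≤ q) (h1 : q ≤ 1) (b : Bool) :
    l1Str.Prob (letter q b) := by
  refine ⟨letter_nonneg h0 h1 b, ?_⟩
  change l1 (letter q b) = 1
  have e := l1Str.nrm_add_pos (x := q • (1 : Alg))
    (y := (1 - q) • MonoidAlgebra.single (FreeMonoid.of b) 1)
    (nonneg_smul h0 nonneg_one) (nonneg_smul (by linarith) (nonneg_single _ zero_le_one))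
  change l1 _ = l1 _ + l1 _ at e
  rw [letter, e, l1_smul, l1_smul, l1_one, l1_single, abs_of_nonneg h0,
    abs_of_nonneg (by linarith : (0 : ℝ) ≤ 1 - q)]
  simp

theorem W_prob {q : ℝ} (h0 : 0 ≤ q) (h1 : q ≤ 1) (u : List Bool) : l1Str.Prob (W q u) := by
  induction u with
  | nil => rw [W_nil]; exact ⟨nonneg_one, l1_one⟩
  | cons b u ih => rw [W_cons]; exact (letter_prob h0 h1 b).mul ih

theorem coeff_W_cons_nil (q : ℝ) (b : Bool) (u : List Bool) :
    (W q (b :: u)).coeff (1 : FreeMonoid Bool) = q * (W q u).coeff 1 := by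
  classical
  rw [W_cons, letter, add_mul, MonoidAlgebra.coeff_add, Finsupp.add_apply, smul_mul_assoc,
    one_mul, smul_mul_assoc, MonoidAlgebra.coeff_smul, MonoidAlgebra.coeff_smul,
    Finsupp.smul_apply, Finsupp.smul_apply,
    MonoidAlgebra.coeff_single_mul_of_forall_mul_ne (1 : ℝ) (W q u) (m := FreeMonoid.of b)
      (m' := 1) (fun d hd => List.cons_ne_nil b d hd)]
  simp

theorem coeff_W_cons_cons (q : ℝ) (b c : Bool) (u w : List Bool) :
    (W q (b :: u)).coeff (FreeMonoid.ofList (c :: w)) = q * (W q u).coeff (FreeMonoid.ofList (c :: w))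
      + (1 - q) * (if b = c then (W q u).coeff (FreeMonoid.ofList w) else 0) := by
  classical
  rw [W_cons, letter, add_mul, MonoidAlgebra.coeff_add, Finsupp.add_apply, smul_mul_assoc,
    one_mul, smul_mul_assoc, MonoidAlgebra.coeff_smul, MonoidAlgebra.coeff_smul,
    Finsupp.smul_apply, Finsupp.smul_apply, smul_eq_mul, smul_eq_mul]
  congr 2
  by_cases h : b = c
  · rw [if_pos h, MonoidAlgebra.coeff_single_mul_eq_mul_coeff (FreeMonoid.ofList w), one_mul]
    intro m' _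
    subst h
    constructor
    · intro e
      exact (List.cons.inj e).2
    · rintro rfl
      rfl
  · rw [if_neg h, MonoidAlgebra.coeff_single_mul_of_forall_mul_ne]
    intro d e
    exact h (List.cons.inj e).1

theorem coin_true (q : I) : coin q true = ENNReal.ofReal q := rfl
theorem coin_false (q : I) : coin q false = ENNReal.ofReal (1 - q) := rfl

theorem traceLaw_nil (q : I) : traceLaw q [] = PMF.pure [] := rfl
theorem traceLaw_cons (q : I) (b : Bool) (x : List Bool) :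
    traceLaw q (b :: x) = (coin q).bind fun deleted =>
      (traceLaw q x).map fun t => if deleted then t else b :: t := rfl
theorem tracesLaw_zero (q : I) (x : List Bool) : tracesLaw q x 0 = PMF.pure [] := rfl
theorem tracesLaw_succ (q : I) (x : List Bool) (m : ℕ) :
    tracesLaw q x (m + 1) =
      (traceLaw q x).bind fun t => (tracesLaw q x m).map fun ts => t :: ts := rfl

theorem traceLaw_cons_apply (q : I) (b : Bool) (x w : List Bool) :
    traceLaw q (b :: x) w = ENNReal.ofReal q * traceLaw q x w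
      + ENNReal.ofReal (1 - q) * ∑' t, if w = b :: t then traceLaw q x t else 0 := by
  rw [traceLaw_cons, PMF.bind_apply, tsum_bool, coin_true, coin_false, add_comm]
  congr 2
  · simp only [if_true]
    have : (fun t : List Bool => t) = id := rfl
    rw [this, PMF.map_id]
  · simp only [Bool.false_eq_true, if_false]
    rw [PMF.map_apply]
    refine tsum_congr fun t => ?_
    by_cases h : w = b :: t
    · rw [if_pos h, if_pos h]
    · rw [if_neg h, if_neg h]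

theorem traceLaw_eq (q : I) (x w : List Bool) :
    traceLaw q x w = ENNReal.ofReal ((W q x).coeff (FreeMonoid.ofList w)) := by
  classical
  induction x generalizing w with
  | nil =>
    rw [traceLaw_nil, W_nil, PMF.pure_apply, MonoidAlgebra.one_def, MonoidAlgebra.coeff_single,
      Finsupp.single_apply]
    by_cases h : w = []
    · subst h
      rw [if_pos rfl]
      have : (1 : FreeMonoid Bool) = FreeMonoid.ofList [] := rfl
      rw [if_pos this, ENNReal.ofReal_one]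
    · rw [if_neg h]
      have : ¬ ((1 : FreeMonoid Bool) = FreeMonoid.ofList w) := fun e => h e.symm
      rw [if_neg this, ENNReal.ofReal_zero]
  | cons b x ih =>
    have hW : ∀ v, 0 ≤ (W q x).coeff v := (W_prob q.2.1 q.2.2 x).1
    have hq : (0 : ℝ) ≤ 1 - q := by linarith [q.2.2]
    rw [traceLaw_cons_apply]
    cases w with
    | nil =>
      have e0 : (∑' t, if ([] : List Bool) = b :: t then traceLaw q x t else 0) = 0 := by
        simp
      have := coeff_W_cons_nil q b x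
      change _ = ENNReal.ofReal ((W q (b :: x)).coeff (1 : FreeMonoid Bool))
      rw [e0, this, mul_zero, add_zero, ENNReal.ofReal_mul q.2.1, ih]
      rfl
    | cons c w =>
      rw [coeff_W_cons_cons, ih, ENNReal.ofReal_add (mul_nonneg q.2.1 (hW _)), ENNReal.ofReal_mul q.2.1,
        ENNReal.ofReal_mul hq]
      · congr 2
        by_cases h : b = c
        · subst h
          rw [if_pos rfl, tsum_eq_single w]
          · rw [if_pos rfl, ih]
          · intro t ht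
            rw [if_neg]
            intro e
            exact ht (List.cons.inj e).2.symm
        · rw [if_neg h, ENNReal.ofReal_zero]
          refine ENNReal.tsum_eq_zero.mpr fun t => ?_
          rw [if_neg]
          intro e
          exact h (List.cons.inj e).1.symm
      · refine mul_nonneg hq ?_
        by_cases h : b = c
        · rw [if_pos h]; exact hW _
        · rw [if_neg h]

/-- truncated difference of the laws. -/
theorem tsum_sub_le (q : I) (x y : List Bool) :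
    ∑' w, (traceLaw q y w - traceLaw q x w) ≤ ENNReal.ofReal (l1 (W q y - W q x)) := by
  classical
  have e1 : ∀ z z' : Alg, ∀ w, (z - z').coeff w = z.coeff w - z'.coeff w := by
    intro z z' w
    have h1 : (z - z' + z').coeff w = z.coeff w := by rw [sub_add_cancel]
    rw [MonoidAlgebra.coeff_add, Finsupp.add_apply] at h1
    linarith
  set s := (W q y).coeff.support ∪ (W q x).coeff.support with hs
  have hle : (W q y - W q x).coeff.support ⊆ s := by
    intro w hw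
    by_contra hn
    rw [hs, Finset.mem_union, not_or] at hn
    rw [Finsupp.mem_support_iff, e1, Finsupp.notMem_support_iff.mp hn.1,
      Finsupp.notMem_support_iff.mp hn.2, sub_self] at hw
    exact hw rfl
  have hW : ∀ v, 0 ≤ (W q x).coeff v := (W_prob q.2.1 q.2.2 x).1
  have h1 : ∀ w : List Bool, traceLaw q y w - traceLaw q x w
      ≤ ENNReal.ofReal |(W q y - W q x).coeff (FreeMonoid.ofList w)| := by
    intro w
    rw [traceLaw_eq, traceLaw_eq, ← ENNReal.ofReal_sub _ (hW _), e1]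
    exact ENNReal.ofReal_le_ofReal (le_abs_self _)
  have h2 : ∀ w ∉ s.map (FreeMonoid.toList.toEmbedding),
      traceLaw q y w - traceLaw q x w = 0 := by
    intro w hw
    have : FreeMonoid.ofList w ∉ s := by
      intro h
      apply hw
      rw [Finset.mem_map]
      exact ⟨_, h, rfl⟩
    rw [hs, Finset.mem_union, not_or] at this
    rw [traceLaw_eq, Finsupp.notMem_support_iff.mp this.1, ENNReal.ofReal_zero, zero_tsub]
  rw [tsum_eq_sum h2, Finset.sum_map, l1_eq_sum _ s hle, ENNReal.ofReal_sum_of_nonneg]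
  · exact Finset.sum_le_sum fun w _ => h1 _
  · intro _ _; exact abs_nonneg _

/-- hybrid argument. -/
theorem hybrid (q : I) (x y : List Bool) (Δ : ℝ≥0∞)
    (hΔ : ∑' w, (traceLaw q y w - traceLaw q x w) ≤ Δ) (m : ℕ)
    (f : List (List Bool) → ℝ≥0∞) (hf : ∀ ts, f ts ≤ 1) :
    ∑' ts, tracesLaw q y m ts * f ts ≤ (∑' ts, tracesLaw q x m ts * f ts) + m * Δ := by
  induction m generalizing f with
  | zero => rw [tracesLaw_zero, tracesLaw_zero]; simp
  | succ m ih =>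
    have expand : ∀ z : List Bool, ∀ g : List (List Bool) → ℝ≥0∞,
        ∑' ts, tracesLaw q z (m + 1) ts * g ts
          = ∑' t, traceLaw q z t * ∑' ts, tracesLaw q z m ts * g (t :: ts) := by
      intro z g
      rw [tracesLaw_succ]
      have e : ∀ ts, ((traceLaw q z).bind fun t => (tracesLaw q z m).map fun ts => t :: ts) ts * g ts
          = ∑' t, traceLaw q z t * (((tracesLaw q z m).map fun ts => t :: ts) ts * g ts) := by
        intro ts
        rw [PMF.bind_apply, ← ENNReal.tsum_mul_right]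
        exact tsum_congr fun t => by rw [mul_assoc]
      rw [tsum_congr e, ENNReal.tsum_comm]
      refine tsum_congr fun t => ?_
      rw [ENNReal.tsum_mul_left]
      congr 1
      have e2 : ∀ ts, ((tracesLaw q z m).map fun ts => t :: ts) ts * g ts
          = ∑' us, (if ts = t :: us then tracesLaw q z m us * g ts else 0) := by
        intro ts
        rw [PMF.map_apply, ← ENNReal.tsum_mul_right]
        refine tsum_congr fun us => ?_
        by_cases h : ts = t :: us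
        · rw [if_pos h, if_pos h]
        · rw [if_neg h, if_neg h, zero_mul]
      rw [tsum_congr e2, ENNReal.tsum_comm]
      refine tsum_congr fun us => ?_
      rw [tsum_eq_single (t :: us)]
      · rw [if_pos rfl]
      · intro ts hts; rw [if_neg hts]
    rw [expand, expand]
    have h1 : ∀ t, ∑' ts, tracesLaw q y m ts * f (t :: ts) ≤ 1 := by
      intro t
      calc ∑' ts, tracesLaw q y m ts * f (t :: ts) ≤ ∑' ts, tracesLaw q y m ts * 1 :=
            ENNReal.tsum_le_tsum fun ts => mul_le_mul_right (hf _) _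
        _ = 1 := by simp
    have h2 : ∀ t, traceLaw q y t * ∑' ts, tracesLaw q y m ts * f (t :: ts)
        ≤ traceLaw q x t * (∑' ts, tracesLaw q x m ts * f (t :: ts)) + traceLaw q x t * (m * Δ)
          + (traceLaw q y t - traceLaw q x t) := by
      intro t
      have h3 : traceLaw q y t ≤ traceLaw q x t + (traceLaw q y t - traceLaw q x t) :=
        le_add_tsub
      calc traceLaw q y t * ∑' ts, tracesLaw q y m ts * f (t :: ts)
          ≤ (traceLaw q x t + (traceLaw q y t - traceLaw q x t))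
              * ∑' ts, tracesLaw q y m ts * f (t :: ts) := mul_le_mul_left h3 _
        _ = traceLaw q x t * (∑' ts, tracesLaw q y m ts * f (t :: ts))
            + (traceLaw q y t - traceLaw q x t) * ∑' ts, tracesLaw q y m ts * f (t :: ts) := by
              rw [add_mul]
        _ ≤ traceLaw q x t * ((∑' ts, tracesLaw q x m ts * f (t :: ts)) + m * Δ)
            + (traceLaw q y t - traceLaw q x t) * 1 :=
              add_le_add (mul_le_mul_right (ih _ fun ts => hf _) _) (mul_le_mul_right (h1 t) _)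
        _ = _ := by rw [mul_add, mul_one]
    calc ∑' t, traceLaw q y t * ∑' ts, tracesLaw q y m ts * f (t :: ts)
        ≤ ∑' t, (traceLaw q x t * (∑' ts, tracesLaw q x m ts * f (t :: ts))
            + traceLaw q x t * (m * Δ) + (traceLaw q y t - traceLaw q x t)) :=
          ENNReal.tsum_le_tsum h2
      _ = (∑' t, traceLaw q x t * (∑' ts, tracesLaw q x m ts * f (t :: ts))) + m * Δ
            + ∑' t, (traceLaw q y t - traceLaw q x t) := by
          rw [ENNReal.tsum_add, ENNReal.tsum_add, ENNReal.tsum_mul_right, PMF.tsum_coe, one_mul]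
      _ ≤ (∑' t, traceLaw q x t * (∑' ts, tracesLaw q x m ts * f (t :: ts))) + m * Δ + Δ := by
          gcongr
      _ = _ := by push_cast; ring

/-- Any estimator needs at least `1/(3 Δ)` traces. -/
theorem lower_bound (q : I) (n m : ℕ) (est : Estimator n) (h : Reconstructs q n m est)
    (x y : Fin n → Bool) (hxy : x ≠ y) :
    1 ≤ 3 * m * l1 (W q (List.ofFn y) - W q (List.ofFn x)) := by
  classical
  set Δ := ENNReal.ofReal (l1 (W q (List.ofFn y) - W q (List.ofFn x))) with hΔ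
  have hx := h x
  have hy := h y
  rw [PMF.bind_apply] at hx hy
  have hb := hybrid q (List.ofFn x) (List.ofFn y) Δ (tsum_sub_le q _ _) m (fun ts => est ts y)
    (fun ts => PMF.coe_le_one _ _)
  have hsum : (∑' ts, tracesLaw q (List.ofFn x) m ts * est ts x)
      + (∑' ts, tracesLaw q (List.ofFn x) m ts * est ts y) ≤ 1 := by
    rw [← ENNReal.tsum_add]
    calc ∑' ts, (tracesLaw q (List.ofFn x) m ts * est ts x
          + tracesLaw q (List.ofFn x) m ts * est ts y)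
        ≤ ∑' ts, tracesLaw q (List.ofFn x) m ts * 1 := by
          refine ENNReal.tsum_le_tsum fun ts => ?_
          rw [← mul_add]
          refine mul_le_mul_right ?_ _
          have e := (est ts).tsum_coe
          rw [← e, tsum_fintype]
          have : est ts x + est ts y = ∑ z ∈ {x, y}, est ts z := by
            rw [Finset.sum_pair hxy]
          rw [this]
          exact Finset.sum_le_sum_of_subset (Finset.subset_univ _)
      _ = 1 := by simp
  have htot : (2 / 3 : ℝ≥0∞) + 2 / 3 ≤ 1 + m * Δ := by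
    calc (2 / 3 : ℝ≥0∞) + 2 / 3
        ≤ (∑' ts, tracesLaw q (List.ofFn x) m ts * est ts x)
          + ∑' ts, tracesLaw q (List.ofFn y) m ts * est ts y := add_le_add hx hy
      _ ≤ (∑' ts, tracesLaw q (List.ofFn x) m ts * est ts x)
          + ((∑' ts, tracesLaw q (List.ofFn x) m ts * est ts y) + m * Δ) := by gcongr
      _ = ((∑' ts, tracesLaw q (List.ofFn x) m ts * est ts x)
          + (∑' ts, tracesLaw q (List.ofFn x) m ts * est ts y)) + m * Δ := by rw [add_assoc]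
      _ ≤ 1 + m * Δ := by gcongr
  have hnn := l1_nonneg (W q (List.ofFn y) - W q (List.ofFn x))
  have hr := ENNReal.toReal_mono (by
    rw [hΔ]
    exact ENNReal.add_ne_top.mpr ⟨ENNReal.one_ne_top,
      ENNReal.mul_ne_top (ENNReal.natCast_ne_top m) ENNReal.ofReal_ne_top⟩) htot
  have h23 : (2 / 3 : ℝ≥0∞) ≠ ⊤ := ENNReal.div_ne_top (by norm_num) (by norm_num)
  rw [ENNReal.toReal_add h23 h23, ENNReal.toReal_add ENNReal.one_ne_top
    (ENNReal.mul_ne_top (ENNReal.natCast_ne_top m) ENNReal.ofReal_ne_top), ENNReal.toReal_mul,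
    ENNReal.toReal_ofReal hnn] at hr
  simp only [ENNReal.toReal_div, ENNReal.toReal_ofNat, ENNReal.toReal_one,
    ENNReal.toReal_natCast] at hr
  linarith only [hr]

end Vale.Agent.P321
end

section

/-!
The recursion predicate and the final lower bound.
-/

namespace Vale.Agent.P321.MA

open Filter Topology
open scoped unitInterval

/-- Level datum at the scale `x`: two distinct words of equal length in `[x, 2x]` whose trace laws
are, up to tiny errors, the laws `Y0`, `Y1`. -/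
structure LevelAt (q : ℝ) (ε β B a x : ℝ) (u v : List Bool)
    (Y0 Y1 : MonoidAlgebra ℝ (FreeMonoid Bool)) (K : ℕ) : Prop where
  ne : u ≠ v
  len : u.length = v.length
  lo : x ≤ u.length
  hi : (u.length : ℝ) ≤ 2 * x
  err0 : l1 (W q u - Y0) ≤ Real.exp (-x ^ β)
  err1 : l1 (W q v - Y1) ≤ Real.exp (-x ^ β)
  pair : Pair Y0 Y1 (x ^ (-a)) B⁻¹ B
  slip : L1Str.Slip (str (G := FreeMonoid Bool)) Y0 K
  slipK : (K : ℝ) ≤ x ^ (1 + ε)

/-- The recursion predicate. -/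
def Lev (q ε a : ℝ) : Prop := ∃ β B : ℝ, 0 < β ∧ 1 ≤ B ∧ ∀ᶠ x : ℝ in atTop,
  ∃ (u v : List Bool) (Y0 Y1 : MonoidAlgebra ℝ (FreeMonoid Bool)) (K : ℕ),
    LevelAt q ε β B a x u v Y0 Y1 K

theorem l1_eq (x : MonoidAlgebra ℝ (FreeMonoid Bool)) : l1 x = P321.l1 x := rfl

theorem l1_sub_le_three (a b c d : MonoidAlgebra ℝ (FreeMonoid Bool)) :
    l1 (a - b) ≤ l1 (a - c) + l1 (d - c) + l1 (b - d) := by
  have h1 : a - b = (a - c) + (c - d) + (d - b) := by abel
  rw [h1]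
  refine (l1_add _ _).trans ?_
  have h2 := l1_add (a - c) (c - d)
  rw [l1_sub_comm c d] at h2
  rw [l1_sub_comm b d]
  linarith

/-- From the predicate to the sample complexity. -/
theorem final (q : I) (A : ℕ) (ε a : ℝ) (ha : 2 * (A : ℝ) + 2 < a) (h : Lev q ε a) :
    ∃ n0 : ℕ, ∀ n : ℕ, n0 ≤ n → ∀ m : ℕ,
      (∃ est : Estimator n, Reconstructs q n m est) → (n : ℝ) ^ A ≤ m := by
  obtain ⟨β, B, hβ, hB, hev⟩ := h
  -- scale n / 2
  have hhalf : Tendsto (fun n : ℕ => (n : ℝ) / 2) atTop atTop :=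
    (tendsto_natCast_atTop_atTop).atTop_div_const (by norm_num)
  have h1 := hhalf.eventually hev
  -- numeric smallness
  have h2 : ∀ᶠ x : ℝ in atTop, 3 * (2 * x) ^ A * (2 * Real.exp (-x ^ β) + x ^ (-a / 2)) < 1 := by
    have e1 : Tendsto (fun x : ℝ => 3 * (2 * x) ^ A * (2 * Real.exp (-x ^ β) + x ^ (-a / 2)))
        atTop (𝓝 0) := by
      have f1 : Tendsto (fun x : ℝ => x ^ (A : ℝ) * Real.exp (-x ^ β)) atTop (𝓝 0) := by
        have g1 := tendsto_rpow_mul_exp_neg_mul_atTop_nhds_zero ((A : ℝ) / β) 1 one_pos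
        have g2 := g1.comp (tendsto_rpow_atTop hβ)
        refine g2.congr' ?_
        filter_upwards [eventually_gt_atTop 0] with x hx
        simp only [Function.comp]
        rw [← Real.rpow_mul hx.le, mul_div_cancel₀ _ hβ.ne']
        ring_nf
      have f2 : Tendsto (fun x : ℝ => x ^ (A : ℝ) * x ^ (-a / 2)) atTop (𝓝 0) := by
        have g1 := tendsto_rpow_neg_atTop (y := a / 2 - A) (by linarith only [ha])
        refine g1.congr' ?_
        filter_upwards [eventually_gt_atTop 0] with x hx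
        rw [← Real.rpow_add hx]
        congr 1
        ring
      have f3 : Tendsto (fun x : ℝ => 3 * 2 ^ A * (2 * (x ^ (A : ℝ) * Real.exp (-x ^ β))
          + x ^ (A : ℝ) * x ^ (-a / 2))) atTop (𝓝 (3 * 2 ^ A * (2 * 0 + 0))) :=
        ((f1.const_mul 2).add f2).const_mul _
      simp only [mul_zero, add_zero] at f3
      refine f3.congr fun x => ?_
      rw [Real.rpow_natCast, mul_pow]
      ring
    exact e1.eventually (gt_mem_nhds one_pos)
  have h3 := hhalf.eventually h2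
  obtain ⟨n0, hn0⟩ := Filter.eventually_atTop.mp (h1.and (h3.and (eventually_ge_atTop 2)))
  refine ⟨n0, fun n hn m hm => ?_⟩
  obtain ⟨⟨u, v, Y0, Y1, K, L⟩, hsm, hn2⟩ := hn0 n hn
  obtain ⟨est, hest⟩ := hm
  set x : ℝ := (n : ℝ) / 2 with hx
  have hn2' : (2 : ℝ) ≤ n := by exact_mod_cast hn2
  have hx1 : 1 ≤ x := by rw [hx]; linarith only [hn2']
  have hlen : u.length ≤ n := by
    have := L.hi
    rw [hx] at this
    have : (u.length : ℝ) ≤ n := by linarith only [this]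
    exact_mod_cast this
  -- padded strings
  set pad : List Bool := List.replicate (n - u.length) false with hpad
  have hu : (u ++ pad).length = n := by
    rw [List.length_append, hpad, List.length_replicate]; omega
  have hv : (v ++ pad).length = n := by
    rw [List.length_append, hpad, List.length_replicate, ← L.len]; omega
  have hne : u ++ pad ≠ v ++ pad := fun e => L.ne (List.append_cancel_right e)
  have key := lower_bound q n m est hest (fun i => (u ++ pad).get (i.cast hu.symm))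
    (fun i => (v ++ pad).get (i.cast hv.symm)) (by
      intro e
      apply hne
      refine List.ext_get (by rw [hu, hv]) fun i h1 h2 => ?_
      have := congrFun e ⟨i, by rw [← hu]; exact h1⟩
      simpa using this)
  have e1 : List.ofFn (fun i : Fin n => (u ++ pad).get (i.cast hu.symm)) = u ++ pad := by
    refine List.ext_get (by rw [List.length_ofFn, hu]) fun i h1 h2 => ?_
    simp
  have e2 : List.ofFn (fun i : Fin n => (v ++ pad).get (i.cast hv.symm)) = v ++ pad := by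
    refine List.ext_get (by rw [List.length_ofFn, hv]) fun i h1 h2 => ?_
    simp
  rw [e1, e2, W_append, W_append, ← sub_mul] at key
  -- distance
  have hdist : P321.l1 ((W q v - W q u) * W q pad)
      ≤ 2 * Real.exp (-x ^ β) + x ^ (-a / 2) := by
    have d1 : P321.l1 ((W q v - W q u) * W q pad) ≤ l1 (W q v - W q u) :=
      l1_mul_prob_right (W_prob q.2.1 q.2.2 pad)
    have d2 := l1_sub_le_three (W q v) (W q u) Y1 Y0
    have d3 : l1 (Y0 - Y1) ≤ x ^ (-a / 2) := by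
      rw [l1_sub_comm]
      have := L.pair.dom.l1_le L.pair.p0.nonneg L.pair.p0.aug L.pair.D0
      rw [Real.sqrt_eq_rpow, ← Real.rpow_mul (by linarith only [hn2', hx])] at this
      convert this using 2
      ring
    have := L.err0
    have := L.err1
    linarith
  have hpos : 0 ≤ P321.l1 ((W q v - W q u) * W q pad) := P321.l1_nonneg _
  have hm0 : (0 : ℝ) ≤ m := Nat.cast_nonneg m
  have hE : 0 < 2 * Real.exp (-x ^ β) + x ^ (-a / 2) := by
    have := Real.exp_pos (-x ^ β)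
    have : 0 ≤ x ^ (-a / 2) := Real.rpow_nonneg (by linarith only [hx, hn2']) _
    linarith
  have h4 : 1 ≤ 3 * (m : ℝ) * (2 * Real.exp (-x ^ β) + x ^ (-a / 2)) :=
    key.trans (mul_le_mul_of_nonneg_left hdist (by positivity))
  have h5 : 3 * (n : ℝ) ^ A * (2 * Real.exp (-x ^ β) + x ^ (-a / 2)) < 1 := by
    have : 2 * x = n := by rw [hx]; ring
    rwa [this] at hsm
  have h6 : 3 * (n : ℝ) ^ A * (2 * Real.exp (-x ^ β) + x ^ (-a / 2))
      < 3 * (m : ℝ) * (2 * Real.exp (-x ^ β) + x ^ (-a / 2)) := lt_of_lt_of_le h5 h4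
  have h7 := lt_of_mul_lt_mul_right h6 hE.le
  linarith only [h7]

end Vale.Agent.P321.MA
end

section

/-!
Strings built from a pattern, closeness of their laws to the ideal laws, slip inheritance.
-/

namespace Vale.Agent.P321.MA

open Finset

/-- string obtained from a pattern: `false` is replaced by `u`, `true` by `v`. -/
def sub (u v : List Bool) : List Bool → List Bool
  | [] => []
  | b :: l => (if b then v else u) ++ sub u v l

theorem sub_nil (u v : List Bool) : sub u v [] = [] := rfl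
theorem sub_cons (u v : List Bool) (b : Bool) (l : List Bool) :
    sub u v (b :: l) = (if b then v else u) ++ sub u v l := rfl

theorem sub_length (u v : List Bool) (h : u.length = v.length) (l : List Bool) :
    (sub u v l).length = l.length * u.length := by
  induction l with
  | nil => simp [sub_nil]
  | cons b l ih =>
    rw [sub_cons, List.length_append, ih, List.length_cons]
    cases b
    · simp; ring
    · simp [h]; ring

theorem sub_inj (u v : List Bool) (h : u.length = v.length) (hne : u ≠ v) (l l' : List Bool)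
    (hl : l.length = l'.length) (e : sub u v l = sub u v l') : l = l' := by
  induction l generalizing l' with
  | nil =>
    cases l' with
    | nil => rfl
    | cons b l' => simp at hl
  | cons b l ih =>
    cases l' with
    | nil => simp at hl
    | cons b' l' =>
      rw [sub_cons, sub_cons] at e
      have hlen : (if b then v else u).length = (if b' then v else u).length := by
        cases b <;> cases b' <;> simp [h]
      obtain ⟨e1, e2⟩ := List.append_inj e hlen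
      have hb : b = b' := by
        cases b <;> cases b'
        · rfl
        · exact absurd (by simpa using e1) hne
        · exact absurd (by simpa using e1.symm) hne
        · rfl
      rw [hb, ih l' (by simpa using hl) e2]

theorem sub_W (q : ℝ) (u v : List Bool) (l : List Bool) :
    W q (sub u v l) = wd (W q u) (W q v) l := by
  induction l with
  | nil => rw [sub_nil, W_nil, wd_nil]
  | cons b l ih =>
    rw [sub_cons, W_append, ih, wd_cons]
    cases b <;> rfl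

variable {G : Type*} [Monoid G]

/-- Products of close letters are close. -/
theorem wd_close {X0 X1 Y0 Y1 : MonoidAlgebra ℝ G} (hX0 : l1 X0 ≤ 1) (hX1 : l1 X1 ≤ 1)
    (hY0 : l1 Y0 ≤ 1) (hY1 : l1 Y1 ≤ 1) {δ : ℝ} (h0 : l1 (X0 - Y0) ≤ δ) (h1 : l1 (X1 - Y1) ≤ δ)
    (l : List Bool) :
    l1 (wd X0 X1 l) ≤ 1 ∧ l1 (wd Y0 Y1 l) ≤ 1 ∧ l1 (wd X0 X1 l - wd Y0 Y1 l) ≤ l.length * δ := by
  induction l with
  | nil =>
    rw [wd_nil, wd_nil, sub_self, l1_zero]
    exact ⟨l1_one.le, l1_one.le, by simp⟩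
  | cons b l ih =>
    obtain ⟨i1, i2, i3⟩ := ih
    rw [wd_cons, wd_cons]
    set X := if b then X1 else X0 with hX
    set Y := if b then Y1 else Y0 with hY
    have hXn : l1 X ≤ 1 := by rw [hX]; cases b <;> simpa
    have hYn : l1 Y ≤ 1 := by rw [hY]; cases b <;> simpa
    have hXY : l1 (X - Y) ≤ δ := by rw [hX, hY]; cases b <;> simpa
    refine ⟨?_, ?_, ?_⟩
    · refine (l1_mul _ _).trans ?_
      have := mul_le_mul hXn i1 (l1_nonneg _) zero_le_one
      simpa using this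
    · refine (l1_mul _ _).trans ?_
      have := mul_le_mul hYn i2 (l1_nonneg _) zero_le_one
      simpa using this
    · have e : X * wd X0 X1 l - Y * wd Y0 Y1 l
          = (X - Y) * wd X0 X1 l + Y * (wd X0 X1 l - wd Y0 Y1 l) := by
        rw [sub_mul, mul_sub]; abel
      rw [e]
      refine (l1_add _ _).trans ?_
      have hδ : 0 ≤ δ := (l1_nonneg _).trans hXY
      have k1 : l1 ((X - Y) * wd X0 X1 l) ≤ δ * 1 :=
        (l1_mul _ _).trans (mul_le_mul hXY i1 (l1_nonneg _) hδ)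
      have k2 : l1 (Y * (wd X0 X1 l - wd Y0 Y1 l)) ≤ 1 * (l.length * δ) :=
        (l1_mul _ _).trans (mul_le_mul hYn i3 (l1_nonneg _) zero_le_one)
      rw [List.length_cons]
      push_cast
      linarith

theorem tmb_ne_tmc (k : ℕ) : tmb k ≠ tmc k := by
  intro e
  have h : ∀ l : List Bool, l = l.map not → l = [] := by
    intro l
    cases l with
    | nil => intro _; rfl
    | cons b l => intro h; cases b <;> simp at h
  have := h _ e
  have h2 := tmb_length k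
  rw [this, List.length_nil] at h2
  have h3 : 0 < 2 ^ k := Nat.two_pow_pos k
  omega

section pair

variable {Y0 Y1 : MonoidAlgebra ℝ G} {D c C : ℝ}

end pair

end Vale.Agent.P321.MA
end

section

/-!
Asymptotic bookkeeping for the recursion.
-/

namespace Vale.Agent.P321.MA

open Filter Topology

theorem ev_pow_le (C p r : ℝ) (h : p < r) : ∀ᶠ t : ℝ in atTop, C * t ^ p ≤ t ^ r := by
  have h1 := tendsto_rpow_atTop (show 0 < r - p by linarith)
  filter_upwards [h1.eventually (eventually_ge_atTop C), eventually_gt_atTop 0] with t h2 ht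
  have h3 : t ^ r = t ^ (r - p) * t ^ p := by
    rw [← Real.rpow_add ht]; congr 1; ring
  rw [h3]
  exact mul_le_mul_of_nonneg_right h2 (Real.rpow_nonneg ht.le _)

/-- logarithmic factors are negligible -/
theorem ev_log_le (C p δ : ℝ) (hδ : 0 < δ) :
    ∀ᶠ t : ℝ in atTop, ∀ s : ℕ, (2 : ℝ) ^ s ≤ C * t ^ p → 4 * (s : ℝ) ≤ t ^ δ := by
  have h1 : (fun t : ℝ => 4 / Real.log 2 * (|Real.log (max C 1)| + |p| * Real.log t))
      =o[atTop] (fun t : ℝ => t ^ δ) := by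
    have h2 : (fun _ : ℝ => |Real.log (max C 1)|) =o[atTop] (fun t : ℝ => t ^ δ) := by
      refine Asymptotics.isLittleO_const_left.mpr (Or.inr ?_)
      exact tendsto_norm_atTop_atTop.comp (tendsto_rpow_atTop hδ)
    have h3 : (fun t : ℝ => |p| * Real.log t) =o[atTop] (fun t : ℝ => t ^ δ) :=
      (isLittleO_log_rpow_atTop hδ).const_mul_left _
    exact (h2.add h3).const_mul_left _
  have h4 := h1.bound one_pos
  filter_upwards [h4, eventually_ge_atTop 1] with t h5 ht s hs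
  have ht0 : 0 < t := by linarith
  have hlog2 : 0 < Real.log 2 := Real.log_pos (by norm_num)
  have hlogt : 0 ≤ Real.log t := Real.log_nonneg ht
  have h6 : (s : ℝ) * Real.log 2 ≤ |Real.log (max C 1)| + |p| * Real.log t := by
    have h7 : (2 : ℝ) ^ s ≤ max C 1 * t ^ p :=
      hs.trans (mul_le_mul_of_nonneg_right (le_max_left _ _) (Real.rpow_nonneg ht0.le _))
    have h8 := Real.log_le_log (by positivity) h7
    have hC : (0 : ℝ) < max C 1 := lt_of_lt_of_le one_pos (le_max_right _ _)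
    rw [Real.log_pow, Real.log_mul hC.ne' (Real.rpow_pos_of_pos ht0 _).ne',
      Real.log_rpow ht0] at h8
    have h9 := le_abs_self (Real.log (max C 1))
    have h10 := mul_le_mul_of_nonneg_right (le_abs_self p) hlogt
    linarith
  have h11 : 4 * (s : ℝ) ≤ 4 / Real.log 2 * (|Real.log (max C 1)| + |p| * Real.log t) := by
    have e : 4 * (s : ℝ) = 4 / Real.log 2 * (s * Real.log 2) := by
      field_simp
    rw [e]
    exact mul_le_mul_of_nonneg_left h6 (by positivity)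
  have h12 := (le_abs_self _).trans h5
  rw [one_mul, Real.norm_of_nonneg (Real.rpow_nonneg ht0.le _)] at h12
  exact h11.trans h12

variable {G : Type*} [Monoid G]

/-- Uniform smoothing estimate from slip. -/
theorem ev_smooth (κ p δ : ℝ) (hp : 0 < p) (hδ : 0 < δ) :
    ∀ᶠ t : ℝ in atTop, ∀ (Y0 : MonoidAlgebra ℝ G) (K : ℕ), Prob Y0 →
      L1Str.Slip (str (G := G)) Y0 K → (K : ℝ) ≤ t ^ κ → ∀ T : ℕ, t ^ (κ + 2 * p + δ) ≤ T →
      l1 ((1 - Y0) * Y0 ^ T) ≤ 8 * t ^ (-p) := by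
  filter_upwards [ev_log_le 1 p δ hδ, eventually_ge_atTop 1] with t h1 ht Y0 K hY hS hK T hT
  have ht0 : 0 < t := by linarith
  have hy : 1 ≤ t ^ p := Real.one_le_rpow ht hp.le
  obtain ⟨s, hs1, hs2⟩ := exists_nat_pow_near hy (by norm_num : (1 : ℝ) < 2)
  have h4s := h1 s (by rwa [one_mul])
  have h4 : (4 : ℝ) ^ s ≤ t ^ (2 * p) := by
    have : (4 : ℝ) ^ s = 2 ^ s * 2 ^ s := by rw [← mul_pow]; norm_num
    rw [this, two_mul, Real.rpow_add ht0]
    exact mul_le_mul hs1 hs1 (by positivity) (by positivity)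
  have hT' : K * (4 * s) * 4 ^ s ≤ T := by
    have : ((K * (4 * s) * 4 ^ s : ℕ) : ℝ) ≤ T := by
      push_cast
      refine _root_.le_trans ?_ hT
      rw [Real.rpow_add ht0, Real.rpow_add ht0, mul_right_comm (t ^ κ)]
      refine mul_le_mul (mul_le_mul hK h4s (by positivity) (by positivity)) h4 (by positivity)
        (by positivity)
    exact_mod_cast this
  have h5 := (str (G := G)).slip_smooth hY hS s T hT'
  change l1 _ ≤ _ at h5
  refine h5.trans ?_
  rw [Real.rpow_neg ht0.le, div_le_iff₀ (by positivity)]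
  have h6 : t ^ p ≤ 2 * 2 ^ s := by rw [pow_succ] at hs2; linarith only [hs2]
  have h7 : (1 : ℝ) ≤ (t ^ p)⁻¹ * (2 * 2 ^ s) := by
    rw [inv_mul_eq_div, le_div_iff₀ (by positivity), one_mul]
    exact h6
  linarith only [h7]

end Vale.Agent.P321.MA
end

section

/-!
Numeric bookkeeping for the double step.
-/

namespace Vale.Agent.P321.MA

open Filter Topology

theorem one_add_pow_sub_le {E : ℝ} (hE : 0 ≤ E) (n : ℕ) (h : n * E ≤ 1) :
    (1 + E) ^ n - 1 ≤ 2 * (n * E) := by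
  have h1 : (1 + E) ^ n ≤ Real.exp (n * E) := by
    rw [mul_comm, Real.exp_mul, Real.rpow_natCast]
    refine pow_le_pow_left₀ (by linarith) ?_ n
    rw [add_comm]; exact Real.add_one_le_exp E
  have h0 : 0 ≤ n * E := by positivity
  have h2 := Real.abs_exp_sub_one_le (x := n * E) (by rwa [abs_of_nonneg h0])
  rw [abs_of_nonneg h0] at h2
  have h3 := le_abs_self (Real.exp (n * E) - 1)
  linarith

/-- first length choice -/
theorem ev_len1 (γ : ℝ) (hγ : 1 < γ) (k : ℕ) : ∀ᶠ t : ℝ in atTop, ∀ n M : ℕ,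
    t ≤ n → (n : ℝ) ≤ 2 * t → M = ⌈t ^ γ / n⌉₊ →
    t ^ (γ - 1) / 6 ≤ M ∧ t ^ (γ - 1) / 3 ≤ ((2 * M + 2 ^ k : ℕ) : ℝ) ∧
    ((2 * M + 2 ^ k : ℕ) : ℝ) ≤ 3 * t ^ (γ - 1) ∧
    2 * t ^ γ ≤ (((2 * M + 2 ^ k) * n : ℕ) : ℝ) ∧ (((2 * M + 2 ^ k) * n : ℕ) : ℝ) ≤ 3 * t ^ γ := by
  filter_upwards [ev_pow_le (2 + 2 ^ k) 0 (γ - 1) (by linarith),
    ev_pow_le ((2 + 2 ^ k) * 2) 1 γ hγ, eventually_ge_atTop 1] with t h1 h2 ht n M hn1 hn2 hM
  have ht0 : 0 < t := by linarith only [ht]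
  have hn0 : (0 : ℝ) < n := by linarith only [ht0, hn1]
  rw [Real.rpow_zero, mul_one] at h1
  rw [Real.rpow_one] at h2
  have e1 : t ^ γ = t ^ (γ - 1) * t := by
    nth_rw 3 [← Real.rpow_one t]
    rw [← Real.rpow_add ht0]; congr 1; ring
  have hp : 0 < t ^ (γ - 1) := Real.rpow_pos_of_pos ht0 _
  have hM1 : t ^ γ / n ≤ M := by rw [hM]; exact Nat.le_ceil _
  have hM2 : (M : ℝ) ≤ t ^ γ / n + 1 := by
    rw [hM]; exact (Nat.ceil_lt_add_one (by positivity)).le
  have h3 : t ^ γ / n ≤ t ^ (γ - 1) := by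
    rw [div_le_iff₀ hn0, e1]
    exact mul_le_mul_of_nonneg_left hn1 hp.le
  have h4 : t ^ (γ - 1) / 2 ≤ t ^ γ / n := by
    rw [le_div_iff₀ hn0, e1]
    linarith only [mul_nonneg (sub_nonneg.2 hn2) (le_of_lt (sub_pos.2 hp))]
  have h5 : t ^ γ ≤ M * n := by rwa [div_le_iff₀ hn0] at hM1
  have h6 : (M : ℝ) * n ≤ t ^ γ + n := by
    have := mul_le_mul_of_nonneg_right hM2 hn0.le
    rw [add_mul, div_mul_cancel₀ _ hn0.ne', one_mul] at this
    exact this
  have h2k : (0 : ℝ) < 2 ^ k := by positivity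
  push_cast
  refine ⟨by linarith only [h2k, h4, hM1, h1], by linarith only [h2k, h4, hM1, h1], by linarith only [h1, hM2, h3], ?_, ?_⟩
  · have : 0 ≤ (2 : ℝ) ^ k * n := by positivity
    linarith only [this, h5]
  · have : (2 : ℝ) ^ k * n ≤ 2 ^ k * (2 * t) := mul_le_mul_of_nonneg_left hn2 h2k.le
    linarith only [this, h6, hn2, h2]

/-- second length choice -/
theorem ev_len2 (γ : ℝ) (hγ : 1 < γ) (k : ℕ) : ∀ᶠ t : ℝ in atTop, ∀ n M : ℕ,
    2 * t ≤ n → (n : ℝ) ≤ 3 * t → M = ⌈t ^ γ / (2 * n)⌉₊ →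
    t ^ (γ - 1) / 6 ≤ M ∧ t ^ (γ - 1) / 3 ≤ ((2 * M + 2 ^ k : ℕ) : ℝ) ∧
    ((2 * M + 2 ^ k : ℕ) : ℝ) ≤ 3 * t ^ (γ - 1) ∧
    t ^ γ ≤ (((2 * M + 2 ^ k) * n : ℕ) : ℝ) ∧ (((2 * M + 2 ^ k) * n : ℕ) : ℝ) ≤ 2 * t ^ γ := by
  filter_upwards [ev_pow_le (2 + 2 ^ k) 0 (γ - 1) (by linarith),
    ev_pow_le ((2 + 2 ^ k) * 3) 1 γ hγ, eventually_ge_atTop 1] with t h1 h2 ht n M hn1 hn2 hM
  have ht0 : 0 < t := by linarith only [ht]
  have hn0 : (0 : ℝ) < n := by linarith only [ht0, hn1]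
  have hn0' : (0 : ℝ) < 2 * n := by linarith only [ht0, hn1]
  rw [Real.rpow_zero, mul_one] at h1
  rw [Real.rpow_one] at h2
  have e1 : t ^ γ = t ^ (γ - 1) * t := by
    nth_rw 3 [← Real.rpow_one t]
    rw [← Real.rpow_add ht0]; congr 1; ring
  have hp : 0 < t ^ (γ - 1) := Real.rpow_pos_of_pos ht0 _
  have hM1 : t ^ γ / (2 * n) ≤ M := by rw [hM]; exact Nat.le_ceil _
  have hM2 : (M : ℝ) ≤ t ^ γ / (2 * n) + 1 := by
    rw [hM]; exact (Nat.ceil_lt_add_one (by positivity)).le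
  have h3 : t ^ γ / (2 * n) ≤ t ^ (γ - 1) := by
    rw [div_le_iff₀ hn0', e1]
    nlinarith only [hp, hn1]
  have h4 : t ^ (γ - 1) / 6 ≤ t ^ γ / (2 * n) := by
    rw [le_div_iff₀ hn0', e1]
    nlinarith only [hn2, hp]
  have h5 : t ^ γ ≤ M * (2 * n) := by rwa [div_le_iff₀ hn0'] at hM1
  have h6 : (M : ℝ) * (2 * n) ≤ t ^ γ + 2 * n := by
    have := mul_le_mul_of_nonneg_right hM2 hn0'.le
    rw [add_mul, div_mul_cancel₀ _ hn0'.ne', one_mul] at this
    exact this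
  have h2k : (0 : ℝ) < 2 ^ k := by positivity
  push_cast
  refine ⟨by linarith only [hM1, h4], by linarith only [hM1, h4, h2k], by linarith only [h1, hM2, h3], ?_, ?_⟩
  · have : 0 ≤ (2 : ℝ) ^ k * n := by positivity
    linarith only [this, h5]
  · have : (2 : ℝ) ^ k * n ≤ 2 ^ k * (3 * t) := mul_le_mul_of_nonneg_left hn2 h2k.le
    linarith only [this, h6, hn2, h2]

/-- margins are long enough -/
theorem ev_margin (p γ : ℝ) (hp : 0 < p) (h : p < γ - 1) (k : ℕ) : ∀ᶠ t : ℝ in atTop, ∀ M : ℕ,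
    t ^ (γ - 1) / 6 ≤ M → k * ⌈t ^ p⌉₊ ≤ M := by
  filter_upwards [ev_pow_le (12 * k) p (γ - 1) h, eventually_ge_atTop 1] with t h1 ht M hM
  have ht0 : 0 < t := by linarith
  have h2 : (1 : ℝ) ≤ t ^ p := Real.one_le_rpow ht hp.le
  have h3 : (⌈t ^ p⌉₊ : ℝ) ≤ 2 * t ^ p := by
    have := (Nat.ceil_lt_add_one (Real.rpow_nonneg ht0.le p)).le
    linarith only [this, h2]
  have h4 : (k : ℝ) * ⌈t ^ p⌉₊ ≤ k * (2 * t ^ p) := mul_le_mul_of_nonneg_left h3 (by positivity)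
  have h5 : ((k * ⌈t ^ p⌉₊ : ℕ) : ℝ) ≤ M := by
    push_cast
    linarith only [h4, hM, h1]
  exact_mod_cast h5

/-- first order parts are tiny -/
theorem ev_tiny (ε H : ℝ) (k : ℕ) (h : H < ε * k) : ∀ᶠ t : ℝ in atTop, ∀ φ : ℝ, 0 ≤ φ →
    φ ≤ 8 * t ^ (-ε) → (2 ^ k * φ) ^ k ≤ t ^ (-H) := by
  filter_upwards [ev_pow_le ((2 ^ k * 8) ^ k) (-(ε * k)) (-H) (by linarith),
    eventually_ge_atTop 1] with t h1 ht φ h0 hφ
  have ht0 : 0 < t := by linarith
  refine _root_.le_trans ?_ h1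
  have h2 : 2 ^ k * φ ≤ (2 ^ k * 8) * t ^ (-ε) := by
    rw [mul_assoc]; exact mul_le_mul_of_nonneg_left hφ (by positivity)
  refine (pow_le_pow_left₀ (by positivity) h2 k).trans ?_
  rw [mul_pow, ← Real.rpow_natCast (t ^ (-ε)), ← Real.rpow_mul ht0.le]
  apply le_of_eq
  congr 2
  ring

end Vale.Agent.P321.MA
end

section

/-!
Slip inheritance and the word bookkeeping for the double step.
-/

namespace Vale.Agent.P321.MA

open Filter Topology

variable {G : Type*} [Monoid G]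

/-- slip inheritance, finite form -/
theorem slip_of_close {Y Z : MonoidAlgebra ℝ G} {S g : ℕ} (hY : Prob Y) (hg : 1 ≤ g)
    (p1 : l1 (Z ^ g - Y ^ (S * g)) ≤ 1 / 4)
    (p2 : l1 (Z ^ (g - 1) - Y ^ (S * (g - 1))) ≤ 1 / 4) {φ : ℝ}
    (hφ : l1 ((1 - Y) * Y ^ (S * (g - 1))) ≤ φ) (h2 : (S : ℝ) * φ ≤ 1 / 2) :
    L1Str.Slip (str (G := G)) Z g := by
  refine ⟨hg, ?_⟩
  change l1 _ ≤ 1
  have p3 := l1_pow_sub_pow hY hφ (S * (g - 1)) S _root_.le_rfl
  have e3 : S * (g - 1) + S = S * g := by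
    obtain ⟨g', rfl⟩ := Nat.exists_eq_add_of_le hg
    simp only [Nat.add_sub_cancel_left]
    ring
  rw [e3] at p3
  have e4 : Z ^ g - Z ^ (g - 1) = (Z ^ g - Y ^ (S * g)) + (Y ^ (S * g) - Y ^ (S * (g - 1)))
      + (Y ^ (S * (g - 1)) - Z ^ (g - 1)) := by abel
  rw [e4]
  refine (l1_add _ _).trans ?_
  have q1 := l1_add (Z ^ g - Y ^ (S * g)) (Y ^ (S * g) - Y ^ (S * (g - 1)))
  rw [l1_sub_comm (Y ^ (S * g)) (Y ^ (S * (g - 1)))] at q1
  rw [l1_sub_comm (Y ^ (S * (g - 1))) (Z ^ (g - 1))]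
  linarith only [q1, p3, h2, p2, p1]

/-- slip inheritance at scale `t` -/
theorem ev_slip_step (ε : ℝ) (hε : 0 < ε) : ∀ᶠ t : ℝ in atTop,
    ∀ (Y Z : MonoidAlgebra ℝ G) (K S : ℕ), Prob Y → L1Str.Slip (str (G := G)) Y K →
    (K : ℝ) ≤ t ^ (1 + ε) → t ^ (2 + 4 * ε - 1) / 3 ≤ S → (S : ℝ) ≤ 3 * t ^ (2 + 4 * ε - 1) →
    (∀ g : ℕ, (g : ℝ) ≤ t ^ ((2 + 4 * ε) * (1 + ε)) → l1 (Z ^ g - Y ^ (S * g)) ≤ 1 / 4) →
    ∃ g : ℕ, L1Str.Slip (str (G := G)) Z g ∧ (g : ℝ) ≤ (t ^ (2 + 4 * ε)) ^ (1 + ε) := by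
  set γ := 2 + 4 * ε with hγ
  have hγ0 : 0 < γ := by positivity
  have hp : 0 < γ - 1 + ε / 8 := by rw [hγ]; linarith
  filter_upwards [ev_smooth (G := G) (1 + ε) (γ - 1 + ε / 8) (ε / 8) hp (by linarith),
    ev_pow_le 6 (1 + ε + 2 * (γ - 1 + ε / 8) + ε / 8) (γ - 1 + γ * (1 + ε)) (by
      rw [hγ]; linarith only [mul_pos (sub_pos.2 hε) (sub_pos.2 hε), hε]),
    ev_pow_le 4 0 (γ * (1 + ε)) (by positivity),
    ev_pow_le 48 (-(ε / 8)) 0 (by linarith),
    eventually_ge_atTop 1] with t h1 h2 h3 h4 ht Y Z K S hY hS hK hS1 hS2 hZ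
  have ht0 : 0 < t := by linarith only [ht]
  rw [Real.rpow_zero, mul_one] at h3
  rw [Real.rpow_zero] at h4
  set X := t ^ (γ * (1 + ε)) with hX
  have hX0 : 0 < X := by linarith only [h3]
  have g1 : (⌊X⌋₊ : ℝ) ≤ X := Nat.floor_le hX0.le
  have g2 : X - 1 < (⌊X⌋₊ : ℝ) := Nat.sub_one_lt_floor X
  have g3 : 1 ≤ ⌊X⌋₊ := by
    rw [Nat.one_le_floor_iff]; linarith only [h3]
  set g := ⌊X⌋₊ with hg
  have g4 : ((g - 1 : ℕ) : ℝ) = g - 1 := by rw [Nat.cast_sub g3, Nat.cast_one]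
  have g5 : X / 2 ≤ ((g - 1 : ℕ) : ℝ) := by rw [g4]; linarith only [h3, g2]
  have hT : t ^ (1 + ε + 2 * (γ - 1 + ε / 8) + ε / 8) ≤ ((S * (g - 1) : ℕ) : ℝ) := by
    have e1 : t ^ (γ - 1 + γ * (1 + ε)) = t ^ (γ - 1) * X := by
      rw [Real.rpow_add ht0]
    rw [e1] at h2
    push_cast
    have h5 : t ^ (γ - 1) / 3 * (X / 2) ≤ S * ((g - 1 : ℕ) : ℝ) :=
      mul_le_mul hS1 g5 (by positivity) (by positivity)
    linarith only [h5, h2]
  refine ⟨g, slip_of_close hY g3 (hZ g g1) (hZ (g - 1) (by rw [g4]; linarith only [g1]))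
    (h1 Y K hY hS hK (S * (g - 1)) hT) ?_, ?_⟩
  · have h6 : (S : ℝ) * (8 * t ^ (-(γ - 1 + ε / 8))) ≤
        3 * t ^ (γ - 1) * (8 * t ^ (-(γ - 1 + ε / 8))) :=
      mul_le_mul_of_nonneg_right hS2 (by positivity)
    have h7 : t ^ (γ - 1) * t ^ (-(γ - 1 + ε / 8)) = t ^ (-(ε / 8)) := by
      rw [← Real.rpow_add ht0]; congr 1; ring
    have h8 : 3 * t ^ (γ - 1) * (8 * t ^ (-(γ - 1 + ε / 8))) = 24 * t ^ (-(ε / 8)) := by
      rw [← h7]; ring
    linarith only [h7, h6, h4]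
  · rw [← Real.rpow_mul ht0.le]; exact g1

theorem wd_two {X Y : MonoidAlgebra ℝ G} (hX : l1 X ≤ 1) (hY : l1 Y ≤ 1) {δ : ℝ}
    (h : l1 (X - Y) ≤ δ) (n : ℕ) :
    l1 (X ^ n) ≤ 1 ∧ l1 (Y ^ n) ≤ 1 ∧ l1 (X ^ n - Y ^ n) ≤ n * δ := by
  have h1 := wd_close hX hX hY hY h h (List.replicate n false)
  rw [wd_replicate, wd_replicate, List.length_replicate] at h1
  exact h1

theorem l1_mul_sub_le {a b c d : MonoidAlgebra ℝ G} (ha : l1 c ≤ 1) (hb : l1 b ≤ 1) :
    l1 (a * b - c * d) ≤ l1 (a - c) + l1 (b - d) := by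
  have e : a * b - c * d = (a - c) * b + c * (b - d) := by rw [sub_mul, mul_sub]; abel
  rw [e]
  refine (l1_add _ _).trans (add_le_add ?_ ?_)
  · refine (l1_mul _ _).trans ?_
    exact mul_le_of_le_one_right (l1_nonneg _) hb
  · refine (l1_mul _ _).trans ?_
    exact mul_le_of_le_one_left (l1_nonneg _) ha

theorem l1_mul_le_one {a b : MonoidAlgebra ℝ G} (ha : l1 a ≤ 1) (hb : l1 b ≤ 1) :
    l1 (a * b) ≤ 1 :=
  (l1_mul _ _).trans (mul_le_one₀ ha (l1_nonneg _) hb)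

/-- closeness of the padded words -/
theorem upT_close {U V0 V1 Y X0 X1 : MonoidAlgebra ℝ G} (hU : l1 U ≤ 1) (hV0 : l1 V0 ≤ 1)
    (hV1 : l1 V1 ≤ 1) (hY : l1 Y ≤ 1) (hX0 : l1 X0 ≤ 1) (hX1 : l1 X1 ≤ 1) {δ : ℝ}
    (h : l1 (U - Y) ≤ δ) (h0 : l1 (V0 - X0) ≤ δ) (h1 : l1 (V1 - X1) ≤ δ) (l : List Bool) (M : ℕ) :
    l1 (U ^ M * wd V0 V1 l * U ^ M - Y ^ M * wd X0 X1 l * Y ^ M) ≤ (2 * M + l.length : ℕ) * δ := by
  obtain ⟨a1, a2, a3⟩ := wd_two hU hY h M
  obtain ⟨b1, b2, b3⟩ := wd_close hV0 hV1 hX0 hX1 h0 h1 l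
  have c1 := l1_mul_sub_le (a := U ^ M) (b := wd V0 V1 l) (c := Y ^ M) (d := wd X0 X1 l) a2 b1
  have c2 := l1_mul_sub_le (a := U ^ M * wd V0 V1 l) (b := U ^ M) (c := Y ^ M * wd X0 X1 l)
    (d := Y ^ M) (l1_mul_le_one a2 b2) a1
  push_cast
  linarith

/-- padded string -/
def upw (u v0 v1 : List Bool) (l : List Bool) (M : ℕ) : List Bool :=
  sub u u (List.replicate M false) ++ sub v0 v1 l ++ sub u u (List.replicate M false)

theorem upw_length {u v0 v1 : List Bool} (h0 : v0.length = u.length) (h1 : v1.length = u.length)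
    (l : List Bool) (M : ℕ) :
    (upw u v0 v1 l M).length = (2 * M + l.length) * u.length := by
  rw [upw, List.length_append, List.length_append, sub_length u u rfl,
    sub_length v0 v1 (h0.trans h1.symm), List.length_replicate, h0]
  ring

theorem upw_W (q : ℝ) (u v0 v1 : List Bool) (l : List Bool) (M : ℕ) :
    W q (upw u v0 v1 l M) = W q u ^ M * wd (W q v0) (W q v1) l * W q u ^ M := by
  rw [upw, W_append, W_append, sub_W, sub_W, wd_replicate]

theorem upw_ne {u v0 v1 : List Bool} (h0 : v0.length = u.length) (h1 : v1.length = u.length)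
    (hne : v0 ≠ v1) (k M : ℕ) : upw u v0 v1 (tmb k) M ≠ upw u v0 v1 (tmc k) M := by
  intro e
  unfold upw at e
  have e2 := List.append_cancel_left (List.append_cancel_right e)
  exact tmb_ne_tmc k (sub_inj v0 v1 (h0.trans h1.symm) hne _ _ (by
    rw [tmb_length, tmc_length]) e2)

end Vale.Agent.P321.MA
end

section

/-!
Explicit version of the recursion: all sizes are powers of two.
-/

namespace Vale.Agent.P321.MA

/-- The double step with an explicit constant, in the regime of small parameters and ratios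
close to one. -/
def SmallDS (A : ℕ) : Prop :=
  ∀ (k k' : ℕ) (Y e f : MonoidAlgebra ℝ (FreeMonoid Bool)) (a b t ρ : ℝ) (M M0 : ℕ),
    0 ≤ ρ → (2 : ℝ) ^ (k + k' + 4) * ρ ≤ 1 → Trip Y e f a b (1 - ρ) (1 + ρ) →
    k * M0 ≤ M → (2 ^ k * l1 ((1 - Y) * Y ^ M0)) ^ k ≤ t →
    (2 : ℝ) ^ (A * (k + k' + 1)) * ((b + a ^ 2) + t) ≤ 1 →
    ∀ Z0 Z1 : MonoidAlgebra ℝ (FreeMonoid Bool),
      Z0 = upT Y (Y + e - f) (Y + e + f) (tmb k) M →
      Z1 = upT Y (Y + e - f) (Y + e + f) (tmc k) M →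
    Prob Z0 ∧ Prob Z1 ∧ le ((1 - (2 : ℝ) ^ (k + 2) * ρ) • Z0) Z1 ∧
    le Z1 ((1 + (2 : ℝ) ^ (k + 2) * ρ) • Z0) ∧
    Dom (Z1 - Z0) Z0 ((2 : ℝ) ^ (A * (k + k' + 1)) * ((a * (b + a ^ 2)) ^ 2 + t)) ∧
    (∀ L : List Bool, l1 (wd Z0 Z1 L - Y ^ ((2 * M + 2 ^ k) * L.length))
      ≤ Real.sqrt ((1 + (2 : ℝ) ^ (A * (k + k' + 1)) * ((b + a ^ 2) ^ 2 + t)) ^ L.length - 1)) ∧
    ∀ (t' τ : ℝ) (M' M0' n0 R : ℕ), k' * M0' ≤ M' →
      (2 ^ k' * l1 ((1 - Z0) * Z0 ^ M0')) ^ k' ≤ t' → t' ≤ 1 → 1 ≤ R → R ≤ M → n0 ≤ M' →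
      4 * Real.sqrt ((1 + (2 : ℝ) ^ (A * (k + k' + 1)) * ((b + a ^ 2) ^ 2 + t))
          ^ (n0 + 2 ^ k') - 1)
        + 2 * R * l1 ((1 - Y) * Y ^ ((2 * M + 2 ^ k) * n0)) ≤ τ → τ ≤ 1 →
      ∀ W0 W1 : MonoidAlgebra ℝ (FreeMonoid Bool), W0 = upT Z0 Z0 Z1 (tmb k') M' →
        W1 = upT Z0 Z0 Z1 (tmc k') M' →
      Prob W0 ∧ Prob W1 ∧ le ((1 - (2 : ℝ) ^ (k + k' + 4) * ρ) • W0) W1 ∧
      le W1 ((1 + (2 : ℝ) ^ (k + k' + 4) * ρ) • W0) ∧
      Dom (W1 - W0) W0 ((2 : ℝ) ^ (A * (k + k' + 1)) *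
        (((a * (b + a ^ 2)) ^ 2) ^ 2 * (τ + 1 / R) + t + t')) ∧
      (∀ L : List Bool, l1 (wd W0 W1 L - Z0 ^ ((2 * M' + 2 ^ k') * L.length))
        ≤ Real.sqrt ((1 + (2 : ℝ) ^ (A * (k + k' + 1)) *
          ((a * (b + a ^ 2)) ^ 2 * (τ + 1 / R) + t + t')) ^ L.length - 1))

/-- Triple datum, all sizes are powers of two: slip time at most `2 ^ g`, length at most `2 ^ l`,
`b + a ^ 2 ≤ 2 ^ (-h)`, `a * (b + a ^ 2) ≤ 2 ^ (-d)`, ratio `1 ± 2 ^ (-r)`, errors at most `E`. -/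
structure TriE (q : ℝ) (g l h d r : ℕ) (E : ℝ) (u v0 v1 : List Bool)
    (Y e f : MonoidAlgebra ℝ (FreeMonoid Bool)) (a b : ℝ) (K : ℕ) : Prop where
  ne : v0 ≠ v1
  len0 : v0.length = u.length
  len1 : v1.length = u.length
  len : u.length ≤ 2 ^ l
  errY : l1 (W q u - Y) ≤ E
  err0 : l1 (W q v0 - (Y + e - f)) ≤ E
  err1 : l1 (W q v1 - (Y + e + f)) ≤ E
  trip : Trip Y e f a b (1 - ((2 : ℝ) ^ r)⁻¹) (1 + ((2 : ℝ) ^ r)⁻¹)
  heta : b + a ^ 2 ≤ ((2 : ℝ) ^ h)⁻¹
  hdel : a * (b + a ^ 2) ≤ ((2 : ℝ) ^ d)⁻¹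
  slip : L1Str.Slip (str (G := FreeMonoid Bool)) Y K
  slipK : K ≤ 2 ^ g

/-- existence form -/
def HasTri (q : ℝ) (g l h d r : ℕ) (E : ℝ) : Prop :=
  ∃ (u v0 v1 : List Bool) (Y e f : MonoidAlgebra ℝ (FreeMonoid Bool)) (a b : ℝ) (K : ℕ),
    TriE q g l h d r E u v0 v1 Y e f a b K

/-- existence form, with a bound for `a` -/
def HasTri' (q : ℝ) (g l h d r : ℕ) (E : ℝ) : Prop :=
  ∃ (u v0 v1 : List Bool) (Y e f : MonoidAlgebra ℝ (FreeMonoid Bool)) (a b : ℝ) (K : ℕ),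
    TriE q g l h d r E u v0 v1 Y e f a b K ∧ a ^ 2 ≤ ((2 : ℝ) ^ d)⁻¹

theorem HasTri'.toHasTri {q : ℝ} {g l h d r : ℕ} {E : ℝ} (H : HasTri' q g l h d r E) :
    HasTri q g l h d r E := by
  obtain ⟨u, v0, v1, Y, e, f, a, b, K, T, -⟩ := H
  exact ⟨u, v0, v1, Y, e, f, a, b, K, T⟩

/-- the one step theorem, as a proposition -/
def StepOK (q : ℝ) (A : ℕ) : Prop :=
  ∀ (g l h d r k s c : ℕ) (E : ℝ), 0 ≤ E → 1 ≤ k → 2 * k + 4 ≤ s → 2 * g + 5 * s + 15 ≤ 2 ^ s →
    2 * k + 5 ≤ r → h ≤ d → A * (2 * k + 1) + 1 ≤ h → 4 * d + c ≤ (s - k - 2) * k → 4 * c ≤ g →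
    2 * g + 5 * s + A * (2 * k + 1) + 21 ≤ 2 * h → 6 * c + k + A * (2 * k + 1) + 9 ≤ 2 * h →
    4 * g + 15 * s + A * (2 * k + 1) + 52 ≤ 2 * d + c →
    HasTri q g l h d r E →
    HasTri' q (4 * g + 15 * s + 45) (l + 3 * g + 13 * s + 19)
      ((4 * d + c - A * (2 * k + 1) - 2) / 2) (4 * d + c - A * (2 * k + 1) - 2)
      (r - (2 * k + 4)) (2 ^ (3 * g + 13 * s + 19) * E)

/-- the base triple, as a proposition -/
def BaseOK (q : ℝ) : Prop :=
  ∃ X0 : ℕ, ∀ X : ℕ, X0 ≤ X → ∀ g h d r : ℕ, 1025 * X ≤ 1024 * g → 1024 * h ≤ 1278 * X →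
    1024 * d ≤ 2045 * X → 8 * r ≤ X → 1 ≤ r → HasTri q g (X + 1) h d r (Real.exp (-(2 : ℝ) ^ (X / 2)))

/-- monotonicity of the ratio constants -/
theorem Trip.mono_ratio {G : Type*} [Monoid G] {Y e f : MonoidAlgebra ℝ G} {a b c C c' C' : ℝ}
    (h : Trip Y e f a b c C) (hc0 : 0 < c') (hc : c' ≤ c) (hC : C ≤ C') :
    Trip Y e f a b c' C' := by
  have m1 : le (c' • Y) (c • Y) := by
    intro w
    rw [MonoidAlgebra.coeff_smul, MonoidAlgebra.coeff_smul, Finsupp.smul_apply,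
      Finsupp.smul_apply, smul_eq_mul, smul_eq_mul]
    exact mul_le_mul_of_nonneg_right hc (h.hY.nonneg w)
  have m2 : le (C • Y) (C' • Y) := by
    intro w
    rw [MonoidAlgebra.coeff_smul, MonoidAlgebra.coeff_smul, Finsupp.smul_apply,
      Finsupp.smul_apply, smul_eq_mul, smul_eq_mul]
    exact mul_le_mul_of_nonneg_right hC (h.hY.nonneg w)
  exact ⟨h.hY, h.e0, h.f0, h.hf, h.he, h.a0, h.a1, h.b0, h.b1, hc0, hc.trans h.c1,
    h.C1.trans hC, h.pM, h.pP, le_trans m1 h.loM, le_trans m1 h.loP, le_trans h.hiM m2,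
    le_trans h.hiP m2⟩

theorem TriE.mono {q : ℝ} {g l h d r g' l' h' d' r' : ℕ} {E E' : ℝ} {u v0 v1 : List Bool}
    {Y e f : MonoidAlgebra ℝ (FreeMonoid Bool)} {a b : ℝ} {K : ℕ}
    (T : TriE q g l h d r E u v0 v1 Y e f a b K) (hg : g ≤ g') (hl : l ≤ l') (hh : h' ≤ h)
    (hd : d' ≤ d) (hr : r' ≤ r) (hr1 : 1 ≤ r') (hE : E ≤ E') :
    TriE q g' l' h' d' r' E' u v0 v1 Y e f a b K := by
  have inv : ∀ {m n : ℕ}, m ≤ n → ((2 : ℝ) ^ n)⁻¹ ≤ ((2 : ℝ) ^ m)⁻¹ := fun hmn =>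
    inv_anti₀ (by positivity) (pow_le_pow_right₀ (by norm_num) hmn)
  have hr2 : ((2 : ℝ) ^ r')⁻¹ ≤ 1 / 2 := by
    have := inv hr1
    rw [pow_one] at this
    linarith only [this]
  refine ⟨T.ne, T.len0, T.len1, T.len.trans (Nat.pow_le_pow_right (by norm_num) hl),
    T.errY.trans hE, T.err0.trans hE, T.err1.trans hE, ?_, T.heta.trans (inv hh),
    T.hdel.trans (inv hd), T.slip, T.slipK.trans (Nat.pow_le_pow_right (by norm_num) hg)⟩
  exact T.trip.mono_ratio (by linarith only [hr2]) (by linarith only [inv hr]) (by linarith only [inv hr])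

theorem HasTri'.mono {q : ℝ} {g l h d r g' l' h' d' r' : ℕ} {E E' : ℝ}
    (T : HasTri' q g l h d r E) (hg : g ≤ g') (hl : l ≤ l') (hh : h' ≤ h)
    (hd : d' ≤ d) (hr : r' ≤ r) (hr1 : 1 ≤ r') (hE : E ≤ E') : HasTri' q g' l' h' d' r' E' := by
  obtain ⟨u, v0, v1, Y, e, f, a, b, K, T, ha⟩ := T
  refine ⟨u, v0, v1, Y, e, f, a, b, K, T.mono hg hl hh hd hr hr1 hE, ha.trans ?_⟩
  exact inv_anti₀ (by positivity) (pow_le_pow_right₀ (by norm_num) hd)

end Vale.Agent.P321.MA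
end

section

/-!
Arithmetic of the explicit recursion.
-/

namespace Vale.Agent.P321.MA

/-- slack exponents -/
def ss (N z : ℕ) : ℕ → ℕ
  | 0 => 65 * z
  | j + 1 => 4 * ss N z j + ss N z j / N

theorem ss_lo (N z j : ℕ) : 65 * z * 4 ^ j ≤ ss N z j := by
  induction j with
  | zero => simp [ss]
  | succ j ih =>
    rw [ss, pow_succ]
    calc 65 * z * (4 ^ j * 4) = 4 * (65 * z * 4 ^ j) := by ring
      _ ≤ 4 * ss N z j := Nat.mul_le_mul_left _ ih
      _ ≤ _ := Nat.le_add_right _ _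

theorem ss_step_hi (N z j : ℕ) : N * ss N z (j + 1) ≤ (4 * N + 1) * ss N z j := by
  rw [ss, mul_add, add_mul, one_mul]
  have := Nat.mul_div_le (ss N z j) N
  have e : N * (4 * ss N z j) = 4 * N * ss N z j := by ring
  omega

theorem ss_step_lo (N z j : ℕ) (hN : 1 ≤ N) :
    4 * N * ss N z j + ss N z j ≤ N * ss N z (j + 1) + N := by
  rw [ss, mul_add]
  have h1 := Nat.lt_mul_div_succ (ss N z j) hN
  have e : N * (4 * ss N z j) = 4 * N * ss N z j := by ring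
  have e2 : N * (ss N z j / N + 1) = N * (ss N z j / N) + N := by ring
  omega

theorem ss_hi (N z j : ℕ) (hN : 1 ≤ N) (hj : j ≤ N) :
    (ss N z j : ℝ) ≤ 130 * z * 4 ^ j := by
  have hN0 : (0 : ℝ) < N := by exact_mod_cast hN
  have key : ∀ j : ℕ, (ss N z j : ℝ) ≤ 65 * z * 4 ^ j * (1 + 1 / (4 * N)) ^ j := by
    intro j
    induction j with
    | zero => simp [ss]
    | succ j ih =>
      have h1 : (N : ℝ) * ss N z (j + 1) ≤ (4 * N + 1) * ss N z j := by
        exact_mod_cast ss_step_hi N z j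
      have h2 : (ss N z (j + 1) : ℝ) ≤ (4 * (1 + 1 / (4 * N))) * ss N z j := by
        have e : (4 * (1 + 1 / (4 * N)) : ℝ) * ss N z j = (4 * N + 1) * ss N z j / N := by
          field_simp
        rw [e, le_div_iff₀ hN0]
        linarith only [h1]
      refine h2.trans ?_
      calc (4 * (1 + 1 / (4 * N)) : ℝ) * ss N z j
          ≤ (4 * (1 + 1 / (4 * N))) * (65 * z * 4 ^ j * (1 + 1 / (4 * N)) ^ j) :=
            mul_le_mul_of_nonneg_left ih (by positivity)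
        _ = _ := by ring
  refine (key j).trans ?_
  have h3 : ((1 : ℝ) + 1 / (4 * N)) ^ j ≤ 2 := by
    have h4 : (1 : ℝ) + 1 / (4 * N) ≤ Real.exp (1 / (4 * N)) := by
      have := Real.add_one_le_exp (1 / (4 * (N : ℝ)))
      linarith only [this]
    have h5 : ((1 : ℝ) + 1 / (4 * N)) ^ j ≤ Real.exp (1 / (4 * N)) ^ j :=
      pow_le_pow_left₀ (by positivity) h4 j
    rw [← Real.exp_nat_mul] at h5
    have h6 : (j : ℝ) * (1 / (4 * N)) ≤ 1 / 4 := by
      have : (j : ℝ) ≤ N := by exact_mod_cast hj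
      rw [mul_one_div, div_le_iff₀ (by positivity)]
      linarith only [this]
    have h7 : Real.exp (1 / 4) ≤ 2 := by
      have h8 := Real.exp_one_lt_d9
      have h9 : Real.exp (1 / 4) ≤ Real.exp 1 := Real.exp_le_exp.mpr (by norm_num)
      have h10 : Real.exp (1 / 4) ^ 4 = Real.exp 1 := by
        rw [← Real.exp_nat_mul]; norm_num
      by_contra hcon
      push Not at hcon
      have h11 := pow_lt_pow_left₀ hcon (by norm_num) (show (4 : ℕ) ≠ 0 by norm_num)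
      rw [h10] at h11
      norm_num at h11
      linarith only [h11, h8]
    exact h5.trans ((Real.exp_le_exp.mpr h6).trans h7)
  calc 65 * (z : ℝ) * 4 ^ j * (1 + 1 / (4 * N)) ^ j ≤ 65 * z * 4 ^ j * 2 :=
        mul_le_mul_of_nonneg_left h3 (by positivity)
    _ = _ := by ring

theorem pow_bound (s : ℕ) (hs : 30 ≤ s) : 600 * (s * s) ≤ 2 ^ s := by
  induction s, hs using Nat.le_induction with
  | base => norm_num
  | succ s hs ih =>
    rw [pow_succ]
    nlinarith only [hs, ih]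

/-- one step with the standard choices -/
theorem step_simple {q : ℝ} {A : ℕ} (hstep : StepOK q A) {P Q s k κ r l : ℕ} {E : ℝ}
    (hE : 0 ≤ E) (hκ : κ = A * (2 * k + 1)) (h1 : 16 * κ ≤ P) (h2 : 33 * k ≤ s)
    (h3 : 4000000 ≤ k) (h4 : 264 * s ≤ P) (h5 : 512 * P + 5 * s + 15 ≤ 2 ^ s)
    (h6 : 2 * k + 5 ≤ r) (h7 : 2128 * P + 16 * Q ≤ (s - k - 2) * k)
    (H : HasTri q (256 * P) l (258 * P + 2 * Q) (516 * P + 4 * Q) r E) :
    HasTri' q (1024 * P + 15 * s + 45) (l + 768 * P + 13 * s + 19)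
      ((2128 * P + 16 * Q - κ - 2) / 2) (2128 * P + 16 * Q - κ - 2) (r - (2 * k + 4))
      (2 ^ (768 * P + 13 * s + 19) * E) := by
  have h := hstep (256 * P) l (258 * P + 2 * Q) (516 * P + 4 * Q) r k s (64 * P) E
      hE (by omega) (by omega) (by omega) h6 (by omega) (by rw [← hκ]; omega) (by omega) (by omega)
      (by rw [← hκ]; omega) (by rw [← hκ]; omega) (by rw [← hκ]; (clear * - hκ h1 h2 h3 h4; omega)) H
  rw [← hκ] at h
  have e1 : 4 * (256 * P) + 15 * s + 45 = 1024 * P + 15 * s + 45 := by omega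
  have e2 : l + 3 * (256 * P) + 13 * s + 19 = l + 768 * P + 13 * s + 19 := by omega
  have e3 : 4 * (516 * P + 4 * Q) + 64 * P = 2128 * P + 16 * Q := by omega
  have e4 : 3 * (256 * P) + 13 * s + 19 = 768 * P + 13 * s + 19 := by omega
  rwa [e1, e2, e3, e4] at h

/-- the first step -/
theorem rate_first {q : ℝ} {A N z : ℕ} (hstep : StepOK q A) (hN : 264 ≤ N) (hA : A ≤ N)
    (hz : 33 * N ^ 2 ≤ z) {E : ℝ} (hE : 0 ≤ E)
    (hbase : HasTri q (4100 * (N * z)) (4096 * (N * z) + 1) (5112 * (N * z)) (8180 * (N * z))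
      (512 * (N * z)) E) :
    HasTri' q (256 * (N * (65 * z))) (512 * (N * (65 * z))) (2 * (N * (65 * z)) * 129)
      (4 * (N * (65 * z)) * 129) (512 * (N * z) - (128 * N ^ 2 + 4))
      (2 ^ (512 * (N * (65 * z))) * E) := by
  obtain ⟨P, hP⟩ : ∃ P, P = N * z := ⟨_, rfl⟩
  obtain ⟨k, hk⟩ : ∃ k, k = 64 * N ^ 2 := ⟨_, rfl⟩
  obtain ⟨κ, hκ⟩ : ∃ κ, κ = A * (2 * k + 1) := ⟨_, rfl⟩
  have hN2 : 264 * 264 ≤ N ^ 2 := by nlinarith only [hN]
  have hkz : 33 * k ≤ 64 * z := by rw [hk]; omega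
  have hk1 : 4000000 ≤ k := by rw [hk]; omega
  have hPz : 264 * z ≤ P := by rw [hP]; exact Nat.mul_le_mul_right _ hN
  have hκ1 : κ ≤ 4 * P := by
    have h1 : κ ≤ N * (2 * k + 1) := by rw [hκ]; exact Nat.mul_le_mul_right _ hA
    have h2 : N * (2 * k + 1) ≤ N * (4 * z) := Nat.mul_le_mul_left _ (by omega)
    have h3 : N * (4 * z) = 4 * P := by rw [hP]; ring
    omega
  have hNz : N ≤ z := by nlinarith only [hz, hN2, hN]
  have hPzz : P ≤ z * z := by rw [hP]; exact Nat.mul_le_mul_right _ hNz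
  have e65 : N * (65 * z) = 65 * P := by rw [hP]; ring
  have h5 : 2 * (4100 * P) + 5 * (4 * z) + 15 ≤ 2 ^ (4 * z) := by
    have h1 := pow_bound (4 * z) (by omega)
    nlinarith only [hz, hN2, hPz, hPzz, h1]
  have h7 : 4 * (8180 * P) + 1024 * P ≤ (4 * z - k - 2) * k := by
    obtain ⟨w, hw⟩ : ∃ w, w = 4 * z - k - 2 := ⟨_, rfl⟩
    rw [← hw]
    have hw2 : 2 * z ≤ w := by omega
    have h1 : 2 * z * k ≤ w * k := Nat.mul_le_mul_right _ hw2
    have h2 : 2 * z * k = 128 * N * P := by rw [hk, hP]; ring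
    have h3 : 128 * 264 * P ≤ 128 * N * P := Nat.mul_le_mul_right _ (by omega)
    omega
  rw [← hP] at hbase ⊢
  rw [e65]
  have h := hstep (4100 * P) (4096 * P + 1) (5112 * P) (8180 * P) (512 * P) k (4 * z) (1024 * P)
    E hE (by omega) (by omega) h5 (by omega) (by omega) (by rw [← hκ]; omega) h7 (by omega)
    (by rw [← hκ]; omega) (by rw [← hκ]; omega) (by rw [← hκ]; omega) hbase
  rw [← hκ] at h
  have ek : 128 * N ^ 2 + 4 = 2 * k + 4 := by rw [hk]; ring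
  rw [ek]
  clear hPzz h5 h7 hz
  refine h.mono (by omega) (by omega) (by (clear * - hP hκ hκ1; omega)) (by (clear * - hP hκ hκ1; omega)) _root_.le_rfl (by omega) ?_
  refine mul_le_mul_of_nonneg_right ?_ hE
  exact pow_le_pow_right₀ (by norm_num) (by omega)

/-- linear part of the bookkeeping -/
theorem step_mono {q : ℝ} {P P' Q s k κ r N j : ℕ} {E : ℝ} (hE : 0 ≤ E)
    (h1 : 16 * κ ≤ P) (h4 : 264 * s ≤ P) (hs : 1 ≤ s) (hNs : 2 * N ≤ s) (q1 : P' ≤ 4 * P + s)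
    (q2 : 4 * P + s ≤ P' + N) (hj : (130 + j) * s ≤ P) (hQ : Q = P * j) (hr : 2 * k + 5 ≤ r)
    (H : HasTri' q (1024 * P + 15 * s + 45) (512 * P + 768 * P + 13 * s + 19)
      ((2128 * P + 16 * Q - κ - 2) / 2) (2128 * P + 16 * Q - κ - 2) (r - (2 * k + 4))
      (2 ^ (768 * P + 13 * s + 19) * (2 ^ (512 * P) * E))) :
    HasTri' q (256 * P') (512 * P') (2 * P' * (129 + (j + 1))) (4 * P' * (129 + (j + 1)))
      (r - (2 * k + 4)) (2 ^ (512 * P') * E) := by
  have hb : 4 * P' * (129 + (j + 1)) ≤ 2128 * P + 16 * Q - κ - 2 := by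
    have g1 : 4 * P' * (129 + (j + 1)) ≤ 4 * (4 * P + s) * (129 + (j + 1)) :=
      Nat.mul_le_mul_right _ (Nat.mul_le_mul_left _ q1)
    have g2 : 4 * (4 * P + s) * (129 + (j + 1)) = 2080 * P + 16 * Q + 4 * ((130 + j) * s) := by
      rw [hQ]; ring
    omega
  have hb2 : 2 * P' * (129 + (j + 1)) ≤ (2128 * P + 16 * Q - κ - 2) / 2 := by
    have g1 : 4 * P' * (129 + (j + 1)) = 2 * (2 * P' * (129 + (j + 1))) := by ring
    omega
  refine H.mono (by omega) (by omega) hb2 hb _root_.le_rfl (by omega) ?_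
  rw [← mul_assoc, ← pow_add]
  refine mul_le_mul_of_nonneg_right ?_ hE
  exact pow_le_pow_right₀ (by norm_num) (by omega)

/-- bookkeeping for the ratios -/
theorem ratio_arith {N z j : ℕ} (hN : 264 ≤ N) (hz : 33 * N ^ 2 ≤ z) (hj : j + 1 + 264 ≤ N) :
    2 * (64 * N ^ 2) + 5 ≤ 512 * (N * z) - (j + 1) * (128 * N ^ 2 + 4) := by
  have hN2 : 264 * 264 ≤ N ^ 2 := by nlinarith only [hj, hN]
  have h1 : (j + 2) * (128 * N ^ 2 + 4) ≤ N * (129 * N ^ 2) :=
    Nat.mul_le_mul (by omega) (by omega)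
  have h2 : N * (33 * N ^ 2) ≤ N * z := Nat.mul_le_mul_left _ hz
  have h3 : (j + 2) * (128 * N ^ 2 + 4) = (j + 1) * (128 * N ^ 2 + 4) + (128 * N ^ 2 + 4) := by
    ring
  obtain ⟨C, hC⟩ : ∃ C, C = N * N ^ 2 := ⟨_, rfl⟩
  have h4 : N * (129 * N ^ 2) = 129 * C := by rw [hC]; ring
  have h5 : N * (33 * N ^ 2) = 33 * C := by rw [hC]; ring
  have h6 : N ^ 2 ≤ C := by rw [hC]; exact Nat.le_mul_of_pos_left _ (by omega)
  omega

/-- the recursion -/
theorem rate_core {q : ℝ} {A N z : ℕ} (hstep : StepOK q A) (hN : 264 ≤ N) (hA : A ≤ N)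
    (hz : 33 * N ^ 2 ≤ z) {E : ℝ} (hE : 0 ≤ E)
    (hbase : HasTri q (4100 * (N * z)) (4096 * (N * z) + 1) (5112 * (N * z)) (8180 * (N * z))
      (512 * (N * z)) E) (j : ℕ) (hj : j + 264 ≤ N) :
    HasTri' q (256 * (N * ss N z j)) (512 * (N * ss N z j)) (2 * (N * ss N z j) * (129 + j))
      (4 * (N * ss N z j) * (129 + j)) (512 * (N * z) - (j + 1) * (128 * N ^ 2 + 4))
      (2 ^ (512 * (N * ss N z j)) * E) := by
  induction j with
  | zero => simpa [ss] using rate_first hstep hN hA hz hE hbase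
  | succ j ih =>
    have ih := (ih (by omega)).toHasTri
    have hr0 := ratio_arith hN hz hj
    have hN1 : 1 ≤ N := by omega
    have q1 := ss_step_hi N z j
    have q2 := ss_step_lo N z j hN1
    have q3 := ss_lo N z j
    obtain ⟨s', hs'⟩ : ∃ s', s' = ss N z (j + 1) := ⟨_, rfl⟩
    obtain ⟨s, hs⟩ : ∃ s, s = ss N z j := ⟨_, rfl⟩
    rw [← hs', ← hs] at q1 q2
    rw [← hs] at q3 ih
    rw [← hs']
    clear hs hs'
    obtain ⟨P', hP'⟩ : ∃ P', P' = N * s' := ⟨_, rfl⟩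
    obtain ⟨P, hP⟩ : ∃ P, P = N * s := ⟨_, rfl⟩
    obtain ⟨k, hk⟩ : ∃ k, k = 64 * N ^ 2 := ⟨_, rfl⟩
    obtain ⟨κ, hκ⟩ : ∃ κ, κ = A * (2 * k + 1) := ⟨_, rfl⟩
    have hN2 : 264 * 264 ≤ N ^ 2 := by nlinarith only [hj, hN]
    have hzs : 65 * z ≤ s := by
      have h4 : 1 ≤ 4 ^ j := Nat.one_le_pow _ _ (by norm_num)
      nlinarith only [q3, h4]
    have hkz : 33 * k ≤ 64 * z := by rw [hk]; omega
    have hks : 33 * k ≤ s := by omega
    have hk1 : 4000000 ≤ k := by rw [hk]; omega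
    have hPs : 264 * s ≤ P := by rw [hP]; exact Nat.mul_le_mul_right _ hN
    have hκ1 : 16 * κ ≤ P := by
      have h1 : κ ≤ N * (2 * k + 1) := by rw [hκ]; exact Nat.mul_le_mul_right _ hA
      have h2 : N * (16 * (2 * k + 1)) ≤ N * s := Nat.mul_le_mul_left _ (by omega)
      have h3 : N * (16 * (2 * k + 1)) = 16 * (N * (2 * k + 1)) := by ring
      omega
    have hNs2 : 2 * N ≤ s := by nlinarith only [hz, hj, hzs, hN]
    have hNs : N ≤ s := by omega
    have hPss : P ≤ s * s := by rw [hP]; exact Nat.mul_le_mul_right _ hNs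
    have q1' : P' ≤ 4 * P + s := by
      rw [hP', hP]
      calc N * s' ≤ (4 * N + 1) * s := q1
        _ = 4 * (N * s) + s := by ring
    have q2' : 4 * P + s ≤ P' + N := by
      rw [hP', hP]
      calc 4 * (N * s) + s = 4 * N * s + s := by ring
        _ ≤ _ := q2
    have hjP : (130 + j) * s ≤ P := by rw [hP]; exact Nat.mul_le_mul_right _ (by omega)
    obtain ⟨Q, hQ⟩ : ∃ Q, Q = P * j := ⟨_, rfl⟩
    have e1 : 2 * P * (129 + j) = 258 * P + 2 * Q := by rw [hQ]; ring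
    have e2 : 4 * P * (129 + j) = 516 * P + 4 * Q := by rw [hQ]; ring
    have ek : 128 * N ^ 2 + 4 = 2 * k + 4 := by rw [hk]; ring
    have h5 : 512 * P + 5 * s + 15 ≤ 2 ^ s := by
      have h1 := pow_bound s (by omega)
      nlinarith only [hz, hN2, hzs, hPs, hPss, h1]
    have h7 : 2128 * P + 16 * Q ≤ (s - k - 2) * k := by
      obtain ⟨w, hw⟩ : ∃ w, w = s - k - 2 := ⟨_, rfl⟩
      rw [← hw]
      have hw2 : s ≤ 2 * w := by omega
      have h1 : s * k ≤ 2 * w * k := Nat.mul_le_mul_right _ hw2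
      have h2 : s * k = 64 * N * P := by rw [hk, hP]; ring
      have h3 : 32 * (133 + j) * P ≤ 64 * N * P := Nat.mul_le_mul_right _ (by omega)
      have h4 : 32 * (133 + j) * P = 4256 * P + 32 * Q := by rw [hQ]; ring
      have h5 : 2 * w * k = 2 * (w * k) := by ring
      omega
    rw [← hP] at ih
    rw [← hP']
    rw [e1, e2] at ih
    rw [← hk] at hr0
    have h := step_simple hstep (by positivity) hκ hκ1 hks hk1 hPs h5 hr0 h7 ih
    have h' := step_mono hE hκ1 hPs (by omega) hNs2 q1' q2' hjP hQ hr0 h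
    have er : 512 * (N * z) - (j + 1 + 1) * (128 * N ^ 2 + 4)
        = 512 * (N * z) - (j + 1) * (128 * N ^ 2 + 4) - (2 * k + 4) := by
      rw [Nat.sub_sub, ← ek]
      congr 1
      ring
    rw [er]
    exact h'

end Vale.Agent.P321.MA
end

section

/-!
The explicit rate from the explicit recursion.
-/

namespace Vale.Agent.P321.MA

open scoped unitInterval

/-- consequence of a level datum, as a proposition -/
def LowerOK (q : I) : Prop :=
  ∀ (g l h d r : ℕ) (E : ℝ), HasTri' q g l h d r E → E ≤ ((2 : ℝ) ^ d)⁻¹ → ∀ n : ℕ, 2 ^ l ≤ n →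
    ∀ m : ℕ, (∃ est : Estimator n, Reconstructs q n m est) → (2 : ℝ) ^ (d / 2) ≤ 12 * m

theorem nat_le_two_pow (n : ℕ) : n ≤ 2 ^ n := (Nat.lt_two_pow_self).le

theorem two_pow_mono {a b : ℕ} (h : a ≤ b) : 2 ^ a ≤ 2 ^ b := Nat.pow_le_pow_right two_pos h

theorem err_arith (N z J : ℕ) (hN : 1 ≤ N) (hz : 1 ≤ z) (hJ : J ≤ N) (hNz : 23 ≤ N) :
    66560 * (N * (N * (z * 4 ^ J))) ≤ 2 ^ (2048 * (N * z)) := by
  have g6 : 66560 * (N * (N * (z * 4 ^ J))) ≤ 2 ^ 17 * (2 ^ N * (2 ^ N * (2 ^ z * 2 ^ (2 * N)))) := by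
    have h4 : 4 ^ J ≤ 2 ^ (2 * N) := by
      rw [pow_mul]
      exact Nat.pow_le_pow_right (by norm_num) hJ
    exact Nat.mul_le_mul (by norm_num) (Nat.mul_le_mul (nat_le_two_pow _)
      (Nat.mul_le_mul (nat_le_two_pow _) (Nat.mul_le_mul (nat_le_two_pow _) h4)))
  have g7 : 2 ^ 17 * (2 ^ N * (2 ^ N * (2 ^ z * 2 ^ (2 * N)))) = 2 ^ (17 + 4 * N + z) := by
    rw [← pow_add, ← pow_add, ← pow_add, ← pow_add]
    congr 1
    omega
  have g8 : 17 + 4 * N + z ≤ 2048 * (N * z) := by nlinarith only [hNz, hz, hN]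
  rw [g7] at g6
  exact g6.trans (two_pow_mono g8)

theorem exp_arith {a b c c' : ℕ} (h : a + b ≤ 2 ^ c') (hc : c = c') :
    (2 : ℝ) ^ a * Real.exp (-(2 : ℝ) ^ c) ≤ ((2 : ℝ) ^ b)⁻¹ := by
  subst hc
  have g2 : ((a + b : ℕ) : ℝ) ≤ (2 : ℝ) ^ c := by exact_mod_cast h
  have g3 : (2 : ℝ) ^ (a + b) ≤ Real.exp ((2 : ℝ) ^ c) := by
    have g4 : (2 : ℝ) ≤ Real.exp 1 := by
      have := Real.exp_one_gt_d9
      linarith only [this]
    calc (2 : ℝ) ^ (a + b) ≤ Real.exp 1 ^ (a + b) := pow_le_pow_left₀ (by norm_num) g4 _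
      _ = Real.exp ((a + b : ℕ) : ℝ) := by rw [← Real.exp_nat_mul, mul_one]
      _ ≤ _ := Real.exp_le_exp.mpr g2
  rw [← one_div, le_div_iff₀ (by positivity), Real.exp_neg, mul_right_comm, ← pow_add]
  exact (mul_inv_le_iff₀ (Real.exp_pos _)).mpr (by rwa [one_mul])

/-- the bound at the parameters `N`, `z` -/
theorem rate_at {q : I} {A N z : ℕ} (hstep : StepOK q A) (hlow : LowerOK q) (hN : 270 ≤ N)
    (hA : A ≤ N) (hz : 33 * N ^ 2 ≤ z) {X0 : ℕ} (hX0 : X0 ≤ N)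
    (hbase : ∀ X : ℕ, X0 ≤ X → ∀ g h d r : ℕ, 1025 * X ≤ 1024 * g → 1024 * h ≤ 1278 * X →
      1024 * d ≤ 2045 * X → 8 * r ≤ X → 1 ≤ r →
      HasTri q g (X + 1) h d r (Real.exp (-(2 : ℝ) ^ (X / 2))))
    {lam : ℕ} (h1 : 66560 * (N * (z * 4 ^ (N - 264))) ≤ lam)
    (h2 : lam ≤ 133120 * (N * (z * 4 ^ (N - 264)))) {n : ℕ} (hn : 2 ^ lam ≤ n) {m : ℕ}
    (hm : ∃ est : Estimator n, Reconstructs q n m est) :
    (2 : ℝ) ^ (lam * N / 2048) ≤ 12 * m := by
  obtain ⟨J, hJ⟩ : ∃ J, J = N - 264 := ⟨_, rfl⟩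
  rw [← hJ] at h1 h2
  have hN2 : 264 * 264 ≤ N ^ 2 := by nlinarith only [hN]
  have hz1 : 1 ≤ z := by omega
  have hNz : N ≤ N * z := Nat.le_mul_of_pos_right _ hz1
  have hb := hbase (4096 * (N * z)) (by omega) (4100 * (N * z)) (5112 * (N * z)) (8180 * (N * z))
    (512 * (N * z)) (by omega) (by omega) (by omega) (by omega) (by omega)
  have hc := rate_core hstep (by omega) hA hz (Real.exp_pos _).le hb J (by omega)
  obtain ⟨s, hs⟩ : ∃ s, s = ss N z J := ⟨_, rfl⟩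
  have lo := ss_lo N z J
  have hi := ss_hi N z J (by omega) (by omega)
  rw [← hs] at hc lo hi
  have hi' : s ≤ 130 * z * 4 ^ J := by exact_mod_cast hi
  have herr0 := err_arith N z J (by omega) hz1 (by omega) (by omega)
  obtain ⟨B, hB⟩ : ∃ B, B = N * (z * 4 ^ J) := ⟨_, rfl⟩
  rw [← hB] at h1 h2 herr0
  obtain ⟨P, hP⟩ : ∃ P, P = N * s := ⟨_, rfl⟩
  rw [← hP] at hc
  have lo2 : 65 * B ≤ P := by
    have := Nat.mul_le_mul_left N lo
    have e : N * (65 * z * 4 ^ J) = 65 * B := by rw [hB]; ring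
    omega
  have hi2 : P ≤ 130 * B := by
    have := Nat.mul_le_mul_left N hi'
    have e : N * (130 * z * 4 ^ J) = 130 * B := by rw [hB]; ring
    omega
  have hl0 : 512 * P ≤ lam := by omega
  have hl : 2 ^ (512 * P) ≤ n := _root_.le_trans (two_pow_mono hl0) hn
  have hJN : 129 + J ≤ N := by omega
  -- the error
  have herr : (2 : ℝ) ^ (512 * P) * Real.exp (-(2 : ℝ) ^ (4096 * (N * z) / 2))
      ≤ ((2 : ℝ) ^ (4 * P * (129 + J)))⁻¹ := by
    refine exp_arith (c' := 2048 * (N * z)) ?_ (by omega)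
    have g2 : 4 * P * (129 + J) ≤ 4 * P * N := Nat.mul_le_mul_left _ hJN
    have g3 : 512 * P + 4 * P * N ≤ 512 * P * N := by
      have a1 : P * 270 ≤ P * N := Nat.mul_le_mul_left _ hN
      have a2 : 4 * P * N = 4 * (P * N) := by ring
      have a3 : 512 * P * N = 512 * (P * N) := by ring
      omega
    have g4 : 512 * P * N ≤ 512 * (130 * B) * N :=
      Nat.mul_le_mul_right _ (Nat.mul_le_mul_left _ hi2)
    have g5 : 512 * (130 * B) * N = 66560 * (N * B) := by ring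
    omega
  have hf := hlow _ _ _ _ _ _ hc herr n hl m hm
  refine _root_.le_trans ?_ hf
  refine pow_le_pow_right₀ (by norm_num) ?_
  -- exponents
  have k1 : 4 * P * (129 + J) / 2 = 2 * P * (129 + J) := by
    have : 4 * P * (129 + J) = 2 * (2 * P * (129 + J)) := by ring
    omega
  rw [k1]
  have k2 : N ≤ 2 * (129 + J) := by omega
  have k3 : lam * N ≤ 133120 * B * N := Nat.mul_le_mul_right _ h2
  have k4 : 133120 * B * N = 2048 * (65 * B * N) := by ring
  have k5 : 65 * B * N ≤ P * (2 * (129 + J)) := Nat.mul_le_mul lo2 k2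
  have k6 : P * (2 * (129 + J)) = 2 * P * (129 + J) := by ring
  rw [Nat.div_le_iff_le_mul_add_pred (by norm_num)]
  omega

theorem choice_pow (N : ℕ) (hN : 270 ≤ N) : 4 ^ (N - 264) * 2196480 ≤ 2 ^ (2 * N) := by
  obtain ⟨M, rfl⟩ := Nat.exists_eq_add_of_le (show 264 ≤ N by omega)
  have e : 2 ^ (2 * (264 + M)) = 4 ^ M * 4 ^ 264 := by
    rw [pow_mul, show (2 : ℕ) ^ 2 = 4 by norm_num, pow_add, mul_comm]
  rw [Nat.add_sub_cancel_left, e]
  have h4 : 2196480 ≤ 4 ^ 11 := by norm_num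
  exact Nat.mul_le_mul_left _ (h4.trans (Nat.pow_le_pow_right (by norm_num) (by norm_num)))

/-- arithmetic for the choice of `z` -/
theorem choice_arith (N : ℕ) (hN : 270 ≤ N) :
    66560 * (N * 4 ^ (N - 264)) * (33 * N ^ 2) ≤ 2 ^ (4 * N) := by
  have h3 := choice_pow N hN
  have e2 : 2 ^ (4 * N) = 2 ^ N * (2 ^ N * 2 ^ (2 * N)) := by
    rw [← pow_add, ← pow_add]
    congr 1
    ring
  have h1 : N ^ 2 ≤ 2 ^ N := by
    have h := pow_bound N (by omega)
    rw [sq]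
    exact (Nat.le_mul_of_pos_left _ (by norm_num)).trans h
  have h2 : N ≤ 2 ^ N := nat_le_two_pow N
  have e1 : 66560 * (N * 4 ^ (N - 264)) * (33 * N ^ 2)
      = N * (N ^ 2 * (4 ^ (N - 264) * 2196480)) := by
    generalize 4 ^ (N - 264) = w
    ring
  rw [e1, e2]
  exact Nat.mul_le_mul h2 (Nat.mul_le_mul h1 h3)

/-- real form of the final estimate -/
theorem final_arith {n lam mu N m : ℕ} (hlam : lam = Nat.log 2 n) (hmu : mu = Nat.log 2 lam)
    (hN : N = mu / 4) (hN1 : 270 ≤ N) (h : (2 : ℝ) ^ (lam * N / 2048) ≤ 12 * m) :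
    (n : ℝ) ^ ((1 / 65536 : ℝ) * Real.log (Real.log n)) ≤ m := by
  have hmu1 : mu ≠ 0 := by omega
  have hlam0 : lam ≠ 0 := by
    rintro rfl
    simp at hmu
    omega
  have hn0 : n ≠ 0 := by
    rintro rfl
    simp at hlam
    omega
  have hn1 : (1 : ℝ) ≤ n := by exact_mod_cast Nat.one_le_iff_ne_zero.mpr hn0
  have hn2 : n < 2 ^ (lam + 1) := by rw [hlam]; exact Nat.lt_pow_succ_log_self one_lt_two n
  have hl2 : lam < 2 ^ (mu + 1) := by rw [hmu]; exact Nat.lt_pow_succ_log_self one_lt_two lam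
  have hl3 : 2 ^ mu ≤ lam := by rw [hmu]; exact Nat.pow_log_le_self 2 hlam0
  have hn3 : 2 ^ lam ≤ n := by rw [hlam]; exact Nat.pow_log_le_self 2 hn0
  have hlog2 : Real.log 2 ≤ 1 := by
    have := Real.log_two_lt_d9
    linarith only [this]
  have hlog20 : 0 < Real.log 2 := Real.log_pos (by norm_num)
  have hn2' : (n : ℝ) ≤ 2 ^ (lam + 1) := by exact_mod_cast hn2.le
  have hlogn : Real.log n ≤ lam + 1 := by
    have h1 := Real.log_le_log (by linarith only [hn1]) hn2'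
    rw [Real.log_pow] at h1
    push_cast at h1
    have h2 : ((lam : ℝ) + 1) * Real.log 2 ≤ (lam + 1) * 1 :=
      mul_le_mul_of_nonneg_left hlog2 (by positivity)
    linarith only [h2, h1]
  have hlogn0 : 0 < Real.log n := by
    apply Real.log_pos
    have h1 : 2 ^ 1 ≤ 2 ^ lam := two_pow_mono (by omega)
    have h2 : 1 < n := by omega
    exact_mod_cast h2
  have hll : Real.log (Real.log n) ≤ 4 * N + 4 := by
    have h1 : (lam : ℝ) + 1 ≤ 2 ^ (mu + 1) := by exact_mod_cast hl2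
    have h2 := Real.log_le_log hlogn0 (hlogn.trans h1)
    rw [Real.log_pow] at h2
    push_cast at h2
    have h3 : ((mu : ℝ) + 1) * Real.log 2 ≤ (mu + 1) * 1 :=
      mul_le_mul_of_nonneg_left hlog2 (by positivity)
    have h4 : mu + 1 ≤ 4 * N + 4 := by omega
    have h5 : (mu : ℝ) + 1 ≤ 4 * N + 4 := by exact_mod_cast h4
    linarith only [h2, h3, h5]
  have hN1' : (270 : ℝ) ≤ N := by exact_mod_cast hN1
  have hlam1 : (1 : ℝ) ≤ lam := by exact_mod_cast Nat.one_le_iff_ne_zero.mpr hlam0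
  have hlamN : 2 ^ 20 ≤ lam := (two_pow_mono (by omega)).trans hl3
  have s1 : (n : ℝ) ^ ((1 / 65536 : ℝ) * Real.log (Real.log n))
      ≤ (n : ℝ) ^ ((1 / 65536 : ℝ) * (4 * N + 4)) :=
    Real.rpow_le_rpow_of_exponent_le hn1 (mul_le_mul_of_nonneg_left hll (by norm_num))
  have s2 : (n : ℝ) ^ ((1 / 65536 : ℝ) * (4 * N + 4))
      ≤ ((2 : ℝ) ^ (lam + 1)) ^ ((1 / 65536 : ℝ) * (4 * N + 4)) :=
    Real.rpow_le_rpow (by linarith only [hn1]) hn2' (by positivity)
  have s3 : ((2 : ℝ) ^ (lam + 1)) ^ ((1 / 65536 : ℝ) * (4 * N + 4))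
      = (2 : ℝ) ^ (((lam : ℝ) + 1) * ((1 / 65536 : ℝ) * (4 * N + 4))) := by
    rw [← Real.rpow_natCast, ← Real.rpow_mul (by norm_num)]
    push_cast
    rfl
  have hLN : (lam : ℝ) * N ≤ 2048 * ((lam * N / 2048 : ℕ) : ℝ) + 2048 := by
    have h1 : lam * N ≤ 2048 * (lam * N / 2048) + 2048 := by omega
    exact_mod_cast h1
  have hbig : (4096 : ℝ) * 10 ≤ lam * N := by
    have h1 : 4096 * 10 ≤ lam := _root_.le_trans (by norm_num) hlamN
    have h2 : (4096 : ℝ) * 10 ≤ lam := by exact_mod_cast h1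
    nlinarith only [h2, hN1']
  have s4 : ((lam : ℝ) + 1) * ((1 / 65536 : ℝ) * (4 * N + 4)) + 4
      ≤ ((lam * N / 2048 : ℕ) : ℝ) := by
    have h1 : ((lam : ℝ) + 1) * (4 * N + 4) ≤ 2 * lam * (8 * N) := by
      apply mul_le_mul <;> linarith
    linarith only [h1, hbig, hLN]
  have s5 : (2 : ℝ) ^ (((lam : ℝ) + 1) * ((1 / 65536 : ℝ) * (4 * N + 4))) * 2 ^ (4 : ℝ)
      ≤ 2 ^ (lam * N / 2048) := by
    rw [← Real.rpow_add (by norm_num), ← Real.rpow_natCast 2 (lam * N / 2048)]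
    exact Real.rpow_le_rpow_of_exponent_le (by norm_num) s4
  have s6 : (2 : ℝ) ^ (4 : ℝ) = 16 := by norm_num
  rw [s6] at s5
  have hm0 : (0 : ℝ) ≤ m := Nat.cast_nonneg m
  rw [s3] at s2
  linarith only [h, s1, s2, s5]

/-- the final bound, from the three ingredients -/
theorem rate_final {q : I} {A : ℕ} (hstep : StepOK q A) (hlow : LowerOK q) (hbase : BaseOK q) :
    ∃ n0 : ℕ, ∀ n : ℕ, n0 ≤ n → ∀ m : ℕ, (∃ est : Estimator n, Reconstructs q n m est) →
      (n : ℝ) ^ ((1 / 65536 : ℝ) * Real.log (Real.log n)) ≤ m := by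
  obtain ⟨X0, hX⟩ := hbase
  obtain ⟨K, hK⟩ : ∃ K, K = 4 * (270 + A + X0) := ⟨_, rfl⟩
  refine ⟨2 ^ 2 ^ K, fun n hn m hm => ?_⟩
  obtain ⟨lam, hlam⟩ : ∃ lam, lam = Nat.log 2 n := ⟨_, rfl⟩
  obtain ⟨mu, hmu⟩ : ∃ mu, mu = Nat.log 2 lam := ⟨_, rfl⟩
  obtain ⟨N, hN⟩ : ∃ N, N = mu / 4 := ⟨_, rfl⟩
  have hlam1 : 2 ^ K ≤ lam := by
    rw [hlam]
    exact Nat.le_log_of_pow_le one_lt_two hn
  have hmu1 : K ≤ mu := by
    rw [hmu]
    exact Nat.le_log_of_pow_le one_lt_two hlam1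
  have hN1 : 270 + A + X0 ≤ N := by omega
  have hlam0 : lam ≠ 0 := by
    have : 0 < 2 ^ K := by positivity
    omega
  have hl3 : 2 ^ mu ≤ lam := by rw [hmu]; exact Nat.pow_log_le_self 2 hlam0
  have hn0 : n ≠ 0 := by
    have : 0 < 2 ^ 2 ^ K := by positivity
    omega
  have hn3 : 2 ^ lam ≤ n := by rw [hlam]; exact Nat.pow_log_le_self 2 hn0
  obtain ⟨D, hD⟩ : ∃ D, D = N * 4 ^ (N - 264) := ⟨_, rfl⟩
  have hD1 : 1 ≤ D := by
    rw [hD]
    exact Nat.mul_pos (by omega) (by positivity)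
  obtain ⟨z, hz⟩ : ∃ z, z = lam / (66560 * D) := ⟨_, rfl⟩
  have hz1 : 33 * N ^ 2 ≤ z := by
    rw [hz, Nat.le_div_iff_mul_le (by omega)]
    have h1 := choice_arith N (by omega)
    rw [← hD] at h1
    have h2 : 2 ^ (4 * N) ≤ 2 ^ mu := two_pow_mono (by omega)
    have e : 33 * N ^ 2 * (66560 * D) = 66560 * D * (33 * N ^ 2) := by ring
    omega
  have hz0 : 1 ≤ z := by
    have : 1 ≤ N ^ 2 := Nat.one_le_pow _ _ (by omega)
    omega
  have e1 : N * (z * 4 ^ (N - 264)) = z * D := by rw [hD]; ring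
  have h1 : 66560 * (N * (z * 4 ^ (N - 264))) ≤ lam := by
    rw [e1, hz]
    have := Nat.div_mul_le_self lam (66560 * D)
    have e : 66560 * (lam / (66560 * D) * D) = lam / (66560 * D) * (66560 * D) := by ring
    omega
  have h2 : lam ≤ 133120 * (N * (z * 4 ^ (N - 264))) := by
    rw [e1]
    have h3 := Nat.lt_mul_div_succ lam (show 0 < 66560 * D by omega)
    rw [← hz] at h3
    have e : 66560 * D * (z + 1) = 66560 * (z * D) + 66560 * D := by ring
    have h4 : D ≤ z * D := Nat.le_mul_of_pos_left _ hz0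
    omega
  have key := rate_at hstep hlow (by omega) (by omega) hz1 (by omega) hX h1 h2 hn3 hm
  exact final_arith hlam hmu hN (by omega) key

end Vale.Agent.P321.MA
end

section

/-!
Triples and the recursion predicate for triples.
-/

namespace Vale.Agent.P321.MA

open Filter Topology

/-- Triple datum at the scale `x`. -/
structure TripAt (q ε β B α α' x : ℝ) (u v0 v1 : List Bool)
    (Y e f : MonoidAlgebra ℝ (FreeMonoid Bool)) (K : ℕ) : Prop where
  ne : v0 ≠ v1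
  len0 : v0.length = u.length
  len1 : v1.length = u.length
  lo : x ≤ u.length
  hi : (u.length : ℝ) ≤ 2 * x
  errY : l1 (W q u - Y) ≤ Real.exp (-x ^ β)
  err0 : l1 (W q v0 - (Y + e - f)) ≤ Real.exp (-x ^ β)
  err1 : l1 (W q v1 - (Y + e + f)) ≤ Real.exp (-x ^ β)
  trip : Trip Y e f (x ^ (-α)) (x ^ (-α')) B⁻¹ B
  slip : L1Str.Slip (str (G := FreeMonoid Bool)) Y K
  slipK : (K : ℝ) ≤ x ^ (1 + ε)

/-- The recursion predicate for triples. -/
def TLev (q ε α α' : ℝ) : Prop := ∃ β B : ℝ, 0 < β ∧ 1 ≤ B ∧ ∀ᶠ x : ℝ in atTop,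
  ∃ (u v0 v1 : List Bool) (Y e f : MonoidAlgebra ℝ (FreeMonoid Bool)) (K : ℕ),
    TripAt q ε β B α α' x u v0 v1 Y e f K

end Vale.Agent.P321.MA
end

section

/-!
The double step of the recursion, in terms of the predicates.
-/

namespace Vale.Agent.P321.MA

open Filter Topology

theorem prob_l1_le {G : Type*} [Monoid G] {x : MonoidAlgebra ℝ G} (h : Prob x) : l1 x ≤ 1 :=
  h.2.le

theorem W_l1_le {q : ℝ} (h0 : 0 ≤ q) (h1 : q ≤ 1) (u : List Bool) : l1 (W q u) ≤ 1 := by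
  rw [l1_eq]; exact (W_prob h0 h1 u).2.le

theorem l1_lt_quarter {E x : ℝ} {g : ℕ} (hE : 0 ≤ E) (h : (g : ℝ) * E ≤ 1 / 32)
    (hx : x ≤ Real.sqrt ((1 + E) ^ g - 1)) : x ≤ 1 / 4 := by
  refine hx.trans ?_
  have h1 := one_add_pow_sub_le hE g (by linarith)
  have hq : Real.sqrt (1 / 16) = 1 / 4 := by
    rw [show (1 / 16 : ℝ) = (1 / 4) ^ 2 by norm_num]
    exact Real.sqrt_sq (by norm_num)
  rw [← hq]
  exact Real.sqrt_le_sqrt (by linarith)

/-- numeric facts about the exponents at one point -/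
theorem num_pt (K2 α α' h H t : ℝ) (hK2 : 1 ≤ K2) (hα : h ≤ 2 * α) (hα' : h ≤ α') (hh1 : 1 < h)
    (hH : 4 * (α + h) + 1 ≤ H) (ht : 1 ≤ t) (a b T E : ℝ) (ha : a = t ^ (-α))
    (hb : b = t ^ (-α')) (hT : T = t ^ (-H)) (hE : E = K2 * ((b + a ^ 2) ^ 2 + T)) :
    0 ≤ E ∧ E ≤ 5 * K2 * t ^ (-(2 * h)) ∧ 0 ≤ (a * (b + a ^ 2)) ^ 2 ∧
    (a * (b + a ^ 2)) ^ 2 ≤ 4 * t ^ (-(2 * (α + h))) ∧
    ((a * (b + a ^ 2)) ^ 2) ^ 2 ≤ 16 * t ^ (-(4 * (α + h))) := by
  have ht0 : 0 < t := by linarith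
  have pos : ∀ y : ℝ, 0 < t ^ y := fun y => Real.rpow_pos_of_pos ht0 y
  have mono : ∀ {y z : ℝ}, y ≤ z → t ^ y ≤ t ^ z := fun h => Real.rpow_le_rpow_of_exponent_le ht h
  have ha0 : 0 < a := by rw [ha]; exact pos _
  have hb0 : 0 < b := by rw [hb]; exact pos _
  have hT0 : 0 < T := by rw [hT]; exact pos _
  have hK0 : 0 < K2 := by linarith
  have b1 : b ≤ t ^ (-h) := by rw [hb]; exact mono (by linarith)
  have a1 : a ^ 2 ≤ t ^ (-h) := by
    rw [ha, ← Real.rpow_natCast, ← Real.rpow_mul ht0.le]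
    exact mono (by push_cast; linarith)
  have η0 : 0 < b + a ^ 2 := by positivity
  have η1 : b + a ^ 2 ≤ 2 * t ^ (-h) := by linarith
  have η2 : (b + a ^ 2) ^ 2 ≤ 4 * t ^ (-(2 * h)) := by
    have e1 : 4 * t ^ (-(2 * h)) = (2 * t ^ (-h)) ^ 2 := by
      rw [mul_pow, ← Real.rpow_natCast (t ^ (-h)), ← Real.rpow_mul ht0.le]
      congr 1
      · norm_num
      · congr 1; push_cast; ring
    rw [e1]
    exact pow_le_pow_left₀ η0.le η1 2
  have hT1 : T ≤ t ^ (-(2 * h)) := by rw [hT]; exact mono (by linarith)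
  have E0 : 0 ≤ E := by rw [hE]; positivity
  have E1 : E ≤ 5 * K2 * t ^ (-(2 * h)) := by
    rw [hE]
    have := mul_le_mul_of_nonneg_left (add_le_add η2 hT1) hK0.le
    linarith
  have δ1 : a * (b + a ^ 2) ≤ 2 * t ^ (-(α + h)) := by
    have e1 : t ^ (-(α + h)) = a * t ^ (-h) := by
      rw [ha, ← Real.rpow_add ht0]; congr 1; ring
    rw [e1]
    have := mul_le_mul_of_nonneg_left η1 ha0.le
    linarith
  have δ0 : 0 < a * (b + a ^ 2) := by positivity
  have δ2 : (a * (b + a ^ 2)) ^ 2 ≤ 4 * t ^ (-(2 * (α + h))) := by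
    have e1 : 4 * t ^ (-(2 * (α + h))) = (2 * t ^ (-(α + h))) ^ 2 := by
      rw [mul_pow, ← Real.rpow_natCast (t ^ (-(α + h))), ← Real.rpow_mul ht0.le]
      congr 1
      · norm_num
      · congr 1; push_cast; ring
    rw [e1]
    exact pow_le_pow_left₀ δ0.le δ1 2
  have δ3 : ((a * (b + a ^ 2)) ^ 2) ^ 2 ≤ 16 * t ^ (-(4 * (α + h))) := by
    have e1 : 16 * t ^ (-(4 * (α + h))) = (4 * t ^ (-(2 * (α + h)))) ^ 2 := by
      rw [mul_pow, ← Real.rpow_natCast (t ^ (-(2 * (α + h)))), ← Real.rpow_mul ht0.le]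
      congr 1
      · norm_num
      · congr 1; push_cast; ring
    rw [e1]
    exact pow_le_pow_left₀ (by positivity) δ2 2
  exact ⟨E0, E1, by positivity, δ2, δ3⟩

/-- facts about `R` and `τ` -/
theorem num_R (ε t : ℝ) (hε : 0 < ε) (ht : 1 ≤ t) :
    1 ≤ ⌊t ^ (1 / 4 : ℝ)⌋₊ ∧ (⌊t ^ (1 / 4 : ℝ)⌋₊ : ℝ) ≤ t ^ (1 / 4 : ℝ) ∧
    0 < t ^ (-(1 / 4 : ℝ) + ε) + 1 / (⌊t ^ (1 / 4 : ℝ)⌋₊ : ℝ) ∧
    t ^ (-(1 / 4 : ℝ) + ε) + 1 / (⌊t ^ (1 / 4 : ℝ)⌋₊ : ℝ) ≤ 3 * t ^ (-(1 / 4 : ℝ) + ε) := by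
  have ht0 : 0 < t := by linarith
  have pos : ∀ y : ℝ, 0 < t ^ y := fun y => Real.rpow_pos_of_pos ht0 y
  set r := t ^ (1 / 4 : ℝ) with hr
  have r0 : 1 ≤ r := Real.one_le_rpow ht (by norm_num)
  have r1 : 1 ≤ ⌊r⌋₊ := by rw [Nat.one_le_floor_iff]; exact r0
  have r1' : (1 : ℝ) ≤ (⌊r⌋₊ : ℝ) := by exact_mod_cast r1
  have r2 : (⌊r⌋₊ : ℝ) ≤ r := Nat.floor_le (by positivity)
  have r3 : r ≤ 2 * (⌊r⌋₊ : ℝ) := by
    have := Nat.lt_floor_add_one r
    linarith only [this, r1']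
  have r4 : 1 / (⌊r⌋₊ : ℝ) ≤ 2 * t ^ (-(1 / 4 : ℝ) + ε) := by
    rw [div_le_iff₀ (by linarith)]
    have e1 : t ^ (-(1 / 4 : ℝ) + ε) * r = t ^ ε := by
      rw [hr, ← Real.rpow_add ht0]; congr 1; ring
    have e2 : 1 ≤ t ^ ε := Real.one_le_rpow ht hε.le
    have e3 : t ^ (-(1 / 4 : ℝ) + ε) * r ≤ t ^ (-(1 / 4 : ℝ) + ε) * (2 * (⌊r⌋₊ : ℝ)) :=
      mul_le_mul_of_nonneg_left r3 (pos _).le
    linarith only [e1, e2, e3]
  have τ0 := pos (-(1 / 4 : ℝ) + ε)
  exact ⟨r1, r2, by positivity, by linarith only [r4]⟩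

/-- numeric facts at the first level -/
theorem ev_numA (K2 ε h : ℝ) (hε : 0 < ε) (hε1 : ε ≤ 1 / 8) (hh1 : 1 < h)
    (hh2 : (2 + 4 * ε) * (1 + ε) < 2 * h) (k : ℕ) :
    ∀ᶠ t : ℝ in atTop, ∀ E : ℝ, 0 ≤ E → E ≤ 5 * K2 * t ^ (-(2 * h)) → E ≤ 1 ∧
      (∀ g : ℕ, (g : ℝ) ≤ t ^ ((2 + 4 * ε) * (1 + ε)) → (g : ℝ) * E ≤ 1 / 32) ∧
      (4 * Real.sqrt ((1 + E) ^ (⌈t⌉₊ + 2 ^ k) - 1) ≤ t ^ (-(1 / 4 : ℝ) + ε) / 2) ∧
      (∀ ψ : ℝ, ψ ≤ 8 * t ^ (-(1 / 2 : ℝ)) →
        2 * (⌊t ^ (1 / 4 : ℝ)⌋₊ : ℝ) * ψ ≤ t ^ (-(1 / 4 : ℝ) + ε) / 2) := by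
  filter_upwards [ev_pow_le (32 * (5 * K2)) ((2 + 4 * ε) * (1 + ε) + -(2 * h)) 0 (by linarith),
    ev_pow_le (5 * K2) (-(2 * h)) 0 (by linarith),
    ev_pow_le (1 + 2 ^ k) 0 1 one_pos,
    ev_pow_le (20 * K2) (1 + -(2 * h)) (-(1 / 2)) (by linarith),
    ev_pow_le 64 (-(1 / 2)) (2 * (-(1 / 4 : ℝ) + ε)) (by linarith only [hε]),
    ev_pow_le 32 (-(1 / 4)) (-(1 / 4) + ε) (by linarith only [hε]),
    eventually_ge_atTop 1] with t f1 f2 f3 f4 f5 f6 ht E E0 E1
  have ht0 : 0 < t := by linarith only [hε, hε1, ht]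
  rw [Real.rpow_zero] at f1 f2
  rw [Real.rpow_zero, mul_one, Real.rpow_one] at f3
  have pos : ∀ y : ℝ, 0 < t ^ y := fun y => Real.rpow_pos_of_pos ht0 y
  obtain ⟨r1, r2, -, -⟩ := num_R ε t hε ht
  set r := t ^ (1 / 4 : ℝ) with hr
  set τ := t ^ (-(1 / 4 : ℝ) + ε) with hτ
  have τ0 : 0 < τ := pos _
  refine ⟨?_, ?_, ?_, ?_⟩
  · linarith only [f2, E1]
  · intro g hg
    have h1 : (g : ℝ) * E ≤ t ^ ((2 + 4 * ε) * (1 + ε)) * (5 * K2 * t ^ (-(2 * h))) :=
      mul_le_mul hg E1 E0 (pos _).le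
    rw [Real.rpow_add ht0] at f1
    linarith only [f1, h1]
  · have hn : ((⌈t⌉₊ + 2 ^ k : ℕ) : ℝ) ≤ 2 * t := by
      have := (Nat.ceil_lt_add_one ht0.le).le
      push_cast
      linarith only [f3, this]
    have h1 : ((⌈t⌉₊ + 2 ^ k : ℕ) : ℝ) * E ≤ 10 * K2 * t ^ (1 + -(2 * h)) := by
      have h2 : ((⌈t⌉₊ + 2 ^ k : ℕ) : ℝ) * E ≤ 2 * t * (5 * K2 * t ^ (-(2 * h))) :=
        mul_le_mul hn E1 E0 (by positivity)
      rw [Real.rpow_add ht0, Real.rpow_one]
      linarith only [h2]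
    have h3 : t ^ (-(1 / 2 : ℝ)) ≤ 1 := Real.rpow_le_one_of_one_le_of_nonpos ht (by norm_num)
    have h4 := one_add_pow_sub_le E0 _ (show ((⌈t⌉₊ + 2 ^ k : ℕ) : ℝ) * E ≤ 1 by linarith only [hε, hε1, f4, h1, h3])
    have e1 : t ^ (2 * (-(1 / 4 : ℝ) + ε)) = τ ^ 2 := by
      rw [hτ, ← Real.rpow_natCast, ← Real.rpow_mul ht0.le]; congr 1; push_cast; ring
    rw [e1] at f5
    have h5 : (1 + E) ^ (⌈t⌉₊ + 2 ^ k) - 1 ≤ (τ / 8) ^ 2 := by
      rw [div_pow]; linarith only [h4, h1, f5, f4]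
    have h6 := Real.sqrt_le_sqrt h5
    rw [Real.sqrt_sq (by positivity)] at h6
    linarith only [h6]
  · intro ψ hψ
    have h1 : 2 * (⌊r⌋₊ : ℝ) * ψ ≤ 2 * (⌊r⌋₊ : ℝ) * (8 * t ^ (-(1 / 2 : ℝ))) :=
      mul_le_mul_of_nonneg_left hψ (by positivity)
    have h2 : 2 * (⌊r⌋₊ : ℝ) * (8 * t ^ (-(1 / 2 : ℝ))) ≤ 2 * r * (8 * t ^ (-(1 / 2 : ℝ))) :=
      mul_le_mul_of_nonneg_right (by linarith only [r2]) (by have := pos (-(1 / 2 : ℝ)); positivity)
    have e1 : t ^ (-(1 / 4 : ℝ)) = r * t ^ (-(1 / 2 : ℝ)) := by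
      rw [hr, ← Real.rpow_add ht0]; norm_num
    rw [e1] at f6
    linarith only [f6, h1, h2]

/-- numeric facts at the second level -/
theorem ev_numB (K2 ε α h H : ℝ) (hK2 : 1 ≤ K2) (hε : 0 < ε) (hh1 : 1 < h) (hα : h ≤ 2 * α)
    (hd : (2 + 4 * ε) * (2 + 4 * ε) * (1 + ε) < 2 * (α + h) + 1 / 4 - ε)
    (hH : 4 * (α + h) + 1 ≤ H) :
    ∀ᶠ t : ℝ in atTop, ∀ D T : ℝ, 0 ≤ D → D ≤ 4 * t ^ (-(2 * (α + h))) →
      D ^ 2 ≤ 16 * t ^ (-(4 * (α + h))) → T = t ^ (-H) →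
      (∀ F : ℝ, F = K2 * (D * (t ^ (-(1 / 4 : ℝ) + ε)
          + 1 / (⌊t ^ (1 / 4 : ℝ)⌋₊ : ℝ)) + T + T) → 0 ≤ F ∧
        ∀ g : ℕ, (g : ℝ) ≤ t ^ ((2 + 4 * ε) * (2 + 4 * ε) * (1 + ε)) → (g : ℝ) * F ≤ 1 / 32) ∧
      K2 * (D ^ 2 * (t ^ (-(1 / 4 : ℝ) + ε)
          + 1 / (⌊t ^ (1 / 4 : ℝ)⌋₊ : ℝ)) + T + T) ≤ t ^ (-(4 * (α + h) + 1 / 4 - 2 * ε)) := by
  filter_upwards [
    ev_pow_le (32 * (14 * K2)) ((2 + 4 * ε) * (2 + 4 * ε) * (1 + ε)
      + (-(2 * (α + h)) + (-(1 / 4 : ℝ) + ε))) 0 (by linarith only [hd]),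
    ev_pow_le (50 * K2) (-(4 * (α + h)) + (-(1 / 4 : ℝ) + ε)) (-(4 * (α + h) + 1 / 4 - 2 * ε))
      (by linarith only [hε]),
    eventually_ge_atTop 1] with t f7 f8 ht D T D0 D1 D2 hT
  have ht0 : 0 < t := by linarith only [ht]
  rw [Real.rpow_zero] at f7
  have pos : ∀ y : ℝ, 0 < t ^ y := fun y => Real.rpow_pos_of_pos ht0 y
  have mono : ∀ {y z : ℝ}, y ≤ z → t ^ y ≤ t ^ z := fun h => Real.rpow_le_rpow_of_exponent_le ht h
  have hT0 : 0 < T := by rw [hT]; exact pos _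
  have hK0 : 0 < K2 := by linarith only [hK2]
  obtain ⟨r1, r2, hρ, hρ1⟩ := num_R ε t hε ht
  set ρ := t ^ (-(1 / 4 : ℝ) + ε) + 1 / (⌊t ^ (1 / 4 : ℝ)⌋₊ : ℝ) with hρd
  set τ := t ^ (-(1 / 4 : ℝ) + ε) with hτ
  have τ0 : 0 < τ := pos _
  refine ⟨?_, ?_⟩
  · intro F hF
    have F0 : 0 ≤ F := by rw [hF]; positivity
    have F1 : F ≤ 14 * K2 * (t ^ (-(2 * (α + h))) * τ) := by
      have h1 : D * ρ ≤ 4 * t ^ (-(2 * (α + h))) * (3 * τ) := mul_le_mul D1 hρ1 hρ.le (by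
            have := pos (-(2 * (α + h))); positivity)
      have h2 : T ≤ t ^ (-(2 * (α + h))) * τ := by
        rw [hT, hτ, ← Real.rpow_add ht0]
        exact mono (by linarith only [hε, hh1, hα, hH])
      rw [hF]
      have h3 := mul_le_mul_of_nonneg_left (add_le_add (add_le_add h1 h2) h2) hK0.le
      linarith only [h3]
    refine ⟨F0, fun g hg => ?_⟩
    have h1 : (g : ℝ) * F ≤ t ^ ((2 + 4 * ε) * (2 + 4 * ε) * (1 + ε))
        * (14 * K2 * (t ^ (-(2 * (α + h))) * τ)) := mul_le_mul hg F1 F0 (pos _).le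
    rw [Real.rpow_add ht0, Real.rpow_add ht0 (-(2 * (α + h)))] at f7
    linarith only [h1, f7]
  · have h1 : D ^ 2 * ρ ≤ 16 * t ^ (-(4 * (α + h))) * (3 * τ) := mul_le_mul D2 hρ1 hρ.le (by
          have := pos (-(4 * (α + h))); positivity)
    have h2 : T ≤ t ^ (-(4 * (α + h))) * τ := by
      rw [hT, hτ, ← Real.rpow_add ht0]
      exact mono (by linarith only [hε, hH])
    rw [Real.rpow_add ht0] at f8
    refine _root_.le_trans ?_ f8
    have h3 := mul_le_mul_of_nonneg_left (add_le_add (add_le_add h1 h2) h2) hK0.le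
    linarith only [h3]

end Vale.Agent.P321.MA
end
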