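import Mathlib.Algebra.Polynomial.Basic
import Mathlib.Algebra.Polynomial.AlgebraMap
import Mathlib.Tactic.Module
import Mathlib.Analysis.SpecialFunctions.Pow.Asymptotics
import Vale.Agent.P321.Bdl.B5
import Vale.Agent.P321.Bdl.B2
import Vale.Agent.P321.Bdl.B3

section

/-!
One double step of the explicit recursion.
-/

namespace Vale.Agent.P321.MA

theorem two_inv_le {m n p : ℕ} (h : n + p ≤ m) :
    (2 : ℝ) ^ n * ((2 : ℝ) ^ m)⁻¹ ≤ ((2 : ℝ) ^ p)⁻¹ := by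
  rw [← div_eq_mul_inv, div_le_iff₀ (by positivity), inv_mul_eq_div, le_div_iff₀ (by positivity),
    ← pow_add]
  exact pow_le_pow_right₀ (by norm_num) h

theorem inv_two_le {m p : ℕ} (h : p ≤ m) : ((2 : ℝ) ^ m)⁻¹ ≤ ((2 : ℝ) ^ p)⁻¹ := by
  have := two_inv_le (n := 0) (m := m) (p := p) (by omega)
  rwa [pow_zero, one_mul] at this

variable {G : Type*} [Monoid G]

theorem smooth_pow2 {Y : MonoidAlgebra ℝ G} {K : ℕ} (hY : Prob Y)
    (hS : L1Str.Slip (str (G := G)) Y K) (s T : ℕ) (hT : K * (4 * s) * 4 ^ s ≤ T) :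
    l1 ((1 - Y) * Y ^ T) ≤ 4 * ((2 : ℝ) ^ s)⁻¹ := by
  have h5 := (str (G := G)).slip_smooth hY hS s T hT
  change l1 _ ≤ _ at h5
  rwa [div_eq_mul_inv] at h5

theorem four_pow_eq (s : ℕ) : 4 ^ s = 2 ^ (2 * s) := by
  rw [pow_mul]; norm_num

/-- slip inheritance with powers of two -/
theorem slip_pow2 {Y Z : MonoidAlgebra ℝ G} {K g s S : ℕ} (hY : Prob Y)
    (hS : L1Str.Slip (str (G := G)) Y K) (hK : K ≤ 2 ^ g) (S1 : 2 ^ (g + 4 * s + 1) ≤ S)
    (S2 : S ≤ 2 ^ (g + 4 * s + 2)) (hs : 4 * (g + 4 * s + 5) ≤ 2 ^ (s + 5))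
    (hZ : ∀ n : ℕ, n ≤ 2 ^ (2 * g + 5 * s + 15) → l1 (Z ^ n - Y ^ (S * n)) ≤ 1 / 4) :
    L1Str.Slip (str (G := G)) Z (2 ^ (2 * g + 5 * s + 15)) := by
  have h1 : 1 ≤ 2 ^ (2 * g + 5 * s + 15) := Nat.one_le_two_pow
  have hT : K * (4 * (g + 4 * s + 5)) * 4 ^ (g + 4 * s + 5)
      ≤ S * (2 ^ (2 * g + 5 * s + 15) - 1) := by
    have e1 : 2 ^ (2 * g + 5 * s + 14) ≤ 2 ^ (2 * g + 5 * s + 15) - 1 := by
      have : 2 ^ (2 * g + 5 * s + 15) = 2 * 2 ^ (2 * g + 5 * s + 14) := by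
        rw [← pow_succ']
      have h2 : 1 ≤ 2 ^ (2 * g + 5 * s + 14) := Nat.one_le_two_pow
      omega
    calc K * (4 * (g + 4 * s + 5)) * 4 ^ (g + 4 * s + 5)
        ≤ 2 ^ g * 2 ^ (s + 5) * 2 ^ (2 * (g + 4 * s + 5)) := by
          rw [four_pow_eq]
          exact Nat.mul_le_mul_right _ (Nat.mul_le_mul hK hs)
      _ = 2 ^ (g + 4 * s + 1) * 2 ^ (2 * g + 5 * s + 14) := by
          rw [← pow_add, ← pow_add, ← pow_add]; congr 1; ring
      _ ≤ _ := Nat.mul_le_mul S1 e1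
  refine slip_of_close hY h1 (hZ _ le_rfl) (hZ _ (Nat.sub_le _ _))
    (smooth_pow2 hY hS (g + 4 * s + 5) _ hT) ?_
  have h2 : (S : ℝ) ≤ (2 : ℝ) ^ (g + 4 * s + 2) := by exact_mod_cast S2
  have h3 : (2 : ℝ) ^ (g + 4 * s + 2) * ((2 : ℝ) ^ (g + 4 * s + 5))⁻¹ ≤ ((2 : ℝ) ^ 3)⁻¹ :=
    two_inv_le (by (clear * -; omega))
  have h4 : (S : ℝ) * (4 * ((2 : ℝ) ^ (g + 4 * s + 5))⁻¹)
      ≤ 4 * ((2 : ℝ) ^ (g + 4 * s + 2) * ((2 : ℝ) ^ (g + 4 * s + 5))⁻¹) := by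
    have := mul_le_mul_of_nonneg_right h2 (show 0 ≤ 4 * ((2 : ℝ) ^ (g + 4 * s + 5))⁻¹ by (clear * -; positivity))
    linarith only [this]
  linarith only [h3, h4]

theorem tau_a {E1 : ℝ} {κ h c k : ℕ} (E10 : 0 ≤ E1)
    (E11 : E1 ≤ 2 ^ (κ + 1) * ((2 : ℝ) ^ (2 * h))⁻¹) (h2 : 6 * c + k + κ + 9 ≤ 2 * h) :
    4 * Real.sqrt ((1 + E1) ^ (2 ^ (4 * c) + 2 ^ k) - 1) ≤ ((2 : ℝ) ^ c)⁻¹ / 2 := by
  have P2 : ∀ n : ℕ, (0 : ℝ) < 2 ^ n := fun n => by positivity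
  have hc1 : ((2 : ℝ) ^ (c + 1))⁻¹ = ((2 : ℝ) ^ c)⁻¹ / 2 := by
    rw [pow_succ, mul_inv]; ring
  have e1 : ((2 ^ (4 * c) + 2 ^ k : ℕ) : ℝ) ≤ (2 : ℝ) ^ (4 * c + k + 1) := by
    have e2 : (2 : ℝ) ^ (4 * c) ≤ 2 ^ (4 * c + k) :=
      pow_le_pow_right₀ (by norm_num) (by omega)
    have e3 : (2 : ℝ) ^ k ≤ 2 ^ (4 * c + k) := pow_le_pow_right₀ (by norm_num) (by omega)
    push_cast
    rw [pow_succ]
    linarith only [e2, e3]
  have e4 : ((2 ^ (4 * c) + 2 ^ k : ℕ) : ℝ) * E1 ≤ ((2 : ℝ) ^ (2 * c + 7))⁻¹ := by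
    have e5 := mul_le_mul e1 E11 E10 (P2 _).le
    have e6 : (2 : ℝ) ^ (4 * c + k + 1 + (κ + 1)) * ((2 : ℝ) ^ (2 * h))⁻¹
        ≤ ((2 : ℝ) ^ (2 * c + 7))⁻¹ := two_inv_le (by omega)
    rw [pow_add (2 : ℝ) (4 * c + k + 1)] at e6
    linarith only [e6, e5]
  have e7 : ((2 : ℝ) ^ (2 * c + 7))⁻¹ ≤ 1 := by
    have := inv_two_le (m := 2 * c + 7) (p := 0) (by omega)
    rwa [pow_zero, inv_one] at this
  have e8 := one_add_pow_sub_le E10 _ (e4.trans e7)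
  have e9 : 2 * ((2 : ℝ) ^ (2 * c + 7))⁻¹ = (((2 : ℝ) ^ (c + 1))⁻¹ / 4) ^ 2 := by
    rw [div_pow, inv_pow, ← pow_mul]
    have e10 : (2 : ℝ) ^ (2 * c + 7) = 2 ^ ((c + 1) * 2) * 32 := by
      rw [show 2 * c + 7 = (c + 1) * 2 + 5 by ring, pow_add]; norm_num
    rw [e10, mul_inv]
    ring
  have e11 : (1 + E1) ^ (2 ^ (4 * c) + 2 ^ k) - 1 ≤ (((2 : ℝ) ^ (c + 1))⁻¹ / 4) ^ 2 := by
    linarith only [e4, e8, e9]
  have e12 := Real.sqrt_le_sqrt e11
  rw [Real.sqrt_sq (by (clear * -; positivity)), hc1] at e12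
  linarith only [e12]

theorem tau_b {Y : MonoidAlgebra ℝ G} {K g k s c S : ℕ} (hY : Prob Y)
    (hS : L1Str.Slip (str (G := G)) Y K) (hK : K ≤ 2 ^ g) (hks : 2 * k + 4 ≤ s)
    (hgs : 2 * g + 5 * s + 15 ≤ 2 ^ s) (hcg : 4 * c ≤ g) (S1 : 2 ^ (g + 4 * s + 1) ≤ S) :
    2 * ((2 ^ c : ℕ) : ℝ) * l1 ((1 - Y) * Y ^ (S * 2 ^ (4 * c))) ≤ ((2 : ℝ) ^ c)⁻¹ / 2 := by
  have hc1 : ((2 : ℝ) ^ (c + 1))⁻¹ = ((2 : ℝ) ^ c)⁻¹ / 2 := by
    rw [pow_succ, mul_inv]; ring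
  have s4 : 4 ≤ s := by (clear * - hks; omega)
  have e0 : 4 * (2 * c + 4) ≤ 2 ^ (4 * s - 8) := by
    have e1 : 2 ^ s ≤ 2 ^ (4 * s - 8) := Nat.pow_le_pow_right (by norm_num) (by omega)
    omega
  have e1 := smooth_pow2 hY hS (2 * c + 4) (S * 2 ^ (4 * c)) (by
    calc K * (4 * (2 * c + 4)) * 4 ^ (2 * c + 4)
        ≤ 2 ^ g * 2 ^ (4 * s - 8) * 2 ^ (2 * (2 * c + 4)) := by
          rw [four_pow_eq]
          exact Nat.mul_le_mul_right _ (Nat.mul_le_mul hK e0)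
      _ = 2 ^ (g + (4 * s - 8) + 2 * (2 * c + 4)) := by rw [← pow_add, ← pow_add]
      _ ≤ 2 ^ (g + 4 * s + 1 + 4 * c) := Nat.pow_le_pow_right (by norm_num) (by (clear * - s4; omega))
      _ = 2 ^ (g + 4 * s + 1) * 2 ^ (4 * c) := by rw [← pow_add]
      _ ≤ S * 2 ^ (4 * c) := Nat.mul_le_mul_right _ S1)
  have e2 : (2 : ℝ) ^ (c + 3) * ((2 : ℝ) ^ (2 * c + 4))⁻¹ ≤ ((2 : ℝ) ^ (c + 1))⁻¹ :=
    two_inv_le (by omega)
  rw [hc1] at e2
  have e4 := mul_le_mul_of_nonneg_left e1 (show 0 ≤ 2 * ((2 ^ c : ℕ) : ℝ) by (clear * -; positivity))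
  have e5 : 2 * ((2 ^ c : ℕ) : ℝ) * (4 * ((2 : ℝ) ^ (2 * c + 4))⁻¹)
      = (2 : ℝ) ^ (c + 3) * ((2 : ℝ) ^ (2 * c + 4))⁻¹ := by
    rw [pow_add (2 : ℝ) c]; push_cast; ring
  linarith only [e2, e4, e5]

/-- the pair as a triple, with powers of two -/
theorem of_pair_pow2 {W0 W1 : MonoidAlgebra ℝ G} {D' r' : ℕ} (pW0 : Prob W0) (pW1 : Prob W1)
    (hD : Dom (W1 - W0) W0 (((2 : ℝ) ^ D')⁻¹)) (hr : 1 ≤ r')
    (lo : le ((1 - ((2 : ℝ) ^ r')⁻¹) • W0) W1) (hi : le W1 ((1 + ((2 : ℝ) ^ r')⁻¹) • W0)) :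
    ∃ σ : ℝ, Trip W0 ((1 / 2 : ℝ) • (W1 - W0)) ((1 / 2 : ℝ) • (W1 - W0)) (σ / 2) (σ / 2)
        (1 - ((2 : ℝ) ^ r')⁻¹) (1 + ((2 : ℝ) ^ r')⁻¹) ∧
      W0 + (1 / 2 : ℝ) • (W1 - W0) - (1 / 2 : ℝ) • (W1 - W0) = W0 ∧
      W0 + (1 / 2 : ℝ) • (W1 - W0) + (1 / 2 : ℝ) • (W1 - W0) = W1 ∧
      σ / 2 + (σ / 2) ^ 2 ≤ ((2 : ℝ) ^ (D' / 2))⁻¹ ∧
      σ / 2 * (σ / 2 + (σ / 2) ^ 2) ≤ ((2 : ℝ) ^ D')⁻¹ ∧ (σ / 2) ^ 2 ≤ ((2 : ℝ) ^ D')⁻¹ := by
  have pD : 0 < ((2 : ℝ) ^ D')⁻¹ := by (clear * -; positivity)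
  have pD1 : ((2 : ℝ) ^ D')⁻¹ ≤ 1 := by
    have := inv_two_le (m := D') (p := 0) (by omega)
    rwa [pow_zero, inv_one] at this
  obtain ⟨ρ', hρd⟩ : ∃ ρ' : ℝ, ρ' = ((2 : ℝ) ^ r')⁻¹ := ⟨_, rfl⟩
  have ρ'0 : 0 < ρ' := by rw [hρd]; positivity
  have ρ'1 : ρ' < 1 := by
    rw [hρd]
    exact inv_lt_one_of_one_lt₀ (one_lt_pow₀ (by norm_num) (by omega))
  rw [← hρd] at lo hi ⊢
  obtain ⟨tr, e0, e1⟩ := Trip.of_pair pW0 pW1 hD pD.le pD1
    (by (clear * - ρ'1; linarith) : 0 < 1 - ρ') (by linarith only [ρ'0]) (by linarith only [ρ'0] : 1 ≤ 1 + ρ') lo hi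
  obtain ⟨σ, hσ⟩ : ∃ σ : ℝ, σ = Real.sqrt (((2 : ℝ) ^ D')⁻¹) := ⟨_, rfl⟩
  rw [← hσ] at tr
  have σ0 : 0 ≤ σ := by rw [hσ]; exact Real.sqrt_nonneg _
  have σ2 : σ ^ 2 = ((2 : ℝ) ^ D')⁻¹ := by rw [hσ]; exact Real.sq_sqrt pD.le
  have σ1 : σ ≤ 1 := by
    rw [hσ, ← Real.sqrt_one]; exact Real.sqrt_le_sqrt pD1
  have σh : σ ≤ ((2 : ℝ) ^ (D' / 2))⁻¹ := by
    rw [hσ]
    refine Real.sqrt_le_iff.mpr ⟨by positivity, ?_⟩
    rw [inv_pow, ← pow_mul]
    exact inv_two_le (by (clear * -; omega))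
  refine ⟨σ, tr, e0, e1, ?_, ?_, ?_⟩
  · linarith only [mul_nonneg (sub_nonneg.2 σ0) (sub_nonneg.2 σ1), mul_nonneg (sub_nonneg.2 σ0) (sub_nonneg.2 σ0), mul_nonneg (sub_nonneg.2 σh) (sub_nonneg.2 σ1), mul_nonneg (sub_nonneg.2 σh) (sub_nonneg.2 σ0)]
  · rw [← σ2]; nlinarith only [σ1]
  · rw [← σ2]; nlinarith only []

/-- one double step -/
theorem HasTri.step (A : ℕ) (hDS : SmallDS A) {q : ℝ} (hq0 : 0 ≤ q) (hq1 : q ≤ 1)
    {g l h d r k s c κ : ℕ} {E : ℝ} (hE : 0 ≤ E) (hκ : κ = A * (2 * k + 1))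
    (hk : 1 ≤ k) (hks : 2 * k + 4 ≤ s) (hgs : 2 * g + 5 * s + 15 ≤ 2 ^ s) (hkr : 2 * k + 5 ≤ r)
    (hhd : h ≤ d) (hκh : κ + 1 ≤ h) (hdk : 4 * d + c ≤ (s - k - 2) * k) (hcg : 4 * c ≤ g)
    (h1 : 2 * g + 5 * s + κ + 21 ≤ 2 * h) (h2 : 6 * c + k + κ + 9 ≤ 2 * h)
    (h3 : 4 * g + 15 * s + κ + 52 ≤ 2 * d + c) (H : HasTri q g l h d r E) :
    HasTri' q (4 * g + 15 * s + 45) (l + 3 * g + 13 * s + 19) ((4 * d + c - κ - 2) / 2)
      (4 * d + c - κ - 2) (r - (2 * k + 4)) (2 ^ (3 * g + 13 * s + 19) * E) := by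
  obtain ⟨u, v0, v1, Y, e, f, a, b, K, D⟩ := H
  have P2 : ∀ n : ℕ, (0 : ℝ) < 2 ^ n := fun n => by (clear * -; positivity)
  -- abbreviations
  obtain ⟨M0, hM0⟩ : ∃ M0 : ℕ, M0 = 2 ^ (g + 3 * s) := ⟨_, rfl⟩
  obtain ⟨M, hM⟩ : ∃ M : ℕ, M = 2 ^ (g + 4 * s) := ⟨_, rfl⟩
  obtain ⟨T, hT⟩ : ∃ T : ℝ, T = ((2 : ℝ) ^ ((s - k - 2) * k))⁻¹ := ⟨_, rfl⟩
  obtain ⟨ρ, hρ⟩ : ∃ ρ : ℝ, ρ = ((2 : ℝ) ^ r)⁻¹ := ⟨_, rfl⟩
  obtain ⟨η, hη⟩ : ∃ η : ℝ, η = b + a ^ 2 := ⟨_, rfl⟩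
  have hkk : k + k + 1 = 2 * k + 1 := by ring
  have hkk4 : k + k + 4 = 2 * k + 4 := by ring
  have ks : k ≤ 2 ^ s := by
    have := Nat.lt_two_pow_self (n := s)
    omega
  have s4 : 4 * s ≤ 2 ^ s := by omega
  have a0 := D.trip.a0
  have b0 := D.trip.b0
  have η0 : 0 ≤ η := by rw [hη]; (clear * - b0; positivity)
  have η1 : η ≤ ((2 : ℝ) ^ h)⁻¹ := by rw [hη]; exact D.heta
  have T0 : 0 < T := by rw [hT]; positivity
  -- smoothness of Y
  have smooth : ∀ {Z : MonoidAlgebra ℝ (FreeMonoid Bool)} {K g : ℕ}, Prob Z →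
      L1Str.Slip (str (G := FreeMonoid Bool)) Z K → K ≤ 2 ^ g →
      (2 ^ k * l1 ((1 - Z) * Z ^ (2 ^ (g + 3 * s)))) ^ k ≤ T := by
    intro Z K g hZ hS hK
    have e1 := smooth_pow2 hZ hS s (2 ^ (g + 3 * s)) (by
      calc K * (4 * s) * 4 ^ s ≤ 2 ^ g * 2 ^ s * 2 ^ (2 * s) := by
            rw [four_pow_eq]
            exact Nat.mul_le_mul_right _ (Nat.mul_le_mul hK s4)
        _ = 2 ^ (g + 3 * s) := by rw [← pow_add, ← pow_add]; congr 1; ring)
    have e2 : (2 : ℝ) ^ k * l1 ((1 - Z) * Z ^ (2 ^ (g + 3 * s))) ≤ ((2 : ℝ) ^ (s - k - 2))⁻¹ := by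
      have e3 : (2 : ℝ) ^ (k + 2) * ((2 : ℝ) ^ s)⁻¹ ≤ ((2 : ℝ) ^ (s - k - 2))⁻¹ :=
        two_inv_le (by (clear * - hk hks; omega))
      have e4 := mul_le_mul_of_nonneg_left e1 (P2 k).le
      rw [pow_add] at e3
      linarith only [e3, e4]
    have e5 := pow_le_pow_left₀ (mul_nonneg (P2 k).le (l1_nonneg _)) e2 k
    rwa [inv_pow, ← pow_mul, ← hT] at e5
  have T1 := smooth D.trip.hY D.slip D.slipK
  rw [← hM0] at T1
  have kM : k * M0 ≤ M := by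
    rw [hM0, hM]
    calc k * 2 ^ (g + 3 * s) ≤ 2 ^ s * 2 ^ (g + 3 * s) := Nat.mul_le_mul_right _ ks
      _ = 2 ^ (g + 4 * s) := by rw [← pow_add]; congr 1; ring
  have hdkh : 2 * h ≤ (s - k - 2) * k := by omega
  have T2 : T ≤ ((2 : ℝ) ^ (2 * h))⁻¹ := by rw [hT]; exact inv_two_le hdkh
  have T3 : T ≤ ((2 : ℝ) ^ h)⁻¹ := by rw [hT]; exact inv_two_le (by (clear * - hdkh; omega))
  have T4 : T ≤ ((2 : ℝ) ^ (4 * d + c))⁻¹ := by rw [hT]; exact inv_two_le hdk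
  have T5 : T ≤ 1 := by
    have := inv_two_le (m := (s - k - 2) * k) (p := 0) (by (clear * -; omega))
    rw [pow_zero, inv_one] at this
    rw [hT]; exact this
  -- small conditions
  have small : (2 : ℝ) ^ κ * (η + T) ≤ 1 := by
    have e1 : (2 : ℝ) ^ (κ + 1) * ((2 : ℝ) ^ h)⁻¹ ≤ ((2 : ℝ) ^ 0)⁻¹ := two_inv_le (by (clear * - hκh; omega))
    rw [pow_zero, inv_one, pow_succ] at e1
    have e2 := mul_le_mul_of_nonneg_left (add_le_add η1 T3) (P2 κ).le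
    linarith only [e1, e2]
  have ρ0 : 0 ≤ ρ := by rw [hρ]; positivity
  have ρ1 : (2 : ℝ) ^ (2 * k + 4) * ρ ≤ 1 := by
    have e1 : (2 : ℝ) ^ (2 * k + 4) * ((2 : ℝ) ^ r)⁻¹ ≤ ((2 : ℝ) ^ 0)⁻¹ := two_inv_le (by omega)
    rwa [pow_zero, inv_one, ← hρ] at e1
  obtain ⟨Z0, hZ0⟩ : ∃ Z0, Z0 = upT Y (Y + e - f) (Y + e + f) (tmb k) M := ⟨_, rfl⟩
  obtain ⟨Z1, hZ1⟩ : ∃ Z1, Z1 = upT Y (Y + e - f) (Y + e + f) (tmc k) M := ⟨_, rfl⟩
  have hTrip := D.trip
  rw [← hρ] at hTrip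
  obtain ⟨pZ0, pZ1, -, -, -, presZ, up⟩ := hDS k k Y e f a b T ρ M M0 ρ0 (by rw [hkk4]; exact ρ1)
    hTrip kM T1 (by rw [hkk, ← hκ, ← hη]; exact small) Z0 Z1 hZ0 hZ1
  obtain ⟨S, hS⟩ : ∃ S : ℕ, S = 2 * M + 2 ^ k := ⟨_, rfl⟩
  rw [hkk, ← hκ, ← hη, ← hS] at presZ up
  rw [hkk4] at up
  -- size of S
  have sizeS : ∀ (N : ℕ), k ≤ N → 2 ^ (N + 1) ≤ 2 * 2 ^ N + 2 ^ k ∧
      2 * 2 ^ N + 2 ^ k ≤ 2 ^ (N + 2) := by
    intro N hN
    have e1 : 2 ^ k ≤ 2 ^ N := Nat.pow_le_pow_right (by norm_num) hN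
    have e2 : 2 ^ (N + 1) = 2 * 2 ^ N := pow_succ' _ _
    have e3 : 2 ^ (N + 2) = 4 * 2 ^ N := by rw [pow_add]; ring
    have e4 : 0 < 2 ^ k := by positivity
    have e5 : 0 < 2 ^ N := by positivity
    constructor
    · rw [e2]; exact Nat.le_add_right _ _
    · rw [e3]; linarith only [e1, e4]
  obtain ⟨S1, S2⟩ := sizeS (g + 4 * s) (by (clear * - hk hks; omega))
  rw [← hM, ← hS] at S1 S2
  have S1' : ((2 : ℝ) ^ (g + 4 * s + 1)) ≤ S := by exact_mod_cast S1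
  -- the first l1 bound
  obtain ⟨E1, hE1⟩ : ∃ E1 : ℝ, E1 = (2 : ℝ) ^ κ * (η ^ 2 + T) := ⟨_, rfl⟩
  rw [← hE1] at presZ up
  have E10 : 0 ≤ E1 := by rw [hE1]; (clear * - T0; positivity)
  have E11 : E1 ≤ 2 ^ (κ + 1) * ((2 : ℝ) ^ (2 * h))⁻¹ := by
    have e1 : η ^ 2 ≤ ((2 : ℝ) ^ (2 * h))⁻¹ := by
      have := pow_le_pow_left₀ η0 η1 2
      rwa [inv_pow, ← pow_mul, mul_comm h 2] at this
    rw [hE1, pow_succ (2 : ℝ) κ]
    have e2 := mul_le_mul_of_nonneg_left (add_le_add e1 T2) (P2 κ).le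
    linarith only [e2]
  -- slip of Z0
  obtain ⟨gz, hgz⟩ : ∃ gz : ℕ, gz = 2 * g + 5 * s + 15 := ⟨_, rfl⟩
  have slipZ : L1Str.Slip (str (G := FreeMonoid Bool)) Z0 (2 ^ gz) := by
    rw [hgz]
    refine slip_pow2 D.trip.hY D.slip D.slipK S1 S2 (by rw [pow_add]; (clear * - hk hgs ks; omega)) fun n hn => ?_
    have e1 := presZ (List.replicate n false)
    rw [wd_replicate, List.length_replicate] at e1
    refine l1_lt_quarter E10 ?_ e1
    have e2 : (n : ℝ) ≤ (2 : ℝ) ^ (2 * g + 5 * s + 15) := by exact_mod_cast hn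
    have e3 : (2 : ℝ) ^ (2 * g + 5 * s + 15 + (κ + 1)) * ((2 : ℝ) ^ (2 * h))⁻¹
        ≤ ((2 : ℝ) ^ 5)⁻¹ := two_inv_le (by (clear * - hκ h1; omega))
    have e4 := mul_le_mul e2 E11 E10 (P2 _).le
    rw [pow_add] at e3
    have e5 : ((2 : ℝ) ^ 5)⁻¹ = 1 / 32 := by norm_num
    rw [e5] at e3
    linarith only [e4, e3]
  -- second level
  obtain ⟨M0', hM0'⟩ : ∃ M0' : ℕ, M0' = 2 ^ (gz + 3 * s) := ⟨_, rfl⟩
  obtain ⟨M', hM'⟩ : ∃ M' : ℕ, M' = 2 ^ (gz + 4 * s) := ⟨_, rfl⟩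
  have T1' := smooth pZ0 slipZ le_rfl
  rw [← hM0'] at T1'
  have kM' : k * M0' ≤ M' := by
    rw [hM0', hM']
    calc k * 2 ^ (gz + 3 * s) ≤ 2 ^ s * 2 ^ (gz + 3 * s) := Nat.mul_le_mul_right _ ks
      _ = 2 ^ (gz + 4 * s) := by rw [← pow_add]; congr 1; ring
  obtain ⟨R, hR⟩ : ∃ R : ℕ, R = 2 ^ c := ⟨_, rfl⟩
  obtain ⟨n0, hn0⟩ : ∃ n0 : ℕ, n0 = 2 ^ (4 * c) := ⟨_, rfl⟩
  have R1 : 1 ≤ R := by rw [hR]; exact Nat.one_le_two_pow
  have RM : R ≤ M := by rw [hR, hM]; exact Nat.pow_le_pow_right (by norm_num) (by (clear * - hk hks hcg; omega))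
  have n0M : n0 ≤ M' := by rw [hn0, hM']; exact Nat.pow_le_pow_right (by norm_num) (by omega)
  obtain ⟨τ, hτ⟩ : ∃ τ : ℝ, τ = ((2 : ℝ) ^ c)⁻¹ := ⟨_, rfl⟩
  have τ0 : 0 < τ := by rw [hτ]; positivity
  have τ1 : τ ≤ 1 := by
    have := inv_two_le (m := c) (p := 0) (by omega)
    rw [pow_zero, inv_one] at this
    rw [hτ]; exact this
  have τa : 4 * Real.sqrt ((1 + E1) ^ (n0 + 2 ^ k) - 1) ≤ τ / 2 := by
    rw [hn0, hτ]; exact tau_a E10 E11 h2
  have τb : 2 * (R : ℝ) * l1 ((1 - Y) * Y ^ (S * n0)) ≤ τ / 2 := by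
    rw [hn0, hτ, hR]; exact tau_b D.trip.hY D.slip D.slipK hks hgs hcg S1
  have hτs := add_le_add τa τb
  rw [add_halves] at hτs
  obtain ⟨W0, hW0⟩ : ∃ W0, W0 = upT Z0 Z0 Z1 (tmb k) M' := ⟨_, rfl⟩
  obtain ⟨W1, hW1⟩ : ∃ W1, W1 = upT Z0 Z0 Z1 (tmc k) M' := ⟨_, rfl⟩
  obtain ⟨pW0, pW1, loW, hiW, domW, presW⟩ := up T τ M' M0' n0 R kM' T1' T5 R1 RM n0M hτs τ1
    W0 W1 hW0 hW1
  obtain ⟨S', hS'⟩ : ∃ S' : ℕ, S' = 2 * M' + 2 ^ k := ⟨_, rfl⟩
  rw [← hS'] at presW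
  obtain ⟨S3, S4⟩ := sizeS (gz + 4 * s) (by omega)
  rw [← hM', ← hS'] at S3 S4
  -- delta
  obtain ⟨δ, hδ⟩ : ∃ δ : ℝ, δ = (a * η) ^ 2 := ⟨_, rfl⟩
  rw [← hδ] at domW presW
  have δ0 : 0 ≤ δ := by rw [hδ]; (clear * -; positivity)
  have δ1 : δ ≤ ((2 : ℝ) ^ (2 * d))⁻¹ := by
    have e1 := D.hdel
    rw [← hη] at e1
    have := pow_le_pow_left₀ (mul_nonneg a0 η0) e1 2
    rwa [inv_pow, ← pow_mul, mul_comm d 2, ← hδ] at this
  have δ2 : δ ^ 2 ≤ ((2 : ℝ) ^ (4 * d))⁻¹ := by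
    have := pow_le_pow_left₀ δ0 δ1 2
    rwa [inv_pow, ← pow_mul, show 2 * d * 2 = 4 * d by ring] at this
  have hR' : 1 / (R : ℝ) = τ := by rw [hR, hτ]; push_cast; rw [one_div]
  rw [hR'] at domW presW
  have m1 : ∀ N : ℕ, ((2 : ℝ) ^ N)⁻¹ * (τ + τ) = 2 * ((2 : ℝ) ^ (N + c))⁻¹ := by
    intro N
    rw [hτ, pow_add, mul_inv]; ring
  -- the domination constant
  obtain ⟨D', hD'⟩ : ∃ D' : ℕ, D' = 4 * d + c - κ - 2 := ⟨_, rfl⟩
  have domD : 2 ^ κ * (δ ^ 2 * (τ + τ) + T + T) ≤ ((2 : ℝ) ^ D')⁻¹ := by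
    have e1 : δ ^ 2 * (τ + τ) ≤ ((2 : ℝ) ^ (4 * d))⁻¹ * (τ + τ) :=
      mul_le_mul_of_nonneg_right δ2 (by (clear * - τ0; positivity))
    rw [m1] at e1
    have e2 := mul_le_mul_of_nonneg_left (add_le_add (add_le_add e1 T4) T4) (P2 κ).le
    have e3 : (2 : ℝ) ^ (κ + 2) * ((2 : ℝ) ^ (4 * d + c))⁻¹ ≤ ((2 : ℝ) ^ D')⁻¹ :=
      two_inv_le (by (clear * - hκ hk hhd h2 hD'; omega))
    rw [pow_add] at e3
    linarith only [e2, e3]
  obtain ⟨F, hF⟩ : ∃ F : ℝ, F = 2 ^ κ * (δ * (τ + τ) + T + T) := ⟨_, rfl⟩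
  rw [← hF] at presW
  have F0 : 0 ≤ F := by rw [hF]; (clear * - δ0 τ0 T0; positivity)
  have F1 : F ≤ 2 ^ (κ + 2) * ((2 : ℝ) ^ (2 * d + c))⁻¹ := by
    have e1 : δ * (τ + τ) ≤ ((2 : ℝ) ^ (2 * d))⁻¹ * (τ + τ) :=
      mul_le_mul_of_nonneg_right δ1 (by (clear * - τ0; positivity))
    rw [m1] at e1
    have e0 : T ≤ ((2 : ℝ) ^ (2 * d + c))⁻¹ := T4.trans (inv_two_le (by (clear * -; omega)))
    have e2 := mul_le_mul_of_nonneg_left (add_le_add (add_le_add e1 e0) e0) (P2 κ).le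
    rw [hF, pow_add]
    linarith only [e2]
  -- slip of W0
  have slipW : L1Str.Slip (str (G := FreeMonoid Bool)) W0 (2 ^ (2 * gz + 5 * s + 15)) := by
    refine slip_pow2 pZ0 slipZ le_rfl S3 S4 (by rw [pow_add]; (clear * - hgs hgz; omega)) fun n hn => ?_
    have e1 := presW (List.replicate n false)
    rw [wd_replicate, List.length_replicate] at e1
    refine l1_lt_quarter F0 ?_ e1
    have e2 : (n : ℝ) ≤ (2 : ℝ) ^ (2 * gz + 5 * s + 15) := by exact_mod_cast hn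
    have e3 : (2 : ℝ) ^ (2 * gz + 5 * s + 15 + (κ + 2)) * ((2 : ℝ) ^ (2 * d + c))⁻¹
        ≤ ((2 : ℝ) ^ 5)⁻¹ := two_inv_le (by (clear * - hκ h3 hgz; omega))
    have e4 := mul_le_mul e2 F1 F0 (P2 _).le
    rw [pow_add (2 : ℝ) (2 * gz + 5 * s + 15)] at e3
    have e5 : ((2 : ℝ) ^ 5)⁻¹ = 1 / 32 := by norm_num
    rw [e5] at e3
    linarith only [e4, e3]
  have egw : 2 * gz + 5 * s + 15 = 4 * g + 15 * s + 45 := by (clear * - hgz; omega)
  rw [egw] at slipW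
  -- words
  have hWu := W_l1_le hq0 hq1
  obtain ⟨z0, hz0⟩ : ∃ z0, z0 = upw u v0 v1 (tmb k) M := ⟨_, rfl⟩
  obtain ⟨z1, hz1⟩ : ∃ z1, z1 = upw u v0 v1 (tmc k) M := ⟨_, rfl⟩
  have z0c := upT_close (hWu u) (hWu v0) (hWu v1) (prob_l1_le D.trip.hY) (prob_l1_le D.trip.pM)
    (prob_l1_le D.trip.pP) D.errY D.err0 D.err1 (tmb k) M
  have z1c := upT_close (hWu u) (hWu v0) (hWu v1) (prob_l1_le D.trip.hY) (prob_l1_le D.trip.pM)
    (prob_l1_le D.trip.pP) D.errY D.err0 D.err1 (tmc k) M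
  rw [← upw_W, tmb_length, ← hS] at z0c
  rw [← upw_W, tmc_length, ← hS] at z1c
  have zne : z0 ≠ z1 := by rw [hz0, hz1]; exact upw_ne D.len0 D.len1 D.ne k M
  have zl0 : z0.length = S * u.length := by
    rw [hz0, upw_length D.len0 D.len1, tmb_length, ← hS]
  have zl1 : z1.length = S * u.length := by
    rw [hz1, upw_length D.len0 D.len1, tmc_length, ← hS]
  have z0c' : l1 (W q z0 - Z0) ≤ S * E := by rw [hz0, hZ0]; exact z0c
  have z1c' : l1 (W q z1 - Z1) ≤ S * E := by rw [hz1, hZ1]; exact z1c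
  have w0c := upT_close (hWu z0) (hWu z0) (hWu z1) (prob_l1_le pZ0) (prob_l1_le pZ0)
    (prob_l1_le pZ1) z0c' z0c' z1c' (tmb k) M'
  have w1c := upT_close (hWu z0) (hWu z0) (hWu z1) (prob_l1_le pZ0) (prob_l1_le pZ0)
    (prob_l1_le pZ1) z0c' z0c' z1c' (tmc k) M'
  rw [← upw_W, tmb_length, ← hS'] at w0c
  rw [← upw_W, tmc_length, ← hS'] at w1c
  obtain ⟨w0, hw0⟩ : ∃ w0, w0 = upw z0 z0 z1 (tmb k) M' := ⟨_, rfl⟩
  obtain ⟨w1, hw1⟩ : ∃ w1, w1 = upw z0 z0 z1 (tmc k) M' := ⟨_, rfl⟩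
  have hl : z1.length = z0.length := zl1.trans zl0.symm
  have wne : w0 ≠ w1 := by rw [hw0, hw1]; exact upw_ne rfl hl zne k M'
  have wl0 : w0.length = S' * (S * u.length) := by
    rw [hw0, upw_length rfl hl, tmb_length, ← hS', zl0]
  have wl1 : w1.length = S' * (S * u.length) := by
    rw [hw1, upw_length rfl hl, tmc_length, ← hS', zl0]
  have SS : S' * S ≤ 2 ^ (3 * g + 13 * s + 19) := by
    calc S' * S ≤ 2 ^ (gz + 4 * s + 2) * 2 ^ (g + 4 * s + 2) := Nat.mul_le_mul S4 S2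
      _ = 2 ^ (3 * g + 13 * s + 19) := by rw [← pow_add]; congr 1; (clear * - hgz; omega)
  have SSr : (S' : ℝ) * (S * E) ≤ 2 ^ (3 * g + 13 * s + 19) * E := by
    have e1 : (S' : ℝ) * S ≤ 2 ^ (3 * g + 13 * s + 19) := by exact_mod_cast SS
    have e2 := mul_le_mul_of_nonneg_right e1 hE
    linarith only [e2]
  -- final triple
  have hρ' : (2 : ℝ) ^ (2 * k + 4) * ρ = ((2 : ℝ) ^ (r - (2 * k + 4)))⁻¹ := by
    have e1 : (2 : ℝ) ^ r = 2 ^ (2 * k + 4) * 2 ^ (r - (2 * k + 4)) := by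
      rw [← pow_add]; congr 1; omega
    rw [hρ, e1, mul_inv, ← mul_assoc, mul_inv_cancel₀ (P2 _).ne', one_mul]
  rw [hρ'] at loW hiW
  obtain ⟨σ, tr, e0, e1, x1, x2, x3⟩ := of_pair_pow2 pW0 pW1 (domW.mono pW0.nonneg domD)
    (by omega) loW hiW
  rw [← hD']
  refine ⟨w0, w0, w1, W0, (1 / 2 : ℝ) • (W1 - W0), (1 / 2 : ℝ) • (W1 - W0), σ / 2, σ / 2,
    2 ^ (4 * g + 15 * s + 45), ⟨wne, rfl, wl1.trans wl0.symm, ?_, ?_, ?_, ?_, tr, x1, x2, slipW,
    le_rfl⟩, x3⟩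
  · rw [wl0, ← mul_assoc]
    calc S' * S * u.length ≤ 2 ^ (3 * g + 13 * s + 19) * 2 ^ l := Nat.mul_le_mul SS D.len
      _ = _ := by rw [← pow_add]; congr 1; omega
  · rw [hw0, hW0]; exact w0c.trans SSr
  · rw [e0, hw0, hW0]; exact w0c.trans SSr
  · rw [e1, hw1, hW1]; exact w1c.trans SSr

/-- the one step theorem -/
theorem step_ok {q : ℝ} {A : ℕ} (hDS : SmallDS A) (hq0 : 0 ≤ q) (hq1 : q ≤ 1) : StepOK q A := by
  intro g l h d r k s c E hE hk hks hgs hkr hhd hκh hdk hcg h1 h2 h3 H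
  exact HasTri.step A hDS hq0 hq1 hE rfl hk hks hgs hkr hhd hκh hdk hcg h1 h2 h3 H

end Vale.Agent.P321.MA
end

section

/-!
The letter algebra: letters `0, 1, 2` stand for the strings `0`, `1`, `01`. The trace law of `01`
is `U = q² + (1-q²) v` with `v` a law on letters, and the trace law of `0` is `E = q + (1-q) [0]`.
-/

namespace Vale.Agent.P321.Lt

open Finset Polynomial
open MA (ev le Prob push restr)

/-- words in three letters -/
abbrev LW : Type := FreeMonoid (Fin 3)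

/-- signed measures on words in three letters -/
abbrev LA : Type := MonoidAlgebra ℝ LW

/-- a single letter -/
noncomputable def sg (i : Fin 3) : LA := MonoidAlgebra.single (FreeMonoid.of i) 1

/-- law of a nonempty trace of `01` -/
noncomputable def v (q : ℝ) : LA :=
  (q / (1 + q)) • sg 0 + (q / (1 + q)) • sg 1 + ((1 - q) / (1 + q)) • sg 2

/-- trace law of `01` -/
noncomputable def U (q : ℝ) : LA := (q ^ 2) • (1 : LA) + (1 - q ^ 2) • v q

/-- trace law of `0` -/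
noncomputable def E (q : ℝ) : LA := q • (1 : LA) + (1 - q) • sg 0

/-- trace law of `(01)^a 0 (01)^b` -/
noncomputable def cell (q : ℝ) (a b : ℕ) : LA := U q ^ a * E q * U q ^ b

/-- the strings of the letters -/
def bits : LW →* FreeMonoid Bool :=
  FreeMonoid.lift fun i => if i = 0 then FreeMonoid.of false else
    if i = 1 then FreeMonoid.of true else FreeMonoid.of false * FreeMonoid.of true

theorem sg_prob (i : Fin 3) : Prob (sg i) := by
  refine ⟨MA.nonneg_single _ zero_le_one, ?_⟩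
  change MA.l1 (sg i) = 1
  rw [sg, MA.l1_single, abs_one]

theorem aug_sg (i : Fin 3) : MA.aug (sg i) = 1 := (sg_prob i).aug

theorem nonneg_v {q : ℝ} (h0 : 0 ≤ q) (h1 : q ≤ 1) : MA.nonneg (v q) := by
  have h2 : 0 ≤ q / (1 + q) := by (clear * - h0; positivity)
  have h3 : 0 ≤ (1 - q) / (1 + q) := div_nonneg (by linarith only [h1]) (by (clear * - h0; linarith))
  exact MA.nonneg_add (MA.nonneg_add (MA.nonneg_smul h2 (sg_prob 0).1)
    (MA.nonneg_smul h2 (sg_prob 1).1)) (MA.nonneg_smul h3 (sg_prob 2).1)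

theorem prob_v {q : ℝ} (h0 : 0 ≤ q) (h1 : q ≤ 1) : Prob (v q) := by
  refine MA.prob_iff.mpr ⟨nonneg_v h0 h1, ?_⟩
  rw [v, MA.aug_add, MA.aug_add, MA.aug_smul, MA.aug_smul, MA.aug_smul, aug_sg, aug_sg, aug_sg]
  have : (1 + q) ≠ 0 := by (clear * - h0; positivity)
  field_simp
  ring

theorem prob_U {q : ℝ} (h0 : 0 ≤ q) (h1 : q ≤ 1) : Prob (U q) := by
  have h2 : q ^ 2 ≤ 1 := pow_le_one₀ h0 h1
  refine MA.prob_iff.mpr ⟨MA.nonneg_add (MA.nonneg_smul (by positivity) MA.nonneg_one)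
    (MA.nonneg_smul (by linarith) (nonneg_v h0 h1)), ?_⟩
  rw [U, MA.aug_add, MA.aug_smul, MA.aug_smul, MA.aug_one, (prob_v h0 h1).aug]
  ring

theorem prob_E {q : ℝ} (h0 : 0 ≤ q) (h1 : q ≤ 1) : Prob (E q) := by
  refine MA.prob_iff.mpr ⟨MA.nonneg_add (MA.nonneg_smul h0 MA.nonneg_one)
    (MA.nonneg_smul (by linarith only [h1]) (sg_prob 0).1), ?_⟩
  rw [E, MA.aug_add, MA.aug_smul, MA.aug_smul, MA.aug_one, aug_sg]
  ring

theorem prob_cell {q : ℝ} (h0 : 0 ≤ q) (h1 : q ≤ 1) (a b : ℕ) : Prob (cell q a b) :=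
  ((prob_U h0 h1).pow a |>.mul (prob_E h0 h1)).mul ((prob_U h0 h1).pow b)

/-- push forward to bit strings -/
noncomputable def toBits : LA →ₐ[ℝ] Alg := push bits

theorem toBits_sg (i : Fin 3) : toBits (sg i) = MonoidAlgebra.single (bits (FreeMonoid.of i)) 1 :=
  MA.push_single _ _ _

theorem toBits_E (q : ℝ) : toBits (E q) = W q [false] := by
  rw [E, map_add, map_smul, map_smul, map_one, toBits_sg, W, List.map_cons, List.map_nil,
    List.prod_cons, List.prod_nil, mul_one, letter]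
  rfl

theorem toBits_U {q : ℝ} (h0 : 0 ≤ q) : toBits (U q) = W q [false, true] := by
  have hq : (1 + q) ≠ 0 := by (clear * - h0; positivity)
  have e0 : toBits (sg 0) = MonoidAlgebra.single (FreeMonoid.of false) 1 := toBits_sg 0
  have e1 : toBits (sg 1) = MonoidAlgebra.single (FreeMonoid.of true) 1 := toBits_sg 1
  have e2 : toBits (sg 2) = MonoidAlgebra.single (FreeMonoid.of false) 1
      * MonoidAlgebra.single (FreeMonoid.of true) 1 := by
    rw [MonoidAlgebra.single_mul_single, mul_one]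
    exact toBits_sg 2
  rw [U, v, map_add, map_smul, map_smul, map_one, map_add, map_add, map_smul, map_smul, map_smul,
    e0, e1, e2, W, List.map_cons, List.map_cons, List.map_nil, List.prod_cons, List.prod_cons,
    List.prod_nil, mul_one, letter, letter]
  set a : Alg := MonoidAlgebra.single (FreeMonoid.of false) 1
  set b : Alg := MonoidAlgebra.single (FreeMonoid.of true) 1
  rw [add_mul, mul_add, mul_add, smul_mul_smul_comm, smul_mul_smul_comm, smul_mul_smul_comm,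
    smul_mul_smul_comm, smul_add, smul_add, smul_smul, smul_smul, smul_smul, one_mul, one_mul,
    mul_one]
  have c1 : (1 - q ^ 2) * (q / (1 + q)) = (1 - q) * q := by field_simp; ring
  have c2 : (1 - q ^ 2) * ((1 - q) / (1 + q)) = (1 - q) * (1 - q) := by field_simp; ring
  rw [c1, c2]
  module

/-- the word `(01)^a 0 (01)^b` -/
def xw (a b : ℕ) : List Bool := rep [false, true] a ++ [false] ++ rep [false, true] b

theorem xw_length (a b : ℕ) : (xw a b).length = 2 * (a + b) + 1 := by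
  rw [xw, List.length_append, List.length_append, rep_length, rep_length]
  simp only [List.length_cons, List.length_nil, zero_add, Nat.reduceAdd]
  ring

theorem toBits_cell {q : ℝ} (h0 : 0 ≤ q) (a b : ℕ) : toBits (cell q a b) = W q (xw a b) := by
  have hrep : ∀ k, W q (rep [false, true] k) = W q [false, true] ^ k :=
    fun k => F_rep (W q) (W_append q) (W_nil q) _ k
  rw [cell, map_mul, map_mul, map_pow, map_pow, toBits_U h0, toBits_E, xw, W_append, W_append,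
    hrep, hrep]

theorem E_le_U {q : ℝ} (h0 : 0 ≤ q) (h1 : q ≤ 1) : le (q • E q) (U q) := by
  rw [MA.le_iff]
  have hq : (1 + q) ≠ 0 := by (clear * - h0; positivity)
  have e : U q - q • E q = ((1 - q) * q) • sg 1 + ((1 - q) * (1 - q)) • sg 2 := by
    have c1 : (1 - q ^ 2) * (q / (1 + q)) = (1 - q) * q := by field_simp; ring
    have c2 : (1 - q ^ 2) * ((1 - q) / (1 + q)) = (1 - q) * (1 - q) := by field_simp; ring
    rw [U, v, E, smul_add, smul_add, smul_smul, smul_smul, smul_smul, c1, c2, smul_add,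
      smul_smul, smul_smul]
    module
  rw [e]
  exact MA.nonneg_add (MA.nonneg_smul (mul_nonneg (by linarith only [h1]) h0) (sg_prob 1).1)
    (MA.nonneg_smul (mul_nonneg (by linarith only [h1]) (by linarith only [h1])) (sg_prob 2).1)

theorem one_le_E {q : ℝ} (h1 : q ≤ 1) : le (q • (1 : LA)) (E q) := by
  rw [MA.le_iff]
  have e : E q - q • (1 : LA) = (1 - q) • sg 0 := by rw [E]; abel
  rw [e]
  exact MA.nonneg_smul (by linarith only [h1]) (sg_prob 0).1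

theorem cell_le {q : ℝ} (h0 : 0 ≤ q) (h1 : q ≤ 1) (a b : ℕ) :
    le (q • cell q a b) (U q ^ (a + b + 1)) := by
  have hU := prob_U h0 h1
  have e1 : q • cell q a b = U q ^ a * (q • E q) * U q ^ b := by
    rw [cell, mul_smul_comm, smul_mul_assoc]
  have e2 : U q ^ (a + b + 1) = U q ^ a * U q * U q ^ b := by
    rw [← pow_succ, ← pow_add]; congr 1; ring
  rw [e1, e2]
  refine MA.le_mul ?_ (hU.pow b).1 ?_ (MA.le_refl _)
  · exact MA.nonneg_mul (hU.pow a).1 (MA.nonneg_smul h0 (prob_E h0 h1).1)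
  · exact MA.le_mul (hU.pow a).1 (MA.nonneg_smul h0 (prob_E h0 h1).1) (MA.le_refl _)
      (E_le_U h0 h1)

theorem le_cell {q : ℝ} (h0 : 0 ≤ q) (h1 : q ≤ 1) (a b : ℕ) :
    le (q • U q ^ (a + b)) (cell q a b) := by
  have hU := prob_U h0 h1
  have e1 : q • U q ^ (a + b) = U q ^ a * (q • (1 : LA)) * U q ^ b := by
    rw [mul_smul_comm, mul_one, smul_mul_assoc, ← pow_add]
  rw [e1, cell]
  refine MA.le_mul ?_ (hU.pow b).1 ?_ (MA.le_refl _)
  · exact MA.nonneg_mul (hU.pow a).1 (MA.nonneg_smul h0 MA.nonneg_one)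
  · exact MA.le_mul (hU.pow a).1 (MA.nonneg_smul h0 MA.nonneg_one) (MA.le_refl _)
      (one_le_E h1)

/-! ### letter count -/

/-- number of letters -/
def len (w : LW) : ℕ := FreeMonoid.length w

theorem len_one : len (1 : LW) = 0 := rfl
theorem len_mul (a b : LW) : len (a * b) = len a + len b := FreeMonoid.length_mul a b
theorem len_of (i : Fin 3) : len (FreeMonoid.of i) = 1 := rfl

/-- generating function of the number of letters -/
noncomputable def gen : LA →ₐ[ℝ] ℝ[X] :=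
  MonoidAlgebra.lift ℝ ℝ[X] LW (FreeMonoid.lift fun _ => (X : ℝ[X]))

theorem gen_single (w : LW) (r : ℝ) : gen (MonoidAlgebra.single w r) = r • X ^ len w := by
  have h : ∀ w : LW, (FreeMonoid.lift fun _ : Fin 3 => (X : ℝ[X])) w = X ^ len w := by
    intro w
    induction w using FreeMonoid.inductionOn' with
    | one => rw [map_one, len_one, pow_zero]
    | of_mul a w ih =>
      rw [map_mul, ih, FreeMonoid.lift_eval_of, len_mul, len_of, pow_add, pow_one]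
  rw [gen, MonoidAlgebra.lift_single, h]

theorem ev_len (x : LA) (g : ℕ → ℝ) :
    ev x (fun w => g (len w)) = (gen x).sum fun k c => c * g k := by
  induction x using MonoidAlgebra.induction_linear with
  | zero => rw [map_zero, MA.ev_zero, Polynomial.sum_zero_index]
  | add x y hx hy =>
    rw [map_add, MA.ev_add, hx, hy, Polynomial.sum_add_index]
    · intro i; rw [zero_mul]
    · intro a b c; rw [add_mul]
  | single m r =>
    rw [MA.ev_single, gen_single, ← Polynomial.C_mul', Polynomial.C_mul_X_pow_eq_monomial,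
      Polynomial.sum_monomial_index]
    rw [zero_mul]

theorem gen_sg (i : Fin 3) : gen (sg i) = X := by
  rw [sg, gen_single, len_of, one_smul, pow_one]

theorem gen_v {q : ℝ} (h0 : 0 ≤ q) : gen (v q) = X := by
  have hq : (1 + q) ≠ 0 := by (clear * - h0; positivity)
  rw [v, map_add, map_add, map_smul, map_smul, map_smul, gen_sg, gen_sg, gen_sg, ← add_smul,
    ← add_smul]
  have : q / (1 + q) + q / (1 + q) + (1 - q) / (1 + q) = 1 := by field_simp; ring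
  rw [this, one_smul]

theorem gen_cell (q : ℝ) (a b : ℕ) : gen (cell q a b) = gen (U q) ^ (a + b) * gen (E q) := by
  rw [cell, map_mul, map_mul, map_pow, map_pow, pow_add]; ring

/-- the truncated mass only depends on the total number of cells -/
theorem aug_restr_cell (q : ℝ) (T a b a' b' : ℕ) (h : a + b = a' + b') :
    MA.aug (restr (fun w => len w ≤ T) (cell q a b))
      = MA.aug (restr (fun w => len w ≤ T) (cell q a' b')) := by
  classical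
  have key : ∀ a b, MA.aug (restr (fun w => len w ≤ T) (cell q a b))
      = (gen (cell q a b)).sum fun k c => c * (if k ≤ T then 1 else 0) := by
    intro a b
    rw [MA.aug, MA.ev_restr, ← ev_len _ fun k => if k ≤ T then 1 else 0]
    refine congrArg (ev (cell q a b)) (funext fun w => ?_)
    by_cases hw : len w ≤ T
    · rw [if_pos hw, if_pos hw]
    · rw [if_neg hw, if_neg hw]
  rw [key, key, gen_cell, gen_cell, h]

/-- exponential moment of the number of letters -/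
theorem ev_pow_len (x : LA) (z : ℝ) : ev x (fun w => z ^ len w) = (gen x).eval z := by
  rw [ev_len x fun k => z ^ k, Polynomial.eval_eq_sum]

theorem tail_le {x : LA} (hx : Prob x) (T : ℕ) {z : ℝ} (hz : 1 ≤ z) :
    (1 - MA.aug (restr (fun w => len w ≤ T) x)) * z ^ T ≤ (gen x).eval z := by
  classical
  have e : 1 - MA.aug (restr (fun w => len w ≤ T) x)
      = ev x (fun w => 1 - if len w ≤ T then 1 else 0) := by
    have h1 := hx.aug
    rw [MA.aug] at h1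
    rw [MA.ev_sub_fun, h1, MA.aug, MA.ev_restr]
    refine congrArg (fun t => 1 - ev x t) (funext fun w => ?_)
    by_cases hw : len w ≤ T
    · rw [if_pos hw, if_pos hw]
    · rw [if_neg hw, if_neg hw]
  rw [← ev_pow_len, e, mul_comm, ← MA.ev_mul_fun]
  refine MA.ev_mono_fun hx.1 fun w => ?_
  by_cases h : len w ≤ T
  · rw [if_pos h, sub_self, mul_zero]; positivity
  · rw [if_neg h, sub_zero, mul_one]
    exact pow_le_pow_right₀ hz (by omega)

theorem eval_gen_cell {q : ℝ} (h0 : 0 ≤ q) (a b : ℕ) (z : ℝ) :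
    (gen (cell q a b)).eval z
      = (q ^ 2 + (1 - q ^ 2) * z) ^ (a + b) * (q + (1 - q) * z) := by
  rw [gen_cell, U, E, map_add, map_smul, map_smul, map_one, gen_v h0, map_add, map_smul,
    map_smul, map_one, gen_sg]
  simp only [eval_mul, eval_pow, eval_add, eval_smul, eval_one, smul_eq_mul, mul_one, eval_X]

/-! ### homogeneity and comparison of powers of `U` -/

theorem ev_v (q : ℝ) (g : LW → ℝ) : ev (v q) g = (q / (1 + q)) * g (FreeMonoid.of 0)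
    + (q / (1 + q)) * g (FreeMonoid.of 1) + ((1 - q) / (1 + q)) * g (FreeMonoid.of 2) := by
  rw [v, MA.ev_add, MA.ev_add, MA.ev_smul, MA.ev_smul, MA.ev_smul, sg, sg, sg, MA.ev_single,
    MA.ev_single, MA.ev_single, one_mul, one_mul, one_mul]

theorem ev_v_pow (q : ℝ) (n : ℕ) (g h : LW → ℝ) (hgh : ∀ w, len w = n → g w = h w) :
    ev (v q ^ n) g = ev (v q ^ n) h := by
  induction n generalizing g h with
  | zero =>
    rw [pow_zero, MA.ev_one, MA.ev_one]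
    exact hgh 1 rfl
  | succ n ih =>
    rw [pow_succ', MA.ev_mul, MA.ev_mul, ev_v, ev_v]
    have key : ∀ i : Fin 3, ev (v q ^ n) (fun w => g (FreeMonoid.of i * w))
        = ev (v q ^ n) (fun w => h (FreeMonoid.of i * w)) := by
      intro i
      refine ih _ _ fun w hw => hgh _ ?_
      rw [len_mul, len_of, hw, add_comm]
    rw [key, key, key]

theorem restr_v_pow (q : ℝ) (T n : ℕ) :
    restr (fun w => len w ≤ T) (v q ^ n) = if n ≤ T then v q ^ n else 0 := by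
  classical
  refine MA.ext_ev fun g => ?_
  rw [MA.ev_restr]
  by_cases h : n ≤ T
  · rw [if_pos h]
    exact ev_v_pow q n _ _ fun w hw => by rw [if_pos (by omega)]
  · rw [if_neg h, MA.ev_zero]
    refine (ev_v_pow q n _ (fun _ => 0) fun w hw => by rw [if_neg (by omega)]).trans ?_
    rw [MA.ev_const, zero_mul]

/-- binomial weights -/
noncomputable def bw (q : ℝ) (N n : ℕ) : ℝ := (N.choose n : ℝ) * (1 - q ^ 2) ^ n * (q ^ 2) ^ (N - n)

theorem U_pow (q : ℝ) (N : ℕ) : U q ^ N = ∑ n ∈ range (N + 1), bw q N n • v q ^ n := by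
  have hc : Commute ((1 - q ^ 2) • v q) ((q ^ 2) • (1 : LA)) :=
    (Commute.one_right _).smul_right _
  rw [U, add_comm, hc.add_pow]
  refine Finset.sum_congr rfl fun n _ => ?_
  rw [smul_pow, smul_pow, one_pow, smul_mul_smul_comm, mul_one, bw, ← Nat.cast_comm,
    ← nsmul_eq_mul, ← Nat.cast_smul_eq_nsmul ℝ, smul_smul, mul_assoc]

theorem restr_U_pow (q : ℝ) {T N : ℕ} (h : T ≤ N) :
    restr (fun w => len w ≤ T) (U q ^ N) = ∑ n ∈ range (T + 1), bw q N n • v q ^ n := by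
  rw [U_pow, MA.restr_sum]
  have e : ∀ n ∈ range (N + 1), restr (fun w => len w ≤ T) (bw q N n • v q ^ n)
      = if n ≤ T then bw q N n • v q ^ n else 0 := by
    intro n _
    rw [MA.restr_smul, restr_v_pow]
    split_ifs
    · rfl
    · rw [smul_zero]
  rw [Finset.sum_congr rfl e, ← Finset.sum_filter]
  refine Finset.sum_congr ?_ fun _ _ => rfl
  ext n
  simp only [Finset.mem_filter, Finset.mem_range]
  omega

theorem bw_succ (q : ℝ) {N n : ℕ} (h : n ≤ N) :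
    bw q (N + 1) n * ((N : ℝ) + 1 - n) = bw q N n * (q ^ 2 * (N + 1)) := by
  have h1 : ((N + 1).choose n : ℝ) * ((N : ℝ) + 1 - n) = (N.choose n : ℝ) * (N + 1) := by
    have := Nat.choose_mul_succ_eq N n
    have h2 : ((N + 1 - n : ℕ) : ℝ) = (N : ℝ) + 1 - n := by
      rw [Nat.cast_sub (by omega)]; push_cast; ring
    rw [← h2]
    exact_mod_cast this.symm
  have h3 : N + 1 - n = (N - n) + 1 := by omega
  rw [bw, bw, h3, pow_succ]
  linear_combination ((1 - q ^ 2) ^ n * (q ^ 2) ^ (N - n) * q ^ 2) * h1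

theorem restr_U_le {q : ℝ} (h0 : 0 ≤ q) (h1 : q ≤ 1) {T N : ℕ} {K : ℝ} (h : T ≤ N)
    (hK : q ^ 2 * (N + 1) ≤ K * ((N : ℝ) + 1 - T)) :
    le (restr (fun w => len w ≤ T) (U q ^ (N + 1)))
      (K • restr (fun w => len w ≤ T) (U q ^ N)) := by
  rw [restr_U_pow q h, restr_U_pow q (by omega : T ≤ N + 1), MA.le_iff, Finset.smul_sum,
    ← Finset.sum_sub_distrib]
  refine MA.nonneg_sum _ _ fun n hn => ?_
  rw [smul_smul, ← sub_smul]
  refine MA.nonneg_smul ?_ (MA.nonneg_pow (nonneg_v h0 h1) n)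
  have hnT : n ≤ T := by have := Finset.mem_range.mp hn; omega
  have hT : (n : ℝ) ≤ T := by exact_mod_cast hnT
  have hTN : (T : ℝ) ≤ N := by exact_mod_cast h
  have hK0 : 0 ≤ K := by
    by_contra hneg
    have : K * ((N : ℝ) + 1 - T) < 0 := mul_neg_of_neg_of_pos (not_le.mp hneg) (by linarith only [hTN])
    have h5 : 0 ≤ q ^ 2 * ((N : ℝ) + 1) := by (clear * -; positivity)
    linarith only [hK, this, h5]
  have hb : 0 ≤ bw q N n := by
    have : 0 ≤ 1 - q ^ 2 := by linarith only [mul_nonneg (sub_nonneg.2 h1) (sub_nonneg.2 h0), mul_nonneg (sub_nonneg.2 h1) (sub_nonneg.2 h1)]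
    unfold bw
    (clear * - this; positivity)
  have h3 := bw_succ q (N := N) (n := n) (by omega)
  have h4 : bw q (N + 1) n * ((N : ℝ) + 1 - n) ≤ (K * bw q N n) * ((N : ℝ) + 1 - n) := by
    rw [h3]
    have : q ^ 2 * ((N : ℝ) + 1) ≤ K * ((N : ℝ) + 1 - n) := by linarith only [mul_nonneg (sub_nonneg.2 hT) (sub_nonneg.2 hK0), hK]
    linarith only [mul_nonneg (sub_nonneg.2 hb) (sub_nonneg.2 this)]
  have h5 : bw q (N + 1) n ≤ K * bw q N n := le_of_mul_le_mul_right h4 (by linarith only [hT, hTN])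
  linarith only [h5]

end Vale.Agent.P321.Lt
end

section

/-!
Truncated and normalized laws of the words `(01)^a 0 (01)^b`.
-/

namespace Vale.Agent.P321.Lt

open Finset
open MA (ev le Prob push restr Dom)

/-- truncated mass -/
noncomputable def ms (q : ℝ) (L D : ℕ) : ℝ :=
  MA.aug (restr (fun w => len w ≤ 2 * L - D) (cell q L L))

/-- truncated normalized element -/
noncomputable def hat (q : ℝ) (L D : ℕ) (x : LA) : Alg :=
  toBits ((ms q L D)⁻¹ • restr (fun w => len w ≤ 2 * L - D) x)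

theorem hat_add (q : ℝ) (L D : ℕ) (x y : LA) : hat q L D (x + y) = hat q L D x + hat q L D y := by
  rw [hat, MA.restr_add, smul_add, map_add]; rfl

theorem hat_smul (q : ℝ) (L D : ℕ) (c : ℝ) (x : LA) : hat q L D (c • x) = c • hat q L D x := by
  rw [hat, MA.restr_smul, smul_comm, map_smul]; rfl

theorem hat_sub (q : ℝ) (L D : ℕ) (x y : LA) : hat q L D (x - y) = hat q L D x - hat q L D y := by
  rw [hat, MA.restr_sub, smul_sub, map_sub]; rfl

variable {q : ℝ} {L D : ℕ}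

theorem prob_hat (h0 : 0 ≤ q) (h1 : q ≤ 1) (hm : 0 < ms q L D) {a b : ℕ} (hab : a + b = 2 * L) :
    Prob (hat q L D (cell q a b)) := by
  refine MA.prob_push _ (MA.prob_iff.mpr ⟨MA.nonneg_smul (inv_nonneg.mpr hm.le)
    (MA.nonneg_restr _ (prob_cell h0 h1 a b).1), ?_⟩)
  rw [MA.aug_smul, aug_restr_cell q _ a b L L (by omega)]
  exact inv_mul_cancel₀ hm.ne'

/-- comparison constant hypothesis -/
theorem restr_cell_le (h0 : 0 < q) (h1 : q ≤ 1) {K : ℝ} (hD : 2 * L - D ≤ 2 * L)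
    (hK : q ^ 2 * ((2 * L : ℕ) + 1 : ℝ) ≤ K * (((2 * L : ℕ) : ℝ) + 1 - ((2 * L - D : ℕ) : ℝ)))
    {a b a' b' : ℕ} (hab : a + b = 2 * L) (hab' : a' + b' = 2 * L) (hK0 : 0 ≤ K) :
    le (restr (fun w => len w ≤ 2 * L - D) (cell q a b))
      ((K * q⁻¹ * q⁻¹) • restr (fun w => len w ≤ 2 * L - D) (cell q a' b')) := by
  have e1 : le (restr (fun w => len w ≤ 2 * L - D) (cell q a b))
      (q⁻¹ • restr (fun w => len w ≤ 2 * L - D) (U q ^ (2 * L + 1))) := by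
    have h2 := MA.le_restr (fun w => len w ≤ 2 * L - D) (cell_le h0.le h1 a b)
    rw [MA.restr_smul, hab] at h2
    have h3 := MA.le_smul (inv_nonneg.mpr h0.le) h2
    rwa [smul_smul, inv_mul_cancel₀ h0.ne', one_smul] at h3
  have e2 := restr_U_le h0.le h1 hD hK
  have e3 : le (restr (fun w => len w ≤ 2 * L - D) (U q ^ (2 * L)))
      (q⁻¹ • restr (fun w => len w ≤ 2 * L - D) (cell q a' b')) := by
    have h2 := MA.le_restr (fun w => len w ≤ 2 * L - D) (le_cell h0.le h1 a' b')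
    rw [MA.restr_smul, hab'] at h2
    have h3 := MA.le_smul (inv_nonneg.mpr h0.le) h2
    rwa [smul_smul, inv_mul_cancel₀ h0.ne', one_smul] at h3
  refine MA.le_trans e1 ?_
  refine MA.le_trans (MA.le_smul (inv_nonneg.mpr h0.le) e2) ?_
  have h4 := MA.le_smul (c := q⁻¹ * K) (by (clear * - h0 hK0; positivity)) e3
  rw [smul_smul] at h4 ⊢
  have e5 : K * q⁻¹ * q⁻¹ = q⁻¹ * K * q⁻¹ := by ring
  rwa [e5]

theorem hat_le (h0 : 0 < q) (h1 : q ≤ 1) {K : ℝ} (hD : 2 * L - D ≤ 2 * L)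
    (hK : q ^ 2 * ((2 * L : ℕ) + 1 : ℝ) ≤ K * (((2 * L : ℕ) : ℝ) + 1 - ((2 * L - D : ℕ) : ℝ)))
    {a b a' b' : ℕ} (hab : a + b = 2 * L) (hab' : a' + b' = 2 * L) (hK0 : 0 ≤ K)
    (hm : 0 < ms q L D) :
    le (hat q L D (cell q a b)) ((K * q⁻¹ * q⁻¹) • hat q L D (cell q a' b')) := by
  have h2 := restr_cell_le h0 h1 hD hK hab hab' hK0
  have h3 := MA.le_smul (inv_nonneg.mpr hm.le) h2
  have h4 := MA.le_push bits h3
  rw [smul_comm] at h4
  have e : MA.push bits ((K * q⁻¹ * q⁻¹) • (ms q L D)⁻¹ • restr (fun w => len w ≤ 2 * L - D)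
      (cell q a' b')) = (K * q⁻¹ * q⁻¹) • hat q L D (cell q a' b') := by
    rw [map_smul]; rfl
  rw [e] at h4
  exact h4

theorem hat_dom (h0 : 0 < q) (h1 : q ≤ 1) {K : ℝ} (hD : 2 * L - D ≤ 2 * L)
    (hK : q ^ 2 * ((2 * L : ℕ) + 1 : ℝ) ≤ K * (((2 * L : ℕ) : ℝ) + 1 - ((2 * L - D : ℕ) : ℝ)))
    (hK0 : 0 ≤ K) (hm : 1 / 2 ≤ ms q L D) {x : LA} {δ : ℝ} (hδ : 0 ≤ δ)
    (hx : Dom x (U q ^ (2 * L + 1)) δ) :
    Dom (hat q L D x) (hat q L D (cell q L L)) (2 * K * q⁻¹ * δ) := by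
  have hm0 : 0 < ms q L D := by linarith only [hm]
  set m := ms q L D with hmdef
  have d1 := hx.restr (fun w => len w ≤ 2 * L - D)
  have e2 := restr_U_le h0.le h1 hD hK
  have e3 : le (restr (fun w => len w ≤ 2 * L - D) (U q ^ (2 * L)))
      (q⁻¹ • restr (fun w => len w ≤ 2 * L - D) (cell q L L)) := by
    have h2 := MA.le_restr (fun w => len w ≤ 2 * L - D) (le_cell h0.le h1 L L)
    rw [MA.restr_smul, ← two_mul] at h2
    have h3 := MA.le_smul (inv_nonneg.mpr h0.le) h2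
    rwa [smul_smul, inv_mul_cancel₀ h0.ne', one_smul] at h3
  have e4 : le (restr (fun w => len w ≤ 2 * L - D) (U q ^ (2 * L + 1)))
      ((K * q⁻¹ * m) • (m⁻¹ • restr (fun w => len w ≤ 2 * L - D) (cell q L L))) := by
    refine MA.le_trans e2 ?_
    have h4 := MA.le_smul hK0 e3
    rw [smul_smul] at h4
    rw [smul_smul]
    have e5 : K * q⁻¹ * m * m⁻¹ = K * q⁻¹ := by (clear * - hm h0; field_simp)
    rwa [e5]
  have d2 := (d1.base hδ e4).smul m⁻¹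
  have d3 := d2.push bits
  refine d3.mono ?_ ?_
  · exact MA.nonneg_push _ (MA.nonneg_smul (inv_nonneg.mpr hm0.le)
      (MA.nonneg_restr _ (prob_cell h0.le h1 L L).1))
  · have e6 : m⁻¹ ^ 2 * (δ * (K * q⁻¹ * m)) = (δ * (K * q⁻¹)) * m⁻¹ := by (clear * - h0 hm; field_simp)
    rw [e6]
    have h7 : m⁻¹ ≤ 2 := by
      rw [inv_le_comm₀ hm0 (by norm_num)]
      linarith only [hm]
    have h8 : 0 ≤ δ * (K * q⁻¹) := by (clear * - hδ hK0 h0; positivity)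
    linarith only [mul_nonneg (sub_nonneg.2 h7) (sub_nonneg.2 h8)]

theorem hat_l1 (h0 : 0 ≤ q) (h1 : q ≤ 1) (hm : 0 < ms q L D) {a b : ℕ} (hab : a + b = 2 * L) :
    MA.l1 (W q (xw a b) - hat q L D (cell q a b)) ≤ 2 * (1 - ms q L D) := by
  have e : W q (xw a b) - hat q L D (cell q a b)
      = toBits (cell q a b - (ms q L D)⁻¹ • restr (fun w => len w ≤ 2 * L - D) (cell q a b)) := by
    rw [map_sub, toBits_cell h0]; rfl
  rw [e]
  refine (MA.l1_push_le _ _).trans ?_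
  exact MA.l1_sub_restr _ (prob_cell h0 h1 a b).1 (prob_cell h0 h1 a b).aug
    (aug_restr_cell q _ a b L L (by omega)) hm

/-- tail bound -/
theorem one_sub_ms_le (h0 : 0 < q) (h1 : q < 1) {k0 : ℕ}
    (hk : (1 - 2 * q ^ 2 / 3) ^ k0 ≤ 1 / 3) (L : ℕ) :
    1 - ms q L (L / k0) ≤ 3 * (1 - 2 * q ^ 2 / 3) ^ L := by
  set ρ : ℝ := 1 - 2 * q ^ 2 / 3 with hρ
  have hq2 : q ^ 2 < 1 := by nlinarith only [h1, h0]
  have hq2' : 0 < q ^ 2 := by positivity
  have hρ0 : 0 < ρ := by rw [hρ]; linarith only [hq2]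
  have hρ1 : ρ ≤ 1 := by rw [hρ]; linarith only [hq2']
  have h2 := tail_le (prob_cell h0.le h1.le L L) (2 * L - L / k0) (z := 3) (by norm_num)
  rw [eval_gen_cell h0.le] at h2
  set D := L / k0 with hD
  have hDL : D ≤ L := Nat.div_le_self _ _
  have hkD : k0 * D ≤ L := Nat.mul_div_le L k0
  change (1 - ms q L D) * 3 ^ (2 * L - D) ≤ _ at h2
  have e1 : (3 : ℝ) ^ (2 * L) = 3 ^ (2 * L - D) * 3 ^ D := by
    rw [← pow_add]; congr 1; omega
  have e2 : (q ^ 2 + (1 - q ^ 2) * 3) ^ (L + L) = 3 ^ (2 * L) * ρ ^ (2 * L) := by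
    rw [← mul_pow, ← two_mul, hρ]; congr 1; ring
  rw [e2] at h2
  have h3 : (1 - ms q L D) * 3 ^ (2 * L) ≤ 3 ^ (2 * L) * (ρ ^ (2 * L) * 3 * 3 ^ D) := by
    rw [e1]
    have h4 : (0 : ℝ) ≤ 3 ^ D := by positivity
    have h5 := mul_le_mul_of_nonneg_right h2 h4
    have h6 : q + (1 - q) * 3 ≤ 3 := by linarith only [h0]
    have h7 : 0 ≤ (3 : ℝ) ^ (2 * L) * ρ ^ (2 * L) * 3 ^ D := by (clear * - hρ0; positivity)
    rw [e1] at h5 h7
    nlinarith only [h5, h0, h7]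
  have h8 : 1 - ms q L D ≤ ρ ^ (2 * L) * 3 * 3 ^ D := by
    have h9 : (0 : ℝ) < 3 ^ (2 * L) := by positivity
    rw [mul_comm] at h3
    exact le_of_mul_le_mul_left h3 h9
  refine h8.trans ?_
  have h10 : (3 : ℝ) ^ D * ρ ^ L ≤ 1 := by
    have h11 : ρ ^ L ≤ ρ ^ (k0 * D) := pow_le_pow_of_le_one hρ0.le hρ1 hkD
    have h12 : ρ ^ (k0 * D) ≤ (1 / 3) ^ D := by
      rw [pow_mul]; exact pow_le_pow_left₀ (by (clear * - hρ0; positivity)) hk D
    calc (3 : ℝ) ^ D * ρ ^ L ≤ 3 ^ D * (1 / 3) ^ D :=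
          mul_le_mul_of_nonneg_left (h11.trans h12) (by positivity)
      _ = 1 := by rw [← mul_pow]; norm_num
  have e3 : ρ ^ (2 * L) * 3 * 3 ^ D = 3 * ρ ^ L * (3 ^ D * ρ ^ L) := by
    rw [two_mul, pow_add]; ring
  rw [e3]
  have h13 : 0 ≤ 3 * ρ ^ L := by (clear * - hρ0; positivity)
  nlinarith only [h10, h13]

/-- existence of the constants -/
theorem exists_k0 (h0 : 0 < q) (h1 : q < 1) :
    ∃ k0 : ℕ, 1 ≤ k0 ∧ (1 - 2 * q ^ 2 / 3) ^ k0 ≤ 1 / 3 := by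
  have hq2 : q ^ 2 < 1 := by (by_contra nlg; linarith [mul_pos (sub_pos.2 h1) (sub_pos.2 h0), mul_pos (sub_pos.2 h1) (sub_pos.2 h1), mul_nonneg (sub_nonneg.2 (not_lt.1 nlg)) (le_of_lt (sub_pos.2 h0)), mul_nonneg (sub_nonneg.2 (not_lt.1 nlg)) (le_of_lt (sub_pos.2 h1))])
  have hq2' : 0 < q ^ 2 := by (clear * - h0; positivity)
  have hρ0 : 0 ≤ 1 - 2 * q ^ 2 / 3 := by linarith only [hq2]
  have hρ1 : 1 - 2 * q ^ 2 / 3 < 1 := by linarith only [hq2']
  obtain ⟨n, hn⟩ := exists_pow_lt_of_lt_one (show (0 : ℝ) < 1 / 3 by norm_num) hρ1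
  exact ⟨n + 1, by omega, (pow_le_pow_of_le_one hρ0 hρ1.le (Nat.le_succ n)).trans hn.le⟩

/-- The base elements: truncated normalized laws, comparable, close to the true laws, and with
domination inherited from the pure lattice. -/
theorem base_elements (h0 : 0 < q) (h1 : q < 1) :
    ∃ (C ρ : ℝ) (L0 : ℕ), 1 ≤ C ∧ 0 < ρ ∧ ρ < 1 ∧ 1 ≤ L0 ∧ ∀ L : ℕ, L0 ≤ L →
      ∃ Y X0 X1 : Alg, Prob Y ∧ Prob X0 ∧ Prob X1 ∧
        MA.l1 (W q (xw L L) - Y) ≤ 6 * ρ ^ L ∧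
        MA.l1 (W q (xw (L - 1) (L + 1)) - X0) ≤ 6 * ρ ^ L ∧
        MA.l1 (W q (xw (L + 1) (L - 1)) - X1) ≤ 6 * ρ ^ L ∧
        le (C⁻¹ • Y) X0 ∧ le (C⁻¹ • Y) X1 ∧ le X0 (C • Y) ∧ le X1 (C • Y) ∧
        (∀ δ : ℝ, 0 ≤ δ → Dom ((1 / 2 : ℝ) • (cell q (L + 1) (L - 1) - cell q (L - 1) (L + 1)))
          (U q ^ (2 * L + 1)) δ → Dom ((1 / 2 : ℝ) • (X1 - X0)) Y (C * δ)) ∧
        (∀ δ : ℝ, 0 ≤ δ → Dom ((1 / 2 : ℝ) • (cell q (L + 1) (L - 1) + cell q (L - 1) (L + 1))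
            - cell q L L) (U q ^ (2 * L + 1)) δ →
          Dom ((1 / 2 : ℝ) • (X1 + X0) - Y) Y (C * δ)) := by
  obtain ⟨k0, hk1, hk⟩ := exists_k0 h0 h1
  set ρ : ℝ := 1 - 2 * q ^ 2 / 3 with hρ
  have hq2 : q ^ 2 < 1 := by nlinarith only [h1, h0]
  have hq2' : 0 < q ^ 2 := by (clear * - h0; positivity)
  have hρ0 : 0 < ρ := by rw [hρ]; linarith only [hq2]
  have hρ1 : ρ < 1 := by rw [hρ]; linarith only [hq2']
  obtain ⟨n0, hn0⟩ := exists_pow_lt_of_lt_one (show (0 : ℝ) < 1 / 6 by norm_num) hρ1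
  set K : ℝ := 3 * k0 with hK
  have hk1' : (1 : ℝ) ≤ k0 := by exact_mod_cast hk1
  have hK3 : 3 ≤ K := by rw [hK]; linarith only [hk1']
  have hqi : 1 < q⁻¹ := (one_lt_inv₀ h0).mpr h1
  set C : ℝ := K * q⁻¹ * q⁻¹ with hC
  have hCK : 2 * K * q⁻¹ ≤ 2 * C := by
    rw [hC]
    have : 0 ≤ K * q⁻¹ := by (clear * - hk1 h0; positivity)
    linarith only [mul_nonneg (le_of_lt (sub_pos.2 hqi)) (sub_nonneg.2 this)]
  have hC1 : 1 ≤ C := by
    rw [hC]
    have h2 : 3 ≤ K * q⁻¹ := by nlinarith only [hk1', hqi]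
    linarith only [h2, hCK]
  refine ⟨2 * C, ρ, n0 + 1, by linarith only [hC1], hρ0, hρ1, by (clear * -; omega), fun L hL => ?_⟩
  have hL1 : 1 ≤ L := by omega
  set D := L / k0 with hD
  have hDL : D ≤ L := Nat.div_le_self _ _
  have hms : 1 - ms q L D ≤ 3 * ρ ^ L := one_sub_ms_le h0 h1 hk L
  have hρL : ρ ^ L ≤ 1 / 6 :=
    (pow_le_pow_of_le_one hρ0.le hρ1.le (by omega : n0 ≤ L)).trans hn0.le
  have hm2 : 1 / 2 ≤ ms q L D := by linarith only [hms, hρL]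
  have hm0 : 0 < ms q L D := by linarith only [hms, hρL]
  have hDle : 2 * L - D ≤ 2 * L := Nat.sub_le _ _
  have hKineq : q ^ 2 * ((2 * L : ℕ) + 1 : ℝ)
      ≤ K * (((2 * L : ℕ) : ℝ) + 1 - ((2 * L - D : ℕ) : ℝ)) := by
    rw [Nat.cast_sub (by (clear * - hL1 hDL; omega) : D ≤ 2 * L)]
    have h3 : (L : ℝ) ≤ k0 * (D + 1) := by
      have h4 := Nat.lt_mul_div_succ L hk1
      have h5 : L ≤ k0 * (D + 1) := h4.le
      exact_mod_cast h5
    have h6 : (1 : ℝ) ≤ L := by exact_mod_cast hL1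
    push_cast
    rw [hK]
    nlinarith only [hq2, h3, h6]
  have hK0 : 0 ≤ K := by linarith only [hk1']
  have hab0 : L + L = 2 * L := by omega
  have hab1 : L - 1 + (L + 1) = 2 * L := by (clear * - hL1; omega)
  have hab2 : L + 1 + (L - 1) = 2 * L := by omega
  set Y := hat q L D (cell q L L) with hY
  set X0 := hat q L D (cell q (L - 1) (L + 1)) with hX0
  set X1 := hat q L D (cell q (L + 1) (L - 1)) with hX1
  have pY : Prob Y := prob_hat h0.le h1.le hm0 hab0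
  have pX0 : Prob X0 := prob_hat h0.le h1.le hm0 hab1
  have pX1 : Prob X1 := prob_hat h0.le h1.le hm0 hab2
  have up : ∀ {a b a' b' : ℕ}, a + b = 2 * L → a' + b' = 2 * L →
      le (hat q L D (cell q a b)) (C • hat q L D (cell q a' b')) :=
    fun hab hab' => hat_le h0 h1.le hDle hKineq hab hab' hK0 hm0
  have up2 : ∀ {x y : Alg}, Prob y → le x (C • y) → le x ((2 * C) • y) := by
    intro x y hy hxy
    refine MA.le_trans hxy ?_
    rw [MA.le_iff, ← sub_smul]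
    exact MA.nonneg_smul (by linarith only [hC1]) hy.1
  have lo : ∀ {x y : Alg}, le x ((2 * C) • y) → le ((2 * C)⁻¹ • x) y := by
    intro x y hxy
    have h3 := MA.le_smul (c := (2 * C)⁻¹) (by (clear * - hk1 h0; positivity)) hxy
    rwa [smul_smul, inv_mul_cancel₀ (by positivity), one_smul] at h3
  refine ⟨Y, X0, X1, pY, pX0, pX1, ?_, ?_, ?_, lo (up2 pX0 (up hab0 hab1)),
    lo (up2 pX1 (up hab0 hab2)), up2 pY (up hab1 hab0), up2 pY (up hab2 hab0), ?_, ?_⟩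
  · exact (hat_l1 h0.le h1.le hm0 hab0).trans (by linarith only [hms])
  · exact (hat_l1 h0.le h1.le hm0 hab1).trans (by linarith only [hms])
  · exact (hat_l1 h0.le h1.le hm0 hab2).trans (by linarith only [hms])
  · intro δ hδ hdom
    have h3 := hat_dom h0 h1.le hDle hKineq hK0 hm2 hδ hdom
    rw [hat_smul, hat_sub] at h3
    exact h3.mono pY.1 (mul_le_mul_of_nonneg_right hCK hδ)
  · intro δ hδ hdom
    have h3 := hat_dom h0 h1.le hDle hKineq hK0 hm2 hδ hdom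
    rw [hat_sub, hat_smul, hat_add] at h3
    exact h3.mono pY.1 (mul_le_mul_of_nonneg_right hCK hδ)

end Vale.Agent.P321.Lt
end

section

/-!
First and second differences of the position of the cell `E` in `U^a E U^b`.
-/

namespace Vale.Agent.P321.Smooth

open Finset
open MA (ev le Prob Dom)

section gen

variable {G : Type*} [Monoid G]

theorem Dom_iter_com {v w : MonoidAlgebra ℝ G} {D : ℝ} (hv : Prob v) (hw : MA.aug w = 0)
    (hD : 0 ≤ D) (h : Dom w v D) (J : ℕ) :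
    Dom ((bop v)^[J] (com v w)) (v ^ J * v ^ 2) (D * (2 * cb J / (J + 1))) := by
  rw [bop_iter_com, bop_iter, com_hom _ _ _ _ (bc_zero (Nat.lt_succ_self J)), ← E_one, ← pow_add]
  exact Dom_hom hv hw hD h (J + 1) _

theorem Dom_iter_com2 {v w : MonoidAlgebra ℝ G} {D : ℝ} (hv : Prob v) (hw : MA.aug w = 0)
    (hD : 0 ≤ D) (h : Dom w v D) (J : ℕ) :
    Dom ((bop v)^[J] (com v (com v w))) (v ^ J * v ^ 3) (D * (12 * cb J / ((J + 1) * (J + 2)))) := by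
  rw [bop_iter_com, bop_iter_com, bop_iter, com_hom _ _ _ _ (bc_zero (Nat.lt_succ_self J)),
    com_hom, ← E_two, ← pow_add]
  · exact Dom_hom hv hw hD h (J + 2) _
  · simp only [sh]
    rw [bc_zero (by omega), bc_zero (by omega), sub_zero]

theorem first_diff {v w : MonoidAlgebra ℝ G} {D : ℝ} (hv : Prob v) (hw : MA.aug w = 0)
    (hD : 0 ≤ D) (h : Dom w v D) {r : ℝ} (h0 : 0 ≤ r) (h1 : r < 1) {U : MonoidAlgebra ℝ G}
    (hU : U = r • 1 + (1 - r) • v) (N : ℕ) :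
    Dom ((1 / 2 : ℝ) • (U ^ (N + 2) * w * U ^ N - U ^ N * w * U ^ (N + 2))) (U ^ (2 * N + 3))
      (D * cN (2 * r * (1 - r)) N (fun J => 2 * cb J / (J + 1))) := by
  have hr : 0 < 1 - r := by linarith only [h1]
  have hβ0 : 0 ≤ 2 * r * (1 - r) := mul_nonneg (by linarith only [h0]) hr.le
  have hβ1 : 2 * r * (1 - r) ≤ 1 := by linarith only [sq_nonneg (2 * r - 1)]
  have hUp : Prob U := by
    refine MA.prob_iff.mpr ⟨?_, ?_⟩
    · rw [hU]
      exact MA.nonneg_add (MA.nonneg_smul h0 MA.nonneg_one) (MA.nonneg_smul hr.le hv.nonneg)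
    · rw [hU, MA.aug_add, MA.aug_smul, MA.aug_smul, MA.aug_one, hv.aug]; ring
  have hcomm : Commute v U := by
    rw [hU]
    exact ((Commute.one_right v).smul_right r).add_right ((Commute.refl v).smul_right _)
  set c := cN (2 * r * (1 - r)) N (fun J => D * (2 * cb J / ((J : ℝ) + 1))) with hc
  have hcn : ∀ J : ℕ, 0 ≤ D * (2 * cb J / ((J : ℝ) + 1)) := fun J => by
    have := cb_nonneg J
    (clear * - hD this; positivity)
  have hc0 : 0 ≤ c := cN_nonneg hβ0 hβ1 N _ hcn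
  have hX := mix hv h0 h1.le N (com v w) (v ^ 2) (fun J => D * (2 * cb J / ((J : ℝ) + 1)))
    ((Commute.refl v).pow_right 2).eq (MA.nonneg_pow hv.nonneg 2) hcn
    (fun J => Dom_iter_com hv hw hD h J)
  rw [← hU, ← hc] at hX
  set X := U ^ N * com v w * U ^ N with hXd
  have hn : MA.nonneg (U ^ (2 * N) * v ^ 2) :=
    MA.nonneg_mul (MA.nonneg_pow hUp.nonneg _) (MA.nonneg_pow hv.nonneg _)
  have hA : Dom (U * X) (U * (U ^ (2 * N) * v ^ 2)) c := MA.Dom.mul_left hX hUp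
  have hB : Dom (X * U) (U ^ (2 * N) * v ^ 2 * U) c := MA.Dom.mul_right hX hUp hn hc0
  have hBe : U ^ (2 * N) * v ^ 2 * U = U * (U ^ (2 * N) * v ^ 2) := by
    rw [mul_assoc, (hcomm.pow_left 2).eq, ← mul_assoc, ← mul_assoc, ← pow_succ, ← pow_succ']
  rw [hBe] at hB
  have hn2 : MA.nonneg (U * (U ^ (2 * N) * v ^ 2)) := MA.nonneg_mul hUp.nonneg hn
  have hs : Real.sqrt c ^ 2 = c := Real.sq_sqrt hc0
  have hC := MA.Dom.add (Real.sqrt_nonneg c) (Real.sqrt_nonneg c) hn2 (by rwa [hs]) (by rwa [hs])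
    (x := U * X) (y := X * U)
  have e4 : (Real.sqrt c + Real.sqrt c) ^ 2 = 4 * c := by rw [← two_mul, mul_pow, hs]; ring
  rw [e4] at hC
  have hE := hC.smul ((1 - r) / 2)
  -- the base
  have hvU : le ((1 - r) • v) U := by
    rw [MA.le_iff, hU]
    have : r • (1 : MonoidAlgebra ℝ G) + (1 - r) • v - (1 - r) • v = r • 1 := by abel
    rw [this]
    exact MA.nonneg_smul h0 MA.nonneg_one
  have hv2 : le ((1 - r) ^ 2 • v ^ 2) (U ^ 2) := by
    have := MA.le_mul (MA.nonneg_smul hr.le hv.nonneg) (MA.nonneg_smul hr.le hv.nonneg) hvU hvU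
    rw [pow_two, pow_two, pow_two, ← smul_mul_smul_comm]
    exact this
  have hbase : le (U * (U ^ (2 * N) * v ^ 2)) (((1 - r) ^ 2)⁻¹ • U ^ (2 * N + 3)) := by
    have a1 : U * (U ^ (2 * N) * v ^ 2)
        = ((1 - r) ^ 2)⁻¹ • (U ^ (2 * N + 1) * ((1 - r) ^ 2 • v ^ 2)) := by
      rw [mul_smul_comm, smul_smul, inv_mul_cancel₀ (by (clear * - h1; positivity)), one_smul, ← mul_assoc,
        ← pow_succ']
    have a2 : U ^ (2 * N + 3) = U ^ (2 * N + 1) * U ^ 2 := by rw [← pow_add]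
    rw [a1, a2]
    refine MA.le_smul (by (clear * - h1; positivity)) ?_
    exact MA.le_mul (MA.nonneg_pow hUp.nonneg _)
      (MA.nonneg_smul (by (clear * - h1; positivity)) (MA.nonneg_pow hv.nonneg _)) (MA.le_refl _) hv2
  have hF := hE.base (by (clear * - h1 hc0; positivity)) hbase
  have e5 : ((1 - r) / 2) ^ 2 * (4 * c) * ((1 - r) ^ 2)⁻¹ = c := by
    field_simp
    norm_num
  rw [e5, hc, cN_mul] at hF
  have e6 : (1 / 2 : ℝ) • (U ^ (N + 2) * w * U ^ N - U ^ N * w * U ^ (N + 2))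
      = ((1 - r) / 2) • (U * X + X * U) := by
    have b1 : U * w - w * U = (1 - r) • com v w := by
      rw [hU, com, add_mul, mul_add, smul_mul_assoc, one_mul, smul_mul_assoc, mul_smul_comm,
        mul_one, mul_smul_comm, smul_sub]
      abel
    have b2 : U ^ (N + 2) * w * U ^ N - U ^ N * w * U ^ (N + 2)
        = U * (U ^ N * (U * w - w * U) * U ^ N) + U ^ N * (U * w - w * U) * U ^ N * U := by
      have c1 : U ^ (N + 2) = U * U ^ N * U := by rw [← pow_succ', ← pow_succ]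
      have c2 : U ^ (N + 2) = U * U ^ N * U := c1
      have c3 : U * U ^ N = U ^ N * U := by rw [← pow_succ', ← pow_succ]
      have d1 : U ^ (N + 2) * w * U ^ N = U * (U ^ N * (U * w) * U ^ N) := by
        rw [c1]; simp only [mul_assoc]
      have d2 : U ^ N * w * U ^ (N + 2) = U ^ N * (w * U) * U ^ N * U := by
        rw [c1]
        simp only [mul_assoc]
      have d3 : U * (U ^ N * (w * U) * U ^ N) = U ^ N * (U * w) * U ^ N * U := by
        calc U * (U ^ N * (w * U) * U ^ N) = (U * U ^ N) * w * (U * U ^ N) := by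
              simp only [mul_assoc]
          _ = (U ^ N * U) * w * (U ^ N * U) := by rw [c3]
          _ = _ := by simp only [mul_assoc]
      rw [d1, d2, mul_sub, sub_mul, mul_sub, sub_mul, d3]
      abel
    rw [b2, b1]
    simp only [mul_smul_comm, smul_mul_assoc]
    rw [← smul_add, smul_smul, ← hXd]
    congr 1
    ring
  rw [e6]
  exact hF

theorem second_diff {v w : MonoidAlgebra ℝ G} {D : ℝ} (hv : Prob v) (hw : MA.aug w = 0)
    (hD : 0 ≤ D) (h : Dom w v D) {r : ℝ} (h0 : 0 ≤ r) (h1 : r < 1) {U : MonoidAlgebra ℝ G}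
    (hU : U = r • 1 + (1 - r) • v) (N : ℕ) :
    Dom ((1 / 2 : ℝ) • (U ^ (N + 2) * w * U ^ N + U ^ N * w * U ^ (N + 2))
        - U ^ (N + 1) * w * U ^ (N + 1)) (U ^ (2 * N + 3))
      (D * cN (2 * r * (1 - r)) N (fun J => 12 * cb J / ((J + 1) * (J + 2)))) := by
  have hr : 0 < 1 - r := by linarith only [h1]
  have hβ0 : 0 ≤ 2 * r * (1 - r) := mul_nonneg (by linarith only [h0]) hr.le
  have hβ1 : 2 * r * (1 - r) ≤ 1 := by linarith only [sq_nonneg (2 * r - 1)]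
  have hUp : Prob U := by
    refine MA.prob_iff.mpr ⟨?_, ?_⟩
    · rw [hU]
      exact MA.nonneg_add (MA.nonneg_smul h0 MA.nonneg_one) (MA.nonneg_smul hr.le hv.nonneg)
    · rw [hU, MA.aug_add, MA.aug_smul, MA.aug_smul, MA.aug_one, hv.aug]; ring
  set c := cN (2 * r * (1 - r)) N (fun J => D * (12 * cb J / (((J : ℝ) + 1) * (J + 2)))) with hc
  have hcn : ∀ J : ℕ, 0 ≤ D * (12 * cb J / (((J : ℝ) + 1) * (J + 2))) := fun J => by
    have := cb_nonneg J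
    (clear * - hD this; positivity)
  have hc0 : 0 ≤ c := cN_nonneg hβ0 hβ1 N _ hcn
  have hX := mix hv h0 h1.le N (com v (com v w)) (v ^ 3)
    (fun J => D * (12 * cb J / (((J : ℝ) + 1) * (J + 2))))
    ((Commute.refl v).pow_right 3).eq (MA.nonneg_pow hv.nonneg 3) hcn
    (fun J => Dom_iter_com2 hv hw hD h J)
  rw [← hU, ← hc] at hX
  have hn : MA.nonneg (U ^ (2 * N) * v ^ 3) :=
    MA.nonneg_mul (MA.nonneg_pow hUp.nonneg _) (MA.nonneg_pow hv.nonneg _)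
  have hE := hX.smul ((1 - r) ^ 2 / 2)
  have hvU : le ((1 - r) • v) U := by
    rw [MA.le_iff, hU]
    have : r • (1 : MonoidAlgebra ℝ G) + (1 - r) • v - (1 - r) • v = r • 1 := by abel
    rw [this]
    exact MA.nonneg_smul h0 MA.nonneg_one
  have hv2 : le ((1 - r) ^ 3 • v ^ 3) (U ^ 3) := by
    have n1 := MA.nonneg_smul hr.le hv.nonneg
    have h2 := MA.le_mul n1 n1 hvU hvU
    have := MA.le_mul (MA.nonneg_mul n1 n1) n1 h2 hvU
    have e : (1 - r) ^ 3 • v ^ 3 = ((1 - r) • v) * ((1 - r) • v) * ((1 - r) • v) := by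
      rw [smul_mul_smul_comm, smul_mul_smul_comm, pow_succ, pow_two, pow_succ v, pow_two]
    have e2 : U ^ 3 = U * U * U := by rw [pow_succ, pow_two]
    rw [e, e2]
    exact this
  have hbase : le (U ^ (2 * N) * v ^ 3) (((1 - r) ^ 3)⁻¹ • U ^ (2 * N + 3)) := by
    have a1 : U ^ (2 * N) * v ^ 3
        = ((1 - r) ^ 3)⁻¹ • (U ^ (2 * N) * ((1 - r) ^ 3 • v ^ 3)) := by
      rw [mul_smul_comm, smul_smul, inv_mul_cancel₀ (by (clear * - h1; positivity)), one_smul]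
    have a2 : U ^ (2 * N + 3) = U ^ (2 * N) * U ^ 3 := by rw [← pow_add]
    rw [a1, a2]
    refine MA.le_smul (by (clear * - h1; positivity)) ?_
    exact MA.le_mul (MA.nonneg_pow hUp.nonneg _)
      (MA.nonneg_smul (by (clear * - h1; positivity)) (MA.nonneg_pow hv.nonneg _)) (MA.le_refl _) hv2
  have hF := hE.base (by (clear * - h1 hc0; positivity)) hbase
  have hF2 : Dom (((1 - r) ^ 2 / 2) • (U ^ N * com v (com v w) * U ^ N)) (U ^ (2 * N + 3)) c := by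
    refine hF.mono (MA.nonneg_pow hUp.nonneg _) ?_
    have e5 : ((1 - r) ^ 2 / 2) ^ 2 * c * ((1 - r) ^ 3)⁻¹ = (1 - r) / 4 * c := by
      field_simp
      ring
    rw [e5]
    linarith only [mul_nonneg (sub_nonneg.2 hc0) (sub_nonneg.2 h0), mul_nonneg (mul_self_nonneg (1 : ℝ)) (sub_nonneg.2 hc0)]
  rw [hc, cN_mul] at hF2
  have e6 : (1 / 2 : ℝ) • (U ^ (N + 2) * w * U ^ N + U ^ N * w * U ^ (N + 2))
        - U ^ (N + 1) * w * U ^ (N + 1)
      = ((1 - r) ^ 2 / 2) • (U ^ N * com v (com v w) * U ^ N) := by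
    have b1 : ∀ Φ : MonoidAlgebra ℝ G, U * Φ - Φ * U = (1 - r) • com v Φ := by
      intro Φ
      rw [hU, com, add_mul, mul_add, smul_mul_assoc, one_mul, smul_mul_assoc, mul_smul_comm,
        mul_one, mul_smul_comm, smul_sub]
      abel
    have b2 : (1 - r) ^ 2 • com v (com v w) = U * (U * w - w * U) - (U * w - w * U) * U := by
      have hcs : com v ((1 - r) • com v w) = (1 - r) • com v (com v w) := by
        unfold com
        rw [mul_smul_comm, smul_mul_assoc, ← smul_sub]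
      rw [b1, b1 w, hcs, smul_smul, pow_two]
    have b3 : ((1 - r) ^ 2 / 2) • (U ^ N * com v (com v w) * U ^ N)
        = (1 / 2 : ℝ) • (U ^ N * ((1 - r) ^ 2 • com v (com v w)) * U ^ N) := by
      rw [mul_smul_comm, smul_mul_assoc, smul_smul]
      congr 1
      ring
    have c1 : U ^ (N + 2) = U ^ N * (U * U) := by rw [← pow_two, ← pow_add]
    have c2 : U ^ (N + 2) = (U * U) * U ^ N := by rw [← pow_two, ← pow_add, add_comm]
    have d1 : U ^ (N + 2) * w * U ^ N = U ^ N * (U * (U * w)) * U ^ N := by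
      rw [c1]; simp only [mul_assoc]
    have d2 : U ^ N * w * U ^ (N + 2) = U ^ N * (w * U * U) * U ^ N := by
      rw [c2]; simp only [mul_assoc]
    have d3 : U ^ (N + 1) * w * U ^ (N + 1) = U ^ N * (U * (w * U)) * U ^ N := by
      calc U ^ (N + 1) * w * U ^ (N + 1) = (U ^ N * U) * w * (U * U ^ N) := by
            rw [← pow_succ, ← pow_succ']
        _ = _ := by simp only [mul_assoc]
    rw [b3, b2, d1, d2, d3]
    have f1 : U * (U * w - w * U) - (U * w - w * U) * U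
        = U * (U * w) + w * U * U - (2 : ℝ) • (U * (w * U)) := by
      rw [mul_sub, sub_mul, two_smul, mul_assoc U w U]
      abel
    rw [f1, mul_sub, sub_mul, mul_add, add_mul, mul_smul_comm, smul_mul_assoc, smul_sub, smul_smul]
    norm_num
  rw [e6]
  exact hF2

end gen

section bounds

theorem gam_le {β : ℝ} (h0 : 0 ≤ β) (h1 : β ≤ 1) {s N : ℕ} (hs : 1 ≤ s) (hs3 : s ≤ 3) :
    β / 6 * (N + 1) ≤ 0 + 1 + β / (2 * s) * N := by
  have a1 : (1 : ℝ) ≤ s := by exact_mod_cast hs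
  have a2 : (s : ℝ) ≤ 3 := by exact_mod_cast hs3
  have h2 : β / 6 ≤ β / (2 * s) := by
    apply div_le_div_of_nonneg_left h0 (by (clear * - hs; positivity))
    linarith only [a2]
  have h3 : (0 : ℝ) ≤ N := Nat.cast_nonneg N
  nlinarith only [h1, h2]

theorem cN_pow {β : ℝ} (h0 : 0 < β) (h1 : β ≤ 1) {s : ℕ} (hs : 1 ≤ s) (hs3 : s ≤ 3) (N : ℕ) :
    cN β N (fun J => (((J : ℝ) + 1) ^ s)⁻¹) ≤ ((β / 6 * (N + 1)) ^ s)⁻¹ := by
  have h := cN_inv hs h0.le h1 N 0 le_rfl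
  simp only [add_zero] at h
  refine h.trans ?_
  have h2 := gam_le h0.le h1 (N := N) hs hs3
  have h3 : 0 < β / 6 * ((N : ℝ) + 1) := by (clear * - h0; positivity)
  exact inv_anti₀ (by (clear * - h0; positivity)) (pow_le_pow_left₀ h3.le h2 s)

theorem cN_prod {β : ℝ} (h0 : 0 < β) (h1 : β ≤ 1) {s t : ℕ} (hs : 1 ≤ s) (hs3 : s ≤ 3)
    (ht : 1 ≤ t) (ht3 : t ≤ 3) (N : ℕ) :
    cN β N (fun J => Real.sqrt ((((J : ℝ) + 1) ^ s)⁻¹ * (((J : ℝ) + 1) ^ t)⁻¹))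
      ≤ (β / 6 * (N + 1)) ^ (-((s : ℝ) + t) / 2) := by
  have h := cN_cs h0.le h1 N (fun J => (((J : ℝ) + 1) ^ s)⁻¹) (fun J => (((J : ℝ) + 1) ^ t)⁻¹)
    (fun J => by (clear * -; positivity)) (fun J => by (clear * -; positivity))
  refine h.trans ?_
  have h3 : 0 < β / 6 * ((N : ℝ) + 1) := by (clear * - h0; positivity)
  have h4 := cN_pow h0 h1 hs hs3 N
  have h5 := cN_pow h0 h1 ht ht3 N
  have h6 : 0 ≤ cN β N (fun J => (((J : ℝ) + 1) ^ t)⁻¹) :=
    cN_nonneg h0.le h1 N _ fun J => by (clear * -; positivity)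
  have h7 := mul_le_mul h4 h5 h6 (by (clear * - h0; positivity))
  refine (Real.sqrt_le_sqrt h7).trans (le_of_eq ?_)
  rw [← mul_inv, ← pow_add, Real.sqrt_eq_rpow, ← Real.rpow_natCast, ← Real.rpow_neg h3.le,
    ← Real.rpow_mul h3.le]
  congr 1
  push_cast
  ring

theorem cN_E1 {β : ℝ} (h0 : 0 < β) (h1 : β ≤ 1) (N : ℕ) :
    cN β N (fun J => 2 * cb J / (J + 1)) ≤ 2 * (β / 6 * (N + 1)) ^ (-(3 / 2) : ℝ) := by
  have h := cN_prod h0 h1 (s := 1) (t := 2) le_rfl (by norm_num) (by norm_num) (by norm_num) N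
  have e : (-(((1 : ℕ) : ℝ) + ((2 : ℕ) : ℝ)) / 2) = -(3 / 2) := by norm_num
  rw [e] at h
  refine (cN_mono h0.le h1 N _ (fun J => 2 * Real.sqrt ((((J : ℝ) + 1) ^ 1)⁻¹
    * (((J : ℝ) + 1) ^ 2)⁻¹)) fun J => ?_).trans ?_
  · have h2 := cb_le J
    have h3 : (0 : ℝ) < (J : ℝ) + 1 := by (clear * -; positivity)
    rw [Real.sqrt_mul (by (clear * -; positivity)), Real.sqrt_inv ((((J : ℝ) + 1) ^ 2)),
      Real.sqrt_sq h3.le, pow_one, div_eq_mul_inv]
    have h4 : 0 ≤ ((J : ℝ) + 1)⁻¹ := by (clear * -; positivity)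
    linarith only [mul_nonneg (sub_nonneg.2 h2) (sub_nonneg.2 h4)]
  · rw [cN_mul]
    linarith only [h]

theorem cN_E2 {β : ℝ} (h0 : 0 < β) (h1 : β ≤ 1) (N : ℕ) :
    cN β N (fun J => 12 * cb J / ((J + 1) * (J + 2)))
      ≤ 12 * (β / 6 * (N + 1)) ^ (-(5 / 2) : ℝ) := by
  have h := cN_prod h0 h1 (s := 2) (t := 3) (by norm_num) (by norm_num) (by norm_num) le_rfl N
  have e : (-(((2 : ℕ) : ℝ) + ((3 : ℕ) : ℝ)) / 2) = -(5 / 2) := by (clear * -; norm_num)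
  rw [e] at h
  refine (cN_mono h0.le h1 N _ (fun J => 12 * Real.sqrt ((((J : ℝ) + 1) ^ 2)⁻¹
    * (((J : ℝ) + 1) ^ 3)⁻¹)) fun J => ?_).trans ?_
  · have h2 := cb_le J
    have h3 : (0 : ℝ) < (J : ℝ) + 1 := by (clear * -; positivity)
    have e1 : (((J : ℝ) + 1) ^ 2)⁻¹ * (((J : ℝ) + 1) ^ 3)⁻¹
        = ((J : ℝ) + 1)⁻¹ * (((J : ℝ) + 1) ^ 2)⁻¹ ^ 2 := by
      field_simp
    rw [e1, Real.sqrt_mul (by (clear * -; positivity)), Real.sqrt_sq (by (clear * -; positivity))]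
    have h4 : 0 ≤ (((J : ℝ) + 1) ^ 2)⁻¹ := by (clear * -; positivity)
    have h5 : 12 * cb J / (((J : ℝ) + 1) * (J + 2)) ≤ 12 * cb J * (((J : ℝ) + 1) ^ 2)⁻¹ := by
      rw [div_eq_mul_inv]
      have := cb_nonneg J
      refine mul_le_mul_of_nonneg_left ?_ (by (clear * - this; positivity))
      apply inv_anti₀ (by (clear * -; positivity))
      linarith only []
    have := mul_le_mul_of_nonneg_right h2 h4
    linarith only [h5, this]
  · rw [cN_mul]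
    linarith only [h]

end bounds

section cells

open Lt

theorem dom_letter {q : ℝ} (h0 : 0 < q) (h1 : q < 1) :
    Dom ((1 - q) • (sg 0 - v q)) (v q) (2 * ((1 + q) / q)) := by
  have hv := prob_v h0.le h1.le
  have hq : 0 < (1 + q) / q := by (clear * - h0; positivity)
  have hle : le (sg 0) (((1 + q) / q) • v q) := by
    rw [MA.le_iff]
    have e : ((1 + q) / q) • v q - sg 0
        = (((1 + q) / q) * (q / (1 + q))) • sg 1 + (((1 + q) / q) * ((1 - q) / (1 + q))) • sg 2 := by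
      have c0 : ((1 + q) / q) * (q / (1 + q)) = 1 := by field_simp
      rw [v, smul_add, smul_add, smul_smul, smul_smul, smul_smul, c0, one_smul, one_smul]
      abel
    rw [e]
    exact MA.nonneg_add (MA.nonneg_smul (by (clear * - h0; positivity)) (sg_prob 1).1)
      (MA.nonneg_smul (mul_nonneg hq.le (div_nonneg (by linarith only [h1]) (by linarith only [h0]))) (sg_prob 2).1)
  have hb1 : le ((1 - q) • (sg 0 - v q)) (((1 + q) / q) • v q) := by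
    rw [MA.le_iff]
    have e : ((1 + q) / q) • v q - (1 - q) • (sg 0 - v q)
        = (1 - q) • (((1 + q) / q) • v q - sg 0) + (q * ((1 + q) / q) + (1 - q)) • v q := by
      module
    rw [e]
    exact MA.nonneg_add (MA.nonneg_smul (by linarith only [h1]) ((MA.le_iff).mp hle))
      (MA.nonneg_smul (by have := mul_pos h0 hq; linarith only [h1, this]) hv.1)
  have hb2 : le (-((1 - q) • (sg 0 - v q))) (((1 + q) / q) • v q) := by
    rw [MA.le_iff]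
    have e : ((1 + q) / q) • v q - -((1 - q) • (sg 0 - v q))
        = (1 - q) • sg 0 + ((1 + q) / q - (1 - q)) • v q := by
      module
    rw [e]
    refine MA.nonneg_add (MA.nonneg_smul (by linarith only [h1]) (sg_prob 0).1) (MA.nonneg_smul ?_ hv.1)
    have : 1 ≤ (1 + q) / q := by rw [le_div_iff₀ h0]; linarith only []
    (clear * - h0 this; linarith)
  refine (MA.Dom.of_le hb1 hb2).mono hv.1 ?_
  refine mul_le_mul_of_nonneg_right ?_ hq.le
  rw [MA.l1_smul, abs_of_pos (by linarith only [h1])]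
  have h3 : MA.l1 (sg 0 - v q) ≤ 2 := by
    rw [sub_eq_add_neg]
    refine (MA.l1_add _ _).trans ?_
    rw [MA.l1_neg, (sg_prob 0).l1, hv.l1]
    norm_num
  (clear * - h3 h0; linarith [mul_nonneg (sub_nonneg.2 h3) (sub_nonneg.2 (MA.l1_nonneg (sg 0 - v q))), mul_nonneg (sub_nonneg.2 h3) (sub_nonneg.2 h3), mul_nonneg (le_of_lt (sub_pos.2 h0)) (sub_nonneg.2 (MA.l1_nonneg (sg 0 - v q)))])

theorem aug_letter {q : ℝ} (h0 : 0 < q) (h1 : q < 1) : MA.aug ((1 - q) • (sg 0 - v q)) = 0 := by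
  rw [MA.aug_smul, MA.aug_sub, aug_sg, (prob_v h0.le h1.le).aug, sub_self, mul_zero]

/-- The cell `U^a E U^b`, the letter `E` being split in an invisible part and a mass zero part. -/
theorem cell_split (q : ℝ) (a b : ℕ) : cell q a b
    = (q • (1 : LA) + (1 - q) • v q) * U q ^ (a + b)
      + U q ^ a * ((1 - q) • (sg 0 - v q)) * U q ^ b := by
  have hc : Commute (v q) (U q) := by
    rw [U]
    exact ((Commute.one_right _).smul_right _).add_right ((Commute.refl _).smul_right _)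
  have hc2 : Commute (q • (1 : LA) + (1 - q) • v q) (U q) :=
    ((Commute.one_left _).smul_left _).add_left (hc.smul_left _)
  have e : E q = (q • (1 : LA) + (1 - q) • v q) + (1 - q) • (sg 0 - v q) := by
    rw [E]; module
  rw [cell, e, mul_add, add_mul, ← (hc2.pow_right a).eq, mul_assoc _ (U q ^ a), ← pow_add]

/-- First difference: `D_f ≤ C L ^ (-3/2)`. -/
theorem dom_f {q : ℝ} (h0 : 0 < q) (h1 : q < 1) : ∃ C : ℝ, 0 < C ∧ ∀ L : ℕ, 1 ≤ L →
    Dom ((1 / 2 : ℝ) • (cell q (L + 1) (L - 1) - cell q (L - 1) (L + 1))) (U q ^ (2 * L + 1))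
      (C * (L : ℝ) ^ (-(3 / 2) : ℝ)) := by
  have hr0 : 0 < q ^ 2 := by (clear * - h0; positivity)
  have hr1 : q ^ 2 < 1 := by nlinarith only [h1, h0]
  have hr : 0 < 1 - q ^ 2 := by linarith only [hr1]
  have hβ0 : 0 < 2 * q ^ 2 * (1 - q ^ 2) := by (clear * - h0 hr1; positivity)
  have hβ1 : 2 * q ^ 2 * (1 - q ^ 2) ≤ 1 := by linarith only [sq_nonneg (2 * q ^ 2 - 1)]
  set β := 2 * q ^ 2 * (1 - q ^ 2) with hβ
  have hD : 0 ≤ 2 * ((1 + q) / q) := by (clear * - h0; positivity)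
  refine ⟨2 * ((1 + q) / q) * (2 * (β / 6) ^ (-(3 / 2) : ℝ)), by (clear * - h0 hr1; positivity), fun L hL => ?_⟩
  obtain ⟨N, rfl⟩ : ∃ N, L = N + 1 := ⟨L - 1, by omega⟩
  have h := first_diff (prob_v h0.le h1.le) (aug_letter h0 h1) hD (dom_letter h0 h1) hr0.le hr1
    (U := U q) rfl N
  have e : cell q (N + 1 + 1) (N + 1 - 1) - cell q (N + 1 - 1) (N + 1 + 1)
      = U q ^ (N + 2) * ((1 - q) • (sg 0 - v q)) * U q ^ N
        - U q ^ N * ((1 - q) • (sg 0 - v q)) * U q ^ (N + 2) := by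
    rw [cell_split, cell_split, Nat.add_sub_cancel, show N + 1 + 1 = N + 2 by rfl,
      show N + 2 + N = N + (N + 2) by ring]
    abel
  rw [e, show 2 * (N + 1) + 1 = 2 * N + 3 by ring]
  refine h.mono (MA.nonneg_pow (prob_U h0.le h1.le).1 _) ?_
  have h2 := cN_E1 hβ0 hβ1 N
  have h3 : (0 : ℝ) < (N : ℝ) + 1 := by (clear * -; positivity)
  rw [Real.mul_rpow (by (clear * - h0 hr1; positivity)) h3.le] at h2
  push_cast
  calc 2 * ((1 + q) / q) * cN β N (fun J => 2 * cb J / (J + 1))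
      ≤ 2 * ((1 + q) / q) * (2 * ((β / 6) ^ (-(3 / 2) : ℝ) * ((N : ℝ) + 1) ^ (-(3 / 2) : ℝ))) :=
        mul_le_mul_of_nonneg_left h2 hD
    _ = _ := by ring

/-- Second difference: `D_e ≤ C L ^ (-5/2)`. -/
theorem dom_e {q : ℝ} (h0 : 0 < q) (h1 : q < 1) : ∃ C : ℝ, 0 < C ∧ ∀ L : ℕ, 1 ≤ L →
    Dom ((1 / 2 : ℝ) • (cell q (L + 1) (L - 1) + cell q (L - 1) (L + 1)) - cell q L L)
      (U q ^ (2 * L + 1)) (C * (L : ℝ) ^ (-(5 / 2) : ℝ)) := by
  have hr0 : 0 < q ^ 2 := by (clear * - h0; positivity)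
  have hr1 : q ^ 2 < 1 := by nlinarith only [h1, h0]
  have hr : 0 < 1 - q ^ 2 := by linarith only [hr1]
  have hβ0 : 0 < 2 * q ^ 2 * (1 - q ^ 2) := by (clear * - h0 hr1; positivity)
  have hβ1 : 2 * q ^ 2 * (1 - q ^ 2) ≤ 1 := by linarith only [sq_nonneg (2 * q ^ 2 - 1)]
  set β := 2 * q ^ 2 * (1 - q ^ 2) with hβ
  have hD : 0 ≤ 2 * ((1 + q) / q) := by (clear * - h0; positivity)
  refine ⟨2 * ((1 + q) / q) * (12 * (β / 6) ^ (-(5 / 2) : ℝ)), by (clear * - h0 hr1; positivity), fun L hL => ?_⟩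
  obtain ⟨N, rfl⟩ : ∃ N, L = N + 1 := ⟨L - 1, by omega⟩
  have h := second_diff (prob_v h0.le h1.le) (aug_letter h0 h1) hD (dom_letter h0 h1) hr0.le hr1
    (U := U q) rfl N
  have e : (1 / 2 : ℝ) • (cell q (N + 1 + 1) (N + 1 - 1) + cell q (N + 1 - 1) (N + 1 + 1))
        - cell q (N + 1) (N + 1)
      = (1 / 2 : ℝ) • (U q ^ (N + 2) * ((1 - q) • (sg 0 - v q)) * U q ^ N
        + U q ^ N * ((1 - q) • (sg 0 - v q)) * U q ^ (N + 2))
        - U q ^ (N + 1) * ((1 - q) • (sg 0 - v q)) * U q ^ (N + 1) := by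
    rw [cell_split, cell_split, cell_split, Nat.add_sub_cancel, show N + 1 + 1 = N + 2 by rfl,
      show N + 2 + N = 2 * N + 2 by ring, show N + (N + 2) = 2 * N + 2 by ring,
      show N + 1 + (N + 1) = 2 * N + 2 by ring]
    generalize (q • (1 : LA) + (1 - q) • v q) * U q ^ (2 * N + 2) = A
    generalize U q ^ (N + 2) * ((1 - q) • (sg 0 - v q)) * U q ^ N = B
    generalize U q ^ N * ((1 - q) • (sg 0 - v q)) * U q ^ (N + 2) = C
    generalize U q ^ (N + 1) * ((1 - q) • (sg 0 - v q)) * U q ^ (N + 1) = F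
    module
  rw [e, show 2 * (N + 1) + 1 = 2 * N + 3 by ring]
  refine h.mono (MA.nonneg_pow (prob_U h0.le h1.le).1 _) ?_
  have h2 := cN_E2 hβ0 hβ1 N
  have h3 : (0 : ℝ) < (N : ℝ) + 1 := by (clear * -; positivity)
  rw [Real.mul_rpow (by (clear * - h0 hr1; positivity)) h3.le] at h2
  push_cast
  calc 2 * ((1 + q) / q) * cN β N (fun J => 12 * cb J / ((J + 1) * (J + 2)))
      ≤ 2 * ((1 + q) / q) * (12 * ((β / 6) ^ (-(5 / 2) : ℝ) * ((N : ℝ) + 1) ^ (-(5 / 2) : ℝ))) :=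
        mul_le_mul_of_nonneg_left h2 hD
    _ = _ := by ring

end cells

end Vale.Agent.P321.Smooth
end

section

/-!
The base smoothing bounds in asymptotic form.
-/

namespace Vale.Agent.P321.Smooth

open Filter
open MA (Dom)
open Lt

theorem eventually_const_le (C : ℝ) {ε : ℝ} (hε : 0 < ε) :
    ∀ᶠ L : ℕ in atTop, C ≤ (L : ℝ) ^ ε :=
  ((tendsto_rpow_atTop hε).comp tendsto_natCast_atTop_atTop).eventually_ge_atTop C

theorem base_dom {q : ℝ} (h0 : 0 < q) (h1 : q < 1) : ∀ ε : ℝ, 0 < ε → ∀ᶠ L : ℕ in atTop,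
    Dom ((1 / 2 : ℝ) • (cell q (L + 1) (L - 1) - cell q (L - 1) (L + 1))) (U q ^ (2 * L + 1))
        ((L : ℝ) ^ (-(3 / 2) + ε : ℝ)) ∧
      Dom ((1 / 2 : ℝ) • (cell q (L + 1) (L - 1) + cell q (L - 1) (L + 1)) - cell q L L)
        (U q ^ (2 * L + 1)) ((L : ℝ) ^ (-(5 / 2) + ε : ℝ)) := by
  intro ε hε
  obtain ⟨C, hC, hf⟩ := dom_f h0 h1
  obtain ⟨C', hC', he⟩ := dom_e h0 h1
  filter_upwards [eventually_ge_atTop 1, eventually_const_le C hε, eventually_const_le C' hε]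
    with L hL h2 h3
  have hLp : (0 : ℝ) < L := by exact_mod_cast hL
  have hn : MA.nonneg (U q ^ (2 * L + 1)) := MA.nonneg_pow (prob_U h0.le h1.le).1 _
  constructor
  · refine (hf L hL).mono hn ?_
    rw [Real.rpow_add hLp, mul_comm]
    exact mul_le_mul_of_nonneg_left h2 (Real.rpow_nonneg hLp.le _)
  · refine (he L hL).mono hn ?_
    rw [Real.rpow_add hLp, mul_comm]
    exact mul_le_mul_of_nonneg_left h3 (Real.rpow_nonneg hLp.le _)

end Vale.Agent.P321.Smooth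
end

section

/-!
The base triple as a level datum, at every real scale.
-/

namespace Vale.Agent.P321.Lt

open Finset Filter Topology
open MA (ev le Prob push restr Dom)

/-- input 1: domination of the two differences in the pure lattice. -/
def BaseDom (q : ℝ) : Prop := ∀ ε : ℝ, 0 < ε → ∀ᶠ L : ℕ in atTop,
  Dom ((1 / 2 : ℝ) • (cell q (L + 1) (L - 1) - cell q (L - 1) (L + 1)))
      (U q ^ (2 * L + 1)) ((L : ℝ) ^ (-(3 / 2) + ε)) ∧
  Dom ((1 / 2 : ℝ) • (cell q (L + 1) (L - 1) + cell q (L - 1) (L + 1)) - cell q L L)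
      (U q ^ (2 * L + 1)) ((L : ℝ) ^ (-(5 / 2) + ε))

/-- input 2: overlap of consecutive powers of the cell. -/
def BaseOverlap (q : ℝ) : Prop := ∀ ε : ℝ, 0 < ε → ∀ᶠ L : ℕ in atTop,
  ∃ (K : ℕ) (h : LA), K ≤ L ∧ MA.nonneg h ∧ le h (cell q L L ^ K) ∧ le h (cell q L L ^ (K + 1)) ∧
    (L : ℝ) ^ (-ε) ≤ MA.l1 h

theorem ev_rpow_le (C : ℝ) {p p' : ℝ} (h : p < p') :
    ∀ᶠ x : ℝ in atTop, C * x ^ p ≤ x ^ p' := by
  have h1 : Tendsto (fun x : ℝ => x ^ (p' - p)) atTop atTop :=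
    tendsto_rpow_atTop (by linarith)
  filter_upwards [h1.eventually_ge_atTop C, eventually_gt_atTop 0] with x hx h0
  have h2 : x ^ p' = x ^ (p' - p) * x ^ p := by
    rw [← Real.rpow_add h0]; congr 1; ring
  rw [h2]
  exact mul_le_mul_of_nonneg_right hx (Real.rpow_nonneg h0.le _)

/-- Slip of the law of the word. -/
theorem slip_word {q : ℝ} (h0 : 0 ≤ q) (h1 : q ≤ 1) {L K : ℕ} {h : LA} {η : ℝ}
    (hh : MA.nonneg h) (hK : le h (cell q L L ^ K)) (hK1 : le h (cell q L L ^ (K + 1)))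
    (hη0 : 0 < η) (hη : η ≤ MA.l1 h) :
    ∃ G : ℕ, L1Str.Slip (MA.str (G := FreeMonoid Bool)) (W q (xw L L)) G ∧
      (G : ℝ) ≤ 100 * (K + 1) / η := by
  obtain ⟨G, hG, hG2⟩ := L1Str.slip_of_overlap (MA.str (G := LW)) (prob_cell h0 h1 L L) hh
    (MA.le_iff.mp hK) (MA.le_iff.mp hK1) hη0 hη
  refine ⟨G, ⟨hG.1, ?_⟩, hG2⟩
  have h2 := hG.2
  change MA.l1 (cell q L L ^ G - cell q L L ^ (G - 1)) ≤ 1 at h2
  change MA.l1 (W q (xw L L) ^ G - W q (xw L L) ^ (G - 1)) ≤ 1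
  rw [← toBits_cell h0, ← map_pow, ← map_pow, ← map_sub]
  exact (MA.l1_push_le _ _).trans h2

/-- Slip transferred to a nearby law. -/
theorem slip_near {X Y : Alg} (hX : Prob X) (hY : Prob Y) {G : ℕ} {δ : ℝ}
    (hG : L1Str.Slip (MA.str (G := FreeMonoid Bool)) X G) (hXY : MA.l1 (X - Y) ≤ δ)
    (hδ : (4 * (1000 * G : ℝ) + 2) * δ ≤ 1) :
    L1Str.Slip (MA.str (G := FreeMonoid Bool)) Y (1000 * G) := by
  have hG1 : 1 ≤ G := hG.1
  refine ⟨by omega, ?_⟩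
  change MA.l1 (Y ^ (1000 * G) - Y ^ (1000 * G - 1)) ≤ 1
  set t := 1000 * G - 1 with ht
  have ht1 : 1000 * G = t + 1 := by (clear * - hG1; omega)
  have h1 := L1Str.slip_smooth _ hX hG 3 t (by omega)
  have h2 := MA.l1_slip_transfer hY hX t
  have e : Y ^ (1000 * G) - Y ^ t = -((1 - Y) * Y ^ t) := by
    rw [ht1, sub_mul, one_mul, ← pow_succ']; abel
  rw [e, MA.l1_neg]
  have h3 : MA.l1 ((1 - X) * X ^ t) ≤ 1 / 2 := by
    refine h1.trans ?_
    norm_num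
  rw [MA.l1_sub_comm] at hXY
  have ht2 : (t : ℝ) + 1 = 1000 * G := by
    have : ((1000 * G : ℕ) : ℝ) = ((t + 1 : ℕ) : ℝ) := by rw [ht1]
    push_cast at this
    linarith only [this]
  have h4 : (2 * (t : ℝ) + 1) * MA.l1 (Y - X) ≤ 1 / 2 := by
    have h5 : 0 ≤ MA.l1 (Y - X) := MA.l1_nonneg _
    have h6 : (2 * (t : ℝ) + 1) * MA.l1 (Y - X) ≤ (2 * (t : ℝ) + 1) * δ :=
      mul_le_mul_of_nonneg_left hXY (by (clear * -; positivity))
    have h7 : 0 ≤ δ := h5.trans hXY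
    nlinarith only [hδ, ht2, h6]
  linarith only [h2, h3, h4]

theorem rep_succ' (u : List Bool) (k : ℕ) : rep u (k + 1) = u ++ rep u k := by
  induction k with
  | zero => simp [rep_succ, rep_zero]
  | succ k ih => rw [rep_succ, ih, List.append_assoc, ← rep_succ, ih]

theorem rep_add (u : List Bool) (j k : ℕ) : rep u (j + k) = rep u j ++ rep u k := by
  induction k with
  | zero => simp [rep_zero]
  | succ k ih => rw [← add_assoc, rep_succ, ih, rep_succ, List.append_assoc]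

theorem xw_ne {L : ℕ} (hL : 1 ≤ L) : xw (L - 1) (L + 1) ≠ xw (L + 1) (L - 1) := by
  intro h
  have e1 : L + 1 = (L - 1) + 2 := by omega
  have h2 : rep [false, true] (L + 1) = rep [false, true] (L - 1) ++ [false, true, false, true] := by
    rw [e1, rep_add]
    simp only [rep_succ, rep_zero, List.nil_append, List.cons_append]
  rw [xw, xw] at h
  nth_rewrite 2 [h2] at h
  simp only [List.append_assoc] at h
  have h3 := List.append_cancel_left h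
  rw [rep_succ'] at h3
  simp only [List.cons_append, List.nil_append, List.cons.injEq, Bool.false_eq_true, Bool.true_eq_false, false_and, and_self, and_false] at h3

/-- The base level datum. -/
theorem base_TLev {q : ℝ} (h0 : 0 < q) (h1 : q < 1) (hD : BaseDom q) (hO : BaseOverlap q)
    {ε : ℝ} (hε : 0 < ε) (hε1 : ε ≤ 1 / 4) : MA.TLev q ε (3 / 4 - ε) (5 / 4 - ε) := by
  obtain ⟨C, ρ, L0, hC, hρ0, hρ1, hL0, hbase⟩ := base_elements h0 h1
  set c : ℝ := -Real.log ρ / 5 with hc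
  have hlogρ : Real.log ρ < 0 := Real.log_neg hρ0 hρ1
  have hc0 : 0 < c := by rw [hc]; linarith only [hlogρ]
  refine ⟨1 / 2, C, by norm_num, hC, ?_⟩
  -- the scale
  have hLt : Tendsto (fun x : ℝ => ⌈(x - 1) / 4⌉₊) atTop atTop := by
    refine tendsto_nat_ceil_atTop.comp ?_
    exact (tendsto_atTop_add_const_right _ _ tendsto_id).atTop_div_const (by norm_num)
  have ev1 := hLt.eventually (hD ε hε)
  have ev2 := hLt.eventually (hO (ε / 4) (by linarith only [hε]))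
  have ev3 := hLt.eventually (eventually_ge_atTop L0)
  have ev4 := ev_rpow_le (2 / c) (p := 1 / 2) (p' := 1) (by norm_num)
  have ev5 : ∀ᶠ x : ℝ in atTop, Real.log 6 ≤ x ^ (1 / 2 : ℝ) :=
    (tendsto_rpow_atTop (by norm_num)).eventually_ge_atTop _
  have ev6 := ev_rpow_le (25 * C) (p := -(3 / 2) + ε) (p' := -(3 / 2) + 2 * ε) (by linarith only [hε])
  have ev7 := ev_rpow_le (125 * C) (p := -(5 / 2) + ε) (p' := -(5 / 2) + 2 * ε) (by linarith only [hε])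
  have ev8 := ev_rpow_le (300000) (p := 1 + ε / 4) (p' := 1 + ε) (by (clear * - hε; linarith))
  have ev9 := ev_rpow_le 6 (p := 1 + ε) (p' := 2) (by (clear * - hε hε1; linarith))
  have ev10 : ∀ᶠ x : ℝ in atTop, 2 * Real.log x ≤ x ^ (1 / 2 : ℝ) := by
    have h2 := (isLittleO_log_rpow_atTop (r := 1 / 2) (by norm_num)).tendsto_div_nhds_zero
    filter_upwards [h2.eventually (gt_mem_nhds (show (0 : ℝ) < 1 / 2 by norm_num)),
      eventually_gt_atTop 0] with x hx hx0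
    have hp : 0 < x ^ (1 / 2 : ℝ) := Real.rpow_pos_of_pos hx0 _
    rw [div_lt_iff₀ hp] at hx
    linarith only [hx]
  filter_upwards [ev1, ev2, ev3, ev4, ev5, ev6, ev7, ev8, ev9, ev10, eventually_ge_atTop 5]
    with x e1 e2 e3 e4 e5 e6 e7 e8 e9 e10 hx5
  set L : ℕ := ⌈(x - 1) / 4⌉₊ with hL
  have hx0 : 0 < x := by linarith only [hx5]
  have hx1 : 1 ≤ x := by linarith only [hx5]
  have hL1 : 1 ≤ L := hL0.trans e3
  have hLlo : (x - 1) / 4 ≤ L := Nat.le_ceil _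
  have hLhi : (L : ℝ) ≤ (x - 1) / 4 + 1 := (Nat.ceil_lt_add_one (by linarith only [hx5])).le
  have hL5 : x / 5 ≤ L := by linarith only [hx5, hLlo]
  have hLx : (L : ℝ) ≤ x := by linarith only [hx5, hLhi]
  have hLpos : (0 : ℝ) < L := by linarith only [hx5, hLlo]
  have hL1' : (1 : ℝ) ≤ L := by exact_mod_cast hL1
  obtain ⟨Y, X0, X1, pY, pX0, pX1, er, er0, er1, lo0, lo1, hi0, hi1, df, de⟩ := hbase L e3
  -- error
  have herr : 6 * ρ ^ L ≤ Real.exp (-x ^ (1 / 2 : ℝ)) := by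
    have h3 : ρ ^ L ≤ Real.exp (-(c * x)) := by
      have h4 : ρ ^ L = Real.exp (L * Real.log ρ) := by
        rw [mul_comm, Real.exp_mul, Real.exp_log hρ0, Real.rpow_natCast]
      rw [h4]
      apply Real.exp_le_exp.mpr
      have h5 : (L : ℝ) * Real.log ρ ≤ x / 5 * Real.log ρ :=
        mul_le_mul_of_nonpos_right hL5 hlogρ.le
      have h6 : x / 5 * Real.log ρ = -(c * x) := by rw [hc]; ring
      linarith only [h5, h6]
    have h7 : 2 * x ^ (1 / 2 : ℝ) ≤ c * x := by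
      rw [Real.rpow_one] at e4
      have := mul_le_mul_of_nonneg_left e4 hc0.le
      have e : c * (2 / c * x ^ (1 / 2 : ℝ)) = 2 * x ^ (1 / 2 : ℝ) := by (clear * - hc0 hx5; field_simp)
      linarith only [this, e]
    have h8 : (6 : ℝ) = Real.exp (Real.log 6) := (Real.exp_log (by norm_num)).symm
    calc 6 * ρ ^ L ≤ 6 * Real.exp (-(c * x)) := mul_le_mul_of_nonneg_left h3 (by norm_num)
      _ = Real.exp (Real.log 6 + -(c * x)) := by rw [Real.exp_add, ← h8]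
      _ ≤ _ := Real.exp_le_exp.mpr (by linarith only [e5, h7])
  have hexp : Real.exp (-x ^ (1 / 2 : ℝ)) ≤ x ^ (-2 : ℝ) := by
    have h3 : x ^ (-2 : ℝ) = Real.exp (Real.log x * (-2)) := Real.rpow_def_of_pos hx0 _
    rw [h3]
    exact Real.exp_le_exp.mpr (by linarith only [e10])
  -- slip
  obtain ⟨K, h, hKL, hh, hK, hK1, hη⟩ := e2
  obtain ⟨G, hG, hG2⟩ := slip_word h0.le h1.le hh hK hK1 (Real.rpow_pos_of_pos hLpos _) hη
  have hGx : 1000 * (G : ℝ) ≤ x ^ (1 + ε) := by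
    have h3 : (K : ℝ) + 1 ≤ 2 * L := by
      have : (K : ℝ) ≤ L := by exact_mod_cast hKL
      linarith only [hx5, hLlo, this]
    have h4 : 100 * ((K : ℝ) + 1) / (L : ℝ) ^ (-(ε / 4)) ≤ 200 * x ^ (1 + ε / 4) := by
      rw [Real.rpow_neg hLpos.le, div_inv_eq_mul]
      have h5 : (L : ℝ) ^ (ε / 4) ≤ x ^ (ε / 4) := Real.rpow_le_rpow hLpos.le hLx (by linarith only [hε])
      rw [Real.rpow_add hx0, Real.rpow_one]
      calc 100 * ((K : ℝ) + 1) * (L : ℝ) ^ (ε / 4) ≤ 100 * (2 * x) * x ^ (ε / 4) :=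
            mul_le_mul (by linarith only [hx5, hLhi, h3]) h5 (Real.rpow_nonneg hLpos.le _) (by (clear * - hx5; positivity))
        _ = _ := by ring
    have h6 : 0 ≤ x ^ (1 + ε / 4) := Real.rpow_nonneg hx0.le _
    linarith only [e8, hG2, h4]
  have hslip := slip_near (X := W q (xw L L)) (W_prob h0.le h1.le (xw L L)) pY hG
    (er.trans herr) (by
      have h3 : (4 * (1000 * (G : ℝ)) + 2) ≤ x ^ (2 : ℝ) := by
        have : (1 : ℝ) ≤ x ^ (1 + ε) := Real.one_le_rpow hx1 (by linarith only [hε])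
        linarith only [e9, hGx, this]
      calc (4 * (1000 * (G : ℝ)) + 2) * Real.exp (-x ^ (1 / 2 : ℝ))
          ≤ x ^ (2 : ℝ) * x ^ (-2 : ℝ) :=
            mul_le_mul h3 hexp (Real.exp_pos _).le (Real.rpow_nonneg hx0.le _)
        _ = 1 := by rw [← Real.rpow_add hx0]; norm_num)
  -- exponents
  have hsq1 : (x ^ (-(3 / 4 - ε))) ^ 2 = x ^ (-(3 / 2) + 2 * ε) := by
    rw [← Real.rpow_natCast, ← Real.rpow_mul hx0.le]; congr 1; push_cast; ring
  have hsq2 : (x ^ (-(5 / 4 - ε))) ^ 2 = x ^ (-(5 / 2) + 2 * ε) := by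
    rw [← Real.rpow_natCast, ← Real.rpow_mul hx0.le]; congr 1; push_cast; ring
  have hpow : ∀ p m : ℝ, p ≤ 0 → -p ≤ m → (L : ℝ) ^ p ≤ (5 : ℝ) ^ m * x ^ p := by
    intro p m hp hm
    have h3 : (L : ℝ) ^ p ≤ (x / 5) ^ p := Real.rpow_le_rpow_of_nonpos (by (clear * - hx5; positivity)) hL5 hp
    refine h3.trans ?_
    rw [Real.div_rpow hx0.le (by norm_num), div_eq_mul_inv, ← Real.rpow_neg (by norm_num), mul_comm]
    exact mul_le_mul_of_nonneg_right (Real.rpow_le_rpow_of_exponent_le (by norm_num) hm)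
      (Real.rpow_nonneg hx0.le _)
  have hdf : C * (L : ℝ) ^ (-(3 / 2) + ε) ≤ (x ^ (-(3 / 4 - ε))) ^ 2 := by
    rw [hsq1]
    have h3 := hpow (-(3 / 2) + ε) 2 (by linarith only [hε1]) (by linarith only [hε, hε1])
    have h4 : (5 : ℝ) ^ (2 : ℝ) = 25 := by norm_num
    rw [h4] at h3
    have := mul_le_mul_of_nonneg_left h3 (by linarith only [hC] : 0 ≤ C)
    linarith only [e6, this]
  have hde : C * (L : ℝ) ^ (-(5 / 2) + ε) ≤ (x ^ (-(5 / 4 - ε))) ^ 2 := by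
    rw [hsq2]
    have h3 := hpow (-(5 / 2) + ε) 3 (by linarith only [hε, hε1]) (by linarith only [hε, hε1])
    have h4 : (5 : ℝ) ^ (3 : ℝ) = 125 := by norm_num
    rw [h4] at h3
    have := mul_le_mul_of_nonneg_left h3 (by linarith only [hC] : 0 ≤ C)
    linarith only [e7, this]
  set e : Alg := (1 / 2 : ℝ) • (X1 + X0) - Y with he
  set f : Alg := (1 / 2 : ℝ) • (X1 - X0) with hf
  have hX0 : Y + e - f = X0 := by rw [he, hf]; module
  have hX1 : Y + e + f = X1 := by rw [he, hf]; module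
  refine ⟨xw L L, xw (L - 1) (L + 1), xw (L + 1) (L - 1), Y, e, f, 1000 * G, ?_⟩
  have hlen : (xw L L).length = 4 * L + 1 := by rw [xw_length]; ring
  constructor
  · exact xw_ne hL1
  · rw [xw_length, xw_length]; (clear * - hL1; omega)
  · rw [xw_length, xw_length]; omega
  · rw [hlen]; push_cast; linarith only [hLlo]
  · rw [hlen]; push_cast; linarith only [hx5, hLhi]
  · exact er.trans herr
  · rw [hX0]; exact er0.trans herr
  · rw [hX1]; exact er1.trans herr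
  · constructor
    · exact pY
    · rw [he, MA.aug_sub, MA.aug_smul, MA.aug_add, pX0.aug, pX1.aug, pY.aug]; norm_num
    · rw [hf, MA.aug_smul, MA.aug_sub, pX0.aug, pX1.aug]; norm_num
    · exact (df _ (Real.rpow_nonneg hLpos.le _) e1.1).mono pY.nonneg hdf
    · exact (de _ (Real.rpow_nonneg hLpos.le _) e1.2).mono pY.nonneg hde
    · exact Real.rpow_nonneg hx0.le _
    · exact Real.rpow_le_one_of_one_le_of_nonpos hx1 (by linarith only [hε, hε1])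
    · exact Real.rpow_nonneg hx0.le _
    · exact Real.rpow_le_one_of_one_le_of_nonpos hx1 (by linarith only [hε1])
    · positivity
    · exact inv_le_one_of_one_le₀ hC
    · exact hC
    · rw [hX0]; exact pX0
    · rw [hX1]; exact pX1
    · rw [hX0]; exact lo0
    · rw [hX1]; exact lo1
    · rw [hX0]; exact hi0
    · rw [hX1]; exact hi1
  · exact hslip
  · push_cast; exact hGx

/-- The base level datum from the overlap alone. -/
theorem base_TLev_of_overlap {q : ℝ} (h0 : 0 < q) (h1 : q < 1) (hO : BaseOverlap q)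
    {ε : ℝ} (hε : 0 < ε) (hε1 : ε ≤ 1 / 4) : MA.TLev q ε (3 / 4 - ε) (5 / 4 - ε) :=
  base_TLev h0 h1 (Smooth.base_dom h0 h1) hO hε hε1

end Vale.Agent.P321.Lt
end
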