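import Mathlib.Analysis.SpecialFunctions.Log.Basic
import Mathlib.Analysis.SpecialFunctions.Pow.Asymptotics
import Vale.Agent.P321.Bdl.B4
import Vale.Agent.P321.Bdl.B6
import Vale.Agent.P321.Bdl.B5

section

/-!
From the weighted L2 norm to the l1 norm; the marked letters are invisible.
-/

set_option linter.unusedSectionVars false

namespace Vale.Agent.P321

open Finset Polynomial

namespace Cr

section gen

variable {Λ : Type} [Fintype Λ] [DecidableEq Λ] {ν : Λ → ℝ}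

theorem coeff_NN_pow (T : ℕ) (w : FreeMonoid Λ) :
    (NN ν ^ T).coeff w = if w.length = T then wt ν w else 0 := by
  induction T generalizing w with
  | zero =>
    rw [pow_zero, MonoidAlgebra.one_def, MonoidAlgebra.coeff_single]
    by_cases h : w = 1
    · subst h
      have h1 : wt ν (1 : FreeMonoid Λ) = 1 := (wt ν).map_one
      rw [Finsupp.single_eq_same, if_pos FreeMonoid.length_one, h1]
    · rw [Finsupp.single_eq_of_ne (by exact h), if_neg]
      intro h2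
      exact h (FreeMonoid.length_eq_zero.mp h2)
  | succ T ih =>
    rw [pow_succ']
    induction w using FreeMonoid.recOn with
    | one =>
      rw [if_neg]
      · exact coeff_lin_mul_one ν _
      · rw [FreeMonoid.length_one]; omega
    | of_mul l w _ =>
      have e := coeff_lin_mul ν (NN ν ^ T) l w
      have e' : NN ν = lin ν := rfl
      rw [e'] at e ih ⊢
      rw [e, ih, FreeMonoid.length_mul, FreeMonoid.length_of, wt_of]
      by_cases h : w.length = T
      · rw [if_pos h, if_pos (by omega)]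
      · rw [if_neg h, if_neg (by omega), mul_zero]

theorem NN_nonneg (hν : Law ν) : MA.nonneg (NN ν) := by
  rw [NN, lin]
  exact MA.nonneg_sum _ _ fun l _ => MA.nonneg_single _ (hν.pos l).le

theorem NN_aug (hν : Law ν) : MA.aug (NN ν) = 1 := by
  rw [NN, lin, MA.aug_sum, ← hν.sum]
  refine Finset.sum_congr rfl fun l _ => ?_
  rw [MA.aug, MA.ev_single, mul_one]

theorem sum_coeff_le {x : FA Λ} (hx : MA.nonneg x) (S : Finset (FreeMonoid Λ)) :
    ∑ w ∈ S, x.coeff w ≤ MA.aug x := by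
  classical
  rw [MA.aug, MA.ev_eq_sum x _ (x.coeff.support ∪ S) Finset.subset_union_left]
  simp only [mul_one]
  exact Finset.sum_le_sum_of_subset_of_nonneg Finset.subset_union_right fun w _ _ => hx w

theorem sum_wt_le (hν : Law ν) (S : Finset (FreeMonoid Λ)) (Z : Finset ℕ)
    (hS : ∀ w ∈ S, w.length ∈ Z) : ∑ w ∈ S, wt ν w ≤ Z.card := by
  classical
  rw [← Finset.sum_fiberwise_of_maps_to (g := fun w : FreeMonoid Λ => w.length) hS]
  have : ∀ T ∈ Z, ∑ w ∈ S with w.length = T, wt ν w ≤ 1 := by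
    intro T _
    have h1 : ∑ w ∈ S with w.length = T, wt ν w = ∑ w ∈ S with w.length = T, (NN ν ^ T).coeff w := by
      refine Finset.sum_congr rfl fun w hw => ?_
      rw [coeff_NN_pow, if_pos (Finset.mem_filter.mp hw).2]
    rw [h1]
    refine (sum_coeff_le (MA.nonneg_pow (NN_nonneg hν) T) _).trans ?_
    rw [MA.aug_pow, NN_aug hν, one_pow]
  refine (Finset.sum_le_sum this).trans ?_
  simp only [sum_const, nsmul_eq_mul, mul_one, Std.le_refl]

theorem ip_self (ν : Λ → ℝ) (D : FA Λ) :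
    ip ν D D = ∑ w ∈ D.coeff.support, D.coeff w ^ 2 / wt ν w := by
  rw [ip, MA.ev_def, Finsupp.sum]
  refine Finset.sum_congr rfl fun w _ => ?_
  ring

theorem cs_words (hν : Law ν) (D : FA Λ) (Z : Finset ℕ) :
    ∑ w ∈ D.coeff.support with w.length ∈ Z, |D.coeff w| ≤ Real.sqrt (Z.card * ip ν D D) := by
  classical
  set S := D.coeff.support.filter (fun w => w.length ∈ Z) with hS
  have h1 : ∑ w ∈ S, wt ν w ≤ Z.card := sum_wt_le hν S Z fun w hw => (Finset.mem_filter.mp hw).2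
  have h2 : ∑ w ∈ S, D.coeff w ^ 2 / wt ν w ≤ ip ν D D := by
    rw [ip_self]
    exact Finset.sum_le_sum_of_subset_of_nonneg (Finset.filter_subset _ _) fun w _ _ =>
      div_nonneg (sq_nonneg _) (wt_pos hν w).le
  have hcs := Finset.sum_mul_sq_le_sq_mul_sq S (fun w => Real.sqrt (wt ν w))
    (fun w => |D.coeff w| / Real.sqrt (wt ν w))
  have e1 : ∑ w ∈ S, Real.sqrt (wt ν w) * (|D.coeff w| / Real.sqrt (wt ν w))
      = ∑ w ∈ S, |D.coeff w| := by
    refine Finset.sum_congr rfl fun w _ => ?_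
    have := (Real.sqrt_pos.mpr (wt_pos hν w)).ne'
    (clear * - this; field_simp)
  have e2 : ∑ w ∈ S, Real.sqrt (wt ν w) ^ 2 = ∑ w ∈ S, wt ν w :=
    Finset.sum_congr rfl fun w _ => Real.sq_sqrt (wt_pos hν w).le
  have e3 : ∑ w ∈ S, (|D.coeff w| / Real.sqrt (wt ν w)) ^ 2 = ∑ w ∈ S, D.coeff w ^ 2 / wt ν w := by
    refine Finset.sum_congr rfl fun w _ => ?_
    rw [div_pow, Real.sq_sqrt (wt_pos hν w).le, sq_abs]
  rw [e1, e2, e3] at hcs
  refine Real.le_sqrt_of_sq_le (hcs.trans ?_)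
  have h0 : 0 ≤ ∑ w ∈ S, D.coeff w ^ 2 / wt ν w :=
    Finset.sum_nonneg fun w _ => div_nonneg (sq_nonneg _) (wt_pos hν w).le
  exact mul_le_mul h1 h2 h0 (Nat.cast_nonneg _)

end gen

theorem cheb {P : ℝ[X]} {m v : ℝ} (hP : PB P m v) {a : ℝ} (ha : 0 < a) (g : ℕ → ℝ)
    (hg0 : ∀ t : ℕ, a ≤ |(t : ℝ) - m| → g t ≤ 1) (hg1 : ∀ t : ℕ, |(t : ℝ) - m| < a → g t ≤ 0) :
    (P.sum fun k c => c * g k) ≤ v / a ^ 2 := by
  rw [sum_over_range' P _ (P.natDegree + 1) (Nat.lt_succ_self _)]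
  · have key : ∀ t ∈ range (P.natDegree + 1), P.coeff t * g t
        ≤ (1 / a ^ 2) * (P.coeff t * ((t : ℝ) - m) ^ 2) := by
      intro t _
      have p0 := hP.nonneg t
      have ha2 : 0 < a ^ 2 := by positivity
      by_cases h : a ≤ |(t : ℝ) - m|
      · have h1 : 1 ≤ (1 / a ^ 2) * ((t : ℝ) - m) ^ 2 := by
          rw [div_mul_eq_mul_div, one_mul, le_div_iff₀ ha2, one_mul, ← sq_abs ((t : ℝ) - m)]
          exact pow_le_pow_left₀ ha.le h 2
        calc P.coeff t * g t ≤ P.coeff t * 1 := mul_le_mul_of_nonneg_left (hg0 t h) p0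
          _ ≤ P.coeff t * ((1 / a ^ 2) * ((t : ℝ) - m) ^ 2) := mul_le_mul_of_nonneg_left h1 p0
          _ = _ := by ring
      · have h1 : P.coeff t * g t ≤ 0 := mul_nonpos_of_nonneg_of_nonpos p0 (hg1 t (not_le.mp h))
        exact h1.trans (by (clear * - ha p0; positivity))
    refine (Finset.sum_le_sum key).trans (le_of_eq ?_)
    rw [← Finset.mul_sum, hP.sum_var (Nat.lt_succ_self _)]
    ring
  · intro n; simp

open Lt

/-- letter weights -/
noncomputable def nu (q : ℝ) : Fin 3 → ℝ := ![q / (1 + q), q / (1 + q), (1 - q) / (1 + q)]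

theorem law_nu {q : ℝ} (h0 : 0 < q) (h1 : q < 1) : Law (nu q) := by
  have h2 : 0 < 1 - q := by linarith
  refine ⟨?_, ?_⟩
  · intro l
    fin_cases l <;> simp [nu] <;> positivity
  · rw [Fin.sum_univ_three]
    simp [nu]
    field_simp
    ring

theorem NN_nu (q : ℝ) : NN (nu q) = v q := by
  rw [NN, lin, Fin.sum_univ_three, v, sg, sg, sg, MonoidAlgebra.smul_single,
    MonoidAlgebra.smul_single, MonoidAlgebra.smul_single]
  simp [nu]

theorem et_nu (q : ℝ) : et (nu q) 0 = sg 0 - v q := by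
  rw [← NN_nu, et, NN, lin, lin]
  simp only [MonoidAlgebra.single_sub]
  rw [Finset.sum_sub_distrib]
  congr 1
  rw [Fin.sum_univ_three]
  simp only [Fin.isValue, ↓reduceIte, one_ne_zero, MonoidAlgebra.single_zero, add_zero, Fin.reduceEq, sg]

/-- the unit with survival probability `s` -/
noncomputable def Us (q s : ℝ) : LA := (1 - s) • (1 : LA) + s • v q

/-- the blank version of the marked letter -/
noncomputable def Eb (q : ℝ) : LA := q • (1 : LA) + (1 - q) • v q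

theorem al_cn (q s : ℝ) : al (nu q) (cn s) = Us q s := by
  rw [al, cn, map_add, map_mul, aeval_C, aeval_C, aeval_X, NN_nu, Us,
    Algebra.algebraMap_eq_smul_one, Algebra.algebraMap_eq_smul_one, smul_mul_assoc, one_mul]

theorem Eb_eq (q : ℝ) : Eb q = Us q (1 - q) := by
  rw [Eb, Us, sub_sub_cancel]

theorem Us_U (q : ℝ) : Us q (1 - q ^ 2) = U q := by
  rw [Us, U, sub_sub_cancel]

theorem EE_nu (q : ℝ) : EE (nu q) (1 - q) 0 = E q := by
  rw [EE, al_cn, et_nu, ← Eb_eq, Eb, E, smul_sub]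
  abel

theorem prob_Us {q s : ℝ} (hq0 : 0 ≤ q) (hq1 : q ≤ 1) (h0 : 0 ≤ s) (h1 : s ≤ 1) :
    MA.Prob (Us q s) := by
  refine MA.prob_iff.mpr ⟨MA.nonneg_add (MA.nonneg_smul (by linarith) MA.nonneg_one)
    (MA.nonneg_smul h0 (nonneg_v hq0 hq1)), ?_⟩
  rw [Us, MA.aug_add, MA.aug_smul, MA.aug_smul, MA.aug_one, (prob_v hq0 hq1).aug]
  ring

theorem gen_Us {q : ℝ} (hq : 0 ≤ q) (s : ℝ) : gen (Us q s) = cn s := by
  rw [Us, map_add, map_smul, map_smul, map_one, gen_v hq, cn, ← Polynomial.C_mul',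
    ← Polynomial.C_mul', mul_one]

theorem gen_E {q : ℝ} : gen (E q) = cn (1 - q) := by
  rw [E, map_add, map_smul, map_smul, map_one, gen_sg, cn, ← Polynomial.C_mul',
    ← Polynomial.C_mul', mul_one, sub_sub_cancel]

/-- product of marked cells = value of the recursion -/
theorem cell_pow_eq (q s : ℝ) (L k : ℕ) :
    (Us q s ^ L * E q * Us q s ^ L) ^ (k + 1)
      = al (nu q) (cn s ^ L) * EE (nu q) (1 - q) 0 * HH (nu q) s (1 - q) 0 L k := by
  have hal : ∀ n, al (nu q) (cn s ^ n) = Us q s ^ n := fun n => by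
    rw [al, map_pow]; exact congrArg (· ^ n) (al_cn q s)
  induction k with
  | zero => rw [zero_add, pow_one, HH, hal, EE_nu]
  | succ k ih =>
    rw [pow_succ', ih, HH, hal, hal, EE_nu, two_mul, pow_add]
    simp only [mul_assoc]

theorem blank_pow_eq (q s : ℝ) (L K : ℕ) :
    (Us q s ^ L * Eb q * Us q s ^ L) ^ K
      = al (nu q) (cn s ^ (2 * L * K) * cn (1 - q) ^ K) := by
  have hal : ∀ n, al (nu q) (cn s ^ n) = Us q s ^ n := fun n => by
    rw [al, map_pow]; exact congrArg (· ^ n) (al_cn q s)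
  have h1 : Us q s ^ L * Eb q * Us q s ^ L = al (nu q) (cn s ^ (2 * L) * cn (1 - q)) := by
    rw [← hal, Eb_eq, ← al_cn, ← al_mul, ← al_mul]
    congr 1
    rw [two_mul, pow_add]; ring
  rw [h1, al, ← map_pow, mul_pow, ← pow_mul]
  rfl

/-- `l1` bound from the weighted `L2` bound and the length law -/
theorem l1_diff_le {ν : Fin 3 → ℝ} (hν : Law ν) {G G' : LA} (hG : MA.nonneg G) (hG' : MA.nonneg G')
    {P : ℝ[X]} {m v : ℝ} (hP : PB P m v) (h1 : gen G = P) (h2 : gen G' = P) {a B : ℝ} (ha : 1 ≤ a)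
    (hm : 0 ≤ m) (hB : ip ν (G - G') (G - G') ≤ B) :
    MA.l1 (G - G') ≤ Real.sqrt (3 * a * B) + 2 * (v / a ^ 2) := by
  classical
  have ha0 : 0 < a := by linarith
  set D := G - G' with hD
  set Z : Finset ℕ := Finset.Icc ⌈m - a⌉₊ ⌊m + a⌋₊ with hZ
  have hZc : (Z.card : ℝ) ≤ 3 * a := by
    rw [hZ, Nat.card_Icc]
    have e1 : ((⌊m + a⌋₊ : ℕ) : ℝ) ≤ m + a := Nat.floor_le (by linarith only [ha, hm])
    have e2 : m - a ≤ ((⌈m - a⌉₊ : ℕ) : ℝ) := Nat.le_ceil _
    rcases le_total ⌈m - a⌉₊ (⌊m + a⌋₊ + 1) with h | h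
    · rw [Nat.cast_sub h]
      push_cast
      linarith only [ha, e1, e2]
    · rw [Nat.sub_eq_zero_of_le h]
      push_cast
      linarith only [ha]
  have hZout : ∀ t : ℕ, t ∉ Z → a ≤ |(t : ℝ) - m| := by
    intro t ht
    rw [hZ, Finset.mem_Icc, not_and_or, not_le, not_le] at ht
    rcases ht with h | h
    · have := Nat.lt_ceil.mp h
      rw [abs_sub_comm]
      refine le_trans ?_ (le_abs_self _)
      linarith only [this]
    · have := (Nat.floor_lt (by linarith only [ha, hm])).mp h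
      refine le_trans ?_ (le_abs_self _)
      linarith only [this]
  have e1 : MA.l1 D = ∑ w ∈ D.coeff.support with w.length ∈ Z, |D.coeff w|
      + ∑ w ∈ D.coeff.support with w.length ∉ Z, |D.coeff w| := by
    rw [MA.l1, Finset.sum_filter_add_sum_filter_not]
  rw [e1]
  refine add_le_add ?_ ?_
  · refine (cs_words hν D Z).trans (Real.sqrt_le_sqrt ?_)
    have h0 : 0 ≤ ip ν D D := by
      rw [ip_self]
      exact Finset.sum_nonneg fun w _ => div_nonneg (sq_nonneg _) (wt_pos hν w).le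
    exact mul_le_mul hZc hB h0 (by (clear * - ha; positivity))
  · set g : ℕ → ℝ := fun t => if t ∈ Z then 0 else 1 with hg
    have hchebG : ∀ x : LA, gen x = P → MA.ev x (fun w => g (len w)) ≤ v / a ^ 2 := by
      intro x hx
      rw [ev_len, hx]
      refine cheb hP ha0 g ?_ ?_
      · intro t _
        simp only [hg]; split_ifs <;> norm_num
      · intro t ht
        have : t ∈ Z := by
          by_contra hcon
          exact absurd (hZout t hcon) (not_le.mpr ht)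
        simp only [hg]
        rw [if_pos this]
    have h3 : ∑ w ∈ D.coeff.support with w.length ∉ Z, |D.coeff w|
        = MA.ev (MA.absm D) (fun w => g (len w)) := by
      rw [MA.ev_eq_sum (MA.absm D) _ D.coeff.support, Finset.sum_filter]
      · refine Finset.sum_congr rfl fun w _ => ?_
        rw [MA.coeff_absm]
        simp only [hg]
        have : len w = w.length := rfl
        rw [this]
        split_ifs <;> (clear * - hD; simp_all)
      · intro w hw
        rw [Finsupp.mem_support_iff] at hw ⊢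
        intro h0
        exact hw (by rw [MA.coeff_absm, h0, abs_zero])
    rw [h3]
    have h4 : MA.le (MA.absm D) (G + G') := by
      intro w
      rw [MA.coeff_absm, hD]
      have a1 := hG w
      have a2 := hG' w
      rw [MonoidAlgebra.coeff_sub, MonoidAlgebra.coeff_add, Finsupp.sub_apply, Finsupp.add_apply]
      rw [abs_le]
      constructor <;> linarith only [a1, a2]
    have h5 := MA.ev_mono' h4 (g := fun w => g (len w)) (fun w => by
      simp only [hg]; split_ifs <;> norm_num)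
    refine h5.trans ?_
    rw [MA.ev_add]
    have := hchebG G h1
    have := hchebG G' h2
    (clear ν hν hG hG' B D hB hD hZc e1 h3 h4 h5; linarith)

/-- **Invisibility of the marked letters.** -/
theorem invisible {q s0 : ℝ} (hq0 : 0 < q) (hq1 : q < 1) (hs0 : 0 < s0) :
    ∃ C : ℝ, 0 < C ∧ ∀ s : ℝ, s0 ≤ s → s ≤ 1 - s0 → ∀ K L : ℕ, 1 ≤ K → K ≤ L →
      MA.l1 ((Us q s ^ L * E q * Us q s ^ L) ^ K - (Us q s ^ L * Eb q * Us q s ^ L) ^ K)
        ≤ C * ((K : ℝ) / L) ^ (1 / 8 : ℝ) := by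
  set p : ℝ := 1 - q with hp
  set M : ℝ := p ^ 2 * kap (nu q) 0 with hM
  have hν := law_nu hq0 hq1
  have hM0 : 0 ≤ M := mul_nonneg (sq_nonneg _) (kap_nonneg hν 0)
  set c := cc s0 with hc
  have hc0 : 0 < c := cc_pos hs0
  set R : ℝ := c * (1 + 12 / s0 ^ 2) with hR
  have hR0 : 0 < R := by (clear * - hc0 hs0; positivity)
  set C3 : ℝ := 24 * M * R with hC3
  have hC30 : 0 ≤ C3 := by (clear * - hM0 hc0 hs0; positivity)
  set C2 : ℝ := 24 * M * R * c with hC2
  have hC20 : 0 ≤ C2 := by (clear * - hM0 hc0 hs0; positivity)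
  refine ⟨Real.sqrt (3 * C2) + 2 + 2 * C3, by (clear * - hM0 hc0 hs0; positivity), ?_⟩
  intro s hs1 hs2 K L hK hKL
  have hL : 1 ≤ L := le_trans hK hKL
  have hKR : (1 : ℝ) ≤ K := by exact_mod_cast hK
  have hLR : (1 : ℝ) ≤ L := by exact_mod_cast hL
  have hKLR : (K : ℝ) ≤ L := by exact_mod_cast hKL
  have hL0 : (0 : ℝ) < L := by linarith only [hLR]
  have hK0 : (0 : ℝ) < K := by linarith only [hKR]
  set x : ℝ := (K : ℝ) / L with hx
  have hx0 : 0 < x := by (clear * - hK hL; positivity)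
  have hx1 : x ≤ 1 := by rw [hx, div_le_one hL0]; exact hKLR
  have hs : 0 < s := by linarith only [hs0, hs1]
  have hs' : s ≤ 1 := by linarith only [hs0, hs2]
  have hpar : Par s p s0 L L := ⟨hs0, hs1, by linarith only [hs2], by linarith only [hq1], by linarith only [hq0], hL, le_rfl, by omega⟩
  have hx8 : 0 < x ^ (1 / 8 : ℝ) := Real.rpow_pos_of_pos hx0 _
  have hx28 : Real.sqrt x ≤ x ^ (1 / 8 : ℝ) := by
    rw [Real.sqrt_eq_rpow]
    exact Real.rpow_le_rpow_of_exponent_ge hx0 hx1 (by norm_num)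
  have hRR : RR s0 s L ≤ R / Real.sqrt L := by
    rw [hR, hc]
    unfold RR
    have : 0 ≤ cc s0 := (cc_pos hs0).le
    (clear * - hs0 hs1 hc0 hL; gcongr)
  have hpU : MA.Prob (Us q s) := prob_Us hq0.le hq1.le hs.le hs'
  have hpG : MA.Prob (Us q s ^ L * E q * Us q s ^ L) :=
    L1Str.Prob.mul (L1Str.Prob.mul (L1Str.Prob.pow hpU _) (prob_E hq0.le hq1.le))
      (L1Str.Prob.pow hpU _)
  have hpG' : MA.Prob (Us q s ^ L * Eb q * Us q s ^ L) := by
    rw [Eb_eq]
    exact L1Str.Prob.mul (L1Str.Prob.mul (L1Str.Prob.pow hpU _)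
      (prob_Us hq0.le hq1.le (by linarith only [hq1]) (by linarith only [hq0]))) (L1Str.Prob.pow hpU _)
  by_cases hsm : 24 * M * RR s0 s L * Real.sqrt K ≤ 1
  · -- main case
    set G := (Us q s ^ L * E q * Us q s ^ L) ^ K with hG
    set G' := (Us q s ^ L * Eb q * Us q s ^ L) ^ K with hG'
    have hip : ip (nu q) (G - G') (G - G') ≤ C2 / L := by
      have h := ip_diff_le (a := 0) hν hpar hK hKL hsm
      have eG : G = al (nu q) (cn s ^ L) * EE (nu q) p 0 * HH (nu q) s p 0 L (K - 1) := by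
        rw [hG, ← cell_pow_eq, Nat.sub_add_cancel hK]
      rw [← eG, ← blank_pow_eq, ← hG'] at h
      refine h.trans ?_
      have hsL : 0 < Real.sqrt (L : ℝ) := Real.sqrt_pos.mpr hL0
      have hsL2 : Real.sqrt (L : ℝ) * Real.sqrt L = L := Real.mul_self_sqrt hL0.le
      calc 24 * M * RR s0 s L * (cc s0 / Real.sqrt L)
          ≤ 24 * M * (R / Real.sqrt L) * (c / Real.sqrt L) := by (clear * - hRR hM0 hc0 hL; gcongr)
        _ = C2 / (Real.sqrt L * Real.sqrt L) := by rw [hC2]; (clear * - hc0 hL hR0; field_simp)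
        _ = C2 / L := by rw [hsL2]
    have hgG : gen G = (cn s ^ (2 * L) * cn p) ^ K := by
      rw [hG, map_pow, map_mul, map_mul, map_pow, gen_Us hq0.le, gen_E, two_mul, pow_add]
      congr 1; ring
    have hgG' : gen G' = (cn s ^ (2 * L) * cn p) ^ K := by
      rw [hG', map_pow, map_mul, map_mul, map_pow, Eb_eq, gen_Us hq0.le, gen_Us hq0.le, two_mul,
        pow_add]
      congr 1; ring
    have hPB := (((PB.cn hs.le hs').pow (2 * L)).mul (PB.cn hpar.p0 hpar.p1)).pow K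
    set a : ℝ := L * x ^ (1 / 4 : ℝ) with ha
    have hx4 : x ≤ x ^ (1 / 4 : ℝ) := by
      conv_lhs => rw [← Real.rpow_one x]
      exact Real.rpow_le_rpow_of_exponent_ge hx0 hx1 (by norm_num)
    have ha1 : 1 ≤ a := by
      have : (K : ℝ) = L * x := by rw [hx]; (clear * - hL hK; field_simp)
      calc (1 : ℝ) ≤ K := hKR
        _ = L * x := this
        _ ≤ a := mul_le_mul_of_nonneg_left hx4 hL0.le
    have hmain := l1_diff_le hν (MA.nonneg_pow hpG.1 K) (MA.nonneg_pow hpG'.1 K) hPB hgG hgG' ha1 ?_ hip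
    · refine hmain.trans ?_
      have t1 : Real.sqrt (3 * a * (C2 / L)) = Real.sqrt (3 * C2) * x ^ (1 / 8 : ℝ) := by
        have : 3 * a * (C2 / L) = (3 * C2) * x ^ (1 / 4 : ℝ) := by rw [ha]; (clear * - hL hx0; field_simp)
        rw [this, Real.sqrt_mul (by (clear * - hM0 hc0 hs0; positivity)), Real.sqrt_eq_rpow (x ^ (1 / 4 : ℝ)),
          ← Real.rpow_mul hx0.le]
        norm_num
      have hvar : (K : ℝ) * (((2 * L : ℕ) : ℝ) * (s * (1 - s)) + p * (1 - p)) ≤ K * L := by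
        refine mul_le_mul_of_nonneg_left ?_ hK0.le
        have q1 := quarter s
        have q2 := quarter p
        push_cast
        nlinarith only [hLR, q2, q1]
      have t2 : (K : ℝ) * (((2 * L : ℕ) : ℝ) * (s * (1 - s)) + p * (1 - p)) / a ^ 2 ≤ Real.sqrt x := by
        have ha2 : a ^ 2 = L ^ 2 * Real.sqrt x := by
          rw [ha, mul_pow, ← Real.rpow_natCast (x ^ (1 / 4 : ℝ)) 2, ← Real.rpow_mul hx0.le,
            Real.sqrt_eq_rpow]
          norm_num
        have hsx : 0 < Real.sqrt x := Real.sqrt_pos.mpr hx0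
        rw [div_le_iff₀ (by (clear * - hL hK; positivity)), ha2]
        have : Real.sqrt x * (L ^ 2 * Real.sqrt x) = K * L := by
          have : Real.sqrt x * Real.sqrt x = x := Real.mul_self_sqrt hx0.le
          calc Real.sqrt x * ((L : ℝ) ^ 2 * Real.sqrt x) = L ^ 2 * (Real.sqrt x * Real.sqrt x) := by ring
            _ = L ^ 2 * x := by rw [this]
            _ = K * L := by rw [hx]; field_simp
        rw [this]
        exact hvar
      rw [t1]
      have h5 : 0 ≤ 2 * C3 * x ^ (1 / 8 : ℝ) := by (clear * - hM0 hc0 hs0 hK hL; positivity)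
      calc Real.sqrt (3 * C2) * x ^ (1 / 8 : ℝ)
            + 2 * ((K : ℝ) * (((2 * L : ℕ) : ℝ) * (s * (1 - s)) + p * (1 - p)) / a ^ 2)
          ≤ Real.sqrt (3 * C2) * x ^ (1 / 8 : ℝ) + 2 * x ^ (1 / 8 : ℝ) := by
            have := t2.trans hx28
            linarith only [hx28, t2]
        _ ≤ (Real.sqrt (3 * C2) + 2 + 2 * C3) * x ^ (1 / 8 : ℝ) := by linarith only [h5]
    · have := hpar.p0
      (clear * - hK hL hs hq1; positivity)
  · -- trivial case
    rw [not_le] at hsm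
    have h2 : MA.l1 ((Us q s ^ L * E q * Us q s ^ L) ^ K - (Us q s ^ L * Eb q * Us q s ^ L) ^ K) ≤ 2 := by
      have := (MA.str (G := FreeMonoid (Fin 3))).nrm_sub ((Us q s ^ L * E q * Us q s ^ L) ^ K)
        ((Us q s ^ L * Eb q * Us q s ^ L) ^ K)
      have e1 := (L1Str.Prob.pow hpG K).2
      have e2 := (L1Str.Prob.pow hpG' K).2
      rw [e1, e2] at this
      refine this.trans ?_
      norm_num
    have h3 : 1 ≤ C3 * Real.sqrt x := by
      have hsL : 0 < Real.sqrt (L : ℝ) := Real.sqrt_pos.mpr hL0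
      have : Real.sqrt x = Real.sqrt K / Real.sqrt L := by rw [hx, Real.sqrt_div hK0.le]
      rw [this]
      calc (1 : ℝ) ≤ 24 * M * RR s0 s L * Real.sqrt K := hsm.le
        _ ≤ 24 * M * (R / Real.sqrt L) * Real.sqrt K := by (clear * - hRR hM0 hK; gcongr)
        _ = C3 * (Real.sqrt K / Real.sqrt L) := by rw [hC3]; ring
    have h4 : 0 ≤ Real.sqrt (3 * C2) * x ^ (1 / 8 : ℝ) := by (clear * - hK hL; positivity)
    have h5 : C3 * Real.sqrt x ≤ C3 * x ^ (1 / 8 : ℝ) := mul_le_mul_of_nonneg_left hx28 hC30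
    calc _ ≤ (2 : ℝ) := h2
      _ ≤ 2 * (C3 * x ^ (1 / 8 : ℝ)) := by linarith only [h5, h3]
      _ ≤ (Real.sqrt (3 * C2) + 2 + 2 * C3) * x ^ (1 / 8 : ℝ) := by linarith only [hx8, h4]

end Cr

end Vale.Agent.P321
end

section

/-!
Blank cells commute: comparison of `K` and `K + 1` blank cells after tilting.
-/

set_option linter.unusedSectionVars false

namespace Vale.Agent.P321

open Finset Polynomial

namespace L1Str

variable {A : Type*} [Ring A] [Algebra ℝ A] (S : L1Str A)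

theorem nrm_pow_sub_pow_add {N : A} (hN : S.Prob N) {c : ℝ}
    (hc : ∀ n : ℕ, S.nrm ((1 - N) * N ^ n) ≤ c / Real.sqrt ((n : ℝ) + 1)) (m j : ℕ) :
    S.nrm (N ^ m - N ^ (m + j)) ≤ j * (c / Real.sqrt ((m : ℝ) + 1)) := by
  induction j with
  | zero => rw [add_zero, sub_self, S.nrm_zero]; simp
  | succ j ih =>
    have e : N ^ m - N ^ (m + (j + 1)) = (N ^ m - N ^ (m + j)) + ((1 - N) * N ^ m) * N ^ j := by
      rw [mul_assoc, ← pow_add, sub_mul, one_mul, ← pow_succ', add_assoc]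
      abel
    rw [e]
    refine (S.nrm_add _ _).trans ?_
    have h1 : S.nrm (((1 - N) * N ^ m) * N ^ j) ≤ c / Real.sqrt ((m : ℝ) + 1) := by
      refine (S.nrm_mul _ _).trans ?_
      rw [(Prob.pow hN j).2, mul_one]
      exact hc m
    push_cast
    linarith only [ih, h1]

theorem nrm_pow_sub_pow {N : A} (hN : S.Prob N) {c : ℝ} (hc0 : 0 ≤ c)
    (hc : ∀ n : ℕ, S.nrm ((1 - N) * N ^ n) ≤ c / Real.sqrt ((n : ℝ) + 1)) (m M : ℕ) :
    S.nrm (N ^ m - N ^ M) ≤ (2 * c + 3) * |(m : ℝ) - M| / Real.sqrt ((M : ℝ) + 1) := by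
  have hMs : 0 < Real.sqrt ((M : ℝ) + 1) := Real.sqrt_pos.mpr (by (clear * -; positivity))
  rcases le_total M m with h | h
  · obtain ⟨j, rfl⟩ := Nat.exists_eq_add_of_le h
    rw [S.nrm_sub_comm]
    refine (S.nrm_pow_sub_pow_add hN hc M j).trans ?_
    push_cast
    rw [add_sub_cancel_left, abs_of_nonneg (Nat.cast_nonneg j), ← mul_div_assoc]
    refine div_le_div_of_nonneg_right ?_ hMs.le
    linarith only [mul_nonneg (sub_nonneg.2 ((Nat.cast_nonneg j : (0 : ℝ) ≤ j))) (sub_nonneg.2 hc0), (Nat.cast_nonneg j : (0 : ℝ) ≤ j)]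
  · obtain ⟨j, rfl⟩ := Nat.exists_eq_add_of_le h
    have hj : (0 : ℝ) ≤ j := Nat.cast_nonneg j
    have hm : (0 : ℝ) ≤ m := Nat.cast_nonneg m
    push_cast
    push_cast at hMs
    rw [show |(m : ℝ) - (m + j)| = j by rw [sub_add_cancel_left, abs_neg, abs_of_nonneg hj]]
    by_cases hcase : (m : ℝ) + j + 1 ≤ 4 * (m + 1)
    · refine (S.nrm_pow_sub_pow_add hN hc m j).trans ?_
      have h1 : Real.sqrt ((m : ℝ) + j + 1) ≤ 2 * Real.sqrt ((m : ℝ) + 1) := by
        rw [show (2 : ℝ) * Real.sqrt ((m : ℝ) + 1) = Real.sqrt (4 * ((m : ℝ) + 1)) by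
          rw [Real.sqrt_mul (by norm_num), show (4 : ℝ) = 2 ^ 2 by norm_num,
            Real.sqrt_sq (by norm_num)]]
        exact Real.sqrt_le_sqrt hcase
      have h2 : 0 < Real.sqrt ((m : ℝ) + 1) := Real.sqrt_pos.mpr (by (clear * -; positivity))
      rw [← mul_div_assoc, div_le_div_iff₀ h2 hMs]
      have h3 : (j : ℝ) * c * Real.sqrt ((m : ℝ) + j + 1) ≤ j * c * (2 * Real.sqrt ((m : ℝ) + 1)) :=
        mul_le_mul_of_nonneg_left h1 (by (clear * - hc0; positivity))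
      nlinarith only [h3, h2]
    · have h1 : S.nrm (N ^ m - N ^ (m + j)) ≤ 2 := by
        refine (S.nrm_sub _ _).trans ?_
        rw [(Prob.pow hN _).2, (Prob.pow hN _).2]; norm_num
      refine h1.trans ?_
      rw [not_le] at hcase
      rw [le_div_iff₀ hMs]
      have h2 : Real.sqrt ((m : ℝ) + j + 1) ≤ (m : ℝ) + j + 1 := by
        rw [Real.sqrt_le_left (by positivity)]
        nlinarith only []
      nlinarith only [hcase, h2, hc0]

/-- binomial mixtures of powers concentrate -/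
theorem nrm_mix_sub_pow {N : A} (hN : S.Prob N) {c : ℝ} (hc0 : 0 ≤ c)
    (hc : ∀ n : ℕ, S.nrm ((1 - N) * N ^ n) ≤ c / Real.sqrt ((n : ℝ) + 1)) {P : ℝ[X]} {v : ℝ}
    (M : ℕ) (hP : PB P M v) {σ : ℝ} (hσ : 0 < σ) (hv : v ≤ σ ^ 2) :
    S.nrm (aeval N P - N ^ M) ≤ (2 * c + 3) * σ / Real.sqrt ((M : ℝ) + 1) := by
  have hMs : 0 < Real.sqrt ((M : ℝ) + 1) := Real.sqrt_pos.mpr (by positivity)
  have h1 : ∑ t ∈ range (P.natDegree + 1), P.coeff t = 1 := by
    rw [sum_range_eq (Nat.lt_succ_self _), hP.one]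
  have e : aeval N P - N ^ M = ∑ t ∈ range (P.natDegree + 1), P.coeff t • (N ^ t - N ^ M) := by
    rw [aeval_eq_sum_range]
    simp only [smul_sub]
    rw [Finset.sum_sub_distrib, ← Finset.sum_smul, h1, one_smul]
  rw [e]
  refine (S.nrm_sum_le _ _).trans ?_
  have key : ∀ t ∈ range (P.natDegree + 1), S.nrm (P.coeff t • (N ^ t - N ^ M))
      ≤ ((2 * c + 3) / Real.sqrt ((M : ℝ) + 1)) *
        ((1 / (2 * σ)) * (P.coeff t * ((t : ℝ) - M) ^ 2) + (σ / 2) * P.coeff t) := by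
    intro t _
    have p0 := hP.nonneg t
    rw [S.nrm_smul, abs_of_nonneg p0]
    have h2 := S.nrm_pow_sub_pow hN hc0 hc t M
    have h3 : |(t : ℝ) - M| ≤ (1 / (2 * σ)) * ((t : ℝ) - M) ^ 2 + σ / 2 := by
      rw [div_mul_eq_mul_div, one_mul, div_add_div _ _ (by (clear * - hσ; positivity)) (by norm_num),
        le_div_iff₀ (by positivity)]
      linarith only [sq_abs ((t : ℝ) - M), sq_nonneg (|(t : ℝ) - M| - σ)]
    calc P.coeff t * S.nrm (N ^ t - N ^ M)
        ≤ P.coeff t * ((2 * c + 3) * |(t : ℝ) - M| / Real.sqrt ((M : ℝ) + 1)) :=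
          mul_le_mul_of_nonneg_left h2 p0
      _ = ((2 * c + 3) / Real.sqrt ((M : ℝ) + 1)) * (P.coeff t * |(t : ℝ) - M|) := by ring
      _ ≤ ((2 * c + 3) / Real.sqrt ((M : ℝ) + 1)) *
          (P.coeff t * ((1 / (2 * σ)) * ((t : ℝ) - M) ^ 2 + σ / 2)) := by (clear * - h3 p0 hc0; gcongr)
      _ = _ := by ring
  refine (Finset.sum_le_sum key).trans ?_
  rw [← Finset.mul_sum, Finset.sum_add_distrib, ← Finset.mul_sum, ← Finset.mul_sum,
    hP.sum_var (Nat.lt_succ_self _), h1]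
  have h4 : 1 / (2 * σ) * v + σ / 2 * 1 ≤ σ := by
    have : 1 / (2 * σ) * v ≤ 1 / (2 * σ) * σ ^ 2 := mul_le_mul_of_nonneg_left hv (by positivity)
    have e2 : 1 / (2 * σ) * σ ^ 2 = σ / 2 := by field_simp
    linarith only [e2, this]
  calc _ ≤ ((2 * c + 3) / Real.sqrt ((M : ℝ) + 1)) * σ :=
        mul_le_mul_of_nonneg_left h4 (by (clear * - hc0; positivity))
    _ = _ := by ring

end L1Str

namespace Cr

open Lt

/-- smoothness of `Us` -/
theorem smooth_Us {q s ρ : ℝ} (hq0 : 0 ≤ q) (hq1 : q ≤ 1) (hρ : 0 < ρ) (h1 : ρ ≤ s)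
    (h2 : ρ ≤ 1 - s) (n : ℕ) :
    MA.l1 ((1 - Us q s) * Us q s ^ n) ≤ cc ρ / Real.sqrt ((n : ℝ) + 1) := by
  have hv : (MA.str (G := FreeMonoid (Fin 3))).nrm (v q) ≤ 1 := (prob_v hq0 hq1).2.le
  have h := (MA.str (G := FreeMonoid (Fin 3))).nrm_bin hv hρ h1 h2 n
  rw [Real.sqrt_mul (by positivity), ← div_div] at h
  have e : (1 - Us q s) * Us q s ^ n = s • ((1 - v q) * ((1 - s) • (1 : LA) + s • v q) ^ n) := by
    rw [← smul_mul_assoc]
    congr 1
    rw [Us, smul_sub, sub_smul, one_smul]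
    abel
  rw [e, MA.l1_smul]
  have hs : |s| ≤ 1 := by rw [abs_le]; constructor <;> linarith only [hρ, h1, h2]
  calc |s| * MA.l1 ((1 - v q) * ((1 - s) • (1 : LA) + s • v q) ^ n)
      ≤ 1 * MA.l1 ((1 - v q) * ((1 - s) • (1 : LA) + s • v q) ^ n) :=
        mul_le_mul_of_nonneg_right hs (MA.l1_nonneg _)
    _ = MA.l1 ((1 - v q) * ((1 - s) • (1 : LA) + s • v q) ^ n) := one_mul _
    _ ≤ _ := h

theorem Us_tilt (q s θ : ℝ) : Us q (θ * s) = (1 - θ) • (1 : LA) + θ • Us q s := by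
  rw [Us, Us, smul_add, smul_smul, smul_smul, ← add_assoc, ← add_smul]
  congr 2
  ring

theorem l1_pow_prob {x : LA} (h : MA.Prob x) (n : ℕ) : MA.l1 (x ^ n) = 1 :=
  (L1Str.Prob.pow h n).2

theorem l1_mul_sub_mul (a b a' b' : LA) :
    MA.l1 (a * b - a' * b') ≤ MA.l1 (a - a') * MA.l1 b + MA.l1 a' * MA.l1 (b - b') := by
  have e3 : a * b - a' * b' = (a - a') * b + a' * (b - b') := by
    rw [sub_mul, mul_sub]; abel
  rw [e3]
  exact (MA.l1_add _ _).trans (add_le_add (MA.l1_mul _ _) (MA.l1_mul _ _))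

/-- comparison of blank products -/
theorem blank_compare {q : ℝ} (hq0 : 0 < q) (hq1 : q < 1) :
    ∃ C : ℝ, 0 < C ∧ ∀ K L : ℕ, 1 ≤ K → 1 ≤ L →
      MA.l1 ((Us q ((K : ℝ) / (K + 1) * (1 - q ^ 2)) ^ L * Eb q *
          Us q ((K : ℝ) / (K + 1) * (1 - q ^ 2)) ^ L) ^ (K + 1)
        - (U q ^ L * Eb q * U q ^ L) ^ K) ≤ C / Real.sqrt K := by
  set s : ℝ := 1 - q ^ 2 with hs
  have hq2 : q ^ 2 < 1 := by nlinarith only [hq1, hq0]
  have hq2' : 0 < q ^ 2 := by positivity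
  set ρ : ℝ := min (q ^ 2) (1 - q ^ 2) with hρ
  have hρ0 : 0 < ρ := lt_min hq2' (by linarith)
  have hρ1 : ρ ≤ s := min_le_right _ _
  have hρ2 : ρ ≤ 1 - s := by rw [hs, sub_sub_cancel]; exact min_le_left _ _
  set ρ' : ℝ := min q (1 - q) with hρ'
  have hρ'0 : 0 < ρ' := lt_min hq0 (by linarith only [hq1])
  have hρ'1 : ρ' ≤ 1 - q := min_le_right _ _
  have hρ'2 : ρ' ≤ 1 - (1 - q) := by rw [sub_sub_cancel]; exact min_le_left _ _
  have c0 := cc_pos hρ0
  have c0' := cc_pos hρ'0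
  refine ⟨(2 * cc ρ + 3) + cc ρ', by (clear * - c0 c0'; positivity), ?_⟩
  intro K L hK hL
  have hKR : (1 : ℝ) ≤ K := by exact_mod_cast hK
  have hLR : (1 : ℝ) ≤ L := by exact_mod_cast hL
  set θ : ℝ := (K : ℝ) / (K + 1) with hθ
  have hθ0 : 0 ≤ θ := by positivity
  have hθ1 : θ ≤ 1 := by rw [hθ, div_le_one (by positivity)]; linarith only []
  have hUs : U q = Us q s := (Us_U q).symm
  have hPU : MA.Prob (Us q s) := prob_Us hq0.le hq1.le (by linarith only [hq2]) (by linarith only [hq2'])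
  have hPE : MA.Prob (Eb q) := by
    rw [Eb_eq]; exact prob_Us hq0.le hq1.le (by linarith only [hq1]) (by linarith only [hq0])
  -- commuting normal form
  have nf : ∀ s k, (Us q s ^ L * Eb q * Us q s ^ L) ^ k = Us q s ^ (2 * L * k) * Eb q ^ k := by
    intro s k
    rw [blank_pow_eq, al, map_mul, map_pow, map_pow]
    have h1 : ∀ t, aeval (NN (nu q)) (cn t) = Us q t := fun t => al_cn q t
    rw [h1, h1, Eb_eq]
  rw [nf, hUs, nf]
  have step1 : MA.l1 (Us q (θ * s) ^ (2 * L * (K + 1)) - Us q s ^ (2 * L * K))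
      ≤ (2 * cc ρ + 3) / Real.sqrt K := by
    have e1 : Us q (θ * s) ^ (2 * L * (K + 1)) = aeval (Us q s) (cn θ ^ (2 * L * (K + 1))) := by
      rw [map_pow, cn, map_add, map_mul, aeval_C, aeval_C, aeval_X,
        Algebra.algebraMap_eq_smul_one, Algebra.algebraMap_eq_smul_one, smul_mul_assoc, one_mul,
        Us_tilt]
    have hPB := (PB.cn hθ0 hθ1).pow (2 * L * (K + 1))
    have hmean : ((2 * L * (K + 1) : ℕ) : ℝ) * θ = ((2 * L * K : ℕ) : ℝ) := by
      rw [hθ]; push_cast; (clear * - hK hL; field_simp)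
    rw [hmean] at hPB
    have hvar : ((2 * L * (K + 1) : ℕ) : ℝ) * (θ * (1 - θ)) ≤ Real.sqrt (2 * L) ^ 2 := by
      rw [Real.sq_sqrt (by (clear * - hL; positivity)), ← mul_assoc, hmean]
      have : 1 - θ = 1 / ((K : ℝ) + 1) := by rw [hθ]; field_simp; ring
      rw [this]
      push_cast
      rw [mul_one_div, div_le_iff₀ (by positivity)]
      linarith only []
    have h := (MA.str (G := FreeMonoid (Fin 3))).nrm_mix_sub_pow hPU c0.le
      (fun n => smooth_Us hq0.le hq1.le hρ0 hρ1 hρ2 n) (2 * L * K) hPB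
      (Real.sqrt_pos.mpr (by positivity)) hvar
    rw [e1]
    refine (show MA.l1 _ ≤ _ from h).trans ?_
    rw [div_le_div_iff₀ (Real.sqrt_pos.mpr (by positivity)) (Real.sqrt_pos.mpr (by positivity)),
      mul_assoc]
    refine mul_le_mul_of_nonneg_left ?_ (by positivity)
    rw [← Real.sqrt_mul (by positivity)]
    refine Real.sqrt_le_sqrt ?_
    push_cast
    linarith only []
  have step2 : MA.l1 (Eb q ^ K - Eb q ^ (K + 1)) ≤ cc ρ' / Real.sqrt K := by
    have e : Eb q ^ K - Eb q ^ (K + 1) = (1 - Us q (1 - q)) * Us q (1 - q) ^ K := by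
      rw [Eb_eq, sub_mul, one_mul, ← pow_succ']
    rw [e]
    refine (smooth_Us hq0.le hq1.le hρ'0 hρ'1 hρ'2 K).trans ?_
    refine div_le_div_of_nonneg_left c0'.le (Real.sqrt_pos.mpr (by positivity)) ?_
    exact Real.sqrt_le_sqrt (by linarith only [])
  refine (l1_mul_sub_mul _ _ _ _).trans ?_
  rw [l1_pow_prob hPE, l1_pow_prob hPU, mul_one, one_mul, add_div, MA.l1_sub_comm (Eb q ^ (K + 1))]
  exact add_le_add step1 step2

end Cr

end Vale.Agent.P321
end

section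

/-!
The tilt: `(U^L E U^L)^(K+1)` dominates a multiple of the typical part of its tilted version.
-/

set_option linter.unusedSectionVars false

namespace Vale.Agent.P321

open Finset Polynomial

namespace Cr

open Lt

/-- evaluation at a real scalar -/
noncomputable def evz (z : ℝ) : LA[X] →+* LA :=
  eval₂RingHom' (RingHom.id LA) (algebraMap ℝ LA z) fun a =>
    show Commute (RingHom.id LA a) (algebraMap ℝ LA z) from (Algebra.commutes z a).symm

theorem evz_C (z : ℝ) (a : LA) : evz z (C a) = a := by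
  exact eval₂_C (RingHom.id LA) (algebraMap ℝ LA z)

theorem evz_X (z : ℝ) : evz z X = algebraMap ℝ LA z := by
  exact eval₂_X (RingHom.id LA) (algebraMap ℝ LA z)

theorem evz_sum (z : ℝ) (P : LA[X]) {N : ℕ} (hN : P.natDegree < N) :
    evz z P = ∑ j ∈ range N, z ^ j • P.coeff j := by
  refine (eval₂_eq_sum_range' (RingHom.id LA) hN (algebraMap ℝ LA z)).trans ?_
  refine Finset.sum_congr rfl fun j _ => ?_
  rw [RingHom.id_apply, ← map_pow, ← Algebra.commutes, Algebra.smul_def]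

/-- coefficientwise nonnegative -/
def PN (P : LA[X]) : Prop := ∀ j, MA.nonneg (P.coeff j)

theorem PN.mul {P Q : LA[X]} (hP : PN P) (hQ : PN Q) : PN (P * Q) := by
  intro j
  rw [coeff_mul]
  exact MA.nonneg_sum _ _ fun x _ => MA.nonneg_mul (hP _) (hQ _)

theorem PN.pow {P : LA[X]} (hP : PN P) (n : ℕ) : PN (P ^ n) := by
  induction n with
  | zero =>
    intro j
    rw [pow_zero, coeff_one]
    split_ifs
    · exact MA.nonneg_one
    · exact MA.nonneg_zero
  | succ n ih => rw [pow_succ]; exact ih.mul hP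

theorem PN.C {a : LA} (ha : MA.nonneg a) : PN (C a) := by
  intro j
  rw [coeff_C]
  split_ifs
  · exact ha
  · exact MA.nonneg_zero

/-- mass homomorphism -/
noncomputable def augH : LA →+* ℝ where
  toFun := MA.aug
  map_one' := MA.aug_one
  map_mul' := MA.aug_mul
  map_zero' := MA.ev_zero _
  map_add' := MA.aug_add

theorem augH_apply (x : LA) : augH x = MA.aug x := rfl

/-- generic unit with marked survivors -/
noncomputable def VV (q s : ℝ) : LA[X] := C ((1 - s) • (1 : LA)) + C (s • v q) * X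

theorem VV_PN {q s : ℝ} (hq0 : 0 ≤ q) (hq1 : q ≤ 1) (h0 : 0 ≤ s) (h1 : s ≤ 1) : PN (VV q s) := by
  intro j
  rw [VV, coeff_add, coeff_C, coeff_C_mul, coeff_X]
  refine MA.nonneg_add ?_ ?_
  · split_ifs
    · exact MA.nonneg_smul (by linarith only [h1]) MA.nonneg_one
    · exact MA.nonneg_zero
  · split_ifs
    · rw [mul_one]; exact MA.nonneg_smul h0 (nonneg_v hq0 hq1)
    · rw [mul_zero]; exact MA.nonneg_zero

theorem evz_VV (q s z : ℝ) : evz z (VV q s) = (1 - s) • (1 : LA) + (z * s) • v q := by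
  rw [VV, map_add, map_mul, evz_C, evz_C, evz_X, ← Algebra.commutes, ← Algebra.smul_def, smul_smul]

theorem map_VV {q : ℝ} (hq0 : 0 ≤ q) (hq1 : q ≤ 1) (s : ℝ) : (VV q s).map augH = cn s := by
  rw [VV, Polynomial.map_add, Polynomial.map_mul, Polynomial.map_X, Polynomial.map_C,
    Polynomial.map_C, augH_apply, augH_apply, MA.aug_smul, MA.aug_smul, MA.aug_one,
    (prob_v hq0 hq1).aug, mul_one, mul_one, cn]

/-- the marked product -/
noncomputable def PP (q s : ℝ) (L k : ℕ) : LA[X] := (VV q s ^ L * C (E q) * VV q s ^ L) ^ k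

theorem PP_PN {q s : ℝ} (hq0 : 0 ≤ q) (hq1 : q ≤ 1) (h0 : 0 ≤ s) (h1 : s ≤ 1) (L k : ℕ) :
    PN (PP q s L k) :=
  ((((VV_PN hq0 hq1 h0 h1).pow L).mul (PN.C (prob_E hq0 hq1).1)).mul
    ((VV_PN hq0 hq1 h0 h1).pow L)).pow k

theorem map_PP {q : ℝ} (hq0 : 0 ≤ q) (hq1 : q ≤ 1) (s : ℝ) (L k : ℕ) :
    (PP q s L k).map augH = cn s ^ (2 * L * k) := by
  rw [PP, Polynomial.map_pow, Polynomial.map_mul, Polynomial.map_mul, Polynomial.map_pow,
    Polynomial.map_C, map_VV hq0 hq1, augH_apply, (prob_E hq0 hq1).aug, Polynomial.C_1, mul_one,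
    ← pow_add, ← two_mul, ← pow_mul]

theorem aug_PP {q : ℝ} (hq0 : 0 ≤ q) (hq1 : q ≤ 1) (s : ℝ) (L k j : ℕ) :
    MA.aug ((PP q s L k).coeff j) = (cn s ^ (2 * L * k)).coeff j := by
  rw [← map_PP hq0 hq1, coeff_map, augH_apply]

theorem evz_PP (q s z : ℝ) (L k : ℕ) :
    evz z (PP q s L k) = (((1 - s) • (1 : LA) + (z * s) • v q) ^ L * E q *
      ((1 - s) • (1 : LA) + (z * s) • v q) ^ L) ^ k := by
  rw [PP, map_pow, map_mul, map_mul, map_pow, evz_VV, evz_C]

theorem smul_cell_pow (c : ℝ) (x : LA) (y : LA) (L k : ℕ) :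
    ((c • x) ^ L * y * (c • x) ^ L) ^ k = c ^ (2 * L * k) • (x ^ L * y * x ^ L) ^ k := by
  rw [smul_pow, smul_mul_assoc, smul_mul_assoc, mul_smul_comm, smul_smul, smul_pow, ← pow_add,
    ← two_mul, ← pow_mul]

/-- typical part of the tilted product -/
noncomputable def typ (q s : ℝ) (L k u : ℕ) : LA :=
  ∑ j ∈ (range ((PP q s L k).natDegree + 1)).filter (fun j => u ≤ j), (PP q s L k).coeff j

/-- atypical part of the tilted product -/
noncomputable def atyp (q s : ℝ) (L k u : ℕ) : LA :=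
  ∑ j ∈ (range ((PP q s L k).natDegree + 1)).filter (fun j => ¬ u ≤ j), (PP q s L k).coeff j

theorem typ_add_atyp (q s : ℝ) (L k u : ℕ) :
    typ q s L k u + atyp q s L k u = (Us q s ^ L * E q * Us q s ^ L) ^ k := by
  rw [typ, atyp, Finset.sum_filter_add_sum_filter_not]
  have h := evz_sum 1 (PP q s L k) (Nat.lt_succ_self _)
  rw [evz_PP] at h
  simp only [one_pow, one_smul, one_mul] at h
  rw [Us, h]

theorem typ_nonneg {q s : ℝ} (hq0 : 0 ≤ q) (hq1 : q ≤ 1) (h0 : 0 ≤ s) (h1 : s ≤ 1) (L k u : ℕ) :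
    MA.nonneg (typ q s L k u) :=
  MA.nonneg_sum _ _ fun j _ => PP_PN hq0 hq1 h0 h1 L k j

theorem atyp_nonneg {q s : ℝ} (hq0 : 0 ≤ q) (hq1 : q ≤ 1) (h0 : 0 ≤ s) (h1 : s ≤ 1) (L k u : ℕ) :
    MA.nonneg (atyp q s L k u) :=
  MA.nonneg_sum _ _ fun j _ => PP_PN hq0 hq1 h0 h1 L k j

/-- Chebyshev for the atypical part -/
theorem atyp_aug_le {q s : ℝ} (hq0 : 0 ≤ q) (hq1 : q ≤ 1) (h0 : 0 ≤ s) (h1 : s ≤ 1) (L k u : ℕ)
    (hu : ∀ j : ℕ, j < u → (j : ℝ) ≤ ((2 * L * k : ℕ) : ℝ) * s - 4 * Real.sqrt ((2 * L * k : ℕ) : ℝ))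
    (hn : 0 < 2 * L * k) :
    MA.aug (atyp q s L k u) ≤ 1 / 64 := by
  set n : ℕ := 2 * L * k with hnd
  have hnR : (0 : ℝ) < n := by exact_mod_cast hn
  have hPB := (PB.cn h0 h1).pow n
  have hsn : 0 < Real.sqrt (n : ℝ) := Real.sqrt_pos.mpr hnR
  rw [atyp, MA.aug_sum]
  have e1 : ∀ j ∈ (range ((PP q s L k).natDegree + 1)).filter (fun j => ¬ u ≤ j),
      MA.aug ((PP q s L k).coeff j)
        ≤ (1 / (16 * n)) * ((cn s ^ n).coeff j * ((j : ℝ) - n * s) ^ 2) := by
    intro j hj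
    rw [aug_PP hq0 hq1, ← hnd]
    have hj2 : j < u := not_le.mp (Finset.mem_filter.mp hj).2
    have h3 := hu j hj2
    have p0 := hPB.nonneg j
    have h4 : (16 : ℝ) * n ≤ ((j : ℝ) - n * s) ^ 2 := by
      have h5 : 4 * Real.sqrt (n : ℝ) ≤ n * s - j := by linarith only [h3]
      have h6 : (4 * Real.sqrt (n : ℝ)) ^ 2 ≤ (n * s - j) ^ 2 := pow_le_pow_left₀ (by (clear * - hn; positivity)) h5 2
      have h7 : (4 * Real.sqrt (n : ℝ)) ^ 2 = 16 * n := by
        rw [mul_pow, Real.sq_sqrt hnR.le]; norm_num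
      linarith only [h7, h6]
    have h8 : 1 ≤ (1 / (16 * n)) * ((j : ℝ) - n * s) ^ 2 := by
      rw [div_mul_eq_mul_div, one_mul, le_div_iff₀ (by (clear * - hn; positivity)), one_mul]
      exact h4
    calc (cn s ^ n).coeff j = (cn s ^ n).coeff j * 1 := by ring
      _ ≤ (cn s ^ n).coeff j * ((1 / (16 * n)) * ((j : ℝ) - n * s) ^ 2) :=
          mul_le_mul_of_nonneg_left h8 p0
      _ = _ := by ring
  refine (Finset.sum_le_sum e1).trans ?_
  rw [← Finset.mul_sum]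
  have e2 : ∑ j ∈ (range ((PP q s L k).natDegree + 1)).filter (fun j => ¬ u ≤ j),
      (cn s ^ n).coeff j * ((j : ℝ) - n * s) ^ 2 ≤ n * (s * (1 - s)) := by
    have h5 := hPB.sum_var (N := max ((cn s ^ n).natDegree + 1) ((PP q s L k).natDegree + 1))
      (lt_of_lt_of_le (Nat.lt_succ_self _) (le_max_left _ _))
    rw [← h5]
    refine Finset.sum_le_sum_of_subset_of_nonneg ?_ fun j _ _ =>
      mul_nonneg (hPB.nonneg j) (sq_nonneg _)
    refine (Finset.filter_subset _ _).trans (Finset.range_mono (le_max_right _ _))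
  calc (1 / (16 * (n : ℝ))) * _ ≤ (1 / (16 * (n : ℝ))) * (n * (s * (1 - s))) :=
        mul_le_mul_of_nonneg_left e2 (by (clear * - hn; positivity))
    _ = (1 / 16) * (s * (1 - s)) := by (clear * - hn; field_simp)
    _ ≤ (1 / 16) * (1 / 4) := mul_le_mul_of_nonneg_left (quarter s) (by norm_num)
    _ = 1 / 64 := by norm_num

/-- the product dominates a multiple of the typical part -/
theorem typ_le {q s θ : ℝ} (hq0 : 0 < q) (hq1 : q < 1) (hθ0 : 0 < θ) (hθ1 : θ ≤ 1)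
    (hs : s = θ * (1 - q ^ 2)) (L k u : ℕ) :
    MA.le (((q ^ 2 / (1 - s)) ^ (2 * L * k) * ((1 - s) / (θ * q ^ 2)) ^ u) • typ q s L k u)
      (cell q L L ^ k) := by
  have hq2 : 0 < q ^ 2 := by positivity
  have hq2' : q ^ 2 < 1 := by (by_contra nlg; linarith only [nlg, mul_pos (sub_pos.2 hq1) (sub_pos.2 hq0), mul_pos (sub_pos.2 hq1) (sub_pos.2 hq1), mul_nonneg (sub_nonneg.2 (not_lt.1 nlg)) (le_of_lt (sub_pos.2 hq0)), mul_nonneg (sub_nonneg.2 (not_lt.1 nlg)) (le_of_lt (sub_pos.2 hq1))])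
  have hs0 : 0 ≤ s := by rw [hs]; exact mul_nonneg hθ0.le (by linarith only [hq2'])
  have hs1 : s ≤ 1 - q ^ 2 := by
    rw [hs]
    (by_contra nlg; linarith only [nlg, mul_nonneg (sub_nonneg.2 hθ1) (le_of_lt (sub_pos.2 hq2')), mul_pos (sub_pos.2 (not_le.1 nlg)) (sub_pos.2 hq2'), mul_nonneg (sq_nonneg (q : ℝ)) (le_of_lt (sub_pos.2 (not_le.1 nlg)))])
  have hs1' : 0 < 1 - s := by linarith only [hq2, hs1]
  set z : ℝ := (1 - s) / (θ * q ^ 2) with hz
  have hz1 : 1 ≤ z := by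
    rw [hz, le_div_iff₀ (by positivity), hs]
    nlinarith only [hθ1]
  have hU : U q = (q ^ 2 / (1 - s)) • ((1 - s) • (1 : LA) + (z * s) • v q) := by
    rw [U, smul_add, smul_smul, smul_smul]
    congr 2
    · (clear * - hs1' hq0; field_simp)
    · have t1 : q ^ 2 / (1 - s) * (z * s) = s / θ := by rw [hz]; field_simp
      have t2 : s / θ = 1 - q ^ 2 := by rw [hs]; (clear * - hθ0; field_simp)
      rw [t1, t2]
  have e1 : cell q L L ^ k = (q ^ 2 / (1 - s)) ^ (2 * L * k) • evz z (PP q s L k) := by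
    rw [evz_PP, cell, hU, smul_cell_pow]
  rw [e1, mul_smul]
  refine MA.le_smul (by (clear * - hq0 hs1'; positivity)) ?_
  rw [evz_sum z (PP q s L k) (Nat.lt_succ_self _), typ, Finset.smul_sum,
    ← Finset.sum_filter_add_sum_filter_not (range ((PP q s L k).natDegree.succ)) (fun j => u ≤ j)]
  have hN := PP_PN hq0.le hq1.le hs0 (by linarith only [hq2, hs1]) L k
  have h2 : MA.nonneg (∑ j ∈ (range ((PP q s L k).natDegree + 1)).filter (fun j => ¬ u ≤ j),
      z ^ j • (PP q s L k).coeff j) :=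
    MA.nonneg_sum _ _ fun j _ => MA.nonneg_smul (by (clear * - hs1' hθ0 hq0; positivity)) (hN j)
  rw [MA.le_iff]
  have e2 : ∑ j ∈ (range ((PP q s L k).natDegree + 1)).filter (fun j => u ≤ j),
        z ^ j • (PP q s L k).coeff j
      + ∑ j ∈ (range ((PP q s L k).natDegree + 1)).filter (fun j => ¬ u ≤ j),
        z ^ j • (PP q s L k).coeff j
      - ∑ j ∈ (range ((PP q s L k).natDegree + 1)).filter (fun j => u ≤ j),
        z ^ u • (PP q s L k).coeff j
      = ∑ j ∈ (range ((PP q s L k).natDegree + 1)).filter (fun j => u ≤ j),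
        (z ^ j - z ^ u) • (PP q s L k).coeff j
      + ∑ j ∈ (range ((PP q s L k).natDegree + 1)).filter (fun j => ¬ u ≤ j),
        z ^ j • (PP q s L k).coeff j := by
    simp only [sub_smul, Finset.sum_sub_distrib]
    abel
  have e3 : (PP q s L k).natDegree.succ = (PP q s L k).natDegree + 1 := rfl
  rw [e3, e2]
  refine MA.nonneg_add (MA.nonneg_sum _ _ fun j hj => MA.nonneg_smul ?_ (hN j)) h2
  rw [sub_nonneg]
  exact pow_le_pow_right₀ hz1 (Finset.mem_filter.mp hj).2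

end Cr

end Vale.Agent.P321
end

section

/-!
Assembly of the critical slip.
-/

set_option linter.unusedSectionVars false

namespace Vale.Agent.P321

open Finset Polynomial

namespace Cr

open Lt

/-- lower bound for the tilting factor -/
theorem rho_lower {q : ℝ} (hq0 : 0 < q) (hq1 : q < 1) {K L : ℕ} (hK : 1 ≤ K) (hKL : K ≤ L)
    {θ s z : ℝ} (hθ : θ = (K : ℝ) / (K + 1)) (hs : s = θ * (1 - q ^ 2))
    (hz : z = (1 - s) / (θ * q ^ 2)) {u : ℕ}
    (hu : ((2 * L * (K + 1) : ℕ) : ℝ) * s - 4 * Real.sqrt ((2 * L * (K + 1) : ℕ) : ℝ) ≤ u) :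
    Real.exp (-(10 / q ^ 2) * ((L : ℝ) / K))
      ≤ (q ^ 2 / (1 - s)) ^ (2 * L * (K + 1)) * z ^ u := by
  have hq2 : 0 < q ^ 2 := by positivity
  have hq2' : q ^ 2 < 1 := by nlinarith only [hq1, hq0]
  have hKR : (1 : ℝ) ≤ K := by exact_mod_cast hK
  have hKLR : (K : ℝ) ≤ L := by exact_mod_cast hKL
  have hK0 : (0 : ℝ) < K := by linarith only [hKR]
  have hL0 : (0 : ℝ) < L := by linarith only [hKR, hKLR]
  have hθ0 : 0 < θ := by rw [hθ]; positivity
  have hθ1 : θ < 1 := by rw [hθ, div_lt_one (by positivity)]; linarith only []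
  have hs0 : 0 ≤ s := by rw [hs]; exact mul_nonneg hθ0.le (by linarith only [hq2'])
  have hs1 : s < 1 - q ^ 2 := by
    rw [hs]; nlinarith only [hq2', hθ1]
  have hs1' : 0 < 1 - s := by linarith only [hq2, hs1]
  have hz0 : 0 < z := by rw [hz]; (clear * - hs1' hθ0 hq0; positivity)
  have hz1 : 1 ≤ z := by
    rw [hz, le_div_iff₀ (by positivity), hs]
    linarith only [hθ1]
  set n : ℕ := 2 * L * (K + 1) with hn
  have hnR : (n : ℝ) = 2 * L * (K + 1) := by rw [hn]; push_cast; ring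
  have hn0 : (0 : ℝ) < n := by rw [hnR]; (clear * - hL0 hK; positivity)
  set a : ℝ := (1 - s) / q ^ 2 with ha
  have ha0 : 0 < a := by (clear * - hs1' hq0; positivity)
  rw [← Real.le_log_iff_exp_le (by (clear * - hq0 hs1' hz0; positivity)), Real.log_mul (by (clear * - hq0 hs1'; positivity)) (by positivity),
    Real.log_pow, Real.log_pow]
  have e1 : Real.log (q ^ 2 / (1 - s)) = - Real.log a := by
    rw [ha, ← Real.log_inv, inv_div]
  have e2 : Real.log z = Real.log a - Real.log θ := by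
    rw [← Real.log_div ha0.ne' hθ0.ne', hz, ha, div_div, mul_comm]
  have l1 : Real.log a ≤ a - 1 := Real.log_le_sub_one_of_pos ha0
  have l2 : Real.log θ ≤ θ - 1 := Real.log_le_sub_one_of_pos hθ0
  have l3 : Real.log z ≤ z - 1 := Real.log_le_sub_one_of_pos hz0
  have l4 : 0 ≤ Real.log z := Real.log_nonneg hz1
  have h1 : ((n : ℝ) * s - 4 * Real.sqrt n) * Real.log z ≤ u * Real.log z :=
    mul_le_mul_of_nonneg_right hu l4
  have hz' : z - 1 = 1 / (K * q ^ 2) := by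
    rw [hz, hs, hθ]
    field_simp
    ring
  have h2 : 4 * Real.sqrt (n : ℝ) * Real.log z ≤ 8 / q ^ 2 * (L / K) := by
    have h3 : Real.sqrt (n : ℝ) ≤ 2 * L := by
      rw [show (2 : ℝ) * L = Real.sqrt ((2 * L) ^ 2) by rw [Real.sqrt_sq (by (clear * - hL0; positivity))]]
      refine Real.sqrt_le_sqrt ?_
      rw [hnR]
      have : (K : ℝ) + 1 ≤ 2 * L := by linarith only [hKR, hKLR]
      nlinarith only [hKR, hKLR]
    calc 4 * Real.sqrt (n : ℝ) * Real.log z ≤ 4 * (2 * L) * (z - 1) := by (clear * - h3 l3 l4 hL0; gcongr)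
      _ = 8 / q ^ 2 * (L / K) := by rw [hz']; field_simp; ring
  have h4 : (n : ℝ) * ((1 - s) * Real.log a + s * Real.log θ) ≤ 2 / q ^ 2 * (L / K) := by
    have h5 : (1 - s) * Real.log a + s * Real.log θ ≤ (1 - s) * (a - 1) + s * (θ - 1) := by
      have := mul_le_mul_of_nonneg_left l1 hs1'.le
      have := mul_le_mul_of_nonneg_left l2 hs0
      (clear L hKL z hz u hKR hKLR hK0 hL0 hz0 hz1 n hu hn hnR hn0 ha e1 e2 l3 l4 h1 hz' h2; linarith)
    have h6 : (1 - s) * (a - 1) + s * (θ - 1) = (1 - θ) ^ 2 * (1 - q ^ 2) / q ^ 2 := by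
      rw [ha, hs]; field_simp; ring
    have h7 : 1 - θ = 1 / ((K : ℝ) + 1) := by rw [hθ]; field_simp; ring
    calc (n : ℝ) * ((1 - s) * Real.log a + s * Real.log θ)
        ≤ n * ((1 - θ) ^ 2 * (1 - q ^ 2) / q ^ 2) := by
          rw [← h6]; exact mul_le_mul_of_nonneg_left h5 hn0.le
      _ ≤ n * ((1 - θ) ^ 2 * 1 / q ^ 2) := by gcongr; linarith only [hq2]
      _ = 2 / q ^ 2 * (L / (K + 1)) := by rw [h7, hnR]; field_simp
      _ ≤ 2 / q ^ 2 * (L / K) := by gcongr; linarith only [hq0, hq1]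
  rw [e1]
  rw [e2] at h1 h2 ⊢
  have h8 : -(10 / q ^ 2) * ((L : ℝ) / K) = -(2 / q ^ 2 * (L / K)) - 8 / q ^ 2 * (L / K) := by ring
  rw [h8]
  linarith only [h4, h2, h1]

/-- the overlap with explicit error terms -/
theorem overlap_core {q : ℝ} (hq0 : 0 < q) (hq1 : q < 1) :
    ∃ C : ℝ, 0 < C ∧ ∀ K L : ℕ, 1 ≤ K → K + 1 ≤ L →
      C * (((K + 1 : ℕ) : ℝ) / L) ^ (1 / 8 : ℝ) + C / Real.sqrt K ≤ 1 / 4 →
      ∃ h : LA, MA.nonneg h ∧ MA.le h (cell q L L ^ K) ∧ MA.le h (cell q L L ^ (K + 1)) ∧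
        Real.exp (-(10 / q ^ 2) * ((L : ℝ) / K)) / 2 ≤ MA.l1 h := by
  have hq2 : 0 < q ^ 2 := by positivity
  have hq2' : q ^ 2 < 1 := by nlinarith
  set s0 : ℝ := min (q ^ 2) ((1 - q ^ 2) / 2) with hs0
  have hs00 : 0 < s0 := lt_min hq2 (by linarith only [hq2'])
  have hs01 : s0 ≤ q ^ 2 := min_le_left _ _
  have hs02 : s0 ≤ (1 - q ^ 2) / 2 := min_le_right _ _
  obtain ⟨C1, hC1, hI⟩ := invisible hq0 hq1 hs00
  obtain ⟨C2, hC2, hB⟩ := blank_compare hq0 hq1
  refine ⟨2 * C1 + C2, by (clear * - hC1 hC2; positivity), ?_⟩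
  intro K L hK hKL hsmall
  have hL : 1 ≤ L := by omega
  have hKR : (1 : ℝ) ≤ K := by exact_mod_cast hK
  have hL0 : (0 : ℝ) < L := by exact_mod_cast hL
  set θ : ℝ := (K : ℝ) / (K + 1) with hθ
  have hθ0 : 0 < θ := by rw [hθ]; positivity
  have hθ1 : θ ≤ 1 := by rw [hθ, div_le_one (by positivity)]; linarith only []
  have hθ2 : 1 / 2 ≤ θ := by rw [hθ, div_le_div_iff₀ (by norm_num) (by positivity)]; linarith only [hKR]
  set s : ℝ := θ * (1 - q ^ 2) with hs
  have hs0' : 0 ≤ s := mul_nonneg hθ0.le (by linarith only [hs00, hs02])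
  have hs1 : s ≤ 1 - q ^ 2 := by
    rw [hs]
    calc θ * (1 - q ^ 2) ≤ 1 * (1 - q ^ 2) := mul_le_mul_of_nonneg_right hθ1 (by linarith only [hs00, hs02])
      _ = _ := one_mul _
  have hs2 : s0 ≤ s := by
    refine hs02.trans ?_
    rw [hs]
    nlinarith only [hq2', hθ2]
  set n : ℕ := 2 * L * (K + 1) with hn
  set u : ℕ := ⌈((n : ℝ) * s - 4 * Real.sqrt n)⌉₊ with hu
  set A : LA := cell q L L ^ K with hA
  set Bh : LA := (Us q s ^ L * E q * Us q s ^ L) ^ (K + 1) with hBh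
  set T : LA := typ q s L (K + 1) u with hT
  set T' : LA := atyp q s L (K + 1) u with hT'
  have hTT : T + T' = Bh := typ_add_atyp q s L (K + 1) u
  have hTn : MA.nonneg T := typ_nonneg hq0.le hq1.le hs0' (by linarith only [hq2, hs1]) L (K + 1) u
  have hTn' : MA.nonneg T' := atyp_nonneg hq0.le hq1.le hs0' (by linarith only [hq2, hs1]) L (K + 1) u
  have hT'm : MA.aug T' ≤ 1 / 64 := by
    refine atyp_aug_le hq0.le hq1.le hs0' (by linarith only [hq2, hs1]) L (K + 1) u ?_ (by positivity)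
    intro j hj
    exact (Nat.lt_ceil.mp hj).le
  have hUs : MA.Prob (Us q s) := prob_Us hq0.le hq1.le hs0' (by linarith only [hq2, hs1])
  have hpA : MA.Prob A := L1Str.Prob.pow (prob_cell hq0.le hq1.le L L) K
  have hpB : MA.Prob Bh := L1Str.Prob.pow (L1Str.Prob.mul (L1Str.Prob.mul (L1Str.Prob.pow hUs L)
    (prob_E hq0.le hq1.le)) (L1Str.Prob.pow hUs L)) (K + 1)
  -- distance between `A` and `Bh`
  have hAB : MA.l1 (A - Bh) ≤ 1 / 4 := by
    have d1 := hI (1 - q ^ 2) (by linarith only [hs00, hs02]) (by linarith only [hs01]) K L hK (by (clear * - hKL; omega))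
    have d2 := hB K L hK hL
    have d3 := hI s hs2 (by linarith only [hs01, hs1]) (K + 1) L (by omega) hKL
    rw [Us_U] at d1
    have hA' : (U q ^ L * E q * U q ^ L) ^ K = A := rfl
    rw [hA'] at d1
    rw [← hBh] at d3
    rw [← hθ, ← hs] at d2
    rw [MA.l1_sub_comm] at d2 d3
    have hx : ((K : ℝ) / L) ^ (1 / 8 : ℝ) ≤ (((K + 1 : ℕ) : ℝ) / L) ^ (1 / 8 : ℝ) := by
      refine Real.rpow_le_rpow (by (clear * - hK hL; positivity)) ?_ (by norm_num)
      refine div_le_div_of_nonneg_right ?_ hL0.le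
      push_cast; linarith only []
    have t1 := (MA.str (G := FreeMonoid (Fin 3))).nrm_triangle A ((U q ^ L * Eb q * U q ^ L) ^ K) Bh
    have t2 := (MA.str (G := FreeMonoid (Fin 3))).nrm_triangle ((U q ^ L * Eb q * U q ^ L) ^ K)
      ((Us q s ^ L * Eb q * Us q s ^ L) ^ (K + 1)) Bh
    simp only [MA.str_nrm] at t1 t2
    have h0 : 0 ≤ C2 * (((K + 1 : ℕ) : ℝ) / L) ^ (1 / 8 : ℝ) := by (clear * - hC2 hK hL; positivity)
    have h0' : 0 ≤ 2 * C1 / Real.sqrt K := by positivity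
    have h1 : C1 * ((K : ℝ) / L) ^ (1 / 8 : ℝ) ≤ C1 * (((K + 1 : ℕ) : ℝ) / L) ^ (1 / 8 : ℝ) :=
      mul_le_mul_of_nonneg_left hx hC1.le
    have h2 : (2 * C1 + C2) / Real.sqrt K = 2 * C1 / Real.sqrt K + C2 / Real.sqrt K := add_div _ _ _
    rw [h2] at hsmall
    linarith only [h1, h0', h0, t2, t1, d3, d2, d1, hsmall]
  -- the common part
  obtain ⟨m, hm0, hm1, hm2, hm3⟩ := MA.exists_min hpA.1 hTn
  have hTm : MA.l1 T = 1 - MA.aug T' := by
    have e1 : MA.aug T + MA.aug T' = 1 := by rw [← MA.aug_add, hTT]; exact hpB.aug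
    rw [MA.l1_of_nonneg hTn]; linarith only [e1]
  have hAT : MA.l1 (A - T) ≤ 1 / 4 + MA.aug T' := by
    have e : A - T = (A - Bh) + T' := by rw [← hTT]; abel
    rw [e]
    refine (MA.l1_add _ _).trans ?_
    rw [MA.l1_of_nonneg hTn']
    linarith only [hAB]
  have hml : 1 / 2 ≤ MA.l1 m := by
    have e1 : MA.l1 A = 1 := hpA.2
    rw [e1, hTm] at hm3
    linarith only [hAT, hm3, hT'm]
  set δ : ℝ := Real.exp (-(10 / q ^ 2) * ((L : ℝ) / K)) with hδ
  have hδ0 : 0 < δ := Real.exp_pos _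
  have hδ1 : δ ≤ 1 := by
    rw [hδ]
    refine Real.exp_le_one_iff.mpr ?_
    have : 0 ≤ 10 / q ^ 2 * ((L : ℝ) / K) := by positivity
    linarith only [this]
  refine ⟨δ • m, MA.nonneg_smul hδ0.le hm0, ?_, ?_, ?_⟩
  · have h1 : MA.le m A := MA.le_iff.mpr hm1
    refine MA.le_trans ?_ h1
    intro w
    rw [MonoidAlgebra.coeff_smul, Finsupp.smul_apply, smul_eq_mul]
    have := hm0 w
    linarith only [mul_nonneg (sub_nonneg.2 hδ1) (sub_nonneg.2 this)]
  · have h1 : MA.le m T := MA.le_iff.mpr hm2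
    have h2 : MA.le (δ • m) (δ • T) := MA.le_smul hδ0.le h1
    have h3 : δ ≤ (q ^ 2 / (1 - s)) ^ (2 * L * (K + 1)) * ((1 - s) / (θ * q ^ 2)) ^ u :=
      rho_lower hq0 hq1 hK (by omega) hθ hs rfl (by
        rw [← hn]
        exact Nat.le_ceil _)
    have h4 : MA.le (δ • T)
        (((q ^ 2 / (1 - s)) ^ (2 * L * (K + 1)) * ((1 - s) / (θ * q ^ 2)) ^ u) • T) := by
      intro w
      rw [MonoidAlgebra.coeff_smul, Finsupp.smul_apply, smul_eq_mul, MonoidAlgebra.coeff_smul,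
        Finsupp.smul_apply, smul_eq_mul]
      exact mul_le_mul_of_nonneg_right h3 (hTn w)
    exact MA.le_trans h2 (MA.le_trans h4 (typ_le hq0 hq1 hθ0 hθ1 hs L (K + 1) u))
  · rw [MA.l1_smul, abs_of_pos hδ0]
    linarith only [mul_nonneg (sub_nonneg.2 hml) (le_of_lt (sub_pos.2 hδ0))]

open Filter in
/-- **The critical slip**: `X^K` and `X^(K+1)` overlap in mass at least `L^(-ε)` for some
`K ≤ L`, where `X = U^L E U^L`. -/
theorem base_overlap {q : ℝ} (hq0 : 0 < q) (hq1 : q < 1) (ε : ℝ) (hε : 0 < ε) :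
    ∀ᶠ L : ℕ in atTop, ∃ (K : ℕ) (h : LA), K ≤ L ∧ MA.nonneg h ∧
      MA.le h (cell q L L ^ K) ∧ MA.le h (cell q L L ^ (K + 1)) ∧ (L : ℝ) ^ (-ε) ≤ MA.l1 h := by
  have hq2 : 0 < q ^ 2 := by positivity
  obtain ⟨C, hC, hcore⟩ := overlap_core hq0 hq1
  set D : ℝ := 20 / (q ^ 2 * ε) with hD
  have hD0 : 0 < D := by positivity
  have hLog : Tendsto (fun L : ℕ => Real.log (L : ℝ)) atTop atTop :=
    Real.tendsto_log_atTop.comp tendsto_natCast_atTop_atTop
  have hNat : Tendsto (fun L : ℕ => (L : ℝ)) atTop atTop := tendsto_natCast_atTop_atTop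
  -- (K+1)/L is small
  have hA : Tendsto (fun L : ℕ => D / Real.log (L : ℝ) + 2 / (L : ℝ)) atTop (nhds 0) := by
    have h1 : Tendsto (fun L : ℕ => D / Real.log (L : ℝ)) atTop (nhds 0) := hLog.const_div_atTop D
    have h2 : Tendsto (fun L : ℕ => 2 / (L : ℝ)) atTop (nhds 0) := hNat.const_div_atTop 2
    simpa only [add_zero] using h1.add h2
  have hA8 : Tendsto (fun L : ℕ => C * (D / Real.log (L : ℝ) + 2 / (L : ℝ)) ^ (1 / 8 : ℝ)) atTop
      (nhds 0) := by
    have h1 := (hA.rpow_const (p := (1 / 8 : ℝ)) (Or.inr (by norm_num))).const_mul C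
    rw [Real.zero_rpow (by norm_num), mul_zero] at h1
    exact h1
  have hB : Tendsto (fun L : ℕ => C / Real.sqrt (D * (Real.sqrt (L : ℝ) / 2))) atTop (nhds 0) := by
    refine Tendsto.const_div_atTop ?_ C
    refine Real.tendsto_sqrt_atTop.comp ?_
    refine Tendsto.const_mul_atTop hD0 ?_
    exact (Real.tendsto_sqrt_atTop.comp hNat).atTop_div_const (by norm_num)
  have hAB := hA8.add hB
  rw [add_zero] at hAB
  have ev1 := hAB.eventually (Iio_mem_nhds (by norm_num : (0 : ℝ) < 1 / 4))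
  have ev2 := hA.eventually (Iio_mem_nhds (by norm_num : (0 : ℝ) < 1))
  have ev3 : ∀ᶠ L : ℕ in atTop, (2 : ℝ) ≤ (L : ℝ) ^ (ε / 2) :=
    ((tendsto_rpow_atTop (by positivity : 0 < ε / 2)).comp hNat).eventually_ge_atTop 2
  have ev4 := hLog.eventually_gt_atTop 0
  filter_upwards [ev1, ev2, ev3, ev4, eventually_ge_atTop 2] with L e1 e2 e3 e4 e5
  change C * (D / Real.log (L : ℝ) + 2 / (L : ℝ)) ^ (1 / 8 : ℝ)
    + C / Real.sqrt (D * (Real.sqrt (L : ℝ) / 2)) < 1 / 4 at e1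
  change D / Real.log (L : ℝ) + 2 / (L : ℝ) < 1 at e2
  have hL0 : (0 : ℝ) < L := by exact_mod_cast (by omega : 0 < L)
  have hy0 : 0 < D * L / Real.log L := by positivity
  set K : ℕ := ⌈D * L / Real.log L⌉₊ with hK
  have hK1 : 1 ≤ K := Nat.ceil_pos.mpr hy0
  have hKR : (1 : ℝ) ≤ K := by exact_mod_cast hK1
  have hKlow : D * L / Real.log L ≤ K := Nat.le_ceil _
  have hKup : (K : ℝ) < D * L / Real.log L + 1 := Nat.ceil_lt_add_one hy0.le
  have hKL : ((K + 1 : ℕ) : ℝ) / L ≤ D / Real.log L + 2 / L := by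
    rw [div_le_iff₀ hL0]
    have : (D / Real.log L + 2 / L) * L = D * L / Real.log L + 2 := by (clear * - e5 e4 hD0; field_simp)
    rw [this]
    push_cast
    linarith only [hKup]
  have hKL' : K + 1 ≤ L := by
    have h1 : ((K + 1 : ℕ) : ℝ) / L < 1 := lt_of_le_of_lt hKL e2
    rw [div_lt_one hL0] at h1
    exact_mod_cast h1.le
  have hsqrt : Real.sqrt (D * (Real.sqrt (L : ℝ) / 2)) ≤ Real.sqrt K := by
    refine Real.sqrt_le_sqrt (le_trans ?_ hKlow)
    rw [le_div_iff₀ e4]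
    have hsL : 0 < Real.sqrt (L : ℝ) := Real.sqrt_pos.mpr hL0
    have h1 : Real.log (L : ℝ) ≤ 2 * Real.sqrt L := by
      have h2 : Real.log (Real.sqrt (L : ℝ)) ≤ Real.sqrt L - 1 := Real.log_le_sub_one_of_pos hsL
      rw [Real.log_sqrt hL0.le] at h2
      linarith only [hq0, hq1, h2]
    have h3 : Real.sqrt (L : ℝ) * Real.sqrt L = L := Real.mul_self_sqrt hL0.le
    calc D * (Real.sqrt (L : ℝ) / 2) * Real.log L
        ≤ D * (Real.sqrt (L : ℝ) / 2) * (2 * Real.sqrt L) := by (clear * - h1 hq0 hε e5; gcongr)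
      _ = D * (Real.sqrt (L : ℝ) * Real.sqrt L) := by ring
      _ = D * L := by rw [h3]
  have hsmall : C * (((K + 1 : ℕ) : ℝ) / L) ^ (1 / 8 : ℝ) + C / Real.sqrt K ≤ 1 / 4 := by
    have h1 : (((K + 1 : ℕ) : ℝ) / L) ^ (1 / 8 : ℝ) ≤ (D / Real.log L + 2 / L) ^ (1 / 8 : ℝ) :=
      Real.rpow_le_rpow (by (clear * - hq0 hε e5 e4; positivity)) hKL (by norm_num)
    have h2 : C / Real.sqrt K ≤ C / Real.sqrt (D * (Real.sqrt (L : ℝ) / 2)) :=
      div_le_div_of_nonneg_left hC.le (Real.sqrt_pos.mpr (by positivity)) hsqrt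
    have h3 := mul_le_mul_of_nonneg_left h1 hC.le
    linarith only [e1, h2, h3]
  obtain ⟨h, h1, h2, h3, h4⟩ := hcore K L hK1 hKL' hsmall
  refine ⟨K, h, by omega, h1, h2, h3, le_trans ?_ h4⟩
  have hx : (10 / q ^ 2) * ((L : ℝ) / K) ≤ (ε / 2) * Real.log L := by
    have h5 : (L : ℝ) / K ≤ Real.log L / D := by
      rw [div_le_div_iff₀ (by linarith only [hKR]) hD0]
      rw [div_le_iff₀ e4] at hKlow
      linarith only [hKlow]
    calc (10 / q ^ 2) * ((L : ℝ) / K) ≤ (10 / q ^ 2) * (Real.log L / D) := by (clear * - h5 hq0; gcongr)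
      _ = (ε / 2) * Real.log L := by rw [hD]; field_simp; norm_num
  have h6 : (L : ℝ) ^ (-(ε / 2)) ≤ Real.exp (-(10 / q ^ 2) * ((L : ℝ) / K)) := by
    rw [Real.rpow_def_of_pos hL0]
    refine Real.exp_le_exp.mpr ?_
    linarith only [hx]
  have h7 : (L : ℝ) ^ (-ε) = (L : ℝ) ^ (-(ε / 2)) / (L : ℝ) ^ (ε / 2) := by
    rw [← Real.rpow_sub hL0]; congr 1; ring
  rw [h7]
  have h8 : 0 < (L : ℝ) ^ (-(ε / 2)) := Real.rpow_pos_of_pos hL0 _
  calc (L : ℝ) ^ (-(ε / 2)) / (L : ℝ) ^ (ε / 2) ≤ (L : ℝ) ^ (-(ε / 2)) / 2 :=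
        div_le_div_of_nonneg_left h8.le (by norm_num) e3
    _ ≤ _ := div_le_div_of_nonneg_right h6 (by norm_num)

end Cr

end Vale.Agent.P321
end

section

/-!
The base triple with all sizes powers of two.
-/

namespace Vale.Agent.P321.Lt

open Finset Filter Topology
open MA (ev le Prob push restr Dom)

/-- base elements with ratio near one -/
def BaseNear (q : ℝ) : Prop :=
  ∃ (C ρ : ℝ) (L0 : ℕ), 1 ≤ C ∧ 0 < ρ ∧ ρ < 1 ∧ 1 ≤ L0 ∧ ∀ L : ℕ, L0 ≤ L →
    ∃ Y X0 X1 : Alg, Prob Y ∧ Prob X0 ∧ Prob X1 ∧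
      MA.l1 (W q (xw L L) - Y) ≤ 6 * ρ ^ L ∧
      MA.l1 (W q (xw (L - 1) (L + 1)) - X0) ≤ 6 * ρ ^ L ∧
      MA.l1 (W q (xw (L + 1) (L - 1)) - X1) ≤ 6 * ρ ^ L ∧
      le ((1 - C / Real.sqrt L) • Y) X0 ∧ le ((1 - C / Real.sqrt L) • Y) X1 ∧
      le X0 ((1 + C / Real.sqrt L) • Y) ∧ le X1 ((1 + C / Real.sqrt L) • Y) ∧
      (∀ δ : ℝ, 0 ≤ δ → Dom ((1 / 2 : ℝ) • (cell q (L + 1) (L - 1) - cell q (L - 1) (L + 1)))
        (U q ^ (2 * L + 1)) δ → Dom ((1 / 2 : ℝ) • (X1 - X0)) Y (C * δ)) ∧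
      (∀ δ : ℝ, 0 ≤ δ → Dom ((1 / 2 : ℝ) • (cell q (L + 1) (L - 1) + cell q (L - 1) (L + 1))
          - cell q L L) (U q ^ (2 * L + 1)) δ →
        Dom ((1 / 2 : ℝ) • (X1 + X0) - Y) Y (C * δ))

theorem two_pow_le_rpow {X n : ℕ} {s : ℝ} (h : (n : ℝ) ≤ s * X) :
    (2 : ℝ) ^ n ≤ ((2 : ℝ) ^ X) ^ s := by
  rw [← Real.rpow_natCast, ← Real.rpow_natCast, ← Real.rpow_mul (by norm_num)]
  exact Real.rpow_le_rpow_of_exponent_le (by norm_num) (by linarith)

theorem rpow_le_two_pow {X n : ℕ} {s : ℝ} (h : s * X ≤ (n : ℝ)) :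
    ((2 : ℝ) ^ X) ^ s ≤ (2 : ℝ) ^ n := by
  rw [← Real.rpow_natCast, ← Real.rpow_natCast, ← Real.rpow_mul (by norm_num)]
  exact Real.rpow_le_rpow_of_exponent_le (by norm_num) (by linarith)

/-- The base level datum with sizes powers of two. -/
theorem base_ok_of {q : ℝ} (h0 : 0 < q) (h1 : q < 1) (hN : BaseNear q) (hD : BaseDom q)
    (hO : BaseOverlap q) : MA.BaseOK q := by
  obtain ⟨C, ρ, L0, hC, hρ0, hρ1, hL0, hbase⟩ := hN
  set c : ℝ := -Real.log ρ / 4 with hc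
  have hlogρ : Real.log ρ < 0 := Real.log_neg hρ0 hρ1
  have hc0 : 0 < c := by rw [hc]; linarith only [hlogρ]
  -- the scale
  have hLt : Tendsto (fun X : ℕ => 2 ^ (X - 2)) atTop (atTop : Filter ℕ) :=
    (tendsto_pow_atTop_atTop_of_one_lt (by norm_num : 1 < 2)).comp (tendsto_sub_atTop_nat 2)
  have hxt : Tendsto (fun X : ℕ => (2 : ℝ) ^ X) atTop atTop :=
    tendsto_pow_atTop_atTop_of_one_lt (by norm_num)
  have ev1 := hLt.eventually (hD (1 / 4096) (by norm_num))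
  have ev2 := hLt.eventually (hO (1 / 4096) (by norm_num))
  have ev3 := hLt.eventually (eventually_ge_atTop L0)
  have ev4 := hxt.eventually (ev_rpow_le (2 / c) (p := 1 / 2) (p' := 1) (by norm_num))
  have ev5 : ∀ᶠ X : ℕ in atTop, Real.log 6 ≤ ((2 : ℝ) ^ X) ^ (1 / 2 : ℝ) :=
    hxt.eventually ((tendsto_rpow_atTop (by norm_num)).eventually_ge_atTop _)
  have ev6 := hxt.eventually (ev_rpow_le (16 * C) (p := -(3 / 2) + 1 / 4096)
    (p' := -(3 / 2) + 2 / 1024) (by norm_num))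
  have ev7 := hxt.eventually (ev_rpow_le (64 * C) (p := -(5 / 2) + 1 / 4096)
    (p' := -(5 / 2) + 2 / 1024) (by norm_num))
  have ev8 := hxt.eventually (ev_rpow_le 200000 (p := 1 + 1 / 4096) (p' := 1025 / 1024)
    (by norm_num))
  have ev9 := hxt.eventually (ev_rpow_le 6 (p := 1025 / 1024) (p' := 2) (by norm_num))
  have ev10 : ∀ᶠ x : ℝ in atTop, 2 * Real.log x ≤ x ^ (1 / 2 : ℝ) := by
    have h2 := (isLittleO_log_rpow_atTop (r := 1 / 2) (by norm_num)).tendsto_div_nhds_zero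
    filter_upwards [h2.eventually (gt_mem_nhds (show (0 : ℝ) < 1 / 2 by norm_num)),
      eventually_gt_atTop 0] with x hx hx0
    have hp : 0 < x ^ (1 / 2 : ℝ) := Real.rpow_pos_of_pos hx0 _
    rw [div_lt_iff₀ hp] at hx
    linarith only [hx]
  have ev10' := hxt.eventually ev10
  have ev11 := hxt.eventually (ev_rpow_le 2 (p := -(1279 / 1024)) (p' := -(1278 / 1024))
    (by norm_num))
  have ev12 := hxt.eventually (ev_rpow_le 2 (p := -(2046 / 1024)) (p' := -(2045 / 1024))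
    (by norm_num))
  have ev13 := hxt.eventually (ev_rpow_le (2 * C) (p := -(1 / 2)) (p' := -(1 / 8))
    (by norm_num))
  have evall := ev1.and (ev2.and (ev3.and (ev4.and (ev5.and (ev6.and (ev7.and (ev8.and
    (ev9.and (ev10'.and (ev11.and (ev12.and (ev13.and (eventually_ge_atTop 2)))))))))))))
  obtain ⟨N, hNall⟩ := eventually_atTop.mp evall
  refine ⟨N, fun X hX g hh d r hg hhh hd hr hr1 => ?_⟩
  obtain ⟨e1, e2, e3, e4, e5, e6, e7, e8, e9, e10, e11, e12, e13, hX2⟩ := hNall X hX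
  set x : ℝ := (2 : ℝ) ^ X with hxdef
  set L : ℕ := 2 ^ (X - 2) with hL
  clear_value L x
  have hx1 : 1 ≤ x := by rw [hxdef]; exact one_le_pow₀ (by norm_num)
  have hx0 : 0 < x := by linarith only [h0, h1, hx1]
  have hL1 : 1 ≤ L := hL0.trans e3
  have hLx4 : (L : ℝ) * 4 = x := by
    rw [hL, hxdef]
    push_cast
    have : (2 : ℝ) ^ X = 2 ^ (X - 2) * 2 ^ 2 := by rw [← pow_add]; congr 1; omega
    rw [this]; norm_num
  have hLeq : (L : ℝ) = x / 4 := by linarith only [hLx4]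
  have hLx : (L : ℝ) ≤ x := by linarith only [hLx4]
  have hLpos : (0 : ℝ) < L := by linarith only [h0, h1, hx1, hLx4]
  have hL1' : (1 : ℝ) ≤ L := by exact_mod_cast hL1
  obtain ⟨Y, X0, X1, pY, pX0, pX1, er, er0, er1, lo0, lo1, hi0, hi1, df, de⟩ := hbase L e3
  -- error
  have herr : 6 * ρ ^ L ≤ Real.exp (-x ^ (1 / 2 : ℝ)) := by
    have h3 : ρ ^ L ≤ Real.exp (-(c * x)) := by
      have h4 : ρ ^ L = Real.exp (L * Real.log ρ) := by
        rw [mul_comm, Real.exp_mul, Real.exp_log hρ0, Real.rpow_natCast]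
      rw [h4]
      apply Real.exp_le_exp.mpr
      rw [hLeq, hc]
      apply le_of_eq; ring
    have h7 : 2 * x ^ (1 / 2 : ℝ) ≤ c * x := by
      rw [Real.rpow_one] at e4
      have := mul_le_mul_of_nonneg_left e4 hc0.le
      have e : c * (2 / c * x ^ (1 / 2 : ℝ)) = 2 * x ^ (1 / 2 : ℝ) := by (clear * - hc0 hx1; field_simp)
      linarith only [this, e]
    have h8 : (6 : ℝ) = Real.exp (Real.log 6) := (Real.exp_log (by norm_num)).symm
    calc 6 * ρ ^ L ≤ 6 * Real.exp (-(c * x)) := mul_le_mul_of_nonneg_left h3 (by norm_num)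
      _ = Real.exp (Real.log 6 + -(c * x)) := by rw [Real.exp_add, ← h8]
      _ ≤ _ := Real.exp_le_exp.mpr (by linarith only [e5, h7])
  have hexp : Real.exp (-x ^ (1 / 2 : ℝ)) ≤ x ^ (-2 : ℝ) := by
    have h3 : x ^ (-2 : ℝ) = Real.exp (Real.log x * (-2)) := Real.rpow_def_of_pos hx0 _
    rw [h3]
    exact Real.exp_le_exp.mpr (by linarith only [e10])
  have hE : Real.exp (-x ^ (1 / 2 : ℝ)) ≤ Real.exp (-(2 : ℝ) ^ (X / 2)) := by
    apply Real.exp_le_exp.mpr
    have : (2 : ℝ) ^ (X / 2) ≤ x ^ (1 / 2 : ℝ) := by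
      rw [hxdef]
      refine two_pow_le_rpow ?_
      have h5 : (X / 2) * 2 ≤ X := Nat.div_mul_le_self X 2
      have h6 : (((X / 2 : ℕ) : ℝ)) * 2 ≤ X := by exact_mod_cast h5
      linarith only [h6]
    linarith only [this]
  -- slip
  obtain ⟨K, h, hKL, hh0, hK, hK1, hη⟩ := e2
  obtain ⟨G, hG, hG2⟩ := slip_word h0.le h1.le hh0 hK hK1 (Real.rpow_pos_of_pos hLpos _) hη
  have hGx : 1000 * (G : ℝ) ≤ x ^ (1025 / 1024 : ℝ) := by
    have h3 : (K : ℝ) + 1 ≤ 2 * L := by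
      have : (K : ℝ) ≤ L := by exact_mod_cast hKL
      linarith only [hL1', this]
    have h4 : 100 * ((K : ℝ) + 1) / (L : ℝ) ^ (-(1 / 4096) : ℝ) ≤ 200 * x ^ (1 + 1 / 4096 : ℝ) := by
      rw [Real.rpow_neg hLpos.le, div_inv_eq_mul]
      have h5 : (L : ℝ) ^ (1 / 4096 : ℝ) ≤ x ^ (1 / 4096 : ℝ) :=
        Real.rpow_le_rpow hLpos.le hLx (by norm_num)
      rw [Real.rpow_add hx0, Real.rpow_one]
      calc 100 * ((K : ℝ) + 1) * (L : ℝ) ^ (1 / 4096 : ℝ)
          ≤ 100 * (2 * x) * x ^ (1 / 4096 : ℝ) :=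
            mul_le_mul (by linarith only [hLx4, h3]) h5 (Real.rpow_nonneg hLpos.le _) (by (clear * - hx1; positivity))
        _ = _ := by ring
    linarith only [e8, hG2, h4]
  have hslip := slip_near (X := W q (xw L L)) (W_prob h0.le h1.le (xw L L)) pY hG
    (er.trans herr) (by
      have h3 : (4 * (1000 * (G : ℝ)) + 2) ≤ x ^ (2 : ℝ) := by
        have : (1 : ℝ) ≤ x ^ (1025 / 1024 : ℝ) := Real.one_le_rpow hx1 (by norm_num)
        linarith only [this, hGx, e9]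
      calc (4 * (1000 * (G : ℝ)) + 2) * Real.exp (-x ^ (1 / 2 : ℝ))
          ≤ x ^ (2 : ℝ) * x ^ (-2 : ℝ) :=
            mul_le_mul h3 hexp (Real.exp_pos _).le (Real.rpow_nonneg hx0.le _)
        _ = 1 := by rw [← Real.rpow_add hx0]; norm_num)
  -- exponents
  set a : ℝ := x ^ (-(767 / 1024) : ℝ) with ha
  set b : ℝ := x ^ (-(1279 / 1024) : ℝ) with hb
  have hsq1 : a ^ 2 = x ^ (-(3 / 2) + 2 / 1024 : ℝ) := by
    rw [ha, ← Real.rpow_natCast, ← Real.rpow_mul hx0.le]; congr 1; push_cast; ring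
  have hsq2 : b ^ 2 = x ^ (-(5 / 2) + 2 / 1024 : ℝ) := by
    rw [hb, ← Real.rpow_natCast, ← Real.rpow_mul hx0.le]; congr 1; push_cast; ring
  have ha0 : 0 ≤ a := Real.rpow_nonneg hx0.le _
  have hb0 : 0 ≤ b := Real.rpow_nonneg hx0.le _
  have hpow : ∀ p m : ℝ, -p ≤ m → (L : ℝ) ^ p ≤ (4 : ℝ) ^ m * x ^ p := by
    intro p m hm
    rw [hLeq, Real.div_rpow hx0.le (by norm_num), div_eq_mul_inv, ← Real.rpow_neg (by norm_num),
      mul_comm]
    exact mul_le_mul_of_nonneg_right (Real.rpow_le_rpow_of_exponent_le (by norm_num) hm)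
      (Real.rpow_nonneg hx0.le _)
  have hdf : C * (L : ℝ) ^ (-(3 / 2) + 1 / 4096 : ℝ) ≤ a ^ 2 := by
    rw [hsq1]
    have h3 := hpow (-(3 / 2) + 1 / 4096) 2 (by norm_num)
    have h4 : (4 : ℝ) ^ (2 : ℝ) = 16 := by norm_num
    rw [h4] at h3
    have := mul_le_mul_of_nonneg_left h3 (by linarith only [h0, h1, hC] : 0 ≤ C)
    linarith only [e6, this]
  have hde : C * (L : ℝ) ^ (-(5 / 2) + 1 / 4096 : ℝ) ≤ b ^ 2 := by
    rw [hsq2]
    have h3 := hpow (-(5 / 2) + 1 / 4096) 3 (by norm_num)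
    have h4 : (4 : ℝ) ^ (3 : ℝ) = 64 := by norm_num
    rw [h4] at h3
    have := mul_le_mul_of_nonneg_left h3 (by linarith only [hC] : 0 ≤ C)
    linarith only [e7, this]
  have hba : b + a ^ 2 ≤ 2 * b := by
    have : a ^ 2 ≤ b := by
      rw [hsq1, hb]
      exact Real.rpow_le_rpow_of_exponent_le hx1 (by norm_num)
    linarith only [this]
  have inv_le : ∀ {n : ℕ} {s : ℝ}, (n : ℝ) ≤ s * X → x ^ (-s) ≤ ((2 : ℝ) ^ n)⁻¹ := by
    intro n s hns
    rw [Real.rpow_neg hx0.le]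
    refine inv_anti₀ (by positivity) ?_
    rw [hxdef]
    exact two_pow_le_rpow hns
  have heta : b + a ^ 2 ≤ ((2 : ℝ) ^ hh)⁻¹ := by
    refine (hba.trans e11).trans (inv_le ?_)
    have : (1024 : ℝ) * hh ≤ 1278 * X := by exact_mod_cast hhh
    linarith only [this]
  have hab : a * (b + a ^ 2) ≤ ((2 : ℝ) ^ d)⁻¹ := by
    have h3 : a * (b + a ^ 2) ≤ 2 * x ^ (-(2046 / 1024) : ℝ) := by
      calc a * (b + a ^ 2) ≤ a * (2 * b) := mul_le_mul_of_nonneg_left hba ha0
        _ = 2 * (a * b) := by ring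
        _ = _ := by
          rw [ha, hb, ← Real.rpow_add hx0]; norm_num
    refine (h3.trans e12).trans (inv_le ?_)
    have : (1024 : ℝ) * d ≤ 2045 * X := by exact_mod_cast hd
    linarith only [this]
  have hratio : C / Real.sqrt L ≤ ((2 : ℝ) ^ r)⁻¹ := by
    have h3 : C / Real.sqrt L = 2 * C * x ^ (-(1 / 2) : ℝ) := by
      rw [Real.sqrt_eq_rpow, hLeq, Real.div_rpow hx0.le (by norm_num), Real.rpow_neg hx0.le]
      have h4 : (4 : ℝ) ^ (1 / 2 : ℝ) = 2 := by
        rw [← Real.sqrt_eq_rpow]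
        have : (4 : ℝ) = 2 ^ 2 := by norm_num
        rw [this, Real.sqrt_sq (by norm_num)]
      rw [h4]
      have : 0 < x ^ (1 / 2 : ℝ) := Real.rpow_pos_of_pos hx0 _
      (clear * - hx1 hC; field_simp)
    rw [h3]
    refine e13.trans (inv_le ?_)
    have : (8 : ℝ) * r ≤ X := by exact_mod_cast hr
    linarith only [this]
  have hr2 : ((2 : ℝ) ^ r)⁻¹ ≤ 1 / 2 := by
    have : (2 : ℝ) ^ 1 ≤ 2 ^ r := pow_le_pow_right₀ (by norm_num) hr1
    rw [pow_one] at this
    rw [one_div]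
    exact inv_anti₀ (by norm_num) this
  have hr0 : 0 < ((2 : ℝ) ^ r)⁻¹ := by positivity
  have lo : ∀ {z : Alg}, le ((1 - C / Real.sqrt L) • Y) z →
      le ((1 - ((2 : ℝ) ^ r)⁻¹) • Y) z := by
    intro z hz
    refine MA.le_trans ?_ hz
    intro w
    rw [MonoidAlgebra.coeff_smul, MonoidAlgebra.coeff_smul, Finsupp.smul_apply,
      Finsupp.smul_apply, smul_eq_mul, smul_eq_mul]
    exact mul_le_mul_of_nonneg_right (by linarith only [hratio]) (pY.nonneg w)
  have hi : ∀ {z : Alg}, le z ((1 + C / Real.sqrt L) • Y) →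
      le z ((1 + ((2 : ℝ) ^ r)⁻¹) • Y) := by
    intro z hz
    refine MA.le_trans hz ?_
    intro w
    rw [MonoidAlgebra.coeff_smul, MonoidAlgebra.coeff_smul, Finsupp.smul_apply,
      Finsupp.smul_apply, smul_eq_mul, smul_eq_mul]
    exact mul_le_mul_of_nonneg_right (by linarith only [hratio]) (pY.nonneg w)
  set e : Alg := (1 / 2 : ℝ) • (X1 + X0) - Y with he
  set f : Alg := (1 / 2 : ℝ) • (X1 - X0) with hf
  have hX0 : Y + e - f = X0 := by rw [he, hf]; module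
  have hX1 : Y + e + f = X1 := by rw [he, hf]; module
  refine ⟨xw L L, xw (L - 1) (L + 1), xw (L + 1) (L - 1), Y, e, f, a, b, 1000 * G, ?_⟩
  have hlen : (xw L L).length = 4 * L + 1 := by rw [xw_length]; ring
  constructor
  · exact xw_ne hL1
  · rw [xw_length, xw_length]; (clear * - hL hL1; (clear * - hL hL1; omega))
  · rw [xw_length, xw_length]; omega
  · rw [hlen]
    have h5 : 4 * L = 2 ^ X := by
      rw [hL]
      have : 2 ^ X = 2 ^ (X - 2) * 2 ^ 2 := by rw [← pow_add]; congr 1; omega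
      rw [this]; ring
    have h6 : 1 ≤ 2 ^ X := Nat.one_le_two_pow
    rw [h5, pow_succ]; omega
  · exact (er.trans herr).trans hE
  · rw [hX0]; exact (er0.trans herr).trans hE
  · rw [hX1]; exact (er1.trans herr).trans hE
  · constructor
    · exact pY
    · rw [he, MA.aug_sub, MA.aug_smul, MA.aug_add, pX0.aug, pX1.aug, pY.aug]; norm_num
    · rw [hf, MA.aug_smul, MA.aug_sub, pX0.aug, pX1.aug]; norm_num
    · exact (df _ (Real.rpow_nonneg hLpos.le _) e1.1).mono pY.nonneg hdf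
    · exact (de _ (Real.rpow_nonneg hLpos.le _) e1.2).mono pY.nonneg hde
    · exact ha0
    · exact Real.rpow_le_one_of_one_le_of_nonpos hx1 (by norm_num)
    · exact hb0
    · exact Real.rpow_le_one_of_one_le_of_nonpos hx1 (by norm_num)
    · linarith only [hr2]
    · linarith only [hr0]
    · linarith only [hr0]
    · rw [hX0]; exact pX0
    · rw [hX1]; exact pX1
    · rw [hX0]; exact lo lo0
    · rw [hX1]; exact lo lo1
    · rw [hX0]; exact hi hi0
    · rw [hX1]; exact hi hi1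
  · exact heta
  · exact hab
  · exact hslip
  · have h3 : x ^ (1025 / 1024 : ℝ) ≤ (2 : ℝ) ^ g := by
      rw [hxdef]
      refine rpow_le_two_pow ?_
      have : (1025 : ℝ) * X ≤ 1024 * g := by exact_mod_cast hg
      linarith only [this]
    have h4 : ((1000 * G : ℕ) : ℝ) ≤ ((2 ^ g : ℕ) : ℝ) := by
      push_cast
      exact hGx.trans h3
    exact_mod_cast h4

theorem base_ok_of_near {q : ℝ} (h0 : 0 < q) (h1 : q < 1) (hN : BaseNear q) : MA.BaseOK q :=
  base_ok_of h0 h1 hN (Smooth.base_dom h0 h1) (fun ε hε => Cr.base_overlap h0 h1 ε hε)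

end Vale.Agent.P321.Lt
end

section

/-!
The truncated laws of `(01)^a 0 (01)^b`, `(a,b) = (L,L), (L±1,L∓1)`, have ratio `1 + O(L^(-1/2))`.
-/

namespace Vale.Agent.P321.Lt

open Finset Finset.Nat
open MA (ev le Prob push restr Dom)

theorem bw_eq_zero (q : ℝ) {N n : ℕ} (h : N < n) : bw q N n = 0 := by
  rw [bw, Nat.choose_eq_zero_of_lt h]; simp

theorem bw_nonneg {q : ℝ} (h0 : 0 ≤ q) (h1 : q ≤ 1) (N n : ℕ) : 0 ≤ bw q N n := by
  have : 0 ≤ 1 - q ^ 2 := by linarith [mul_nonneg (sub_nonneg.2 h1) (sub_nonneg.2 h1), mul_nonneg (sub_nonneg.2 h0) (sub_nonneg.2 h1)]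
  unfold bw
  (clear * - this; positivity)

theorem bw_mul (q : ℝ) (a b i j : ℕ) :
    bw q a i * bw q b j
      = ((a.choose i : ℝ) * (b.choose j : ℝ)) *
        ((1 - q ^ 2) ^ (i + j) * (q ^ 2) ^ (a + b - (i + j))) := by
  by_cases hi : i ≤ a
  swap
  · rw [bw_eq_zero q (by omega : a < i), Nat.choose_eq_zero_of_lt (by omega : a < i)]; simp only [zero_mul, CharP.cast_eq_zero]
  by_cases hj : j ≤ b
  swap
  · rw [bw_eq_zero q (by omega : b < j), Nat.choose_eq_zero_of_lt (by omega : b < j)]; simp only [mul_zero, CharP.cast_eq_zero, zero_mul]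
  have e : a + b - (i + j) = (a - i) + (b - j) := by omega
  rw [bw, bw, e, pow_add, pow_add]
  ring

/-- double sums over a rectangle as sums over antidiagonals -/
theorem sum_rect {M : Type*} [AddCommMonoid M] (a b : ℕ) (f : ℕ → ℕ → M)
    (hf1 : ∀ i j, a < i → f i j = 0) (hf2 : ∀ i j, b < j → f i j = 0) :
    ∑ i ∈ range (a + 1), ∑ j ∈ range (b + 1), f i j
      = ∑ n ∈ range (a + b + 1), ∑ p ∈ antidiagonal n, f p.1 p.2 := by
  rw [← Finset.sum_product' (range (a + 1)) (range (b + 1)) f,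
    ← Finset.sum_fiberwise_of_maps_to (g := fun p : ℕ × ℕ => p.1 + p.2)
      (t := range (a + b + 1)) (fun p hp => by
        rw [Finset.mem_product, Finset.mem_range, Finset.mem_range] at hp
        rw [Finset.mem_range]
        omega)]
  refine Finset.sum_congr rfl fun n _ => ?_
  refine Finset.sum_subset (fun p hp => ?_) (fun p hp hp2 => ?_)
  · rw [Finset.mem_filter] at hp
    exact Finset.mem_antidiagonal.mpr hp.2
  · rw [Finset.mem_antidiagonal] at hp
    rw [Finset.mem_filter, Finset.mem_product, Finset.mem_range, Finset.mem_range] at hp2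
    by_cases h1 : a < p.1
    · exact hf1 _ _ h1
    · by_cases h2 : b < p.2
      · exact hf2 _ _ h2
      · exact absurd ⟨⟨by omega, by omega⟩, hp⟩ hp2

theorem UsU (q : ℝ) (a b : ℕ) :
    U q ^ a * sg 0 * U q ^ b = ∑ n ∈ range (a + b + 1), ∑ p ∈ antidiagonal n,
      (bw q a p.1 * bw q b p.2) • (v q ^ p.1 * sg 0 * v q ^ p.2) := by
  rw [← sum_rect a b (fun i j => (bw q a i * bw q b j) • (v q ^ i * sg 0 * v q ^ j))
    (fun i j h => by simp only [bw_eq_zero q h, zero_mul, zero_smul])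
    (fun i j h => by simp only [bw_eq_zero q h, mul_zero, zero_smul]),
    U_pow q a, U_pow q b, Finset.sum_mul, Finset.sum_mul]
  refine Finset.sum_congr rfl fun i _ => ?_
  rw [Finset.mul_sum]
  refine Finset.sum_congr rfl fun j _ => ?_
  rw [smul_mul_assoc, smul_mul_smul_comm]

theorem sg_le_v {q : ℝ} (h0 : 0 < q) (h1 : q ≤ 1) : le (sg 0) (((1 + q) / q) • v q) := by
  rw [MA.le_iff]
  have hq : (1 + q) ≠ 0 := by positivity
  have e : ((1 + q) / q) • v q - sg 0 = (1 : ℝ) • sg 1 + ((1 - q) / q) • sg 2 := by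
    have c1 : (1 + q) / q * (q / (1 + q)) = 1 := by (clear * - h0 hq; field_simp)
    have c2 : (1 + q) / q * ((1 - q) / (1 + q)) = (1 - q) / q := by (clear * - hq h0; field_simp)
    rw [v, smul_add, smul_add, smul_smul, smul_smul, smul_smul, c1, c2]
    module
  rw [e]
  exact MA.nonneg_add (MA.nonneg_smul zero_le_one (sg_prob 1).1)
    (MA.nonneg_smul (div_nonneg (by linarith only [h1]) h0.le) (sg_prob 2).1)

theorem restr_vsv_le {q : ℝ} (h0 : 0 < q) (h1 : q ≤ 1) (T i j : ℕ) :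
    le (restr (fun w => len w ≤ T) (v q ^ i * sg 0 * v q ^ j))
      (((1 + q) / q) • (if i + j + 1 ≤ T then v q ^ (i + j + 1) else 0)) := by
  have hv := fun n => MA.nonneg_pow (nonneg_v h0.le h1) n
  have h2 : le (v q ^ i * sg 0 * v q ^ j) (((1 + q) / q) • v q ^ (i + j + 1)) := by
    have h3 : le (v q ^ i * sg 0 * v q ^ j) (v q ^ i * (((1 + q) / q) • v q) * v q ^ j) := by
      refine MA.le_mul (MA.nonneg_mul (hv i) (sg_prob 0).1) (hv j) ?_ (MA.le_refl _)
      exact MA.le_mul (hv i) (sg_prob 0).1 (MA.le_refl _) (sg_le_v h0 h1)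
    have e : v q ^ i * (((1 + q) / q) • v q) * v q ^ j = ((1 + q) / q) • v q ^ (i + j + 1) := by
      rw [mul_smul_comm, smul_mul_assoc, ← pow_succ, ← pow_add]
      congr 2; ring
    rwa [e] at h3
  have h4 := MA.le_restr (fun w => len w ≤ T) h2
  rwa [MA.restr_smul, restr_v_pow] at h4

/-- upper bound for a restricted difference -/
theorem restr_diff_le {q : ℝ} (h0 : 0 < q) (h1 : q ≤ 1) {N T a b a' b' : ℕ} {κ : ℝ}
    (hab : a + b = N) (hab' : a' + b' = N) (hT : T ≤ N) (hκ0 : 0 ≤ κ)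
    (hκ : ∀ n < T, (1 + q) / q * ∑ p ∈ antidiagonal n,
      |bw q a p.1 * bw q b p.2 - bw q a' p.1 * bw q b' p.2| ≤ κ * bw q N (n + 1)) :
    le (restr (fun w => len w ≤ T) (U q ^ a * sg 0 * U q ^ b - U q ^ a' * sg 0 * U q ^ b'))
      (κ • restr (fun w => len w ≤ T) (U q ^ N)) := by
  classical
  set S : LW → Prop := fun w => len w ≤ T with hS
  have hv := fun n => MA.nonneg_pow (nonneg_v h0.le h1) n
  set c0 : ℝ := (1 + q) / q with hc0
  have hc0n : 0 ≤ c0 := by rw [hc0]; (clear * - h0; positivity)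
  set V : ℕ → LA := fun n => if n + 1 ≤ T then v q ^ (n + 1) else 0 with hV
  have hVn : ∀ n, MA.nonneg (V n) := by
    intro n
    simp only [hV]
    split_ifs
    · exact hv _
    · exact MA.nonneg_zero
  set A : ℕ → ℝ := fun n => ∑ p ∈ antidiagonal n,
      |bw q a p.1 * bw q b p.2 - bw q a' p.1 * bw q b' p.2| with hA
  have hdiff : U q ^ a * sg 0 * U q ^ b - U q ^ a' * sg 0 * U q ^ b'
      = ∑ n ∈ range (N + 1), ∑ p ∈ antidiagonal n,
        (bw q a p.1 * bw q b p.2 - bw q a' p.1 * bw q b' p.2) •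
          (v q ^ p.1 * sg 0 * v q ^ p.2) := by
    rw [UsU, UsU, hab, hab', ← Finset.sum_sub_distrib]
    refine Finset.sum_congr rfl fun n _ => ?_
    rw [← Finset.sum_sub_distrib]
    exact Finset.sum_congr rfl fun p _ => (sub_smul _ _ _).symm
  -- sums of le
  have sum_le : ∀ {ι : Type} (s : Finset ι) (x y : ι → LA), (∀ i ∈ s, le (x i) (y i)) →
      le (∑ i ∈ s, x i) (∑ i ∈ s, y i) := by
    intro ι s x y h
    rw [MA.le_iff, ← Finset.sum_sub_distrib]
    exact MA.nonneg_sum s _ fun i hi => MA.le_iff.mp (h i hi)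
  have step1 : le (restr S (U q ^ a * sg 0 * U q ^ b - U q ^ a' * sg 0 * U q ^ b'))
      (∑ n ∈ range (N + 1), (c0 * A n) • V n) := by
    rw [hdiff, MA.restr_sum]
    refine sum_le _ _ _ fun n _ => ?_
    rw [MA.restr_sum, hA, Finset.mul_sum, Finset.sum_smul]
    refine sum_le _ _ _ fun p hp => ?_
    have hs : p.1 + p.2 = n := Finset.mem_antidiagonal.mp hp
    have h2 := restr_vsv_le h0 h1 T p.1 p.2
    rw [hs] at h2
    have h3 : MA.nonneg (restr S (v q ^ p.1 * sg 0 * v q ^ p.2)) :=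
      MA.nonneg_restr _ (MA.nonneg_mul (MA.nonneg_mul (hv _) (sg_prob 0).1) (hv _))
    rw [MA.restr_smul]
    set α := bw q a p.1 * bw q b p.2 - bw q a' p.1 * bw q b' p.2
    refine MA.le_trans (y := |α| • restr S (v q ^ p.1 * sg 0 * v q ^ p.2)) ?_ ?_
    · rw [MA.le_iff, ← sub_smul]
      exact MA.nonneg_smul (by linarith only [le_abs_self α]) h3
    · have h4 := MA.le_smul (abs_nonneg α) h2
      rwa [smul_smul, mul_comm] at h4
  refine MA.le_trans step1 ?_
  have e1 : ∑ n ∈ range (N + 1), (c0 * A n) • V n = ∑ n ∈ range T, (c0 * A n) • v q ^ (n + 1) := by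
    have h2 : range T ⊆ range (N + 1) := Finset.range_subset_range.mpr (by omega)
    rw [← Finset.sum_subset h2]
    · refine Finset.sum_congr rfl fun n hn => ?_
      have := Finset.mem_range.mp hn
      simp only [hV]
      rw [if_pos (by omega)]
    · intro n _ hn
      rw [Finset.mem_range] at hn
      simp only [hV]
      rw [if_neg (by omega), smul_zero]
  rw [e1, restr_U_pow q hT, Finset.sum_range_succ', smul_add, Finset.smul_sum]
  have hlast : MA.nonneg (κ • bw q N 0 • v q ^ 0) :=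
    MA.nonneg_smul hκ0 (MA.nonneg_smul (bw_nonneg h0.le h1 _ _) (hv 0))
  refine MA.le_trans (y := ∑ n ∈ range T, κ • bw q N (n + 1) • v q ^ (n + 1)) ?_ ?_
  · refine sum_le _ _ _ fun n hn => ?_
    rw [smul_smul, MA.le_iff, ← sub_smul]
    refine MA.nonneg_smul ?_ (hv _)
    have := hκ n (Finset.mem_range.mp hn)
    change c0 * A n ≤ _ at this
    linarith only [this]
  · rw [MA.le_iff, add_sub_cancel_left]
    exact hlast

/-- the numeric bound for the weights -/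
theorem weights_le {q : ℝ} (h0 : 0 < q) (h1 : q < 1) {l T n : ℕ} {D : ℝ} (hD : 0 < D)
    (hTD : (T : ℝ) + D ≤ 2 * (l + 2)) (hn : n < T) :
    ∑ p ∈ antidiagonal n, |bw q (l + 3) p.1 * bw q (l + 1) p.2
        - bw q (l + 2) p.1 * bw q (l + 2) p.2|
      ≤ (4 / D * (Real.sqrt (2 * (l + 2)) + 1) * (2 * (l + 2) / D) * (q ^ 2 / (1 - q ^ 2)))
        * bw q (2 * (l + 2)) (n + 1) := by
  have hq2 : 0 < 1 - q ^ 2 := by nlinarith only [h1, h0]
  have hnT : (n : ℝ) + 1 ≤ T := by exact_mod_cast hn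
  have hl0 : (0 : ℝ) ≤ l := Nat.cast_nonneg _
  set N : ℕ := 2 * (l + 2) with hN
  have hNr : (N : ℝ) = 2 * (l + 2) := by rw [hN]; push_cast; ring
  have hnN : n + 1 ≤ N := by
    have : ((n + 1 : ℕ) : ℝ) ≤ N := by push_cast; linarith only [hD, hTD, hnT, hNr]
    exact_mod_cast this
  have e1 : ∑ p ∈ antidiagonal n, |bw q (l + 3) p.1 * bw q (l + 1) p.2
        - bw q (l + 2) p.1 * bw q (l + 2) p.2|
      = ((1 - q ^ 2) ^ n * (q ^ 2) ^ (N - n)) * ∑ p ∈ antidiagonal n,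
        |((l + 3).choose p.1 : ℝ) * ((l + 1).choose p.2 : ℝ)
        - ((l + 2).choose p.1 : ℝ) * ((l + 2).choose p.2 : ℝ)| := by
    rw [Finset.mul_sum]
    refine Finset.sum_congr rfl fun p hp => ?_
    have hs : p.1 + p.2 = n := Finset.mem_antidiagonal.mp hp
    have e2 : l + 3 + (l + 1) = N := by rw [hN]; ring
    have e3 : l + 2 + (l + 2) = N := by rw [hN]; ring
    rw [bw_mul, bw_mul, hs, e2, e3, ← sub_mul, abs_mul, abs_of_nonneg (a := (1 - q ^ 2) ^ n *
      (q ^ 2) ^ (N - n)) (by positivity), mul_comm]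
  have h2 := Hyp.sum_abs_le l n hD (by linarith only [hTD, hnT])
  have h3 : ((N.choose n : ℕ) : ℝ) * ((N : ℝ) - n) = ((N.choose (n + 1) : ℕ) : ℝ) * (n + 1) := by
    have := Nat.choose_succ_right_eq N n
    have h4 : ((N - n : ℕ) : ℝ) = (N : ℝ) - n := by rw [Nat.cast_sub (by omega)]
    rw [← h4]
    exact_mod_cast this.symm
  have hNn : D ≤ (N : ℝ) - n := by linarith only [hTD, hnT, hNr]
  have h5 : ((N.choose n : ℕ) : ℝ) ≤ 2 * (l + 2) / D * ((N.choose (n + 1) : ℕ) : ℝ) := by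
    rw [div_mul_eq_mul_div, le_div_iff₀ hD]
    have h6 : (0 : ℝ) ≤ ((N.choose n : ℕ) : ℝ) := Nat.cast_nonneg _
    have h7 : (0 : ℝ) ≤ ((N.choose (n + 1) : ℕ) : ℝ) := Nat.cast_nonneg _
    calc ((N.choose n : ℕ) : ℝ) * D ≤ ((N.choose n : ℕ) : ℝ) * ((N : ℝ) - n) :=
          mul_le_mul_of_nonneg_left hNn h6
      _ = ((N.choose (n + 1) : ℕ) : ℝ) * (n + 1) := h3
      _ ≤ ((N.choose (n + 1) : ℕ) : ℝ) * (2 * (l + 2)) := by
          refine mul_le_mul_of_nonneg_left ?_ h7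
          linarith only [hD, hTD, hnT]
      _ = _ := by ring
  have h8 : Real.sqrt n + 1 ≤ Real.sqrt (2 * (l + 2)) + 1 := by
    have : (n : ℝ) ≤ 2 * (l + 2) := by linarith only [hD, hTD, hnT]
    linarith only [Real.sqrt_le_sqrt this, this]
  rw [e1]
  set s : ℝ := Real.sqrt (2 * (l + 2)) + 1 with hs
  have hs0 : 0 ≤ s := by (clear * -; positivity)
  have hpow : (1 - q ^ 2) ^ n * (q ^ 2) ^ (N - n)
      = (q ^ 2 / (1 - q ^ 2)) * ((1 - q ^ 2) ^ (n + 1) * (q ^ 2) ^ (N - (n + 1))) := by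
    have e4 : N - n = (N - (n + 1)) + 1 := by omega
    rw [e4, pow_succ, pow_succ]
    field_simp
    ring
  have h9 : ∑ p ∈ antidiagonal n,
        |((l + 3).choose p.1 : ℝ) * ((l + 1).choose p.2 : ℝ)
        - ((l + 2).choose p.1 : ℝ) * ((l + 2).choose p.2 : ℝ)|
      ≤ 4 / D * s * (2 * (l + 2) / D * ((N.choose (n + 1) : ℕ) : ℝ)) := by
    refine h2.trans ?_
    have h10 : 4 / D * (Real.sqrt n + 1) ≤ 4 / D * s := mul_le_mul_of_nonneg_left h8 (by positivity)
    exact mul_le_mul h10 h5 (Nat.cast_nonneg _) (by (clear * - hD; positivity))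
  refine (mul_le_mul_of_nonneg_left h9 (by (clear * - hq2 h0; positivity))).trans (le_of_eq ?_)
  rw [hpow, bw]
  ring

/-- constant of the comparison -/
noncomputable def kapL (q : ℝ) (l : ℕ) (D : ℝ) : ℝ :=
  (1 + q) / q * (4 / D * (Real.sqrt (2 * (l + 2)) + 1) * (2 * (l + 2) / D) * (q ^ 2 / (1 - q ^ 2)))
    * ((1 - q) / q)

theorem cell_eq (q : ℝ) (a b : ℕ) :
    cell q a b = q • U q ^ (a + b) + (1 - q) • (U q ^ a * sg 0 * U q ^ b) := by
  rw [cell, E, mul_add, add_mul, mul_smul_comm, mul_smul_comm, smul_mul_assoc, smul_mul_assoc,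
    mul_one, ← pow_add]

theorem restr_cell_near_aux {q : ℝ} (h0 : 0 < q) (h1 : q < 1) {N T a b a' b' : ℕ} {κ : ℝ}
    (hab : a + b = N) (hab' : a' + b' = N) (hT : T ≤ N) (hκ0 : 0 ≤ κ)
    (hκ : ∀ n < T, (1 + q) / q * ∑ p ∈ antidiagonal n,
      |bw q a p.1 * bw q b p.2 - bw q a' p.1 * bw q b' p.2| ≤ κ * bw q N (n + 1)) :
    le (restr (fun w => len w ≤ T) (cell q a b))
      ((1 + κ * ((1 - q) / q)) • restr (fun w => len w ≤ T) (cell q a' b')) := by
  have h2 := restr_diff_le h0 h1.le hab hab' hT hκ0 hκ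
  have h3 := MA.le_restr (fun w => len w ≤ T) (le_cell h0.le h1.le a' b')
  rw [hab', MA.restr_smul] at h3
  have e1 : restr (fun w => len w ≤ T) (cell q a b) = restr (fun w => len w ≤ T) (cell q a' b')
      + (1 - q) • restr (fun w => len w ≤ T)
        (U q ^ a * sg 0 * U q ^ b - U q ^ a' * sg 0 * U q ^ b') := by
    rw [cell_eq, cell_eq, hab, hab', MA.restr_add, MA.restr_add, MA.restr_sub, MA.restr_smul,
      MA.restr_smul, MA.restr_smul, smul_sub]
    abel
  rw [e1, add_smul, one_smul]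
  refine MA.le_add (MA.le_refl _) ?_
  refine MA.le_trans (MA.le_smul (by linarith only [h1]) h2) ?_
  have h4 := MA.le_smul (c := κ * ((1 - q) / q)) (by
    have : 0 ≤ (1 - q) / q := div_nonneg (by linarith only [h1]) h0.le
    (clear * - hκ0 h1 h0; positivity)) h3
  rw [smul_smul] at h4 ⊢
  have e2 : κ * ((1 - q) / q) * q = (1 - q) * κ := by (clear * - h0; field_simp)
  rwa [e2] at h4

/-- comparison of the truncated cells -/
theorem restr_cell_near {q : ℝ} (h0 : 0 < q) (h1 : q < 1) {l T : ℕ} {D : ℝ} (hD : 0 < D)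
    (hTD : (T : ℝ) + D ≤ 2 * (l + 2)) :
    (le (restr (fun w => len w ≤ T) (cell q (l + 3) (l + 1)))
      ((1 + kapL q l D) • restr (fun w => len w ≤ T) (cell q (l + 2) (l + 2)))) ∧
    (le (restr (fun w => len w ≤ T) (cell q (l + 1) (l + 3)))
      ((1 + kapL q l D) • restr (fun w => len w ≤ T) (cell q (l + 2) (l + 2)))) ∧
    (le (restr (fun w => len w ≤ T) (cell q (l + 2) (l + 2)))
      ((1 + kapL q l D) • restr (fun w => len w ≤ T) (cell q (l + 3) (l + 1)))) ∧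
    (le (restr (fun w => len w ≤ T) (cell q (l + 2) (l + 2)))
      ((1 + kapL q l D) • restr (fun w => len w ≤ T) (cell q (l + 1) (l + 3)))) := by
  have hT : T ≤ 2 * (l + 2) := by
    have : (T : ℝ) ≤ ((2 * (l + 2) : ℕ) : ℝ) := by push_cast; linarith only [hD, hTD]
    exact_mod_cast this
  have hq2 : 0 < 1 - q ^ 2 := by (by_contra nlg; linarith [mul_pos (sub_pos.2 h1) (sub_pos.2 h0), mul_pos (sub_pos.2 h1) (sub_pos.2 h1), mul_nonneg (sub_nonneg.2 (not_lt.1 nlg)) (le_of_lt (sub_pos.2 h0)), mul_nonneg (sub_nonneg.2 (not_lt.1 nlg)) (le_of_lt (sub_pos.2 h1))])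
  set c : ℝ := (4 / D * (Real.sqrt (2 * (l + 2)) + 1) * (2 * (l + 2) / D) * (q ^ 2 / (1 - q ^ 2)))
    with hc
  have hc0 : 0 ≤ c := by rw [hc]; (clear * - hD h0 hq2; positivity)
  have hc00 : 0 ≤ (1 + q) / q * c := by (clear * - h0 hD hq2; positivity)
  have eκ : kapL q l D = (1 + q) / q * c * ((1 - q) / q) := by rw [kapL]
  have key : ∀ n < T, (1 + q) / q * ∑ p ∈ antidiagonal n, |bw q (l + 3) p.1 * bw q (l + 1) p.2
        - bw q (l + 2) p.1 * bw q (l + 2) p.2| ≤ (1 + q) / q * c * bw q (2 * (l + 2)) (n + 1) := by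
    intro n hn
    rw [mul_assoc]
    exact mul_le_mul_of_nonneg_left (weights_le h0 h1 hD hTD hn) (by positivity)
  have key2 : ∀ n < T, (1 + q) / q * ∑ p ∈ antidiagonal n, |bw q (l + 1) p.1 * bw q (l + 3) p.2
        - bw q (l + 2) p.1 * bw q (l + 2) p.2| ≤ (1 + q) / q * c * bw q (2 * (l + 2)) (n + 1) := by
    intro n hn
    have e : ∑ p ∈ antidiagonal n, |bw q (l + 1) p.1 * bw q (l + 3) p.2
        - bw q (l + 2) p.1 * bw q (l + 2) p.2| = ∑ p ∈ antidiagonal n,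
        |bw q (l + 3) p.1 * bw q (l + 1) p.2 - bw q (l + 2) p.1 * bw q (l + 2) p.2| := by
      rw [Hyp.sum_swap n (fun i j => |bw q (l + 1) i * bw q (l + 3) j
        - bw q (l + 2) i * bw q (l + 2) j|)]
      refine Finset.sum_congr rfl fun p _ => ?_
      rw [mul_comm (bw q (l + 1) p.2), mul_comm (bw q (l + 2) p.2)]
    rw [e]
    exact key n hn
  rw [eκ]
  refine ⟨restr_cell_near_aux h0 h1 (by ring) (by ring) hT hc00 key,
    restr_cell_near_aux h0 h1 (by ring) (by ring) hT hc00 key2,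
    restr_cell_near_aux h0 h1 (by ring) (by ring) hT hc00 fun n hn => ?_,
    restr_cell_near_aux h0 h1 (by ring) (by ring) hT hc00 fun n hn => ?_⟩
  · refine le_trans (le_of_eq ?_) (key n hn)
    congr 1
    exact Finset.sum_congr rfl fun p _ => abs_sub_comm _ _
  · refine le_trans (le_of_eq ?_) (key2 n hn)
    congr 1
    exact Finset.sum_congr rfl fun p _ => abs_sub_comm _ _

end Vale.Agent.P321.Lt
end

section

/-!
The base elements with ratio close to one.
-/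

namespace Vale.Agent.P321.Lt

open Finset
open MA (ev le Prob push restr Dom)

variable {q : ℝ} {L D : ℕ}

theorem hat_le_of_restr {κ : ℝ} {x y : LA} (hm : 0 < ms q L D)
    (h : le (restr (fun w => len w ≤ 2 * L - D) x) (κ • restr (fun w => len w ≤ 2 * L - D) y)) :
    le (hat q L D x) (κ • hat q L D y) := by
  have h3 := MA.le_smul (inv_nonneg.mpr hm.le) h
  have h4 := MA.le_push bits h3
  rw [smul_comm] at h4
  have e : MA.push bits (κ • (ms q L D)⁻¹ • restr (fun w => len w ≤ 2 * L - D) y)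
      = κ • hat q L D y := by
    rw [map_smul]; rfl
  rw [e] at h4
  exact h4

theorem kapL_le (h0 : 0 < q) (h1 : q < 1) {l k0 : ℕ} {D : ℝ} (hk : 1 ≤ k0) (hD : 0 < D)
    (hDL : (l : ℝ) + 2 ≤ 2 * k0 * D) :
    kapL q l D ≤ 96 * (k0 : ℝ) ^ 2 / Real.sqrt (l + 2) := by
  have hq2 : 0 < 1 - q ^ 2 := by nlinarith only [h1, h0]
  have hk' : (1 : ℝ) ≤ k0 := by exact_mod_cast hk
  have hl0 : (0 : ℝ) ≤ l := Nat.cast_nonneg _
  set x : ℝ := (l : ℝ) + 2 with hx
  have hx2 : 2 ≤ x := by rw [hx]; linarith only []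
  have e : kapL q l D = 8 * x * (Real.sqrt (2 * x) + 1) / D ^ 2 := by
    rw [kapL, ← hx]
    have h3 : 1 - q ^ 2 = (1 - q) * (1 + q) := by ring
    have h4 : (1 - q) ≠ 0 := by linarith only [h1]
    have h5 : (1 + q) ≠ 0 := by linarith only [h0]
    rw [h3]
    field_simp
    ring
  rw [e, div_le_div_iff₀ (by positivity) (Real.sqrt_pos.mpr (by linarith only [hx2, h1, h0]))]
  set r := Real.sqrt x with hr
  have hr0 : 0 ≤ r := Real.sqrt_nonneg _
  have hrx : r ^ 2 = x := Real.sq_sqrt (by linarith)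
  have hr1 : 1 ≤ r := by
    rw [hr, Real.one_le_sqrt]; linarith
  have h2x : Real.sqrt (2 * x) + 1 ≤ 3 * r := by
    have h6 : Real.sqrt (2 * x) ≤ 2 * r := by
      rw [Real.sqrt_le_left (by (clear * -; positivity))]
      (by_contra nlg; linarith only [nlg, mul_eq_zero_of_left (sub_eq_zero.2 hrx) (2 * x - ((2 * r) ^ 2)), mul_pos (sub_pos.2 (not_le.1 nlg)) (sub_pos.2 (not_le.1 nlg)), mul_nonneg (sq_nonneg (2 * r : ℝ)) (le_of_lt (sub_pos.2 (not_le.1 nlg)))])
    linarith only [hr1, h6]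
  have h7 : x ^ 2 ≤ 4 * (k0 : ℝ) ^ 2 * D ^ 2 := by
    calc x ^ 2 ≤ (2 * k0 * D) ^ 2 := pow_le_pow_left₀ (by linarith) hDL 2
      _ = _ := by ring
  calc 8 * x * (Real.sqrt (2 * x) + 1) * r ≤ 8 * x * (3 * r) * r := by (clear * - h2x; gcongr)
    _ = 24 * x * r ^ 2 := by ring
    _ = 24 * x ^ 2 := by rw [hrx]; ring
    _ ≤ 24 * (4 * (k0 : ℝ) ^ 2 * D ^ 2) := by linarith only [h7]
    _ = _ := by ring

/-- The base elements, with ratio `1 + C / sqrt L`. -/
theorem base_elements_near (h0 : 0 < q) (h1 : q < 1) :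
    ∃ (C ρ : ℝ) (L0 : ℕ), 1 ≤ C ∧ 0 < ρ ∧ ρ < 1 ∧ 2 ≤ L0 ∧ ∀ L : ℕ, L0 ≤ L →
      ∃ Y X0 X1 : Alg, Prob Y ∧ Prob X0 ∧ Prob X1 ∧
        MA.l1 (W q (xw L L) - Y) ≤ 6 * ρ ^ L ∧
        MA.l1 (W q (xw (L - 1) (L + 1)) - X0) ≤ 6 * ρ ^ L ∧
        MA.l1 (W q (xw (L + 1) (L - 1)) - X1) ≤ 6 * ρ ^ L ∧
        le Y ((1 + C / Real.sqrt L) • X0) ∧ le Y ((1 + C / Real.sqrt L) • X1) ∧
        le X0 ((1 + C / Real.sqrt L) • Y) ∧ le X1 ((1 + C / Real.sqrt L) • Y) ∧
        (∀ δ : ℝ, 0 ≤ δ → Dom ((1 / 2 : ℝ) • (cell q (L + 1) (L - 1) - cell q (L - 1) (L + 1)))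
          (U q ^ (2 * L + 1)) δ → Dom ((1 / 2 : ℝ) • (X1 - X0)) Y (C * δ)) ∧
        (∀ δ : ℝ, 0 ≤ δ → Dom ((1 / 2 : ℝ) • (cell q (L + 1) (L - 1) + cell q (L - 1) (L + 1))
            - cell q L L) (U q ^ (2 * L + 1)) δ →
          Dom ((1 / 2 : ℝ) • (X1 + X0) - Y) Y (C * δ)) := by
  obtain ⟨k0, hk1, hk⟩ := exists_k0 h0 h1
  set ρ : ℝ := 1 - 2 * q ^ 2 / 3 with hρ
  have hq2 : q ^ 2 < 1 := by nlinarith only [h1, h0]
  have hq2' : 0 < q ^ 2 := by positivity
  have hρ0 : 0 < ρ := by rw [hρ]; linarith only [hq2]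
  have hρ1 : ρ < 1 := by rw [hρ]; linarith only [hq2']
  obtain ⟨n0, hn0⟩ := exists_pow_lt_of_lt_one (show (0 : ℝ) < 1 / 6 by norm_num) hρ1
  set K : ℝ := 3 * k0 with hK
  have hk1' : (1 : ℝ) ≤ k0 := by exact_mod_cast hk1
  have hK3 : 3 ≤ K := by rw [hK]; linarith only [hk1']
  have hqi : 1 < q⁻¹ := (one_lt_inv₀ h0).mpr h1
  set C : ℝ := 2 * K * q⁻¹ + 96 * (k0 : ℝ) ^ 2 with hC
  have hCK : 2 * K * q⁻¹ ≤ C := by
    rw [hC]
    have : 0 ≤ 96 * (k0 : ℝ) ^ 2 := by positivity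
    linarith only [this]
  have hCk : 96 * (k0 : ℝ) ^ 2 ≤ C := by
    rw [hC]
    have : 0 ≤ 2 * K * q⁻¹ := by positivity
    linarith only [this]
  have hC1 : 1 ≤ C := by
    have : 1 ≤ (k0 : ℝ) ^ 2 := one_le_pow₀ hk1'
    linarith only [hρ, hq2, hρ1, hCk, this]
  refine ⟨C, ρ, n0 + k0 + 2, hC1, hρ0, hρ1, by omega, fun L hL => ?_⟩
  obtain ⟨l, rfl⟩ : ∃ l, L = l + 2 := ⟨L - 2, by omega⟩
  have hL1 : 1 ≤ l + 2 := by omega
  set D := (l + 2) / k0 with hD
  have hDL : D ≤ l + 2 := Nat.div_le_self _ _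
  have hD1 : 1 ≤ D := (Nat.one_le_div_iff (by omega)).mpr (by omega)
  have hms : 1 - ms q (l + 2) D ≤ 3 * ρ ^ (l + 2) := one_sub_ms_le h0 h1 hk (l + 2)
  have hρL : ρ ^ (l + 2) ≤ 1 / 6 :=
    (pow_le_pow_of_le_one hρ0.le hρ1.le (by omega : n0 ≤ l + 2)).trans hn0.le
  have hm2 : 1 / 2 ≤ ms q (l + 2) D := by linarith only [hρL, hms]
  have hm0 : 0 < ms q (l + 2) D := by linarith only [hms, hρL]
  have hDle : 2 * (l + 2) - D ≤ 2 * (l + 2) := Nat.sub_le _ _
  have h3 : ((l + 2 : ℕ) : ℝ) ≤ k0 * (D + 1) := by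
    have h4 := Nat.lt_mul_div_succ (l + 2) hk1
    have h5 : l + 2 ≤ k0 * (D + 1) := h4.le
    exact_mod_cast h5
  have hD1' : (1 : ℝ) ≤ D := by exact_mod_cast hD1
  have h3' : (l : ℝ) + 2 ≤ 2 * k0 * D := by
    push_cast at h3
    nlinarith only [h3, hD1']
  have hTc : ((2 * (l + 2) - D : ℕ) : ℝ) = 2 * ((l : ℝ) + 2) - D := by
    rw [Nat.cast_sub (by omega : D ≤ 2 * (l + 2))]; push_cast; ring
  have hKineq : q ^ 2 * ((2 * (l + 2) : ℕ) + 1 : ℝ)
      ≤ K * (((2 * (l + 2) : ℕ) : ℝ) + 1 - ((2 * (l + 2) - D : ℕ) : ℝ)) := by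
    rw [Nat.cast_sub (by omega : D ≤ 2 * (l + 2))]
    have h6 : (1 : ℝ) ≤ ((l + 2 : ℕ) : ℝ) := by exact_mod_cast hL1
    push_cast at h3 h6 ⊢
    rw [hK]
    nlinarith only [hq2, h3]
  have hK0 : 0 ≤ K := by linarith only [hk1']
  have hab0 : l + 2 + (l + 2) = 2 * (l + 2) := by omega
  have e1 : l + 2 - 1 = l + 1 := by omega
  have e2 : l + 2 + 1 = l + 3 := by omega
  rw [e1, e2]
  have hab1 : l + 1 + (l + 3) = 2 * (l + 2) := by (clear * -; omega)
  have hab2 : l + 3 + (l + 1) = 2 * (l + 2) := by (clear * -; omega)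
  obtain ⟨n1, n2, n3, n4⟩ := restr_cell_near h0 h1 (l := l) (T := 2 * (l + 2) - D) (D := (D : ℝ))
    (by linarith only [hD1']) (by rw [hTc]; linarith only [])
  have hκ : kapL q l D ≤ C / Real.sqrt ((l + 2 : ℕ) : ℝ) := by
    refine (kapL_le h0 h1 hk1 (by linarith only [hD1']) h3').trans ?_
    push_cast
    exact div_le_div_of_nonneg_right hCk (Real.sqrt_nonneg _)
  set Y := hat q (l + 2) D (cell q (l + 2) (l + 2)) with hY
  set X0 := hat q (l + 2) D (cell q (l + 1) (l + 3)) with hX0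
  set X1 := hat q (l + 2) D (cell q (l + 3) (l + 1)) with hX1
  have pY : Prob Y := prob_hat h0.le h1.le hm0 hab0
  have pX0 : Prob X0 := prob_hat h0.le h1.le hm0 hab1
  have pX1 : Prob X1 := prob_hat h0.le h1.le hm0 hab2
  have up : ∀ {x y : Alg}, Prob y → le x ((1 + kapL q l D) • y) →
      le x ((1 + C / Real.sqrt ((l + 2 : ℕ) : ℝ)) • y) := by
    intro x y hy hxy
    refine MA.le_trans hxy ?_
    rw [MA.le_iff, ← sub_smul]
    exact MA.nonneg_smul (by linarith only [hκ]) hy.1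
  refine ⟨Y, X0, X1, pY, pX0, pX1, ?_, ?_, ?_, up pX0 (hat_le_of_restr hm0 n4),
    up pX1 (hat_le_of_restr hm0 n3), up pY (hat_le_of_restr hm0 n2),
    up pY (hat_le_of_restr hm0 n1), ?_, ?_⟩
  · exact (hat_l1 h0.le h1.le hm0 hab0).trans (by linarith only [hms])
  · exact (hat_l1 h0.le h1.le hm0 hab1).trans (by linarith only [hms])
  · exact (hat_l1 h0.le h1.le hm0 hab2).trans (by linarith only [hms])
  · intro δ hδ hdom
    have h3 := hat_dom h0 h1.le hDle hKineq hK0 hm2 hδ hdom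
    rw [hat_smul, hat_sub] at h3
    exact h3.mono pY.1 (mul_le_mul_of_nonneg_right hCK hδ)
  · intro δ hδ hdom
    have h3 := hat_dom h0 h1.le hDle hKineq hK0 hm2 hδ hdom
    rw [hat_sub, hat_smul, hat_add] at h3
    exact h3.mono pY.1 (mul_le_mul_of_nonneg_right hCK hδ)

end Vale.Agent.P321.Lt
end

section

/-!
From the explicit triple datum to the number of traces.
-/

namespace Vale.Agent.P321.MA

open scoped unitInterval

/-- two distinct strings of equal length at most `n` with trace laws at distance at most `δ` -/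
theorem traces_of_close (q : I) {n m : ℕ} {δ : ℝ} {u v : List Bool} (hne : u ≠ v)
    (hlen : u.length = v.length) (hn : u.length ≤ n) (hd : l1 (W q v - W q u) ≤ δ)
    (hm : ∃ est : Estimator n, Reconstructs q n m est) : 1 ≤ 3 * (m : ℝ) * δ := by
  obtain ⟨est, hest⟩ := hm
  set pad : List Bool := List.replicate (n - u.length) false with hpad
  have hu : (u ++ pad).length = n := by
    rw [List.length_append, hpad, List.length_replicate]; omega
  have hv : (v ++ pad).length = n := by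
    rw [List.length_append, hpad, List.length_replicate, ← hlen]; omega
  have hne' : u ++ pad ≠ v ++ pad := fun e => hne (List.append_cancel_right e)
  have key := lower_bound q n m est hest (fun i => (u ++ pad).get (i.cast hu.symm))
    (fun i => (v ++ pad).get (i.cast hv.symm)) (by
      intro e
      apply hne'
      refine List.ext_get (by rw [hu, hv]) fun i h1 h2 => ?_
      have := congrFun e ⟨i, by rw [← hu]; exact h1⟩
      simpa only [List.get_eq_getElem, Fin.cast_mk] using this)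
  have e1 : List.ofFn (fun i : Fin n => (u ++ pad).get (i.cast hu.symm)) = u ++ pad := by
    refine List.ext_get (by rw [List.length_ofFn, hu]) fun i h1 h2 => ?_
    simp only [List.get_eq_getElem, Fin.val_cast, List.getElem_ofFn]
  have e2 : List.ofFn (fun i : Fin n => (v ++ pad).get (i.cast hv.symm)) = v ++ pad := by
    refine List.ext_get (by rw [List.length_ofFn, hv]) fun i h1 h2 => ?_
    simp only [List.get_eq_getElem, Fin.val_cast, List.getElem_ofFn]
  rw [e1, e2, W_append, W_append, ← sub_mul] at key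
  have d1 : P321.l1 ((W q v - W q u) * W q pad) ≤ l1 (W q v - W q u) :=
    l1_mul_prob_right (W_prob q.2.1 q.2.2 pad)
  have hm0 : (0 : ℝ) ≤ m := Nat.cast_nonneg m
  exact key.trans (mul_le_mul_of_nonneg_left (d1.trans hd) (by (clear * -; positivity)))

theorem HasTri'.lower (q : I) {g l h d r : ℕ} {E : ℝ} {n m : ℕ} (H : HasTri' q g l h d r E)
    (hE : E ≤ ((2 : ℝ) ^ d)⁻¹) (hn : 2 ^ l ≤ n)
    (hm : ∃ est : Estimator n, Reconstructs q n m est) : (2 : ℝ) ^ (d / 2) ≤ 12 * m := by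
  obtain ⟨u, v0, v1, Y, e, f, a, b, K, H, ha2⟩ := H
  have t := H.trip
  have hp : (0 : ℝ) < 2 ^ (d / 2) := by positivity
  have h1 : (2 : ℝ) ^ (d / 2) * 2 ^ (d / 2) ≤ 2 ^ d := by
    rw [← pow_add]
    exact pow_le_pow_right₀ (by norm_num) (by omega)
  have h2 : ((2 : ℝ) ^ d)⁻¹ ≤ (((2 : ℝ) ^ (d / 2))⁻¹) ^ 2 := by
    rw [inv_pow, sq]
    exact inv_anti₀ (by positivity) h1
  have ha : a ≤ ((2 : ℝ) ^ (d / 2))⁻¹ :=
    le_of_pow_le_pow_left₀ (by norm_num) (by positivity) (ha2.trans h2)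
  have hE' : E ≤ ((2 : ℝ) ^ (d / 2))⁻¹ := by
    refine hE.trans (inv_anti₀ hp ?_)
    exact pow_le_pow_right₀ (by norm_num) (Nat.div_le_self d 2)
  have key := traces_of_close q (m := m) (δ := 4 * ((2 : ℝ) ^ (d / 2))⁻¹) H.ne
    (H.len0.trans H.len1.symm) (H.len0.trans_le (H.len.trans hn)) (by
      have e1 : W q v1 - W q v0
          = (W q v1 - (Y + e + f)) + (-(W q v0 - (Y + e - f)) + (2 : ℝ) • f) := by
        rw [two_smul]; abel
      have hf : l1 f ≤ a := by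
        have := t.hf.l1_le t.hY.nonneg t.hY.aug (sq_nonneg a)
        rwa [Real.sqrt_sq t.a0] at this
      rw [e1]
      refine (l1_add _ _).trans ?_
      have h3 := l1_add (-(W q v0 - (Y + e - f))) ((2 : ℝ) • f)
      rw [l1_neg, l1_smul, abs_of_pos (by norm_num : (0 : ℝ) < 2)] at h3
      have := H.err0
      have := H.err1
      (clear m hn hm e1; linarith)) hm
  have e3 : 3 * (m : ℝ) * (4 * ((2 : ℝ) ^ (d / 2))⁻¹) = 12 * m / 2 ^ (d / 2) := by
    rw [div_eq_mul_inv]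
    ring
  rw [e3, le_div_iff₀ hp, one_mul] at key
  exact key

end Vale.Agent.P321.MA
end
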