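import Vale.Agent.P321.Bdl.B5
import Vale.Agent.P321.Bdl.B6
import Vale.Agent.P321.Bdl.B7
import Vale.Agent.P321.Bdl.B4

section

/-!
The sample complexity is finite for `q < 1`.
-/

namespace Vale.Agent.P321

open scoped unitInterval ENNReal

/-- A string of length at least `|x|` different from `x` is not a trace of `x`. -/
theorem traceLaw_eq_zero (q : I) (x w : List Bool) (h : x.length ≤ w.length) (hne : w ≠ x) :
    traceLaw q x w = 0 := by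
  induction x generalizing w with
  | nil => rw [traceLaw_nil, PMF.pure_apply, if_neg hne]
  | cons b x ih =>
    rw [List.length_cons] at h
    rw [traceLaw_cons_apply, ih w (by omega) (by rintro rfl; omega), mul_zero, zero_add]
    have e0 : (∑' t, if w = b :: t then traceLaw q x t else 0) = 0 := by
      refine ENNReal.tsum_eq_zero.mpr fun t => ?_
      by_cases e : w = b :: t
      · rw [if_pos e]
        subst e
        rw [List.length_cons] at h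
        exact ih t (by omega) (by rintro rfl; exact hne rfl)
      · rw [if_neg e]
    rw [e0, mul_zero]

theorem traceLaw_self (q : I) (x : List Bool) :
    traceLaw q x x = ENNReal.ofReal (1 - q) ^ x.length := by
  induction x with
  | nil => rw [traceLaw_nil, PMF.pure_apply, if_pos rfl, List.length_nil, pow_zero]
  | cons b x ih =>
    rw [traceLaw_cons_apply, traceLaw_eq_zero q x (b :: x) (by simp only [List.length_cons, le_add_iff_nonneg_right, zero_le]) (List.cons_ne_self b x),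
      mul_zero, zero_add]
    have e0 : (∑' t, if b :: x = b :: t then traceLaw q x t else 0) = traceLaw q x x := by
      rw [tsum_eq_single x]
      · rw [if_pos rfl]
      · intro t ht
        rw [if_neg]
        intro e
        exact ht (List.cons.inj e).2.symm
    rw [e0, ih, List.length_cons, pow_succ']

/-- output the first trace of full length -/
def est0 (n : ℕ) : List (List Bool) → (Fin n → Bool)
  | [] => fun _ => false
  | t :: ts => if t.length = n then (fun i => t.getD i false) else est0 n ts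

theorem est0_self (n : ℕ) (x : Fin n → Bool) (ts : List (List Bool)) :
    est0 n (List.ofFn x :: ts) = x := by
  rw [est0, if_pos (List.length_ofFn)]
  funext i
  simp

/-- law of the output -/
noncomputable def outLaw (q : I) (n : ℕ) (x : Fin n → Bool) (m : ℕ) : PMF (Fin n → Bool) :=
  (tracesLaw q (List.ofFn x) m).bind fun ts => PMF.pure (est0 n ts)

theorem outLaw_succ (q : I) (n : ℕ) (x : Fin n → Bool) (m : ℕ) :
    outLaw q n x (m + 1) x =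
      ∑' t, traceLaw q (List.ofFn x) t *
        (if t = List.ofFn x then 1 else outLaw q n x m x) := by
  rw [outLaw, tracesLaw_succ, PMF.bind_bind, PMF.bind_apply]
  refine tsum_congr fun t => ?_
  by_cases h : t = List.ofFn x
  · rw [if_pos h]
    subst h
    congr 1
    rw [PMF.bind_map]
    have e : ((fun ts => PMF.pure (est0 n ts)) ∘ fun ts => List.ofFn x :: ts)
        = fun _ => PMF.pure x := by
      funext ts
      simp only [Function.comp]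
      rw [est0_self]
    rw [e, PMF.bind_const, PMF.pure_apply, if_pos rfl]
  · rw [if_neg h]
    by_cases hl : t.length = n
    · rw [traceLaw_eq_zero q (List.ofFn x) t (by rw [List.length_ofFn, hl]) h, zero_mul, zero_mul]
    · congr 1
      rw [PMF.bind_map]
      have e : ((fun ts => PMF.pure (est0 n ts)) ∘ fun ts => t :: ts)
          = fun ts => PMF.pure (est0 n ts) := by
        funext ts
        simp only [Function.comp]
        rw [est0, if_neg hl]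
      rw [e, outLaw]

theorem outLaw_succ' (q : I) (n : ℕ) (x : Fin n → Bool) (m : ℕ) :
    outLaw q n x (m + 1) x = traceLaw q (List.ofFn x) (List.ofFn x)
      + (1 - traceLaw q (List.ofFn x) (List.ofFn x)) * outLaw q n x m x := by
  classical
  rw [outLaw_succ]
  set X := List.ofFn x
  set c := outLaw q n x m x
  have h1 : ∀ t, traceLaw q X t * (if t = X then 1 else c)
      = (if t = X then traceLaw q X X else 0) + (if t = X then 0 else traceLaw q X t) * c := by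
    intro t
    by_cases h : t = X
    · rw [if_pos h, if_pos h, if_pos h, h, mul_one, zero_mul, add_zero]
    · rw [if_neg h, if_neg h, if_neg h, zero_add]
  rw [tsum_congr h1, ENNReal.tsum_add, ENNReal.tsum_mul_right, tsum_ite_eq]
  congr 2
  have h2 : ∑' t, traceLaw q X t = 1 := (traceLaw q X).tsum_coe
  have h3 : ∑' t, traceLaw q X t = traceLaw q X X + ∑' t, (if t = X then 0 else traceLaw q X t) := by
    rw [ENNReal.tsum_eq_add_tsum_ite X]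
    congr 1
    refine tsum_congr fun t => ?_
    by_cases h : t = X
    · rw [if_pos h, if_pos h]
    · rw [if_neg h, if_neg h]
  rw [h3] at h2
  have h4 : traceLaw q X X ≠ ∞ := PMF.apply_ne_top _ _
  rw [← h2, ENNReal.add_sub_cancel_left h4]

theorem outLaw_lower (q : I) (n : ℕ) (x : Fin n → Bool) (m : ℕ) :
    1 ≤ outLaw q n x m x + (1 - traceLaw q (List.ofFn x) (List.ofFn x)) ^ m := by
  induction m with
  | zero => rw [pow_zero]; exact le_add_self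
  | succ m ih =>
    rw [outLaw_succ', pow_succ', add_assoc, ← mul_add]
    set ρ := traceLaw q (List.ofFn x) (List.ofFn x) with hρ
    have h1 : ρ ≤ 1 := PMF.coe_le_one _ _
    calc (1 : ℝ≥0∞) = ρ + (1 - ρ) * 1 := by rw [mul_one, add_tsub_cancel_of_le h1]
      _ ≤ _ := by gcongr

/-- `T_q(n)` is finite for every `q < 1`. -/
theorem T_ne_top (q : I) (hq : (q : ℝ) < 1) (n : ℕ) : T q n ≠ ⊤ := by
  have h0 : 0 < ENNReal.ofReal (1 - q) ^ n := by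
    rw [pos_iff_ne_zero]
    refine pow_ne_zero n ?_
    rw [← pos_iff_ne_zero, ENNReal.ofReal_pos]
    linarith
  have h1 : 1 - ENNReal.ofReal (1 - q) ^ n < 1 := ENNReal.sub_lt_self ENNReal.one_ne_top
    one_ne_zero h0.ne'
  have h2 := ENNReal.tendsto_pow_atTop_nhds_zero_of_lt_one h1
  have h3 : (0 : ℝ≥0∞) < 1 / 3 := by norm_num
  obtain ⟨m, hm⟩ := (h2.eventually (gt_mem_nhds h3)).exists
  have h4 : ∃ est : Estimator n, Reconstructs q n m est := by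
    refine ⟨fun ts => PMF.pure (est0 n ts), fun x => ?_⟩
    have h5 := outLaw_lower q n x m
    rw [traceLaw_self, List.length_ofFn] at h5
    have h6 : (2 : ℝ≥0∞) / 3 + 1 / 3 ≤ outLaw q n x m x + 1 / 3 := by
      calc (2 : ℝ≥0∞) / 3 + 1 / 3 = 1 := by
            rw [ENNReal.div_add_div_same]
            norm_num
            exact ENNReal.div_self (by norm_num) (by (clear * -; norm_num))
        _ ≤ _ := h5
        _ ≤ _ := by (clear * - hm; gcongr)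
    exact (ENNReal.add_le_add_iff_right (by
      exact ENNReal.div_ne_top ENNReal.one_ne_top (by norm_num))).mp h6
  have h5 : T q n ≤ (m : ℕ∞) := by
    unfold T
    exact iInf₂_le m h4
  exact ne_top_of_le_ne_top (ENat.natCast_ne_top m) h5

end Vale.Agent.P321
end

section

/-!
Assembly of the explicit rate.
-/

namespace Vale.Agent.P321

open scoped unitInterval

theorem lo_of_hi {G : Type*} [Monoid G] {X Y : MonoidAlgebra ℝ G} {κ : ℝ} (hκ : 0 ≤ κ)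
    (hX : MA.nonneg X) (hY : MA.nonneg Y) (h : MA.le Y ((1 + κ) • X)) : MA.le ((1 - κ) • Y) X := by
  intro w
  have h1 := h w
  rw [MonoidAlgebra.coeff_smul, Finsupp.smul_apply, smul_eq_mul] at h1 ⊢
  have h2 := hX w
  have h3 := hY w
  by_cases hk : κ ≤ 1
  · have h4 : (1 - κ) * Y.coeff w ≤ (1 - κ) * ((1 + κ) * X.coeff w) :=
      mul_le_mul_of_nonneg_left h1 (by linarith only [hk])
    have h5 : 0 ≤ κ ^ 2 * X.coeff w := by (clear * - h2; positivity)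
    linarith only [h5, h4]
  · push Not at hk
    linarith only [mul_nonneg (sub_nonneg.2 h3) (le_of_lt (sub_pos.2 hk)), h2]

theorem base_near {q : ℝ} (h0 : 0 < q) (h1 : q < 1) : Lt.BaseNear q := by
  obtain ⟨C, ρ, L0, hC, hρ0, hρ1, hL0, h⟩ := Lt.base_elements_near h0 h1
  refine ⟨C, ρ, L0, hC, hρ0, hρ1, by omega, fun L hL => ?_⟩
  obtain ⟨Y, X0, X1, pY, p0, p1, e, e0, e1, l0, l1, u0, u1, df, de⟩ := h L hL
  have hκ : 0 ≤ C / Real.sqrt L := div_nonneg (by linarith only [hC]) (Real.sqrt_nonneg _)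
  exact ⟨Y, X0, X1, pY, p0, p1, e, e0, e1, lo_of_hi hκ p0.nonneg pY.nonneg l0,
    lo_of_hi hκ p1.nonneg pY.nonneg l1, u0, u1, df, de⟩

theorem rate_of_small {A : ℕ} (hDS : MA.SmallDS A) (q : I) (h0 : 0 < (q : ℝ)) (h1 : (q : ℝ) < 1) :
    ∃ n0 : ℕ, ∀ n : ℕ, n0 ≤ n → ∀ m : ℕ, (∃ est : Estimator n, Reconstructs q n m est) →
      (n : ℝ) ^ ((1 / 65536 : ℝ) * Real.log (Real.log n)) ≤ m :=
  MA.rate_final (MA.step_ok hDS h0.le h1.le)
    (fun _ _ _ _ _ _ H hE _ hn _ hm => MA.HasTri'.lower q H hE hn hm)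
    (Lt.base_ok_of_near h0 h1 (base_near h0 h1))

theorem rate_T {A : ℕ} (hDS : MA.SmallDS A) (q : I) (h0 : 0 < (q : ℝ)) (h1 : (q : ℝ) < 1) :
    ∃ n0 : ℕ, ∀ n : ℕ, n0 ≤ n →
      (⌈(n : ℝ) ^ ((1 / 65536 : ℝ) * Real.log (Real.log n))⌉₊ : ℕ∞) ≤ T q n ∧ T q n ≠ ⊤ := by
  obtain ⟨n0, h⟩ := rate_of_small hDS q h0 h1
  refine ⟨n0, fun n hn => ⟨?_, T_ne_top q h1 n⟩⟩
  unfold T
  refine le_iInf₂ fun m hm => ?_
  have h2 := Nat.ceil_le.mpr (h n hn m hm)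
  exact_mod_cast h2

end Vale.Agent.P321
end

section

/-!
The double step with explicit constants, in the regime of small parameters and ratios close to
one.
-/

namespace Vale.Agent.P321.MA

open Finset

variable {G : Type*} [Monoid G]

theorem one_add_pow_le {x : ℝ} {n : ℕ} (hx : 0 ≤ x) (hn : n * x ≤ 1 / 2) :
    (1 + x) ^ n ≤ 1 + 3 / 2 * (n * x) := by
  have hnx : 0 ≤ n * x := by positivity
  have h1 : (1 + x) ^ n ≤ Real.exp (n * x) := by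
    calc (1 + x) ^ n ≤ (Real.exp x) ^ n :=
          pow_le_pow_left₀ (by linarith only [hx]) (by linarith only [Real.add_one_le_exp x]) n
      _ = Real.exp (n * x) := by rw [← Real.exp_nat_mul]
  have h2 : Real.exp (n * x) ≤ 1 + n * x + (n * x) ^ 2 := by
    have h3 := Real.abs_exp_sub_one_sub_id_le (x := n * x) (by rw [abs_of_nonneg hnx]; linarith only [hn])
    have h4 := (abs_le.mp h3).2
    linarith only [h4]
  nlinarith only [h1, h2, hn, hnx]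

/-- numerics for the ratio constants -/
theorem ratio_bounds (k k' : ℕ) {ρ : ℝ} (hρ : 0 ≤ ρ) (hρ1 : (2 : ℝ) ^ (k + k' + 4) * ρ ≤ 1) :
    ρ ≤ 1 / 16 ∧ 1 ≤ C1c k (1 - ρ) (1 + ρ) ∧ ((1 - ρ) ^ 2 ^ k)⁻¹ ≤ C1c k (1 - ρ) (1 + ρ) ∧
      C1c k (1 - ρ) (1 + ρ) ≤ 1 + 2 ^ (k + 2) * ρ ∧
      C1c k (1 - ρ) (1 + ρ) ^ (2 * 2 ^ k') ≤ 1 + 2 ^ (k + k' + 4) * ρ ∧
      C1c k (1 - ρ) (1 + ρ) ^ (2 * 2 ^ k') ≤ 7 / 5 := by
  have hm : (1 : ℝ) ≤ 2 ^ k := one_le_pow₀ (by norm_num)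
  have hm' : (1 : ℝ) ≤ 2 ^ k' := one_le_pow₀ (by norm_num)
  have hmm : (1 : ℝ) ≤ 2 ^ k * 2 ^ k' := by linarith only [mul_nonneg (sub_nonneg.2 hm) (sub_nonneg.2 hm'), hm', hm]
  have e4 : (2 : ℝ) ^ (k + k' + 4) = 16 * (2 ^ k * 2 ^ k') := by
    rw [pow_add, pow_add]; ring
  have h16 : 2 ^ k * 2 ^ k' * ρ ≤ 1 / 16 := by
    rw [e4] at hρ1; linarith only [hρ1]
  have hρ16 : ρ ≤ 1 / 16 := by
    have : 1 * ρ ≤ 2 ^ k * 2 ^ k' * ρ := mul_le_mul_of_nonneg_right hmm hρ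
    linarith only [h16, this]
  have hc : 0 < 1 - ρ := by linarith
  set x : ℝ := 2 * ρ / (1 - ρ) with hx
  have hx0 : 0 ≤ x := by (clear * - hρ hc; positivity)
  have hx1 : x ≤ 32 / 15 * ρ := by
    rw [hx, div_le_iff₀ hc]; linarith only [mul_nonneg (sub_nonneg.2 hρ) (sub_nonneg.2 hρ16)]
  have hC : ∀ n : ℕ, (1 + ρ) ^ n * ((1 - ρ) ^ n)⁻¹ = (1 + x) ^ n := by
    intro n
    rw [← inv_pow, ← mul_pow]
    congr 1
    rw [hx]; field_simp; ring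
  have hC1 : C1c k (1 - ρ) (1 + ρ) = (1 + x) ^ 2 ^ k := hC _
  have c1 := C1c_one_le k hc (by linarith only [hρ] : 1 - ρ ≤ 1) (by linarith only [hρ] : 1 ≤ 1 + ρ)
  have hkc : ((2 ^ k : ℕ) : ℝ) = 2 ^ k := by push_cast; rfl
  have hkc' : ((2 ^ k * (2 * 2 ^ k') : ℕ) : ℝ) = 2 * (2 ^ k * 2 ^ k') := by push_cast; ring
  have hmx : 2 ^ k * 2 ^ k' * x ≤ 32 / 15 * (2 ^ k * 2 ^ k' * ρ) := by
    have := mul_le_mul_of_nonneg_left hx1 (by positivity : (0 : ℝ) ≤ 2 ^ k * 2 ^ k')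
    linarith only [this]
  have hkx : 2 ^ k * x ≤ 32 / 15 * (2 ^ k * ρ) := by
    have := mul_le_mul_of_nonneg_left hx1 (by positivity : (0 : ℝ) ≤ 2 ^ k)
    linarith only [this]
  have hkm : 2 ^ k * ρ ≤ 2 ^ k * 2 ^ k' * ρ := by
    have : (2 : ℝ) ^ k * 1 ≤ 2 ^ k * 2 ^ k' := mul_le_mul_of_nonneg_left hm' (by positivity)
    rw [mul_one] at this
    exact mul_le_mul_of_nonneg_right this hρ
  have hkρ0 : 0 ≤ 2 ^ k * ρ := by (clear * - hρ; positivity)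
  have hmρ0 : 0 ≤ 2 ^ k * 2 ^ k' * ρ := by (clear * - hρ; positivity)
  have hbig : (1 + x) ^ (2 ^ k * (2 * 2 ^ k')) ≤ 1 + 32 / 5 * (2 ^ k * 2 ^ k' * ρ) := by
    have h1 := one_add_pow_le (n := 2 ^ k * (2 * 2 ^ k')) hx0 (by rw [hkc']; nlinarith only [h16, hmx])
    rw [hkc'] at h1
    linarith only [h1, hmx]
  refine ⟨hρ16, c1, ?_, ?_, ?_, ?_⟩
  · have h1 : 1 ≤ (1 + ρ) ^ 2 ^ k := one_le_pow₀ (by linarith only [hρ])
    have h2 : 0 ≤ ((1 - ρ) ^ 2 ^ k)⁻¹ := inv_nonneg.mpr (pow_nonneg hc.le _)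
    unfold C1c
    nlinarith only [h1, h2]
  · rw [hC1]
    have h1 := one_add_pow_le (n := 2 ^ k) hx0 (by rw [hkc]; nlinarith only [h16, hkx, hkm])
    rw [hkc] at h1
    have e2 : (2 : ℝ) ^ (k + 2) = 4 * 2 ^ k := by rw [pow_add]; ring
    rw [e2]
    linarith only [h1, hkρ0, hkx]
  · rw [hC1, ← pow_mul, e4]
    linarith only [hbig, hkρ0, hkm]
  · rw [hC1, ← pow_mul]
    linarith only [hbig, h16]

theorem one_sub_le_inv {x u : ℝ} (hx : 0 < x) (hu : 0 ≤ u) (h : x ≤ 1 + u) : 1 - u ≤ x⁻¹ := by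
  have h1 : (1 + u)⁻¹ ≤ x⁻¹ := inv_anti₀ hx h
  refine _root_.le_trans ?_ h1
  rw [← one_div, le_div_iff₀ (by linarith only [hu])]
  linarith only [mul_nonneg (sub_nonneg.2 hu) (sub_nonneg.2 hu)]

/-- lower bound of the second by the first letter, ratio close to one -/
theorem le_one_sub {x y : MonoidAlgebra ℝ G} {C₁ u : ℝ} (hx : nonneg x) (hC : 0 < C₁)
    (hu : 0 ≤ u) (hK : C₁ ≤ 1 + u) (h : le x (C₁ • y)) : le ((1 - u) • x) y := by
  have h1 := le_of_smul_le hx hC _root_.le_rfl h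
  refine le_trans ?_ h1
  intro w
  rw [MonoidAlgebra.coeff_smul, MonoidAlgebra.coeff_smul, Finsupp.smul_apply, Finsupp.smul_apply,
    smul_eq_mul, smul_eq_mul]
  exact mul_le_mul_of_nonneg_right (one_sub_le_inv hC hu hK) (hx w)

/-- the hypotheses of the upper level -/
theorem Trip.toWL_poly {Y e f : MonoidAlgebra ℝ G} {a b c C t : ℝ} {k M : ℕ}
    (h : Trip Y e f a b c C) {M0 : ℕ} (hM : k * M0 ≤ M)
    (ht : (2 ^ k * l1 ((1 - Y) * Y ^ M0)) ^ k ≤ t) (k' : ℕ)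
    (hk : 4 * 4 ^ k * (b + a ^ 2) ≤ 1) (hω1 : KQ k * ((b + a ^ 2) ^ 2 + t) ≤ 1)
    (ht1 : 4 * 2 ^ k * t ≤ 1) (hr : 2 * (Kp k * (a * (b + a ^ 2))) ≤ 1)
    {τ : ℝ} {M' n0 R : ℕ}
    (hR : 1 ≤ R) (hRM : R ≤ M) (hn : n0 ≤ M')
    (hτ : 4 * Real.sqrt ((1 + KQ k * ((b + a ^ 2) ^ 2 + t)) ^ (n0 + 2 ^ k') - 1)
      + 2 * R * l1 ((1 - Y) * Y ^ ((M + 2 ^ k + M) * n0)) ≤ τ) :
    WL Y (upT Y (Y + e - f) (Y + e + f) (tmb k) M) (upT Y (Y + e - f) (Y + e + f) (tmc k) M)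
      ((2 : ℝ) • Fone Y f k M) ((2 : ℝ) • Dr Y e f k) M (2 ^ k) n0 M' (2 ^ k') R
      (c ^ 2 ^ k) (C1c k c C) (KQ k * ((b + a ^ 2) ^ 2 + t)) (4 * 2 ^ k * t)
      (2 * (Kp k * (a * (b + a ^ 2)))) τ := by
  have ht0 := tiny_nonneg ht
  have a0 := h.a0
  have b0 := h.b0
  have hη : 0 ≤ b + a ^ 2 := by (clear * - b0; positivity)
  have hE : 0 ≤ (b + a ^ 2) ^ 2 + t := by (clear * - ht0; positivity)
  have hKp := Kp_pos k
  have hKQ := KQ_pos k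
  obtain ⟨lo, hi, -⟩ := h.comp k M
  obtain ⟨d0, d1⟩ := h.pres_dom_poly hk hM ht
  have hFd := (h.Fone_dom hM ht).smul 2
  have hDr := (h.Dr_nm_poly k hk).smul 2
  rw [abs_of_nonneg (by norm_num : (0 : ℝ) ≤ 2)] at hDr
  refine ⟨h.hY, upT_prob h.hY h.pM h.pP _ _, upT_prob h.hY h.pM h.pP _ _, pow_pos h.c0 _,
    pow_le_one₀ h.c0.le h.c1, C1c_one_le k h.c0 h.c1 h.C1, lo, hi,
    mul_nonneg hKQ.le hE, hω1, d0, d1, upT_sub Y e f k M, ?_,
    by (clear * - ht0; positivity), ht1, hDr, hr, hR, hRM, hn, hτ⟩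
  refine hFd.mono (nonneg_pow h.hY.nonneg _) (_root_.le_of_eq ?_)
  ring

end Vale.Agent.P321.MA
end

section

/-!
The double step with explicit constants, in the regime of small parameters and ratios close to
one.
-/

namespace Vale.Agent.P321.MA

open Finset

variable {G : Type*} [Monoid G]

/-- numerics of the small regime -/
theorem small_numerics (k k' : ℕ) {K η δ t : ℝ} (hK : KP k k' ≤ K) (hη : 0 ≤ η) (ht : 0 ≤ t)
    (hδ : δ ≤ η) (h : K * (η + t) ≤ 1) :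
    4 * 4 ^ k * η ≤ 1 ∧ KQ k * (η ^ 2 + t) ≤ 1 ∧ 2 ^ k' * (KQ k * (η ^ 2 + t)) ≤ 1 / 2 ∧
      4 * 2 ^ k * t ≤ 1 ∧ 2 * (Kp k * δ) ≤ 1 ∧ K * (η ^ 2 + t) ≤ 1 := by
  have hKP := KP_pos k k'
  have hK0 : 0 < K := lt_of_lt_of_le hKP hK
  have h0 : KP k k' * (η + t) ≤ 1 :=
    (mul_le_mul_of_nonneg_right hK (by (clear * - hη ht; positivity))).trans h
  have hη' : KP k k' * η ≤ 1 :=
    (mul_le_mul_of_nonneg_left (by linarith only [ht]) hKP.le).trans h0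
  have ht' : KP k k' * t ≤ 1 :=
    (mul_le_mul_of_nonneg_left (by linarith only [hη]) hKP.le).trans h0
  have hKP1 : 1 ≤ KP k k' := by unfold KP; exact one_le_pow₀ (by norm_num)
  have hη1 : η ≤ 1 := by nlinarith only [hη', hKP1]
  have hη2 : η ^ 2 ≤ η := by nlinarith only [hKP1, hη, hη']
  have hp : ∀ {c : ℝ} {m : ℕ}, c = 2 ^ m → m ≤ 12 * k + 4 * k' + 24 → c ≤ KP k k' := by
    intro c m hc hm
    rw [hc, KP]
    exact pow_le_pow_right₀ (by norm_num) hm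
  have e1 : (4 : ℝ) * 4 ^ k = 2 ^ (2 * k + 2) := by
    rw [pow_add, pow_mul]; norm_num; ring
  have e2 : (2 : ℝ) ^ k' * KQ k * 2 = 2 ^ (k' + (6 * k + 8) + 1) := by
    rw [KQ]; ring
  have e3 : (4 : ℝ) * 2 ^ k = 2 ^ (k + 2) := by rw [pow_add]; ring
  have e4 : 2 * Kp k = 2 ^ (3 * k + 3) := by rw [Kp_eq, ← pow_succ']
  have hk1 : (1 : ℝ) ≤ 2 ^ k' := one_le_pow₀ (by norm_num)
  have hKQ := KQ_pos k
  have b3 : 2 ^ k' * (KQ k * (η ^ 2 + t)) ≤ 1 / 2 := by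
    have h1 := mul_le_mul_of_nonneg_right (hp e2 (by omega)) (by (clear * - hη ht; positivity) : 0 ≤ η + t)
    have h2 : 2 ^ k' * (KQ k * (η ^ 2 + t)) ≤ 2 ^ k' * (KQ k * (η + t)) := by
      refine mul_le_mul_of_nonneg_left (mul_le_mul_of_nonneg_left ?_ hKQ.le) (by positivity)
      linarith only [hη2]
    have h3 : 2 ^ k' * KQ k * 2 * (η + t) = 2 * (2 ^ k' * (KQ k * (η + t))) := by ring
    rw [h3] at h1
    linarith only [h0, h1, h2]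
  have hX : 0 ≤ KQ k * (η ^ 2 + t) := by (clear * - hKQ ht; positivity)
  refine ⟨?_, ?_, b3, ?_, ?_, ?_⟩
  · exact (mul_le_mul_of_nonneg_right (hp e1 (by (clear * -; omega))) hη).trans hη'
  · nlinarith only [b3, hk1]
  · exact (mul_le_mul_of_nonneg_right (hp e3 (by (clear * -; omega))) ht).trans ht'
  · have h1 := mul_le_mul_of_nonneg_right (hp e4 (by omega)) hη
    have h2 : 2 * Kp k * δ ≤ 2 * Kp k * η :=
      mul_le_mul_of_nonneg_left hδ (by have := Kp_pos k; (clear * - this; positivity))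
    linarith only [hη', h1, h2]
  · exact (mul_le_mul_of_nonneg_left (by linarith only [hη2]) hK0.le).trans h

/-- coefficient bounds for the upper level -/
theorem coeff_bounds (k k' : ℕ) {C₂ B₁ : ℝ} (hC : C₂ ≤ 2) (hB0 : 0 ≤ B₁)
    (hB : B₁ ≤ 2) :
    C₂ * (2 * 2 ^ k') ≤ KP k k' ∧
    C₂ * (8 * ((2 : ℝ) ^ k') ^ 4 * B₁ * 2 * (128 * Kp k ^ 4)) ≤ KP k k' ∧
    C₂ * (8 * ((2 : ℝ) ^ k') ^ 4 * B₁ * 2 * (96 * 2 ^ k)) ≤ KP k k' ∧
    ((2 : ℝ) ^ k') ^ 2 * B₁ * (32 * Kp k ^ 2) ≤ KP k k' ∧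
    ((2 : ℝ) ^ k') ^ 2 * B₁ * (8 * 2 ^ k) ≤ KP k k' := by
  have hp : ∀ {c : ℝ} {m : ℕ}, c = 2 ^ m → m ≤ 12 * k + 4 * k' + 24 → c ≤ KP k k' := by
    intro c m hc hm
    rw [hc, KP]
    exact pow_le_pow_right₀ (by norm_num) hm
  have hKp := Kp_pos k
  refine ⟨?_, ?_, ?_, ?_, ?_⟩
  · have e : (2 : ℝ) * (2 * 2 ^ k') = 2 ^ (k' + 2) := by rw [pow_add]; ring
    exact (mul_le_mul_of_nonneg_right hC (by positivity)).trans (hp e (by omega))
  · have e : (2 : ℝ) * (8 * ((2 : ℝ) ^ k') ^ 4 * 2 * 2 * (128 * Kp k ^ 4))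
        = 2 ^ (12 * k + 4 * k' + 21) := by
      rw [Kp_eq]
      ring
    refine _root_.le_trans ?_ (hp e (by omega))
    gcongr
  · have e : (2 : ℝ) * (8 * ((2 : ℝ) ^ k') ^ 4 * 2 * 2 * (128 * 2 ^ k))
        = 2 ^ (k + 4 * k' + 13) := by
      ring
    refine _root_.le_trans ?_ (hp e (by omega))
    gcongr
    norm_num
  · have e : ((2 : ℝ) ^ k') ^ 2 * 2 * (32 * Kp k ^ 2) = 2 ^ (6 * k + 2 * k' + 10) := by
      rw [Kp_eq]
      ring
    refine _root_.le_trans ?_ (hp e (by omega))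
    (clear * - hB hKp; gcongr)
  · have e : ((2 : ℝ) ^ k') ^ 2 * 2 * (8 * 2 ^ k) = 2 ^ (k + 2 * k' + 4) := by
      ring
    refine _root_.le_trans ?_ (hp e (by omega))
    gcongr

/-- **The double step** with explicit constants. -/
theorem double_step_small (k k' : ℕ) {K : ℝ} (hKK : KP k k' ≤ K)
    {Y e f : MonoidAlgebra ℝ G} {a b t ρ : ℝ} {M M0 : ℕ} (hρ : 0 ≤ ρ)
    (hρ1 : (2 : ℝ) ^ (k + k' + 4) * ρ ≤ 1) (h : Trip Y e f a b (1 - ρ) (1 + ρ))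
    (hM : k * M0 ≤ M) (ht : (2 ^ k * l1 ((1 - Y) * Y ^ M0)) ^ k ≤ t)
    (hK : K * ((b + a ^ 2) + t) ≤ 1) (Z0 Z1 : MonoidAlgebra ℝ G)
    (hZ0 : Z0 = upT Y (Y + e - f) (Y + e + f) (tmb k) M)
    (hZ1 : Z1 = upT Y (Y + e - f) (Y + e + f) (tmc k) M) :
    Prob Z0 ∧ Prob Z1 ∧ le ((1 - (2 : ℝ) ^ (k + 2) * ρ) • Z0) Z1 ∧
    le Z1 ((1 + (2 : ℝ) ^ (k + 2) * ρ) • Z0) ∧
    Dom (Z1 - Z0) Z0 (K * ((a * (b + a ^ 2)) ^ 2 + t)) ∧
    (∀ L : List Bool, l1 (wd Z0 Z1 L - Y ^ ((2 * M + 2 ^ k) * L.length))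
      ≤ Real.sqrt ((1 + K * ((b + a ^ 2) ^ 2 + t)) ^ L.length - 1)) ∧
    ∀ {t' τ : ℝ} {M' M0' n0 R : ℕ}, k' * M0' ≤ M' →
      (2 ^ k' * l1 ((1 - Z0) * Z0 ^ M0')) ^ k' ≤ t' → 1 ≤ R → R ≤ M → n0 ≤ M' →
      4 * Real.sqrt ((1 + K * ((b + a ^ 2) ^ 2 + t)) ^ (n0 + 2 ^ k') - 1)
        + 2 * R * l1 ((1 - Y) * Y ^ ((2 * M + 2 ^ k) * n0)) ≤ τ →
      ∀ W0 W1 : MonoidAlgebra ℝ G, W0 = upT Z0 Z0 Z1 (tmb k') M' →
        W1 = upT Z0 Z0 Z1 (tmc k') M' →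
      Prob W0 ∧ Prob W1 ∧ le ((1 - (2 : ℝ) ^ (k + k' + 4) * ρ) • W0) W1 ∧
      le W1 ((1 + (2 : ℝ) ^ (k + k' + 4) * ρ) • W0) ∧
      Dom (W1 - W0) W0 (K * (((a * (b + a ^ 2)) ^ 2) ^ 2 * (τ + 1 / R) + t + t')) ∧
      (∀ L : List Bool, l1 (wd W0 W1 L - Z0 ^ ((2 * M' + 2 ^ k') * L.length))
        ≤ Real.sqrt ((1 + K * ((a * (b + a ^ 2)) ^ 2 * (τ + 1 / R) + t + t')) ^ L.length
          - 1)) := by
  obtain ⟨hρ16, hC1, hci, hC1u, hC2u, hC2v⟩ := ratio_bounds k k' hρ hρ1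
  have hKP := KP_pos k k'
  have hK0 : 0 ≤ K := (lt_of_lt_of_le hKP hKK).le
  have ht0 := tiny_nonneg ht
  have a0 := h.a0
  have b0 := h.b0
  have hη : 0 ≤ b + a ^ 2 := by (clear * - b0; positivity)
  have hδle : a * (b + a ^ 2) ≤ b + a ^ 2 := by
    have := mul_le_mul_of_nonneg_right h.a1 hη
    linarith only [this]
  obtain ⟨n1, n2, n3, n4, n5, n6⟩ := small_numerics k k' hKK hη ht0 hδle hK
  have hE : 0 ≤ (b + a ^ 2) ^ 2 + t := by (clear * - ht0; positivity)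
  have hδη : (a * (b + a ^ 2)) ^ 2 ≤ (b + a ^ 2) ^ 2 :=
    pow_le_pow_left₀ (by (clear * - a0 b0; positivity)) hδle 2
  have hKQ := KQ_pos k
  have hKQK : KQ k * 2 ≤ K := by
    refine _root_.le_trans ?_ hKK
    rw [KQ, KP, ← pow_succ]
    exact pow_le_pow_right₀ (by norm_num) (by omega)
  have hKQK' : KQ k ≤ K := by linarith only [hKQ, hKQK]
  set c : ℝ := 1 - ρ with hc
  set C : ℝ := 1 + ρ with hCdef
  have hc0 : 0 < c := h.c0
  have hcm : 0 < c ^ 2 ^ k := pow_pos hc0 _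
  have pZ0 : Prob Z0 := by rw [hZ0]; exact upT_prob h.hY h.pM h.pP _ _
  have pZ1 : Prob Z1 := by rw [hZ1]; exact upT_prob h.hY h.pM h.pP _ _
  obtain ⟨lo, hi, hi'⟩ := h.comp k M
  rw [← hZ0] at lo
  rw [← hZ0, ← hZ1] at hi hi'
  have hdiff := h.diff_dom_poly n1 hM ht
  rw [← hZ0, ← hZ1] at hdiff
  obtain ⟨d0, d1⟩ := h.pres_dom_poly n1 hM ht
  rw [← hZ0] at d0
  rw [← hZ1] at d1
  set C₁ := C1c k c C with hC₁
  have hC₁0 : 0 < C₁ := by linarith only [hC1]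
  have hC₁2 : C₁ ≤ 2 := by
    have h1 : C₁ ≤ C₁ ^ (2 * 2 ^ k') := le_self_pow₀ hC1 (by positivity)
    linarith only [hC2v, h1]
  have hdom : Dom (Z1 - Z0) Z0 (K * ((a * (b + a ^ 2)) ^ 2 + t)) := by
    have h1 := hdiff.base (mul_nonneg hKQ.le (by (clear * - ht0; positivity))) (le_inv_smul hcm lo)
    refine h1.mono pZ0.nonneg ?_
    calc KQ k * ((a * (b + a ^ 2)) ^ 2 + t) * (c ^ 2 ^ k)⁻¹
        ≤ KQ k * ((a * (b + a ^ 2)) ^ 2 + t) * 2 :=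
          mul_le_mul_of_nonneg_left (hci.trans hC₁2) (by (clear * - hKQ ht0; positivity))
      _ = (KQ k * 2) * ((a * (b + a ^ 2)) ^ 2 + t) := by ring
      _ ≤ _ := mul_le_mul_of_nonneg_right hKQK (by (clear * - ht0; positivity))
  have eS : M + 2 ^ k + M = 2 * M + 2 ^ k := by ring
  have hpowle : ∀ n : ℕ, (1 + KQ k * ((b + a ^ 2) ^ 2 + t)) ^ n
      ≤ (1 + K * ((b + a ^ 2) ^ 2 + t)) ^ n := by
    intro n
    have h2 : KQ k * ((b + a ^ 2) ^ 2 + t) ≤ K * ((b + a ^ 2) ^ 2 + t) :=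
      mul_le_mul_of_nonneg_right hKQK' hE
    exact pow_le_pow_left₀ (by have := mul_nonneg hKQ.le hE; linarith only [this]) (by linarith only [h2]) n
  have hlevK : ∀ L : List Bool, l1 (wd Z0 Z1 L - Y ^ ((2 * M + 2 ^ k) * L.length))
        ≤ Real.sqrt ((1 + K * ((b + a ^ 2) ^ 2 + t)) ^ L.length - 1) := by
    intro L
    have h1 := (pres_word (prob_pow h.hY _) (mul_nonneg hKQ.le hE) pZ0 pZ1 d0 d1 L).2
    rw [← pow_mul, eS] at h1
    refine h1.trans (Real.sqrt_le_sqrt ?_)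
    linarith only [hpowle L.length, hpowle]
  have hu0 : 0 ≤ (2 : ℝ) ^ (k + 2) * ρ := by (clear * - hρ; positivity)
  have hu1 : 0 ≤ (2 : ℝ) ^ (k + k' + 4) * ρ := by (clear * - hρ; positivity)
  refine ⟨pZ0, pZ1, le_one_sub pZ0.nonneg hC₁0 hu0 hC1u hi',
    le_smul_mono pZ0.nonneg hC1u hi, hdom, hlevK, ?_⟩
  intro t' τ M' M0' n0 R hM' ht' hR hRM hn hτ W0 W1 hW0 hW1
  have ht'0 := tiny_nonneg ht'
  have hτ2 : 4 * Real.sqrt ((1 + KQ k * ((b + a ^ 2) ^ 2 + t)) ^ (n0 + 2 ^ k') - 1)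
      + 2 * R * l1 ((1 - Y) * Y ^ ((M + 2 ^ k + M) * n0)) ≤ τ := by
    rw [eS]
    refine _root_.le_trans (add_le_add ?_ _root_.le_rfl) hτ
    refine mul_le_mul_of_nonneg_left (Real.sqrt_le_sqrt ?_) (by norm_num)
    linarith only [hpowle (n0 + 2 ^ k'), hpowle]
  have w := h.toWL_poly hM ht k' n1 n2 n4 n5 (M' := M') hR hRM hn hτ2
  rw [← hZ0, ← hZ1] at w
  have hω : (1 + KQ k * ((b + a ^ 2) ^ 2 + t)) ^ 2 ^ k' ≤ 2 := by
    have hkc : ((2 ^ k' : ℕ) : ℝ) = 2 ^ k' := by push_cast; rfl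
    have h1 := one_add_pow_le (n := 2 ^ k') (mul_nonneg hKQ.le hE) (by rw [hkc]; exact n3)
    rw [hkc] at h1
    linarith only [n3, h1]
  set B₁ := KB (c ^ 2 ^ k) C₁ (2 ^ k') with hB₁
  have hB1 : 1 ≤ B₁ := w.KB_one_le
  have hB2 : B₁ ≤ 2 := by
    have hcip : 0 ≤ (c ^ 2 ^ k)⁻¹ := inv_nonneg.mpr hcm.le
    have h1 : B₁ ≤ C₁ ^ (2 ^ k' + 2) * C₁ ^ 2 ^ k' := by
      rw [hB₁, KB]
      exact mul_le_mul_of_nonneg_right (pow_le_pow_left₀ hcip hci _) (by (clear * - hC1; positivity))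
    have h2 : C₁ ^ (2 ^ k' + 2) * C₁ ^ 2 ^ k' ≤ C₁ ^ (2 * 2 ^ k') * C₁ ^ (2 * 2 ^ k') := by
      rw [← pow_add, ← pow_add]
      refine pow_le_pow_right₀ hC1 ?_
      have : 1 ≤ 2 ^ k' := Nat.one_le_two_pow
      (clear * - this; omega)
    have h3 : C₁ ^ (2 * 2 ^ k') * C₁ ^ (2 * 2 ^ k') ≤ 7 / 5 * (7 / 5) :=
      mul_le_mul hC2v hC2v (by (clear * - hC1; positivity)) (by norm_num)
    linarith only [h1, h2, h3]
  have hτ0 := w.τ0
  have hR0 := w.R0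
  set δ := a * (b + a ^ 2) with hδ
  have hKp := Kp_pos k
  have h0 := nonneg_pow pZ0.nonneg
  -- letters of the upper level
  have hZ0lo : le (C₁⁻¹ • Z0) Z0 := le_of_smul_le pZ0.nonneg zero_lt_one hC1 (by
    rw [one_smul]; exact le_refl _)
  have hZ1lo : le (C₁⁻¹ • Z0) Z1 := le_of_smul_le pZ0.nonneg hC₁0 _root_.le_rfl hi'
  have hZ0hi : le Z0 (C₁ • Z0) := le_smul_mono pZ0.nonneg hC1 (by rw [one_smul]; exact le_refl _)
  have hCi : 0 ≤ C₁⁻¹ := inv_nonneg.mpr hC₁0.le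
  have Wlo : ∀ l : List Bool, l.length = 2 ^ k' →
      le (Z0 ^ (M' + 2 ^ k' + M')) (C₁ ^ 2 ^ k' • upT Z0 Z0 Z1 l M') := by
    intro l hl
    have h1 := upT_lo hCi pZ0.nonneg hZ0lo hZ1lo l M'
    rw [hl, inv_pow] at h1
    have h2 := le_inv_smul (inv_pos.mpr (pow_pos hC₁0 (2 ^ k'))) h1
    rwa [inv_inv] at h2
  have Whi : ∀ l : List Bool, l.length = 2 ^ k' →
      le (upT Z0 Z0 Z1 l M') (C₁ ^ 2 ^ k' • Z0 ^ (M' + 2 ^ k' + M')) := by
    intro l hl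
    have h1 := upT_hi pZ0.nonneg pZ0 pZ1 hZ0hi hi l M'
    rwa [hl] at h1
  have hCp : 0 ≤ C₁ ^ 2 ^ k' := by positivity
  have eC : C₁ ^ 2 ^ k' * C₁ ^ 2 ^ k' = C₁ ^ (2 * 2 ^ k') := by rw [two_mul, pow_add]
  have hCp2 : C₁ ^ 2 ^ k' ≤ 2 := by
    have h1 : C₁ ^ 2 ^ k' ≤ C₁ ^ (2 * 2 ^ k') := pow_le_pow_right₀ hC1 (by omega)
    linarith only [hC2v, h1]
  have h01 : le W0 (C₁ ^ (2 * 2 ^ k') • W1) := by
    rw [← eC, hW0, hW1]
    exact le_smul_trans hCp (Whi _ (tmb_length k')) (Wlo _ (tmc_length k'))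
  have h10 : le W1 (C₁ ^ (2 * 2 ^ k') • W0) := by
    rw [← eC, hW0, hW1]
    exact le_smul_trans hCp (Whi _ (tmc_length k')) (Wlo _ (tmb_length k'))
  have pW0 : Prob W0 := by rw [hW0]; exact upT_prob pZ0 pZ0 pZ1 _ _
  have pW1 : Prob W1 := by rw [hW1]; exact upT_prob pZ0 pZ0 pZ1 _ _
  have hm' : ((2 ^ k' : ℕ) : ℝ) = 2 ^ k' := by push_cast; rfl
  have eS' : M' + 2 ^ k' + M' = 2 * M' + 2 ^ k' := by ring
  obtain ⟨g1, g2, g3, g4, g5⟩ := coeff_bounds k k' hCp2 (by linarith only [hB1] : 0 ≤ B₁) hB2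
  replace g1 := g1.trans hKK
  replace g2 := g2.trans hKK
  replace g3 := g3.trans hKK
  replace g4 := g4.trans hKK
  replace g5 := g5.trans hKK
  -- difference
  have hWdiff : W1 - W0 = Z0 ^ M' * lam Z0 (Z1 - Z0) k' * Z0 ^ M'
      + (Z0 ^ M' * rmd Z0 Z1 (tmc k') * Z0 ^ M' - Z0 ^ M' * rmd Z0 Z1 (tmb k') * Z0 ^ M') := by
    have e1 : ∀ l : List Bool, l.length = 2 ^ k' → wd Z0 Z1 l
        = Z0 ^ 2 ^ k' + lin Z0 (Z1 - Z0) l + rmd Z0 Z1 l := by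
      intro l hl
      rw [rmd, hl]; abel
    rw [lam, ← lin_tm, hW0, hW1, upT, upT, e1 _ (tmc_length k'), e1 _ (tmb_length k')]
    noncomm_ring
  have hlin : Dom (Z0 ^ M' * lam Z0 (Z1 - Z0) k' * Z0 ^ M') (Z0 ^ (M' + 2 ^ k' + M'))
      (2 ^ k' * t') := by
    have hA : K * (δ ^ 2 + t) ≤ 1 :=
      (mul_le_mul_of_nonneg_left (by linarith only [hδη]) hK0).trans n6
    have h1 := dom_lam pZ0 (hdom.mono pZ0.nonneg hA) zero_le_one (M0 := M0') _root_.le_rfl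
      k' M' hM'
    refine h1.mono (h0 _) ?_
    rw [mul_one, mul_comm]
    exact mul_le_mul_of_nonneg_left ht' (by positivity)
  set β2 := B₁ * 2 * (8 * (τ + 1 / R) * (2 * (Kp k * δ)) ^ 4 + 24 * (4 * 2 ^ k * t))
    with hβ2
  have hβ20 : 0 ≤ β2 := by (clear * - hB1 hτ0 hR ht0; positivity)
  have hrm : ∀ l : List Bool, l.length = 2 ^ k' →
      Dom (Z0 ^ M' * rmd Z0 Z1 l * Z0 ^ M') (Z0 ^ (M' + 2 ^ k' + M'))
        (((2 : ℝ) ^ k') ^ 4 * β2) := by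
    intro l hl
    have h1 := w.rmd_gain_two hω (Real.sqrt_nonneg β2) (by rw [Real.sq_sqrt hβ20]) M' hn l
      (by rw [hl])
    rw [hl] at h1
    refine h1.mono (h0 _) (_root_.le_of_eq ?_)
    rw [hm', mul_pow, mul_pow, Real.sq_sqrt hβ20]
    ring
  have hWd : Dom (W1 - W0) W0 (K * ((δ ^ 2) ^ 2 * (τ + 1 / R) + t + t')) := by
    rw [hWdiff]
    have h1 := hlin.add2 ((hrm _ (tmc_length k')).sub2 (hrm _ (tmb_length k')))
    have h2 := h1.base (p' := W0) (K := C₁ ^ 2 ^ k') (by (clear * - ht'0 hB1 hτ0 hR ht0; positivity)) (by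
      rw [hW0]; exact Wlo _ (tmb_length k'))
    refine h2.mono pW0.nonneg ?_
    set m' : ℝ := 2 ^ k' with hm'def
    have e2 : (2 * (m' * t') + 2 * (2 * (m' ^ 4 * β2) + 2 * (m' ^ 4 * β2))) * C₁ ^ 2 ^ k'
        = C₁ ^ 2 ^ k' * (2 * m') * t'
          + C₁ ^ 2 ^ k' * (8 * m' ^ 4 * B₁ * 2 * (128 * Kp k ^ 4)) * ((δ ^ 2) ^ 2 * (τ + 1 / R))
          + C₁ ^ 2 ^ k' * (8 * m' ^ 4 * B₁ * 2 * (96 * 2 ^ k)) * t := by
      rw [hβ2]; ring
    rw [e2]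
    have hX : 0 ≤ (δ ^ 2) ^ 2 * (τ + 1 / R) := by (clear * - hτ0 hR; positivity)
    have f1 := mul_le_mul_of_nonneg_right g1 ht'0
    have f2 := mul_le_mul_of_nonneg_right g2 hX
    have f3 := mul_le_mul_of_nonneg_right g3 ht0
    have e4 : K * ((δ ^ 2) ^ 2 * (τ + 1 / R) + t + t')
        = K * t' + K * ((δ ^ 2) ^ 2 * (τ + 1 / R)) + K * t := by ring
    rw [e4]
    exact add_le_add (add_le_add f1 f2) f3
  -- presence
  set β1 := B₁ * (8 * (τ + 1 / R) * (2 * (Kp k * δ)) ^ 2 + 2 * (4 * 2 ^ k * t)) with hβ1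
  have hβ10 : 0 ≤ β1 := by (clear * - hB1 hτ0 hR ht0; positivity)
  have hpr : ∀ l : List Bool, l.length = 2 ^ k' →
      Dom (upT Z0 Z0 Z1 l M' - Z0 ^ (M' + 2 ^ k' + M')) (Z0 ^ (M' + 2 ^ k' + M'))
        (K * (δ ^ 2 * (τ + 1 / R) + t + t')) := by
    intro l hl
    have h1 := w.pres_gain (Real.sqrt_nonneg β1) (by rw [Real.sq_sqrt hβ10]) M' hn l
      (by rw [hl])
    rw [hl] at h1
    have e5 : Z0 ^ M' * (wd Z0 Z1 l - Z0 ^ 2 ^ k') * Z0 ^ M'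
        = upT Z0 Z0 Z1 l M' - Z0 ^ (M' + 2 ^ k' + M') := by
      rw [mul_sub, sub_mul, ← pow_add, ← pow_add, upT]
    rw [e5] at h1
    refine h1.mono (h0 _) ?_
    rw [hm', mul_pow, Real.sq_sqrt hβ10, hβ1]
    set m' : ℝ := 2 ^ k' with hm'def
    have e6 : m' ^ 2 * (B₁ * (8 * (τ + 1 / R) * (2 * (Kp k * δ)) ^ 2 + 2 * (4 * 2 ^ k * t)))
        = m' ^ 2 * B₁ * (32 * Kp k ^ 2) * (δ ^ 2 * (τ + 1 / R)) + m' ^ 2 * B₁ * (8 * 2 ^ k) * t := by
      ring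
    rw [e6]
    have hX : 0 ≤ δ ^ 2 * (τ + 1 / R) := by (clear * - hτ0 hR; positivity)
    have f2 := mul_le_mul_of_nonneg_right g4 hX
    have f3 := mul_le_mul_of_nonneg_right g5 ht0
    have f4 := mul_nonneg hK0 ht'0
    have e4 : K * (δ ^ 2 * (τ + 1 / R) + t + t')
        = K * (δ ^ 2 * (τ + 1 / R)) + K * t + K * t' := by ring
    rw [e4]
    linarith only [f2, f3, f4]
  refine ⟨pW0, pW1, le_one_sub pW0.nonneg (by positivity) hu1 hC2u h01,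
    le_smul_mono pW0.nonneg hC2u h10, hWd, ?_⟩
  intro L
  have q0 := hpr _ (tmb_length k')
  have q1 := hpr _ (tmc_length k')
  rw [← hW0] at q0
  rw [← hW1] at q1
  have h1 := (pres_word (prob_pow pZ0 _) (by (clear * - hK0 hτ0 hR ht0 ht'0; positivity)) pW0 pW1 q0 q1 L).2
  rw [← pow_mul, eS'] at h1
  exact h1

/-- The double step with constant `2 ^ (A * (k + k' + 1))`. -/
theorem smallDS {A : ℕ} (hA : 24 ≤ A) : SmallDS A := by
  intro k k' Y e f a b t ρ M M0 hρ hρ1 h hM ht hK Z0 Z1 hZ0 hZ1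
  have hKK : KP k k' ≤ (2 : ℝ) ^ (A * (k + k' + 1)) := by
    rw [KP]
    refine pow_le_pow_right₀ (by norm_num) ?_
    nlinarith only [hA]
  obtain ⟨h1, h2, h3, h4, h5, h6, h7⟩ :=
    double_step_small k k' hKK hρ hρ1 h hM ht hK Z0 Z1 hZ0 hZ1
  refine ⟨h1, h2, h3, h4, h5, h6, ?_⟩
  intro t' τ M' M0' n0 R hM' ht' _ hR hRM hn hτ _ W0 W1 hW0 hW1
  exact h7 hM' ht' hR hRM hn hτ W0 W1 hW0 hW1

end Vale.Agent.P321.MA
end

section

/-!
The double step theorem for the recursion predicate.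
-/

namespace Vale.Agent.P321.MA

open Filter Topology

/-- error bookkeeping -/
theorem ev_err (β γ : ℝ) (hβ : 0 < β) (hγ : 1 < γ) : ∀ᶠ t : ℝ in atTop,
    ∀ S S' : ℕ, (S : ℝ) ≤ 3 * t ^ (γ - 1) → (S' : ℝ) ≤ 3 * (t ^ γ) ^ (γ - 1) →
      (S' : ℝ) * (S * Real.exp (-t ^ β)) ≤ Real.exp (-((t ^ γ) ^ γ) ^ (β / (2 * (γ * γ)))) := by
  have hγ0 : 0 < γ := by linarith only [hγ]
  have h1 : Tendsto (fun t : ℝ => t ^ (((γ - 1) + γ * (γ - 1)) / β) * Real.exp (-(1 / 2) * t))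
      atTop (𝓝 0) := tendsto_rpow_mul_exp_neg_mul_atTop_nhds_zero _ (1 / 2) (by norm_num)
  have h2 := (h1.comp (tendsto_rpow_atTop hβ)).eventually
    (gt_mem_nhds (show (0 : ℝ) < 1 / 9 by norm_num))
  have hb : 0 < β / 2 := by positivity
  filter_upwards [h2, ev_pow_le 2 (β / 2) β (by linarith only [hβ]), eventually_ge_atTop 1]
    with t h3 h4 ht S S' hS hS'
  have ht0 : 0 < t := by linarith only [ht]
  simp only [Function.comp] at h3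
  rw [← Real.rpow_mul ht0.le, mul_div_cancel₀ _ hβ.ne'] at h3
  have e1 : ((t ^ γ) ^ γ) ^ (β / (2 * (γ * γ))) = t ^ (β / 2) := by
    rw [← Real.rpow_mul ht0.le, ← Real.rpow_mul ht0.le]
    congr 1
    field_simp
  rw [e1]
  have e2 : (t ^ γ) ^ (γ - 1) = t ^ (γ * (γ - 1)) := by rw [← Real.rpow_mul ht0.le]
  rw [e2] at hS'
  have h5 : (S' : ℝ) * (S * Real.exp (-t ^ β)) ≤
      (3 * t ^ (γ * (γ - 1))) * ((3 * t ^ (γ - 1)) * Real.exp (-t ^ β)) :=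
    mul_le_mul hS' (mul_le_mul_of_nonneg_right hS (Real.exp_pos _).le) (by (clear * -; positivity))
      (by positivity)
  refine h5.trans ?_
  have e3 : (3 * t ^ (γ * (γ - 1))) * ((3 * t ^ (γ - 1)) * Real.exp (-t ^ β))
      = 9 * (t ^ ((γ - 1) + γ * (γ - 1)) * Real.exp (-(1 / 2) * t ^ β))
        * Real.exp (-(1 / 2) * t ^ β) := by
    have e4 : Real.exp (-t ^ β) = Real.exp (-(1 / 2) * t ^ β) * Real.exp (-(1 / 2) * t ^ β) := by
      rw [← Real.exp_add]; congr 1; ring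
    rw [e4, Real.rpow_add ht0]
    ring
  rw [e3]
  have h6 : 9 * (t ^ ((γ - 1) + γ * (γ - 1)) * Real.exp (-(1 / 2) * t ^ β)) ≤ 1 := by linarith only [h3]
  refine (mul_le_of_le_one_left (Real.exp_pos _).le h6).trans ?_
  exact Real.exp_le_exp.mpr (by linarith only [h4])

theorem TLev.step {q ε α α' h a₁ : ℝ} (hq0 : 0 ≤ q)
    (hq1 : q ≤ 1) (hε : 0 < ε) (hε1 : ε ≤ 1 / 8)
    (hα : h ≤ 2 * α) (hα' : h ≤ α') (hh2 : (2 + 4 * ε) * (1 + ε) < 2 * h)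
    (hd : (2 + 4 * ε) * (2 + 4 * ε) * (1 + ε) < 2 * (α + h) + 1 / 4 - ε) (ha₁ : 0 ≤ a₁)
    (ha : (2 + 4 * ε) * (2 + 4 * ε) * a₁ ≤ 4 * (α + h) + 1 / 4 - 2 * ε)
    (hL : TLev q ε α α') : Lev q ε a₁ := by
  obtain ⟨β, B, hβ, hB, hev⟩ := hL
  have hγ : (2 + 4 * ε) = 2 + 4 * ε := rfl
  revert hγ
  generalize hγd : (2 + 4 * ε) = γ at *
  intro _
  have hγ0 : 0 < γ := by rw [← hγd]; positivity
  have hγ1 : 1 < γ := by rw [← hγd]; linarith only [hε]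
  have hh1 : 1 < h := by rw [← hγd] at hh2; linarith only [mul_pos (sub_pos.2 hε) (sub_pos.2 hε), hh2, hε]
  obtain ⟨H, hH⟩ : ∃ H, H = 4 * (α + h) + 1 := ⟨_, rfl⟩
  obtain ⟨k, hk⟩ := exists_nat_gt (H / ε)
  have hk' : H < ε * k := by
    rw [div_lt_iff₀ hε] at hk; linarith only [hk]
  have hB' : 0 < B⁻¹ := by positivity
  obtain ⟨K2, hK2, hDS2⟩ := double_step (G := FreeMonoid Bool) k k B⁻¹ B hB'
    (inv_le_one_of_one_le₀ hB) hB
  refine ⟨β / (2 * (γ * γ)), K2, by positivity, hK2, ?_⟩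
  -- reduction to the scale of `t`
  suffices hmain : ∀ᶠ t : ℝ in atTop,
      ∃ (u v : List Bool) (Y0 Y1 : MonoidAlgebra ℝ (FreeMonoid Bool)) (K : ℕ),
        LevelAt q ε (β / (2 * (γ * γ))) K2 a₁ ((t ^ γ) ^ γ) u v Y0 Y1 K by
    have t1 : Tendsto (fun x : ℝ => (x ^ (1 / γ)) ^ (1 / γ)) atTop atTop :=
      (tendsto_rpow_atTop (by positivity)).comp (tendsto_rpow_atTop (by positivity))
    filter_upwards [t1.eventually hmain, eventually_gt_atTop 0] with x hx hx0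
    have e1 : (((x ^ (1 / γ)) ^ (1 / γ)) ^ γ) ^ γ = x := by
      rw [← Real.rpow_mul (by (clear * - hx0; positivity)) (1 / γ) γ, one_div, inv_mul_cancel₀ hγ0.ne',
        Real.rpow_one, ← Real.rpow_mul hx0.le, inv_mul_cancel₀ hγ0.ne', Real.rpow_one]
    rwa [e1] at hx
  have tz : Tendsto (fun t : ℝ => t ^ γ) atTop atTop := tendsto_rpow_atTop hγ0
  have hpe : 0 < 1 + ε + 2 * ε + ε / 2 := by positivity
  have nA := ev_numA K2 ε h hε hε1 hh1 (by rw [hγd]; exact hh2) k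
  have nB := ev_numB K2 ε α h H hK2 hε hh1 hα (by rw [hγd]; exact hd) hH.symm.le
  have sl1 := ev_slip_step (G := FreeMonoid Bool) ε hε
  rw [hγd] at nA nB sl1
  filter_upwards [hev, eventually_ge_atTop 1,
    ev_len1 γ hγ1 k, tz.eventually (ev_len2 γ hγ1 k),
    ev_margin (1 + ε + 2 * ε + ε / 2) γ hpe (by rw [← hγd]; linarith only [hε]) k,
    tz.eventually (ev_margin (1 + ε + 2 * ε + ε / 2) γ hpe (by rw [← hγd]; linarith only [hε]) k),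
    ev_tiny ε H k hk',
    ev_smooth (G := FreeMonoid Bool) (1 + ε) ε (ε / 2) hε (by linarith only [hε]),
    tz.eventually (ev_smooth (G := FreeMonoid Bool) (1 + ε) ε (ε / 2) hε (by linarith only [hε])),
    ev_smooth (G := FreeMonoid Bool) (1 + ε) (1 / 2) ε (by norm_num) hε,
    sl1,
    tz.eventually sl1,
    nA,
    nB,
    ev_pow_le 3 (1 + ε + 2 * (1 / 2) + ε) γ (by rw [← hγd]; linarith only [hε]),
    ev_pow_le 12 (1 / 4) (γ - 1) (by rw [← hγd]; linarith only [hε]),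
    ev_pow_le 12 1 (γ * (γ - 1)) (by rw [← hγd]; linarith only [mul_pos (sub_pos.2 hε) (sub_pos.2 hε), hε]),
    ev_err β γ hβ hγ1]
    with t hT ht n1 n2 m1 m2 tiny sm smz sm2 sl slz numA numB f1 f2 f3 herr
  obtain ⟨u, v0, v1, Y, e, f, K, D⟩ := hT
  have ht0 : 0 < t := by linarith only [ht]
  have pos : ∀ y : ℝ, 0 < t ^ y := fun y => Real.rpow_pos_of_pos ht0 y
  obtain ⟨M, hM⟩ : ∃ M : ℕ, M = ⌈t ^ γ / (u.length : ℝ)⌉₊ := ⟨_, rfl⟩
  obtain ⟨M1, S1, S2, N1, N2⟩ := n1 u.length M D.lo D.hi hM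
  obtain ⟨S, hS⟩ : ∃ S : ℕ, S = 2 * M + 2 ^ k := ⟨_, rfl⟩
  rw [← hS] at S1 S2 N1 N2
  -- tiny
  obtain ⟨M0, hM0⟩ : ∃ M0 : ℕ, M0 = ⌈t ^ (1 + ε + 2 * ε + ε / 2)⌉₊ := ⟨_, rfl⟩
  have kM : k * M0 ≤ M := by rw [hM0]; exact m1 M M1
  have φ1 := sm Y K D.trip.hY D.slip D.slipK M0 (by rw [hM0]; exact Nat.le_ceil _)
  have T1 := tiny _ (l1_nonneg _) φ1
  obtain ⟨a, ha'⟩ : ∃ a, a = t ^ (-α) := ⟨_, rfl⟩
  obtain ⟨b, hb'⟩ : ∃ b, b = t ^ (-α') := ⟨_, rfl⟩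
  obtain ⟨T, hTd⟩ : ∃ T, T = t ^ (-H) := ⟨_, rfl⟩
  obtain ⟨E, hE⟩ : ∃ E, E = K2 * ((b + a ^ 2) ^ 2 + T) := ⟨_, rfl⟩
  obtain ⟨Dd, hDd⟩ : ∃ Dd, Dd = (a * (b + a ^ 2)) ^ 2 := ⟨_, rfl⟩
  obtain ⟨E0, E1, D0, D1, D2⟩ := num_pt K2 α α' h H t hK2 hα hα' hh1 hH.symm.le ht a b T E ha'
    hb' hTd hE
  rw [← hDd] at D0 D1 D2
  obtain ⟨E2, g1, τ1, τ2⟩ := numA E E0 E1
  obtain ⟨F1, W1'⟩ := numB Dd T D0 D1 D2 hTd
  have hTrip := D.trip
  rw [← ha', ← hb'] at hTrip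
  rw [← hTd] at T1
  obtain ⟨Z0, hZ0⟩ : ∃ Z0, Z0 = upT Y (Y + e - f) (Y + e + f) (tmb k) M := ⟨_, rfl⟩
  obtain ⟨Z1, hZ1⟩ : ∃ Z1, Z1 = upT Y (Y + e - f) (Y + e + f) (tmc k) M := ⟨_, rfl⟩
  obtain ⟨pZ0, pZ1, -, -, -, presZ, up⟩ := hDS2 hTrip kM T1 (by rw [← hE]; exact E2) Z0 Z1 hZ0 hZ1
  rw [← hS] at presZ up
  rw [← hE] at presZ up
  rw [← hDd] at up
  -- slip of Z0
  obtain ⟨Kz, slipZ, Kz1⟩ := sl Y Z0 K S D.trip.hY D.slip D.slipK S1 S2 (fun g hg => by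
    have h1 := presZ (List.replicate g false)
    rw [wd_replicate, List.length_replicate] at h1
    exact l1_lt_quarter E0 (g1 g hg) h1)
  -- the second level
  have ez : t ≤ t ^ γ := by
    nth_rw 1 [← Real.rpow_one t]
    exact Real.rpow_le_rpow_of_exponent_le ht hγ1.le
  have hz0 : 0 < t ^ γ := pos _
  obtain ⟨N, hN⟩ : ∃ N : ℕ, N = S * u.length := ⟨_, rfl⟩
  rw [← hN] at N1 N2
  obtain ⟨M', hM'⟩ : ∃ M' : ℕ, M' = ⌈(t ^ γ) ^ γ / (2 * (N : ℝ))⌉₊ := ⟨_, rfl⟩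
  obtain ⟨M1', S1', S2', N1', N2'⟩ := n2 N M' N1 N2 hM'
  obtain ⟨S', hS'⟩ : ∃ S' : ℕ, S' = 2 * M' + 2 ^ k := ⟨_, rfl⟩
  rw [← hS'] at S1' S2' N1' N2'
  obtain ⟨M0', hM0'⟩ : ∃ M0' : ℕ, M0' = ⌈(t ^ γ) ^ (1 + ε + 2 * ε + ε / 2)⌉₊ := ⟨_, rfl⟩
  have kM' : k * M0' ≤ M' := by rw [hM0']; exact m2 M' M1'
  have φ2 := smz Z0 Kz pZ0 slipZ Kz1 M0' (by rw [hM0']; exact Nat.le_ceil _)
  have φ2' : l1 ((1 - Z0) * Z0 ^ M0') ≤ 8 * t ^ (-ε) := by
    refine φ2.trans ?_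
    have : (t ^ γ) ^ (-ε) ≤ t ^ (-ε) := Real.rpow_le_rpow_of_nonpos ht0 ez (by linarith only [hε])
    linarith only [this]
  have T2 := tiny _ (l1_nonneg _) φ2'
  rw [← hTd] at T2
  obtain ⟨R1, R2, -, -⟩ := num_R ε t hε ht
  obtain ⟨R, hR⟩ : ∃ R : ℕ, R = ⌊t ^ (1 / 4 : ℝ)⌋₊ := ⟨_, rfl⟩
  rw [← hR] at R1 R2 τ2 F1 W1'
  have RM : R ≤ M := by
    have : (R : ℝ) ≤ M := by linarith only [R2, M1, f2, pos (γ - 1)]
    exact_mod_cast this
  obtain ⟨n0, hn0⟩ : ∃ n0 : ℕ, n0 = ⌈t⌉₊ := ⟨_, rfl⟩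
  rw [← hn0] at τ1
  have n0a : t ≤ n0 := by rw [hn0]; exact Nat.le_ceil _
  have n0M : n0 ≤ M' := by
    have h1 : (n0 : ℝ) ≤ t + 1 := by rw [hn0]; exact (Nat.ceil_lt_add_one ht0.le).le
    have h2 : (t ^ γ) ^ (γ - 1) = t ^ (γ * (γ - 1)) := by rw [← Real.rpow_mul ht0.le]
    rw [h2] at M1'
    rw [Real.rpow_one] at f3
    have : (n0 : ℝ) ≤ M' := by linarith only [ht, f3, M1', h1]
    exact_mod_cast this
  have ψ := sm2 Y K D.trip.hY D.slip D.slipK (S * n0) (by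
    have h1 : t ^ (γ - 1) / 3 * t ≤ S * n0 := mul_le_mul S1 n0a ht0.le (by (clear * -; positivity))
    have h2 : t ^ γ = t ^ (γ - 1) * t := by
      nth_rw 3 [← Real.rpow_one t]
      rw [← Real.rpow_add ht0]; congr 1; ring
    push_cast
    linarith only [h2, h1, f1])
  have hτ := add_le_add τ1 (τ2 _ ψ)
  rw [add_halves] at hτ
  obtain ⟨W0, hW0⟩ : ∃ W0, W0 = upT Z0 Z0 Z1 (tmb k) M' := ⟨_, rfl⟩
  obtain ⟨W1, hW1⟩ : ∃ W1, W1 = upT Z0 Z0 Z1 (tmc k) M' := ⟨_, rfl⟩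
  obtain ⟨pW0, pW1, loW, hiW, domW, presW⟩ := up kM' T2 R1 RM n0M hτ W0 W1 hW0 hW1
  rw [← hS'] at presW
  obtain ⟨F, hF⟩ : ∃ F, F = K2 * (Dd * (t ^ (-(1 / 4 : ℝ) + ε) + 1 / (R : ℝ)) + T + T) :=
    ⟨_, rfl⟩
  obtain ⟨F0, F2⟩ := F1 F hF
  rw [← hF] at presW
  -- slip of W0
  obtain ⟨Kw, slipW, Kw1⟩ := slz Z0 W0 Kz S' pZ0 slipZ Kz1 S1' S2' (fun g hg => by
    have h1 := presW (List.replicate g false)
    rw [wd_replicate, List.length_replicate] at h1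
    rw [← Real.rpow_mul ht0.le, ← mul_assoc] at hg
    exact l1_lt_quarter F0 (F2 g hg) h1)
  -- errors
  have hWu := W_l1_le hq0 hq1
  have z0c := upT_close (hWu u) (hWu v0) (hWu v1) (prob_l1_le D.trip.hY) (prob_l1_le D.trip.pM)
    (prob_l1_le D.trip.pP) D.errY D.err0 D.err1 (tmb k) M
  have z1c := upT_close (hWu u) (hWu v0) (hWu v1) (prob_l1_le D.trip.hY) (prob_l1_le D.trip.pM)
    (prob_l1_le D.trip.pP) D.errY D.err0 D.err1 (tmc k) M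
  rw [← upw_W, tmb_length, ← hS] at z0c
  rw [← upw_W, tmc_length, ← hS] at z1c
  obtain ⟨z0, hz0⟩ : ∃ z0, z0 = upw u v0 v1 (tmb k) M := ⟨_, rfl⟩
  obtain ⟨z1, hz1⟩ : ∃ z1, z1 = upw u v0 v1 (tmc k) M := ⟨_, rfl⟩
  have zne : z0 ≠ z1 := by rw [hz0, hz1]; exact upw_ne D.len0 D.len1 D.ne k M
  have zl0 : z0.length = N := by
    rw [hz0, upw_length D.len0 D.len1, tmb_length, ← hS, hN]
  have zl1 : z1.length = N := by
    rw [hz1, upw_length D.len0 D.len1, tmc_length, ← hS, hN]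
  have z0c' : l1 (W q z0 - Z0) ≤ S * Real.exp (-t ^ β) := by rw [hz0, hZ0]; exact z0c
  have z1c' : l1 (W q z1 - Z1) ≤ S * Real.exp (-t ^ β) := by rw [hz1, hZ1]; exact z1c
  have w0c := upT_close (hWu z0) (hWu z0) (hWu z1) (prob_l1_le pZ0) (prob_l1_le pZ0)
    (prob_l1_le pZ1) z0c' z0c' z1c' (tmb k) M'
  have w1c := upT_close (hWu z0) (hWu z0) (hWu z1) (prob_l1_le pZ0) (prob_l1_le pZ0)
    (prob_l1_le pZ1) z0c' z0c' z1c' (tmc k) M'
  rw [← upw_W, tmb_length, ← hS'] at w0c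
  rw [← upw_W, tmc_length, ← hS'] at w1c
  obtain ⟨w0, hw0⟩ : ∃ w0, w0 = upw z0 z0 z1 (tmb k) M' := ⟨_, rfl⟩
  obtain ⟨w1, hw1⟩ : ∃ w1, w1 = upw z0 z0 z1 (tmc k) M' := ⟨_, rfl⟩
  have hl : z1.length = z0.length := zl1.trans zl0.symm
  have wne : w0 ≠ w1 := by rw [hw0, hw1]; exact upw_ne rfl hl zne k M'
  have wl0 : w0.length = S' * N := by
    rw [hw0, upw_length rfl hl, tmb_length, ← hS', zl0]
  have wl1 : w1.length = S' * N := by
    rw [hw1, upw_length rfl hl, tmc_length, ← hS', zl0]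
  have herr' := herr S S' S2 S2'
  refine ⟨w0, w1, W0, W1, Kw, wne, wl0.trans wl1.symm, ?_, ?_, ?_, ?_, ?_, slipW, Kw1⟩
  · rw [wl0]; exact N1'
  · rw [wl0]; exact N2'
  · rw [hw0, hW0]; exact w0c.trans herr'
  · rw [hw1, hW1]; exact w1c.trans herr'
  · have hx1 : 1 ≤ (t ^ γ) ^ γ := Real.one_le_rpow (Real.one_le_rpow ht hγ0.le) hγ0.le
    refine ⟨pW0, pW1, ?_, by positivity,
      Real.rpow_le_one_of_one_le_of_nonpos hx1 (by linarith only [ha₁]), by positivity,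
      inv_le_one_of_one_le₀ hK2, hK2, loW, hiW⟩
    refine domW.mono pW0.nonneg (W1'.trans ?_)
    rw [← Real.rpow_mul ht0.le, ← Real.rpow_mul ht0.le]
    exact Real.rpow_le_rpow_of_exponent_le ht (by linarith only [ha])

end Vale.Agent.P321.MA
end

section

/-!
Iteration of the double step and the assembly.
-/

namespace Vale.Agent.P321.MA

open Filter Topology
open scoped unitInterval

/-- a pair datum is a triple datum -/
theorem Lev.toTLev {q ε a : ℝ} (h : Lev q ε a) : TLev q ε (a / 2) (a / 2) := by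
  obtain ⟨β, B, hβ, hB, hev⟩ := h
  refine ⟨β, B, hβ, hB, ?_⟩
  filter_upwards [hev, eventually_gt_atTop 0] with x hx hx0
  obtain ⟨u, v, Y0, Y1, K, D⟩ := hx
  obtain ⟨tr, e0, e1⟩ := Trip.of_pair D.pair.p0 D.pair.p1 D.pair.dom D.pair.D0 D.pair.D1
    D.pair.c0 D.pair.c1 D.pair.C1 D.pair.lo D.pair.hi
  have hs : Real.sqrt (x ^ (-a)) = x ^ (-(a / 2)) := by
    rw [Real.sqrt_eq_rpow, ← Real.rpow_mul hx0.le]
    congr 1
    ring
  have hp : 0 < x ^ (-(a / 2)) := Real.rpow_pos_of_pos hx0 _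
  have hle : x ^ (-(a / 2)) ≤ 1 := by
    rw [← hs, ← Real.sqrt_one]
    exact Real.sqrt_le_sqrt D.pair.D1
  have hsq : (Real.sqrt (x ^ (-a)) / 2) ^ 2 ≤ (x ^ (-(a / 2))) ^ 2 := by
    rw [hs]
    exact pow_le_pow_left₀ (by positivity) (by linarith only [hp]) 2
  refine ⟨u, u, v, Y0, (1 / 2 : ℝ) • (Y1 - Y0), (1 / 2 : ℝ) • (Y1 - Y0), K, D.ne, rfl, D.len.symm,
    D.lo, D.hi, D.err0, ?_, ?_, ?_, D.slip, D.slipK⟩
  · rw [e0]; exact D.err0
  · rw [e1]; exact D.err1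
  · exact ⟨tr.hY, tr.e0, tr.f0, tr.hf.mono tr.hY.nonneg hsq, tr.he.mono tr.hY.nonneg hsq,
      hp.le, hle, hp.le, hle, tr.c0, tr.c1, tr.C1, tr.pM, tr.pP, tr.loM, tr.loP, tr.hiM, tr.hiP⟩

/-- one double step for pairs -/
theorem Lev.step {q ε a A' : ℝ} (hq0 : 0 ≤ q) (hq1 : q ≤ 1) (hε : 0 < ε) (hε1 : ε ≤ 1 / 1000)
    (hεA : ε * (A' + 1) ≤ 1 / 1000) (ha : 2 + 1 / 20 ≤ a) (haA : a ≤ A') (h : Lev q ε a) :
    Lev q ε (a + 1 / 20) := by
  refine TLev.step (h := a / 2) hq0 hq1 hε (by linarith only [hε, hε1]) (by linarith only [ha]) _root_.le_rfl ?_ ?_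
    (by linarith only [ha, hε1, hε]) ?_ h.toTLev
  · nlinarith only [hε, hε1, ha]
  · nlinarith only [hε, hε1, ha]
  · have h1 : ε * (a + 1 / 20) ≤ 1 / 1000 := by nlinarith only [hεA, hε, hε1, haA]
    nlinarith only [hε, ha, h1]

/-- the first double step -/
theorem TLev.first {q ε : ℝ} (hq0 : 0 ≤ q) (hq1 : q ≤ 1) (hε : 0 < ε) (hε1 : ε ≤ 1 / 1000)
    (h : TLev q ε (3 / 4 - ε) (5 / 4 - ε)) : Lev q ε (2 + 1 / 20) := by
  refine TLev.step (h := 5 / 4 - ε) hq0 hq1 hε (by linarith only [hε1, hε]) (by linarith [hε1]) _root_.le_rfl ?_ ?_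
    (by linarith only []) ?_ h
  · nlinarith only [hε, hε1]
  · nlinarith only [hε, hε1]
  · nlinarith only [mul_pos hε hε, hε, hε1]

theorem Lev.iter {q ε A' : ℝ} (hq0 : 0 ≤ q) (hq1 : q ≤ 1) (hε : 0 < ε) (hε1 : ε ≤ 1 / 1000)
    (hεA : ε * (A' + 1) ≤ 1 / 1000) (h : Lev q ε (2 + 1 / 20)) (j : ℕ)
    (hj : (2 : ℝ) + (j + 1) * (1 / 20) ≤ A' + 1 / 20) : Lev q ε (2 + (j + 1) * (1 / 20)) := by
  induction j with
  | zero => simpa using h
  | succ j ih =>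
    push_cast at hj ⊢
    have hj' : (2 : ℝ) + (j + 1) * (1 / 20) ≤ A' := by linarith only [hj]
    have h1 := ih (by linarith only [hj])
    have hj0 : (0 : ℝ) ≤ j := by positivity
    have h2 := h1.step hq0 hq1 hε hε1 hεA (by linarith only []) hj'
    have e : (2 : ℝ) + (j + 1) * (1 / 20) + 1 / 20 = 2 + (j + 1 + 1) * (1 / 20) := by ring
    rwa [e] at h2

/-- superpolynomial lower bound from the base triple -/
theorem superpoly_of_base (q : I)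
    (hbase : ∀ ε : ℝ, 0 < ε → ε ≤ 1 / 1000 → TLev q ε (3 / 4 - ε) (5 / 4 - ε)) (A : ℕ) :
    ∃ n0 : ℕ, ∀ n : ℕ, n0 ≤ n → ∀ m : ℕ,
      (∃ est : Estimator n, Reconstructs q n m est) → (n : ℝ) ^ A ≤ m := by
  set A' : ℝ := 2 * A + 3 with hA'
  set ε : ℝ := 1 / (1000 * (A' + 1)) with hεd
  have hA0 : (0 : ℝ) ≤ A := by (clear * -; positivity)
  have hA1 : 0 < A' + 1 := by positivity
  have hε : 0 < ε := by positivity
  have hεA : ε * (A' + 1) ≤ 1 / 1000 := by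
    rw [hεd]
    apply le_of_eq
    field_simp
  have hε1 : ε ≤ 1 / 1000 := by nlinarith
  have h0 := (hbase ε hε hε1).first q.2.1 q.2.2 hε hε1
  have h1 := h0.iter q.2.1 q.2.2 hε hε1 hεA (20 * (2 * A + 1)) (by
    push_cast
    rw [hA']
    ring_nf
    linarith only [])
  refine final q A ε _ ?_ h1
  push_cast
  linarith only [hε, hε1]

end Vale.Agent.P321.MA
end

section

/-!
Superpolynomial lower bound from the overlap of consecutive powers of the base cell.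
-/

namespace Vale.Agent.P321.Lt

open scoped unitInterval

theorem superpoly_of_overlap (q : I) (h0 : 0 < (q : ℝ)) (h1 : (q : ℝ) < 1)
    (hO : BaseOverlap q) (A : ℕ) :
    ∃ n0 : ℕ, ∀ n : ℕ, n0 ≤ n → ∀ m : ℕ,
      (∃ est : Estimator n, Reconstructs q n m est) → (n : ℝ) ^ A ≤ m :=
  MA.superpoly_of_base q
    (fun _ hε hε1 => base_TLev_of_overlap h0 h1 hO hε (by linarith)) A

end Vale.Agent.P321.Lt
end

section

/-!
Superpolynomial lower bound for worst-case trace reconstruction, every deletion probability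
`q ∈ (0, 1)`.
-/

namespace Vale.Agent.P321

open scoped unitInterval

theorem superpoly (q : I) (h0 : 0 < (q : ℝ)) (h1 : (q : ℝ) < 1) (A : ℕ) :
    ∃ n0 : ℕ, ∀ n : ℕ, n0 ≤ n → ∀ m : ℕ,
      (∃ est : Estimator n, Reconstructs q n m est) → (n : ℝ) ^ A ≤ m :=
  Lt.superpoly_of_overlap q h0 h1 (fun ε hε => Cr.base_overlap h0 h1 ε hε) A

end Vale.Agent.P321
end
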